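import Vale.Agent.P011.Arith.Schilling

/-!
# P022K, block F0: Hilbert symbols, embedded quadratic fields, approximation of norms
-/

set_option autoImplicit false

open NumberField IsDedekindDomain

noncomputable section

namespace Vale.Agent.P022K.Hilb

open Vale.Agent.P011.Arith Vale.Agent.P011.Arith.Sch

variable {F : Type} [Field F] [NumberField F]

/-- the local norms from `F(√a)` at `p` -/
abbrev LN (a : Fˣ) (p : Pl F) : Subgroup Fˣ := NF a ⊔ LSp p

/-- the places where the quaternion algebra `(a, b)` is not split -/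
def Ram (a b : Fˣ) : Set (Pl F) := {p | b ∉ LN a p}

omit [NumberField F] in
theorem real_iff {a b : Fˣ} {φ : F →+* ℝ} : b ∈ NF a ⊔ LSR φ ↔ 0 < φ a ∨ 0 < φ b := by
  constructor
  · intro h
    by_cases ha : 0 < φ a
    · exact Or.inl ha
    · have ha' : φ a < 0 := notMem_LSR.1 ha
      exact Or.inr ((sup_le (NF_le_LSR ha') le_rfl) h)
  · intro h
    by_cases hb : 0 < φ b
    · exact Subgroup.mem_sup_right hb
    · have hb' : φ b < 0 := notMem_LSR.1 hb
      have ha : 0 < φ a := h.resolve_right hb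
      have h1 : b / (-a) ∈ LSR φ := by
        rw [mem_LSR, Units.val_div_eq_div_val, map_div₀, Units.val_neg, map_neg]
        exact div_pos_of_neg_of_neg hb' (by linarith)
      have h2 : b = -a * (b / (-a)) := by rw [mul_div_cancel]
      rw [h2]
      exact Subgroup.mul_mem_sup (Sch.neg_mem_NF _) h1

theorem LN_top {a : Fˣ} {p : Pl F} (h : a ∈ LSp p) : LN a p = ⊤ := by
  rcases p with v | φ
  · exact NF_sup_of_mem' a h
  · exact eq_top_iff.2 fun b _ => real_iff.2 (Or.inl h)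

theorem mul_iff (a : Fˣ) (p : Pl F) (x y : Fˣ) :
    x * y ∈ LN a p ↔ (x ∈ LN a p ↔ y ∈ LN a p) := by
  by_cases h : a ∈ LSp p
  · simp [LN_top h]
  rcases p with v | φ
  · exact Subgroup.mul_mem_iff_of_index_two (local_index_two v a h)
  · have e : LN a (.inr φ) = LSR φ := sup_eq_right.2 (NF_le_LSR (notMem_LSR.1 h))
    rw [e]
    exact Subgroup.mul_mem_iff_of_index_two (index_LSR φ)

theorem symm' {a b : Fˣ} {p : Pl F} (h : b ∈ LN a p) : a ∈ LN b p := by
  rcases p with v | φ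
  · exact mem_symm a b h
  · exact real_iff.2 (real_iff.1 h).symm

theorem symm_iff {a b : Fˣ} {p : Pl F} : b ∈ LN a p ↔ a ∈ LN b p := ⟨symm', symm'⟩

theorem Ram_symm (a b : Fˣ) : Ram a b = Ram b a := Set.ext fun _ => not_congr symm_iff

theorem Ram_mul {a b n : Fˣ} (hn : n ∈ NF a) : Ram a (b * n) = Ram a b :=
  Set.ext fun _ => not_congr (Subgroup.mul_mem_cancel_right _ (Subgroup.mem_sup_left hn))

open Classical in
/-- the Hilbert symbol -/
def hs (p : Pl F) (a b : Fˣ) : ℤˣ := if b ∈ LN a p then 1 else -1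

theorem hs_one {p : Pl F} {a b : Fˣ} : hs p a b = 1 ↔ b ∈ LN a p := by
  unfold hs
  split_ifs with h
  · simp [h]
  · simp only [h, iff_false]
    decide

theorem hs_neg {p : Pl F} {a b : Fˣ} : hs p a b = -1 ↔ b ∉ LN a p := by
  unfold hs
  split_ifs with h
  · simp only [h, not_true_eq_false, iff_false]
    decide
  · simp [h]

theorem hs_comm (p : Pl F) (a b : Fˣ) : hs p a b = hs p b a := by
  unfold hs
  rw [propext (symm_iff (a := a) (b := b) (p := p))]

theorem hs_mul (p : Pl F) (a x y : Fˣ) : hs p a (x * y) = hs p a x * hs p a y := by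
  unfold hs
  rw [mul_iff]
  by_cases hx : x ∈ LN a p <;> by_cases hy : y ∈ LN a p <;> simp [hx, hy]

theorem hs_mul' (p : Pl F) (x y b : Fˣ) : hs p (x * y) b = hs p x b * hs p y b := by
  rw [hs_comm, hs_mul, hs_comm p b, hs_comm p b]

theorem hs_NF {p : Pl F} {a n : Fˣ} (h : n ∈ NF a) : hs p a n = 1 :=
  hs_one.2 (Subgroup.mem_sup_left h)

theorem hs_sq (p : Pl F) (a s : Fˣ) : hs p a (s ^ 2) = 1 := hs_NF (sq_mem_NF a s)

theorem Ram_eq {a b a' b' : Fˣ} (h : ∀ p, hs p a b = hs p a' b') : Ram a b = Ram a' b' :=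
  Set.ext fun p => by
    show b ∉ LN a p ↔ b' ∉ LN a' p
    rw [← hs_neg, ← hs_neg, h]

/-- chain equivalence -/
theorem hs_add {A B e : Fˣ} (h : (e : F) = A + B) (p : Pl F) : hs p e (A * B * e) = hs p A B := by
  have h1 : B * e ∈ NF (A * e) := ⟨e, 1, by
    push_cast
    rw [h]
    ring⟩
  have h2 := hs_NF (p := p) h1
  rw [hs_mul', hs_mul, hs_mul] at h2
  rw [hs_mul, hs_mul, hs_comm p e A]
  have h3 : ∀ x y z t : ℤˣ, x * y * (z * t) = 1 → y * z * t = x := by decide
  exact h3 _ _ _ _ h2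

/-- a change of the presentation -/
theorem chg {a b e : Fˣ} {s x y : F} (h : (e : F) = a * s ^ 2 + b * (x ^ 2 - a * y ^ 2)) :
    ∃ b', Ram e b' = Ram a b := by
  by_cases hn : x ^ 2 - a * y ^ 2 = 0
  · rw [hn, mul_zero, add_zero] at h
    have hs0 : s ≠ 0 := by
      rintro rfl
      exact e.ne_zero (by rw [h]; ring)
    have e1 : e = a * Units.mk0 s hs0 ^ 2 := Units.ext (by simpa using h)
    exact ⟨b, by simp only [e1, Ram, LN, NF_mul_sq]⟩
  set n : Fˣ := Units.mk0 _ hn with hn'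
  have hN : n ∈ NF a := ⟨x, y, rfl⟩
  by_cases hs0 : s = 0
  · have e1 : e = b * n := Units.ext (by rw [h, hs0]; simp [hn'])
    exact ⟨a, by rw [Ram_symm, e1, Ram_mul hN]⟩
  · refine ⟨a * Units.mk0 s hs0 ^ 2 * (b * n) * e, Ram_eq fun p => ?_⟩
    rw [hs_add (by rw [h]; simp [hn']), hs_mul', hs_comm p (_ ^ 2), hs_sq, mul_one, hs_mul,
      hs_NF hN, mul_one]

omit [NumberField F] in
theorem emb0 [CharZero F] {a b : Fˣ} (h : b ∈ NF a) (e : F) :
    ∃ s x y : F, e = a * s ^ 2 + b * (x ^ 2 - a * y ^ 2) := by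
  obtain ⟨u, v, huv⟩ := (NF a).inv_mem h
  have ha := a.ne_zero
  have h1 : (b : F) * (u ^ 2 - a * v ^ 2) = 1 := by rw [← huv, Units.mul_inv]
  refine ⟨(e / a + 1) / 2, a * v * ((e / a - 1) / 2), u * ((e / a - 1) / 2), ?_⟩
  have h2 : (b : F) * ((a * v * ((e / a - 1) / 2)) ^ 2 - a * (u * ((e / a - 1) / 2)) ^ 2) =
      -a * ((e / a - 1) / 2) ^ 2 := by
    linear_combination (-a * ((e / a - 1) / 2) ^ 2) * h1
  rw [h2]
  field_simp
  ring

/-- a quadratic field which is not split at the ramified places embeds -/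
theorem emb {a b e : Fˣ} (h : ∀ p, e ∈ LSp p → b ∈ LN a p) :
    ∃ s x y : F, (e : F) = a * s ^ 2 + b * (x ^ 2 - a * y ^ 2) := by
  by_cases hb : b ∈ NF a
  · exact emb0 hb e
  have hensq : ¬ IsSquare (e : F) := fun he =>
    hb (hasse_norm a b fun p => h p (Sq_le_LSp p (mem_Sq_iff.2 he)))
  obtain ⟨E, _, _, _, hE, θ, hθ⟩ := exists_quad e hensq
  have hθ' : ∀ x : F, algebraMap F E x ≠ θ := by
    rintro r rfl
    apply hensq
    refine ⟨r, (algebraMap F E).injective ?_⟩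
    rw [← hθ, map_mul, pow_two]
  set ι : Fˣ →* Eˣ := Units.map (algebraMap F E : F →* E) with hι
  have hιv : ∀ u : Fˣ, ((ι u : Eˣ) : E) = algebraMap F E u := fun _ => rfl
  have key : ι b ∈ NF (ι a) := by
    refine hasse_norm (ι a) (ι b) ?_
    rintro (w | ψ)
    · change ι b ∈ NF (ι a) ⊔ LS (w.valuation E)
      obtain ⟨v, hv⟩ := Sch.exists_below (F := F) w
      by_cases hvS : e ∈ LS (v.valuation F)
      · exact sup_map hv (h (.inl v) hvS)
      rcases local_split v a b e hvS with h1 | ⟨y, n, l, hn, hl, h1⟩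
      · exact sup_map hv h1
      · have h2 : ι (b * n * l) ∈ NF (ι a) := by
          refine ⟨θ, algebraMap F E y, ?_⟩
          rw [hιv, hθ, hιv]
          have h3 : ((b * n * l : Fˣ) : F) = (e : F) - a * y ^ 2 := by
            rw [h1]; push_cast; ring
          rw [h3]
          simp
        have h3 : ι b = ι (b * n * l) * (ι n)⁻¹ * (ι l)⁻¹ := by
          rw [map_mul, map_mul, mul_right_comm (ι b * ι n) (ι l) (ι n)⁻¹,
            mul_inv_cancel_right, mul_inv_cancel_right]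
        rw [h3]
        exact mul_mem (mul_mem (Subgroup.mem_sup_left h2)
          (inv_mem (Subgroup.mem_sup_left (NF_map hn))))
          (inv_mem (Subgroup.mem_sup_right (LS_map hv hl)))
    · change ι b ∈ NF (ι a) ⊔ LSR ψ
      set φ : F →+* ℝ := ψ.comp (algebraMap F E) with hφ
      have heφ : 0 < φ e := by
        have h1 : φ e = ψ θ ^ 2 := by
          rw [← map_pow, hθ]
          rfl
        refine lt_of_le_of_ne ?_ ((map_ne_zero φ).mpr e.ne_zero).symm
        rw [h1]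
        positivity
      have h5 : b ∈ NF a ⊔ LSR φ := h (.inr φ) heφ
      have h6 := real_iff.1 h5
      exact real_iff.2 h6
  obtain ⟨X, Y, hXY⟩ := key
  obtain ⟨x1, x2, y1, y2, h1, h2⟩ := descend (a := (a : F)) (b := (b : F)) hθ hE hθ' hXY
  have hn : x2 ^ 2 - a * y2 ^ 2 ≠ 0 := fun hn => hb ⟨x1, y1, by rw [h1, hn]; ring⟩
  refine ⟨(x2 * y1 - x1 * y2) / (x2 ^ 2 - a * y2 ^ 2), x2 / (x2 ^ 2 - a * y2 ^ 2),
    y2 / (x2 ^ 2 - a * y2 ^ 2), ?_⟩
  field_simp
  rw [h1]
  linear_combination (-(x1 * x2) + a * y1 * y2) * h2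

/-- simultaneous approximation of local norms by a global norm -/
theorem near {a b : Fˣ} (S : Finset (HeightOneSpectrum (𝓞 F)))
    (h : ∀ v ∈ S, b ∈ LN a (.inl v)) (γ : HeightOneSpectrum (𝓞 F) → Z0) (hγ : ∀ v ∈ S, γ v ≠ 0) :
    ∃ n ∈ NF a, ∀ v ∈ S, v.valuation F ((b * n : Fˣ) - 1 : F) < γ v := by
  classical
  rcases S.eq_empty_or_nonempty with rfl | ⟨v0, hv0⟩
  · exact ⟨1, one_mem _, by simp⟩
  have h1 : ∀ v ∈ S, ∃ X T : F,
      v.valuation F (b * (X ^ 2 - a * T ^ 2) - 1) < min (γ v) 1 := by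
    intro v hv
    obtain ⟨μ, hμ, x, y, hxy⟩ := mem_sup_iff_exists.1 ((LN a (.inl v)).inv_mem (h v hv))
    obtain ⟨z, hz⟩ := LS_newton' hμ (γ := min (γ v) 1)
      (lt_min (zero_lt_iff.2 (hγ v hv)) zero_lt_one).ne'
    refine ⟨x / z, y / z, ?_⟩
    have e : (b : F) * ((x / z) ^ 2 - a * (y / z) ^ 2) = μ / z ^ 2 := by
      have := z.ne_zero
      have hb := b.ne_zero
      rw [Units.val_inv_eq_inv_val] at hxy
      field_simp at hxy ⊢
      linear_combination -hxy
    rwa [e]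
  choose! X T hXT using h1
  let K : HeightOneSpectrum (𝓞 F) → Z0 := fun v =>
    max 1 (max (v.valuation F (X v)) (v.valuation F (T v)))
  let L : HeightOneSpectrum (𝓞 F) → Z0 := fun v =>
    v.valuation F (b : F) * max 1 (v.valuation F (a : F)) * K v
  have hK : ∀ v, 1 ≤ K v := fun v => le_max_left _ _
  have hL : ∀ v, 0 < L v := fun v => mul_pos (mul_pos
    (zero_lt_iff.2 ((Valuation.ne_zero_iff _).2 b.ne_zero))
    (zero_lt_one.trans_le (le_max_left _ _))) (zero_lt_one.trans_le (hK v))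
  let δ : HeightOneSpectrum (𝓞 F) → Z0 := fun v => min 1 (min (γ v) 1 / L v)
  have hδ : ∀ v ∈ S, δ v ≠ 0 := fun v hv => (lt_min zero_lt_one
    (div_pos (lt_min (zero_lt_iff.2 (hγ v hv)) zero_lt_one) (hL v))).ne'
  obtain ⟨x, hx, -⟩ := approxVal S X δ hδ 0 one_pos
  obtain ⟨t, ht, -⟩ := approxVal S T δ hδ 0 one_pos
  have aux : ∀ v ∈ S, ∀ c u U : F, v.valuation F c ≤ max 1 (v.valuation F (a : F)) →
      v.valuation F U ≤ K v → v.valuation F (u - U) < δ v →
      v.valuation F (b * c * (u ^ 2 - U ^ 2)) < min (γ v) 1 := by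
    intro v hv c u U hc hU hu
    have e : (b : F) * c * (u ^ 2 - U ^ 2) = b * c * ((u - U) + U + U) * (u - U) := by ring
    have h2 : v.valuation F ((u - U) + U + U) ≤ K v :=
      Valuation.map_add_le _ (Valuation.map_add_le _
        ((hu.le.trans (min_le_left _ _)).trans (hK v)) hU) hU
    have h3 : v.valuation F (b * c * ((u - U) + U + U)) ≤ L v := by
      rw [map_mul, map_mul]
      exact mul_le_mul' (mul_le_mul' le_rfl hc) h2
    rw [e, map_mul]
    calc _ ≤ L v * v.valuation F (u - U) := mul_le_mul' h3 le_rfl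
      _ < L v * (min (γ v) 1 / L v) :=
          mul_lt_mul_of_pos_left (hu.trans_le (min_le_right _ _)) (hL v)
      _ = _ := mul_div_cancel₀ _ (hL v).ne'
  have key : ∀ v ∈ S, v.valuation F (b * (x ^ 2 - a * t ^ 2) - 1) < min (γ v) 1 := by
    intro v hv
    have e : (b : F) * (x ^ 2 - a * t ^ 2) - 1 = (b * (X v ^ 2 - a * T v ^ 2) - 1) +
        b * 1 * (x ^ 2 - X v ^ 2) - b * a * (t ^ 2 - T v ^ 2) := by ring
    rw [e]
    refine Valuation.map_sub_lt _ (Valuation.map_add_lt _ (hXT v hv) ?_) ?_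
    · exact aux v hv _ _ _ (by simp) ((le_max_left _ _).trans (le_max_right _ _)) (hx v hv)
    · exact aux v hv _ _ _ (le_max_right _ _) ((le_max_right _ _).trans (le_max_right _ _))
        (ht v hv)
  have hn : x ^ 2 - a * t ^ 2 ≠ 0 := by
    intro h0
    have := (key v0 hv0).trans_le (min_le_right _ _)
    rw [h0] at this
    simp at this
  exact ⟨Units.mk0 _ hn, ⟨x, t, rfl⟩, fun v hv => (key v hv).trans_le (min_le_left _ _)⟩

/-- clearing denominators away from `J` -/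
theorem denom (x : F) (J : Ideal (𝓞 F)) (h : ∀ v : HeightOneSpectrum (𝓞 F), J ≤ v.asIdeal →
    v.valuation F x ≤ 1) (hJ : J ≠ ⊥) :
    ∃ d u : 𝓞 F, d ≠ 0 ∧ d - 1 ∈ J ∧ (d : F) * x = u := by
  by_cases hJ1 : J = ⊤
  · obtain ⟨u, d, hd, rfl⟩ := IsFractionRing.div_surjective (A := 𝓞 F) x
    have hd0 := nonZeroDivisors.ne_zero hd
    exact ⟨d, u, hd0, hJ1 ▸ Submodule.mem_top, mul_div_cancel₀ _ (by exact_mod_cast hd0)⟩
  let I : Ideal (𝓞 F) :=
    { carrier := {d | ∃ u : 𝓞 F, (d : F) * x = u}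
      add_mem' := by
        rintro d d' ⟨u, hu⟩ ⟨u', hu'⟩
        exact ⟨u + u', by push_cast; rw [add_mul, hu, hu']⟩
      zero_mem' := ⟨0, by simp⟩
      smul_mem' := by
        rintro c d ⟨u, hu⟩
        exact ⟨c * u, by simp [mul_assoc, hu]⟩ }
  have hI : I ⊔ J = ⊤ := by
    by_contra hne
    obtain ⟨P, hP, hle⟩ := Ideal.exists_le_maximal _ hne
    have hMP : J ≤ P := le_sup_right.trans hle
    let v : HeightOneSpectrum (𝓞 F) := ⟨P, hP.isPrime, fun h0 => hJ (le_bot_iff.1 (h0 ▸ hMP))⟩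
    obtain ⟨n, d, hd⟩ := v.exists_primeCompl_mul_eq_of_integer x (h v hMP)
    exact d.2 (hle (Ideal.mem_sup_left ⟨n, by rw [mul_comm]; exact hd⟩))
  obtain ⟨d, ⟨u, hu⟩, z, hz, e⟩ := Submodule.mem_sup.1 ((Ideal.eq_top_iff_one _).1 hI)
  refine ⟨d, u, ?_, ?_, hu⟩
  · rintro rfl
    rw [zero_add] at e
    exact hJ1 ((Ideal.eq_top_iff_one _).2 (e ▸ hz))
  · have : d - 1 = -z := by linear_combination e
    rw [this]
    exact J.neg_mem hz

theorem dvd_of_val {M u : 𝓞 F} (hM : M ≠ 0) (h : ∀ v : HeightOneSpectrum (𝓞 F), M ∈ v.asIdeal →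
    v.valuation F (u : F) ≤ v.valuation F (M : F)) : M ∣ u := by
  have hM' : (M : F) ≠ 0 := by exact_mod_cast hM
  obtain ⟨z, hz⟩ := HeightOneSpectrum.mem_integers_of_valuation_le_one (R := 𝓞 F) F
    ((u : F) / M) fun v => by
      rw [map_div₀, div_le_one₀ (zero_lt_iff.2 ((Valuation.ne_zero_iff _).2 hM'))]
      by_cases hv : M ∈ v.asIdeal
      · exact h v hv
      · have h1 : v.valuation F (M : F) = 1 := le_antisymm (v.valuation_le_one M)
          (not_lt.1 fun h2 => hv ((v.valuation_lt_one_iff_mem M).1 h2))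
        rw [h1]
        exact v.valuation_le_one u
  refine ⟨z, Subtype.ext ?_⟩
  have : (z : F) = u / M := hz
  show (u : F) = M * z
  rw [this, mul_div_cancel₀ _ hM']

end Vale.Agent.P022K.Hilb
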