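import Vale.Agent.P022K.F0.Tor

/-!
# P022K, block F0: approximation, the product formula and the restriction of `Ψ` to `F`
-/

set_option linter.all false

open NumberField IsDedekindDomain WithZero Finset

noncomputable section

namespace Vale.Agent.P022K.Sh.Tor

open Vale.Agent.P022.C (ordv)
open Vale.Agent.P027M.S (Pr Nr)
open Vale.Agent.P027M.S.Gen (val_int)
open Vale.Agent.P027M.S.Cls (val_eq ordv_of ordv_mul ordv_zpow ordv_pow le_exp gen_pow)

section

variable {K : Type} [Field K] [NumberField K]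

/-- Chinese remainder theorem -/
theorem crt0 {S : Set (Pr K)} (hS : S.Finite) (x : Pr K → K) (b : Pr K → ℤᵐ⁰)
    (hx : ∀ P ∈ S, P.valuation K (x P) ≤ 1) (hb : ∀ P, b P ≠ 0) :
    ∃ a : 𝓞 K, ∀ P ∈ S, P.valuation K (a - x P) < b P := by
  have : Finite S := hS
  have h1 : ∀ P : S, ∃ (a : 𝓞 K) (n : ℕ),
      P.1.valuation K ((a : K) - x P) < b P ∧ exp (-(n : ℤ)) < b P := fun P => by
    obtain ⟨a, ha⟩ := P.1.exists_valuation_sub_lt_of_integer (hx P P.2) (Units.mk0 _ (hb P))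
    refine ⟨a, (1 - log (b P)).toNat, ha, ?_⟩
    rw [← exp_log (hb P), exp_lt_exp, log_exp]
    omega
  choose a n ha hn using h1
  obtain ⟨y, hy⟩ := Ideal.exists_forall_sub_mem_ideal (I := fun P : S => P.1.asIdeal ^ n P)
    (fun P P' h => ((P.1.isCoprime_of_ne P'.1 fun e => h (Subtype.ext e)).pow)) a
  refine ⟨y, fun P h => ?_⟩
  have e : (y : K) - x P = ((a ⟨P, h⟩ : K) - x P) + ((y - a ⟨P, h⟩ : 𝓞 K) : K) := by
    push_cast; ring
  rw [e]
  refine Valuation.map_add_lt _ (ha ⟨P, h⟩) (lt_of_le_of_lt ?_ (hn ⟨P, h⟩))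
  rw [val_int]
  exact (P.intValuation_le_pow_iff_mem _ _).2 (hy ⟨P, h⟩)

/-- weak approximation -/
theorem crt1 {S : Set (Pr K)} (hS : S.Finite) (x : Pr K → K) (b : Pr K → ℤᵐ⁰)
    (hb : ∀ P, b P ≠ 0) : ∃ a : K, ∀ P ∈ S, P.valuation K (a - x P) < b P := by
  obtain ⟨n, hn⟩ := IsLocalization.exist_integer_multiples_of_finset (nonZeroDivisors (𝓞 K))
    (S := K) (by classical exact hS.toFinset.image x)
  have n0 : ((n : 𝓞 K) : K) ≠ 0 := by exact_mod_cast nonZeroDivisors.ne_zero n.2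
  have v0 : ∀ P : Pr K, P.valuation K ((n : 𝓞 K) : K) ≠ 0 := fun P =>
    (Valuation.ne_zero_iff _).2 n0
  obtain ⟨a, ha⟩ := crt0 hS (fun P => (n : 𝓞 K) * x P)
    (fun P => P.valuation K ((n : 𝓞 K) : K) * b P) (fun P h => by
      classical
      obtain ⟨z, hz⟩ := hn (x P) (mem_image_of_mem _ (hS.mem_toFinset.2 h))
      rw [Algebra.smul_def] at hz
      exact (congrArg _ hz).ge.trans (val_le P z)) fun P => mul_ne_zero (v0 P) (hb P)
  refine ⟨a / (n : 𝓞 K), fun P h => ?_⟩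
  have := ha P h
  rw [show (a : K) - (n : 𝓞 K) * x P = (n : 𝓞 K) * (a / (n : 𝓞 K) - x P) by field_simp,
    map_mul] at this
  exact lt_of_mul_lt_mul_left' this

theorem dense_val (v : Pr K) (x : v.adicCompletion K) {b : ℤᵐ⁰} (hb : b ≠ 0) :
    ∃ y : K, Valued.v (algebraMap K (v.adicCompletion K) y - x) < b := by
  obtain ⟨z, hz⟩ := HeightOneSpectrum.valuedAdicCompletion_surjective K v b
  have hz0 : (Valued.v z : ℤᵐ⁰) ≠ 0 := by rwa [hz]
  have hz' : Valued.v.restrict z ≠ 0 := by simpa using hz0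
  have hn : {y : v.adicCompletion K | Valued.v (y - x) < b} ∈ nhds x := by
    refine Valued.mem_nhds.mpr ⟨Units.mk0 _ hz', fun y hy => ?_⟩
    have h2 := (Valuation.restrict_lt_iff (v := Valued.v)).mp hy
    rwa [hz] at h2
  exact (HeightOneSpectrum.denseRange_algebraMap K v).mem_nhds hn

theorem val_comp (v : Pr K) (x : K) :
    Valued.v (algebraMap K (v.adicCompletion K) x) = v.valuation K x :=
  HeightOneSpectrum.valuedAdicCompletion_eq_valuation' v x

theorem pv_mul' (θ θ' : Pr K → ℂˣ) {x : K} (hx : x ≠ 0) : pv (θ * θ') x = pv θ x * pv θ' x := by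
  rw [pv, pv, pv, ← finprod_mul_distrib (pv_fin θ hx) (pv_fin θ' hx)]
  exact finprod_congr fun P => by rw [Pi.mul_apply, mul_zpow]

theorem pv_one (θ : Pr K → ℂˣ) : pv θ (1 : K) = 1 :=
  finprod_eq_one_of_forall_eq_one fun P => by rw [ordv_one (map_one _), zpow_zero]

theorem pv_div (θ : Pr K → ℂˣ) {x y : K} (hx : x ≠ 0) (hy : y ≠ 0) :
    pv θ (x / y) = pv θ x / pv θ y := by
  rw [eq_div_iff_mul_eq', ← pv_mul θ (div_ne_zero hx hy) hy, div_mul_cancel₀ _ hy]

theorem pv_congr {θ θ' : Pr K → ℂˣ} {x : K} (h : ∀ P, ordv P x ≠ 0 → θ P = θ' P) :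
    pv θ x = pv θ' x := finprod_congr fun P => by
  by_cases k : ordv P x = 0
  · rw [k, zpow_zero, zpow_zero]
  · rw [h P k]

/-- the value of a character of ideals on a principal ideal -/
theorem pv_idl (Θ : Ideal (𝓞 K) →* ℂ) (θ : Pr K → ℂˣ) {x : 𝓞 K} (hx : x ≠ 0)
    (h : ∀ v : Pr K, x ∈ v.asIdeal → Θ v.asIdeal = θ v) :
    (pv θ (x : K) : ℂ) = Θ (Ideal.span {x}) := by
  have hI : Ideal.span {x} ≠ ⊥ := by simpa using hx
  have h2 : ∀ v : Pr K, ordv v (x : K) = (multiplicity v.asIdeal (Ideal.span {x}) : ℕ) := fun v => by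
    rw [ordv, val_int, HeightOneSpectrum.intValuation_eq_exp_neg_multiplicity v hx, log_exp,
      neg_neg]
  have fin := ordv_fin (x := (x : K)) (by exact_mod_cast hx)
  conv_rhs => rw [← Ideal.finprod_heightOneSpectrum_pow_multiplicity hI]
  rw [pv, ← Units.coeHom_apply, MonoidHom.map_finprod _ (pv_fin θ (by exact_mod_cast hx)),
    MonoidHom.map_finprod _ (fin.subset fun v hv k => hv (by
      simp only [h2, Nat.cast_eq_zero] at k
      simp only [k, pow_zero]))]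
  refine finprod_congr fun v => ?_
  by_cases k : x ∈ v.asIdeal
  · rw [h2, zpow_natCast, map_pow, map_pow, h v k, Units.coeHom_apply]
  · have a := ordv_one (val_one k)
    have b := a
    rw [h2, Nat.cast_eq_zero] at b
    rw [a, b, zpow_zero, pow_zero, map_one, map_one]

theorem nr_ne (v : Pr K) : (Nr v : ℂ) ≠ 0 :=
  Nat.cast_ne_zero.2 fun h => v.ne_bot (Ideal.absNorm_eq_zero_iff.1 h)

/-- the norm of a prime -/
def qU (v : Pr K) : ℂˣ := Units.mk0 _ (nr_ne v)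

theorem prod_emb (x : K) : ∏ τ : K →+* ℂ, τ x = (Algebra.norm ℚ x : ℚ) := by
  have h := Algebra.norm_eq_prod_embeddings ℚ ℂ x
  rw [← Fintype.prod_equiv (RingHom.equivRatAlgHom K ℂ) (fun f => f x) (fun φ => φ x)
    (fun _ => rfl)] at h
  exact h.symm

/-- the product formula -/
theorem pv_q {x : K} (hx : x ≠ 0) : (pv qU x : ℂ) = (|Algebra.norm ℚ x| : ℚ) := by
  have h : ∀ y : 𝓞 K, y ≠ 0 → (pv qU (y : K) : ℂ) = (|Algebra.norm ℚ (y : K)| : ℚ) := fun y hy => by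
    rw [pv_idl ((Nat.castRingHom ℂ).toMonoidHom.comp Ideal.absNorm.toMonoidHom) qU hy
      fun _ _ => rfl, ← Algebra.coe_norm_int]
    change ((Ideal.absNorm _ : ℕ) : ℂ) = _
    rw [Ideal.absNorm_span_singleton, ← Int.cast_natCast, Int.natCast_natAbs, ← Int.cast_abs,
      Rat.cast_intCast]
  obtain ⟨a, b, hb, rfl⟩ := IsFractionRing.div_surjective (A := 𝓞 K) x
  have b0 := nonZeroDivisors.ne_zero hb
  have b1 : algebraMap (𝓞 K) K b ≠ 0 := RingOfIntegers.coe_ne_zero_iff.2 b0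
  have a1 : algebraMap (𝓞 K) K a ≠ 0 := fun k => hx (by rw [k, zero_div])
  have n : Algebra.norm ℚ (algebraMap (𝓞 K) K b) ≠ 0 := Algebra.norm_ne_zero_iff.2 b1
  rw [pv_div _ a1 b1, Units.val_div_eq_div_val, h a fun k => a1 (by rw [k, map_zero]), h b b0,
    ← Rat.cast_div, ← abs_div]
  congr 2
  rw [div_eq_iff n, ← map_mul, div_mul_cancel₀ _ b1]

open Classical in
/-- the part prime to `D` -/
def off (D : ℕ) (θ : Pr K → ℂˣ) (v : Pr K) : ℂˣ := if (D : 𝓞 K) ∈ v.asIdeal then 1 else θ v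

open Classical in
/-- the part at `D` -/
def on (D : ℕ) (θ : Pr K → ℂˣ) (v : Pr K) : ℂˣ := if (D : 𝓞 K) ∈ v.asIdeal then θ v else 1

theorem on_off (D : ℕ) (θ : Pr K → ℂˣ) : on D θ * off D θ = θ := funext fun v => by
  rw [Pi.mul_apply, on, off]
  split_ifs <;> simp

theorem pv_off (D : ℕ) (θ : Pr K → ℂˣ) (x : K) :
    ∏ᶠ (v : Pr K) (_ : (D : 𝓞 K) ∉ v.asIdeal), θ v ^ ordv v x = pv (off D θ) x := by
  classical
  refine finprod_congr fun v => ?_
  rw [finprod_eq_if, off]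
  split_ifs <;> simp

theorem pv_at (θ : Pr K → ℂˣ) {x : K} (w : Pr K) (h : ∀ v, v ≠ w → θ v = 1 ∨ ordv v x = 0) :
    pv θ x = θ w ^ ordv w x :=
  finprod_eq_single _ w fun v k => by rcases h v k with e | e <;> simp [e]

theorem val_of_cong {v : Pr K} {x : K} {D : ℕ} (h : (D : 𝓞 K) ∈ v.asIdeal)
    (k : v.valuation K (x - 1) ≤ v.valuation K (D : K)) : v.valuation K x = 1 := by
  have l : v.valuation K (D : K) < 1 := by exact_mod_cast (mem_iff v _).1 h
  have := Valuation.map_one_add_of_lt _ (k.trans_lt l)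
  rwa [add_sub_cancel] at this

end

variable {F E : Type} [Field F] [NumberField F] [Field E] [NumberField E] [Algebra F E]

namespace CM

variable (C : CM F E) (Ψ : Pr E → ℂˣ)

theorem D0 : C.D ≠ 0 := by have := C.D3; omega

theorem rho_eq (t : F) : C.rho Ψ t = (Algebra.norm ℚ t : ℚ) / pv (off C.D (kap Ψ)) t := by
  rw [rho, prod_emb, pv_off]

theorem rho_mul {s t : F} (hs : s ≠ 0) (ht : t ≠ 0) :
    C.rho Ψ (s * t) = C.rho Ψ s * C.rho Ψ t := by
  rw [rho_eq, rho_eq, rho_eq, pv_mul _ hs ht, map_mul, Rat.cast_mul, Units.val_mul,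
    mul_div_mul_comm]

theorem rho_ne {t : F} (ht : t ≠ 0) : C.rho Ψ t ≠ 0 := by
  rw [rho_eq]
  exact div_ne_zero (Rat.cast_ne_zero.2 (Algebra.norm_ne_zero_iff.2 ht)) (Units.ne_zero _)

/-- `rho` as a character -/
def rhoU : Fˣ →* ℂˣ := MonoidHom.mk' (fun t => Units.mk0 _ (C.rho_ne Ψ t.ne_zero)) fun s t =>
  Units.ext (C.rho_mul Ψ s.ne_zero t.ne_zero)

theorem eps_rho {γ : C.G} {t : F} (e : ((γ : Eˣ) : E) = algebraMap F E t) :
    C.eps Ψ (γ : Eˣ) = C.rho Ψ t := by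
  have ht : t ≠ 0 := fun k => (γ : Eˣ).ne_zero (by rw [e, k, map_zero])
  obtain ⟨S, -, S2, S3, S4⟩ := C.exists_S ∅ (fun _ h => absurd h (notMem_empty _)) γ ht
  rw [eps, rho, fp_S S2 fun v a b => by rw [S3 v a b, zpow_zero], C.pv_S Ψ S4, e, NT]
  simp only [C.ovr]
  congr 2
  refine prod_congr rfl fun v hv => ?_
  rw [C.kap_eq, ← prod_zpow]
  exact prod_congr rfl fun P hP => by
    rw [ordv_ab (C.mem_pr.1 hP) fun k => S2 v hv (((C.mem_pr.1 hP).nat _).1 k)]

theorem exists_G {t : F} (ht : t ≠ 0)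
    (h : ∀ v : Pr F, (C.D : 𝓞 F) ∈ v.asIdeal → v.valuation F t = 1) :
    ∃ γ : C.G, ((γ : Eˣ) : E) = algebraMap F E t :=
  ⟨⟨Units.mk0 _ ((map_ne_zero _).2 ht), fun P k =>
    ((ab_un P).eq_one t).2 (h _ (((ab_un P).nat _).1 k))⟩, rfl⟩

theorem cong_ab {v : Pr F} {P : Pr E} (h : Ab v P) {t : F} {n : ℕ}
    (k : v.valuation F (t - 1) ≤ v.valuation F (n : F)) :
    P.valuation E (algebraMap F E t - 1) ≤ P.valuation E (n : E) := by
  obtain ⟨e, -, he⟩ := h.pow
  rw [← map_one (algebraMap F E), ← map_sub, ← map_natCast (algebraMap F E), he, he]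
  exact pow_le_pow_left' k e

variable {Ψ}

theorem rho_one (hΨ : C.Hk Ψ) {t : F} (ht : t ≠ 0) (h : ∀ v : Pr F, (C.D : 𝓞 F) ∈ v.asIdeal →
    v.valuation F (t - 1) ≤ v.valuation F (C.D : F)) : C.rho Ψ t = 1 := by
  obtain ⟨γ, e⟩ := C.exists_G ht fun v k => val_of_cong k (h v k)
  rw [← C.eps_rho Ψ e]
  exact C.eps_one hΨ fun P _ k => e ▸ cong_ab (ab_un P) (h _ (((ab_un P).nat _).1 k))

open Classical in
/-- the quadratic character outside `D` -/
def sg (v : Pr F) : ℂˣ := if (C.D : 𝓞 F) ∈ v.asIdeal ∨ C.Gd v then 1 else -1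

theorem sg_sq (v : Pr F) : C.sg v * C.sg v = 1 := by
  unfold sg
  split_ifs <;> simp

theorem pv_sg {t : F} (ht : t ≠ 0) : pv C.sg t * pv C.sg t = 1 := by
  rw [← pv_mul' _ _ ht]
  exact finprod_eq_one_of_forall_eq_one fun v => by rw [Pi.mul_apply, sg_sq, one_zpow]

theorem rho_sg (h : off C.D (kap Ψ) = off C.D qU * C.sg) {t : F} (ht : t ≠ 0) :
    C.rho Ψ t = (SignType.sign (Algebra.norm ℚ t) : ℚ) * pv C.sg t * pv (on C.D qU) t := by
  have e := pv_q ht
  rw [← on_off C.D qU, pv_mul' _ _ ht, Units.val_mul] at e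
  have e2 := congrArg Units.val (C.pv_sg ht)
  rw [Units.val_mul, Units.val_one] at e2
  rw [rho_eq, h, pv_mul' _ _ ht, Units.val_mul, div_eq_iff (mul_ne_zero (Units.ne_zero _)
    (Units.ne_zero _)), ← sign_mul_abs (Algebra.norm ℚ t), Rat.cast_mul, ← e, sign_mul_abs]
  linear_combination -((SignType.sign (Algebra.norm ℚ t) : ℚ) : ℂ) * pv (on C.D qU) t *
    pv (off C.D qU) t * e2

include C in
theorem real (τ : F →+* ℂ) : ComplexEmbedding.IsReal τ :=
  ComplexEmbedding.isReal_iff.2 (RingHom.ext fun x => by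
    rw [ComplexEmbedding.conjugate_coe_eq, ← C.ovr τ, ← C.cj, AlgEquiv.commutes])

include C in
theorem norm_pos {t : F} (h : ∀ φ : F →+* ℝ, 0 < φ t) : 0 < Algebra.norm ℚ t := by
  have e := prod_emb t
  rw [prod_congr rfl fun τ _ => ((C.real τ).coe_embedding_apply t).symm, ← Complex.ofReal_prod,
    ← Complex.ofReal_ratCast, Complex.ofReal_inj] at e
  have : (0 : ℝ) < (Algebra.norm ℚ t : ℚ) := e ▸ prod_pos fun τ _ => h _
  exact_mod_cast this

theorem nm_pos {s t : F} (h : s ^ 2 - C.a * t ^ 2 ≠ 0) (φ : F →+* ℝ) :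
    0 < φ (s ^ 2 - C.a * t ^ 2) := by
  have e := C.ovr (Complex.ofRealHom.comp φ) (s ^ 2 - C.a * t ^ 2)
  rw [← nm_co, map_mul, C.cj, Complex.mul_conj, RingHom.comp_apply, Complex.ofRealHom_eq_coe,
    Complex.ofReal_inj] at e
  exact lt_of_le_of_ne (e ▸ Complex.normSq_nonneg _) ((map_ne_zero φ).2 h).symm

/-- norms are trivial for the quadratic character outside `D` -/
theorem sg_nm {s t : F} (h : s ^ 2 - C.a * t ^ 2 ≠ 0) (v : Pr F) :
    C.sg v ^ ordv v (s ^ 2 - C.a * t ^ 2) = 1 := by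
  unfold sg
  split_ifs with k
  · exact one_zpow _
  rw [not_or] at k
  have e := C.nm_co s t
  have g0 : algebraMap F E s + algebraMap F E t * C.δ ≠ 0 := fun z => h (by
    rwa [z, zero_mul, eq_comm, map_eq_zero] at e)
  have p : C.pi (up E v) = up E v := by_contra fun l => k.2 (gd_of_ne k.1 (ab_up v) l)
  rw [← ordv_ab (C := C) (ab_up (E := E) v) fun l => k.1 (((ab_up v).nat _).1 l), ← e,
    ordv_mul _ g0 ((map_ne_zero _).2 g0), ← ordv_pi, p, zpow_add, ← mul_zpow]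
  simp

end CM

end Vale.Agent.P022K.Sh.Tor
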