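import Mathlib.Analysis.Analytic.OfScalars
import Mathlib.Analysis.Meromorphic.NormalForm
import Mathlib.Analysis.Complex.Basic
import Mathlib.Analysis.Normed.Module.Convex
import Mathlib.Analysis.Normed.Affine.AddTorsor
import Mathlib.RingTheory.PowerSeries.Derivative
import Mathlib.Algebra.MvPolynomial.Eval

/-!
# P022K, block F0: majorants for polynomial differential systems; extension across a circle
-/

set_option autoImplicit false

open Filter Topology Metric PowerSeries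
open scoped NNReal ENNReal

noncomputable section

namespace Vale.Agent.P022K.Sh.Un

/-! ## majorants -/

/-- the truncated norm -/
def tn (r : ℝ) (n : ℕ) (f : ℂ⟦X⟧) : ℝ := ∑ k ∈ Finset.range (n + 1), ‖coeff k f‖ * r ^ k

section

variable {r : ℝ} (hr : 0 ≤ r) (n : ℕ) (f g : ℂ⟦X⟧)
include hr

theorem tn_nonneg : 0 ≤ tn r n f := Finset.sum_nonneg fun _ _ => by positivity

theorem tn_add : tn r n (f + g) ≤ tn r n f + tn r n g := by
  rw [tn, tn, tn, ← Finset.sum_add_distrib]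
  refine Finset.sum_le_sum fun k _ => ?_
  rw [← add_mul, map_add]
  exact mul_le_mul_of_nonneg_right (norm_add_le _ _) (by positivity)

theorem tn_mul : tn r n (f * g) ≤ tn r n f * tn r n g := by
  calc _ ≤ ∑ k ∈ Finset.range (n + 1), ∑ p ∈ Finset.antidiagonal k,
        ‖coeff p.1 f‖ * r ^ p.1 * (‖coeff p.2 g‖ * r ^ p.2) := by
        refine Finset.sum_le_sum fun k _ => ?_
        rw [coeff_mul]
        refine (mul_le_mul_of_nonneg_right (norm_sum_le _ _) (by positivity)).trans_eq ?_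
        rw [Finset.sum_mul]
        refine Finset.sum_congr rfl fun p hp => ?_
        rw [← Finset.mem_antidiagonal.1 hp, norm_mul, pow_add]
        ring
    _ = ∑ p ∈ (Finset.range (n + 1)).biUnion Finset.antidiagonal,
        ‖coeff p.1 f‖ * r ^ p.1 * (‖coeff p.2 g‖ * r ^ p.2) :=
        (Finset.sum_biUnion fun a _ b _ h => Finset.disjoint_left.2 fun p h1 h2 =>
          h ((Finset.mem_antidiagonal.1 h1).symm.trans (Finset.mem_antidiagonal.1 h2))).symm
    _ ≤ ∑ p ∈ Finset.range (n + 1) ×ˢ Finset.range (n + 1),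
        ‖coeff p.1 f‖ * r ^ p.1 * (‖coeff p.2 g‖ * r ^ p.2) := by
        refine Finset.sum_le_sum_of_subset_of_nonneg (fun p hp => ?_) fun _ _ _ => by positivity
        simp only [Finset.mem_biUnion, Finset.mem_range, Finset.mem_antidiagonal,
          Finset.mem_product] at hp ⊢
        obtain ⟨a, h1, h2⟩ := hp
        omega
    _ = _ := by rw [tn, tn, Finset.sum_mul_sum, Finset.sum_product]

theorem tn_succ : tn r (n + 1) f ≤ ‖constantCoeff f‖ + r * tn r n (d⁄dX ℂ f) := by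
  rw [tn, Finset.sum_range_succ', add_comm, tn, Finset.mul_sum, pow_zero, mul_one,
    coeff_zero_eq_constantCoeff]
  refine add_le_add le_rfl (Finset.sum_le_sum fun k _ => ?_)
  have h : (1 : ℝ) ≤ ‖(k : ℂ) + 1‖ := by
    rw [← Nat.cast_succ, Complex.norm_natCast]
    exact_mod_cast Nat.succ_pos k
  rw [coeff_derivative, norm_mul, pow_succ]
  have := mul_le_mul_of_nonneg_left h (show 0 ≤ ‖coeff (k + 1) f‖ * (r ^ k * r) by positivity)
  linarith

end

theorem tn_C (r : ℝ) (n : ℕ) (a : ℂ) : tn r n (C a) = ‖a‖ := by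
  rw [tn, Finset.sum_range_succ']
  simp [coeff_C]

theorem tn_aeval {ι : Type*} (p : MvPolynomial ι ℂ) {M : ℝ} (hM : 0 ≤ M) : ∃ B, 0 ≤ B ∧
    ∀ r, 0 ≤ r → ∀ (n : ℕ) (V : ι → ℂ⟦X⟧), (∀ i, tn r n (V i) ≤ M) →
      tn r n (MvPolynomial.aeval V p) ≤ B := by
  induction p using MvPolynomial.induction_on with
  | C a => exact ⟨‖a‖, norm_nonneg a, fun r _ n V _ => by
      rw [MvPolynomial.aeval_C, ← C_eq_algebraMap, tn_C]⟩
  | add p q hp hq =>
    obtain ⟨A, a0, ha⟩ := hp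
    obtain ⟨B, b0, hb⟩ := hq
    exact ⟨A + B, add_nonneg a0 b0, fun r hr n V h => by
      rw [map_add]
      exact (tn_add hr n _ _).trans (add_le_add (ha r hr n V h) (hb r hr n V h))⟩
  | mul_X p i hp =>
    obtain ⟨A, a0, ha⟩ := hp
    exact ⟨A * M, mul_nonneg a0 hM, fun r hr n V h => by
      rw [map_mul, MvPolynomial.aeval_X]
      exact (tn_mul hr n _ _).trans (mul_le_mul (ha r hr n V h) (h i) (tn_nonneg hr n _) a0)⟩

/-- **majorants**: formal solutions of a polynomial system converge, uniformly for bounded initial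
values -/
theorem maj_bound {ι : Type*} [Finite ι] (P : ι → MvPolynomial ι ℂ) (c : ℝ) : ∃ r : ℝ, 0 < r ∧
    ∀ V : ι → ℂ⟦X⟧, (∀ i, ‖constantCoeff (V i)‖ ≤ c) →
      (∀ i, d⁄dX ℂ (V i) = MvPolynomial.aeval V (P i)) → ∀ n i, tn r n (V i) ≤ |c| + 1 := by
  choose B b0 hB using fun i => tn_aeval (P i) (M := |c| + 1) (by positivity)
  obtain ⟨A, hA⟩ := (Set.finite_range B).bddAbove
  have a0 : 0 < |A| + 1 := by positivity
  refine ⟨(|A| + 1)⁻¹, inv_pos.2 a0, fun V h0 h n => ?_⟩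
  induction n with
  | zero =>
    intro i
    have := (h0 i).trans (le_abs_self c)
    simp only [tn, zero_add, Finset.sum_range_one, pow_zero, mul_one, coeff_zero_eq_constantCoeff]
    linarith
  | succ n ih =>
    intro i
    refine (tn_succ (inv_pos.2 a0).le n _).trans (add_le_add ((h0 i).trans (le_abs_self c)) ?_)
    rw [h i, inv_mul_le_iff₀ a0, mul_one]
    have := (hB i _ (inv_pos.2 a0).le n V ih).trans ((hA ⟨i, rfl⟩).trans (le_abs_self A))
    linarith

/-- the sum of a power series -/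
def psum (f : ℂ⟦X⟧) (z : ℂ) : ℂ := ∑' n, coeff n f * z ^ n

/-- the power series as a multilinear series -/
def fms (f : ℂ⟦X⟧) : FormalMultilinearSeries ℂ ℂ ℂ :=
  FormalMultilinearSeries.ofScalars ℂ fun n => coeff n f

theorem fms_coeff (f : ℂ⟦X⟧) (n : ℕ) : (fms f).coeff n = coeff n f :=
  FormalMultilinearSeries.coeff_ofScalars

theorem tn_ball {r M : ℝ} (hr : 0 < r) {f : ℂ⟦X⟧} (h : ∀ n, tn r n f ≤ M) :
    HasFPowerSeriesOnBall (psum f) (fms f) 0 (ENNReal.ofReal r) ∧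
      ∀ z, ‖z‖ ≤ r → ‖psum f z‖ ≤ M := by
  have k : ∀ n, ‖coeff n f‖ * r ^ n ≤ M := fun n => le_trans
    (Finset.single_le_sum (f := fun k => ‖coeff k f‖ * r ^ k) (fun _ _ => by positivity)
      (Finset.self_mem_range_succ n)) (h n)
  have l : ENNReal.ofReal r ≤ (fms f).radius :=
    (fms f).le_radius_of_bound M (r := r.toNNReal) fun n => by
      rw [fms, FormalMultilinearSeries.ofScalars_norm, Real.coe_toNNReal _ hr.le]
      exact k n
  have p : 0 < ENNReal.ofReal r := ENNReal.ofReal_pos.2 hr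
  refine ⟨?_, fun z hz => ?_⟩
  · have := ((fms f).hasFPowerSeriesOnBall (p.trans_le l)).mono p l
    rwa [show (fms f).sum = psum f from funext fun z =>
      FormalMultilinearSeries.ofScalars_sum_eq _ z] at this
  · have b : ∀ n, ∑ k ∈ Finset.range n, ‖coeff k f * z ^ k‖ ≤ M := fun n => by
      refine le_trans (Finset.sum_le_sum_of_subset_of_nonneg (Finset.range_mono n.le_succ)
        fun _ _ _ => norm_nonneg _) (le_trans (Finset.sum_le_sum fun k _ => ?_) (h n))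
      rw [norm_mul, norm_pow]
      gcongr
    have s := summable_of_sum_range_le (fun _ => norm_nonneg _) b
    exact (norm_tsum_le_tsum_norm s).trans (Real.tsum_le_of_sum_range_le (fun _ => norm_nonneg _) b)

/-- **MAJ** -/
theorem maj {ι : Type*} [Finite ι] (P : ι → MvPolynomial ι ℂ) (c : ℝ) : ∃ r : ℝ, 0 < r ∧
    ∀ V : ι → ℂ⟦X⟧, (∀ i, ‖constantCoeff (V i)‖ ≤ c) →
      (∀ i, d⁄dX ℂ (V i) = MvPolynomial.aeval V (P i)) → ∀ i,
        HasFPowerSeriesOnBall (psum (V i)) (fms (V i)) 0 (ENNReal.ofReal r) ∧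
          ∀ z, ‖z‖ ≤ r → ‖psum (V i) z‖ ≤ |c| + 1 := by
  obtain ⟨r, hr, h⟩ := maj_bound P c
  exact ⟨r, hr, fun V h0 h1 i => tn_ball hr fun n => h V h0 h1 n i⟩

/-! ## extension across a circle -/

/-- **gluing**: `P z E` is a property of the germ of `E` at `z`, with an identity theorem -/
theorem ext_gen {α : Type*} (P : ℂ → (ℂ → α) → Prop)
    (germ : ∀ z E E', E =ᶠ[𝓝 z] E' → P z E → P z E')
    (ident : ∀ W : Set ℂ, IsOpen W → Convex ℝ W → ∀ E E', (∀ z ∈ W, P z E) → (∀ z ∈ W, P z E') →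
      (∃ z ∈ W, E =ᶠ[𝓝 z] E') → Set.EqOn E E' W)
    {a : ℂ} {r : ℝ} (hr : 0 < r) {E : ℂ → α} (hE : ∀ z ∈ ball a r, P z E)
    (hb : ∀ ζ ∈ sphere a r, ∃ δ > 0, ∃ E', (∀ z ∈ ball ζ δ, P z E') ∧
      Set.EqOn E E' (ball ζ δ ∩ ball a r)) :
    ∃ r' > r, ∃ F, (∀ z ∈ ball a r', P z F) ∧ Set.EqOn E F (ball a r) := by
  classical
  have : Nonempty α := ⟨E a⟩
  choose! ε ε0 G hG eG using hb
  obtain ⟨δ, δ0, hδ⟩ := lebesgue_number_lemma_of_metric (isCompact_sphere a r)
    (c := fun ζ : sphere a r => ball ζ.1 (ε ζ)) (fun _ => isOpen_ball)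
    fun ζ h => Set.mem_iUnion.2 ⟨⟨ζ, h⟩, mem_ball_self (ε0 ζ h)⟩
  have : ∀ ζ ∈ sphere a r, ∃ H, (∀ z ∈ ball ζ δ, P z H) ∧ Set.EqOn E H (ball ζ δ ∩ ball a r) :=
    fun ζ h => by
      obtain ⟨ξ, s⟩ := hδ ζ h
      exact ⟨G ξ, fun z hz => hG ξ ξ.2 z (s hz), fun z hz => eG ξ ξ.2 ⟨s hz.1, hz.2⟩⟩
  choose! H hH eH using this
  have agree : ∀ ζ ∈ sphere a r, ∀ ξ ∈ sphere a r,
      Set.EqOn (H ζ) (H ξ) (ball ζ δ ∩ ball ξ δ) := fun ζ h ξ h' y hy => by
    have o : IsOpen (ball ζ δ ∩ ball ξ δ) := isOpen_ball.inter isOpen_ball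
    have d : dist ζ ξ < 2 * δ := by
      have := dist_triangle_left ζ ξ y
      have := mem_ball.1 hy.1
      have := mem_ball.1 hy.2
      linarith
    have m : midpoint ℝ ζ ξ ∈ closure (ball a r) := by
      rw [closure_ball a hr.ne']
      exact (convex_closedBall a r).midpoint_mem (sphere_subset_closedBall h)
        (sphere_subset_closedBall h')
    obtain ⟨x, h1, h2⟩ := mem_closure_iff.1 m _ o ⟨by
      rw [mem_ball, dist_midpoint_left, Real.norm_two]
      linarith, by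
      rw [mem_ball, dist_midpoint_right, Real.norm_two]
      linarith⟩
    refine ident _ o ((convex_ball _ _).inter (convex_ball _ _)) _ _
      (fun z hz => hH ζ h z hz.1) (fun z hz => hH ξ h' z hz.2) ⟨x, h1, ?_⟩ hy
    filter_upwards [(o.inter isOpen_ball).mem_nhds ⟨h1, h2⟩] with z hz
    exact (eH ζ h ⟨hz.1.1, hz.2⟩).symm.trans (eH ξ h' ⟨hz.1.2, hz.2⟩)
  have pr : ∀ z, z ∈ ball a (r + δ) → z ∉ ball a r → ∃ ζ ∈ sphere a r, z ∈ ball ζ δ :=
    fun z h h' => by
      rw [mem_ball, dist_eq_norm] at h h'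
      have n : 0 < ‖z - a‖ := hr.trans_le (not_lt.1 h')
      refine ⟨a + ((r / ‖z - a‖ : ℝ) : ℂ) * (z - a), ?_, ?_⟩
      · rw [mem_sphere, dist_eq_norm, add_sub_cancel_left, norm_mul, Complex.norm_real,
          Real.norm_of_nonneg (by positivity), div_mul_cancel₀ _ n.ne']
      · rw [mem_ball, dist_eq_norm, show z - (a + ((r / ‖z - a‖ : ℝ) : ℂ) * (z - a)) =
          ((1 - r / ‖z - a‖ : ℝ) : ℂ) * (z - a) by push_cast; ring, norm_mul, Complex.norm_real,
          Real.norm_of_nonneg (sub_nonneg.2 ((div_le_one n).2 (not_lt.1 h'))), sub_mul,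
          div_mul_cancel₀ _ n.ne']
        linarith
  choose! π π1 π2 using pr
  refine ⟨r + δ, by linarith, fun z => if z ∈ ball a r then E z else H (π z) z, fun z hz => ?_,
    fun z hz => (if_pos hz).symm⟩
  by_cases h : z ∈ ball a r
  · refine germ z E _ ?_ (hE z h)
    filter_upwards [isOpen_ball.mem_nhds h] with y hy using (if_pos hy).symm
  · refine germ z (H (π z)) _ ?_ (hH _ (π1 z hz h) z (π2 z hz h))
    filter_upwards [isOpen_ball.mem_nhds hz, isOpen_ball.mem_nhds (π2 z hz h)] with y h1 h2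
    split_ifs with h3
    · exact (eH _ (π1 z hz h) ⟨h2, h3⟩).symm
    · exact agree _ (π1 z hz h) _ (π1 y h1 h3) ⟨h2, π2 y h1 h3⟩

/-- the identity theorem for meromorphic functions -/
theorem mero_ident {W : Set ℂ} (hW : IsPreconnected W) {f g : ℂ → ℂ} (hf : MeromorphicOn f W)
    (hg : MeromorphicOn g W) {z : ℂ} (hz : z ∈ W) (h : f =ᶠ[𝓝[≠] z] g) :
    ∀ y ∈ W, f =ᶠ[𝓝[≠] y] g := fun y hy => by
  have k : ∀ x, meromorphicOrderAt (f - g) x = ⊤ ↔ f =ᶠ[𝓝[≠] x] g := fun x => by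
    simp only [meromorphicOrderAt_eq_top_iff, Pi.sub_apply, sub_eq_zero]
    rfl
  by_contra c
  exact (hf.sub hg).meromorphicOrderAt_ne_top_of_isPreconnected hW hy hz (mt (k y).1 c) ((k z).2 h)

/-- the identity theorem for meromorphic functions in normal form -/
theorem nf_ident {W : Set ℂ} (hW : IsPreconnected W) {f g : ℂ → ℂ} (hf : MeromorphicNFOn f W)
    (hg : MeromorphicNFOn g W) {z : ℂ} (hz : z ∈ W) (h : f =ᶠ[𝓝[≠] z] g) : Set.EqOn f g W :=
  fun y hy => (((hf hy).eventuallyEq_nhdsNE_iff_eventuallyEq_nhds (hg hy)).1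
    (mero_ident hW hf.meromorphicOn hg.meromorphicOn hz h y hy)).self_of_nhds

/-- **EXT**: a family of meromorphic functions on a disc that extends across every boundary point
extends to a larger disc -/
theorem ext_nf {A : Type*} {a : ℂ} {r : ℝ} (hr : 0 < r) {f : A → ℂ → ℂ}
    (hf : ∀ i, MeromorphicNFOn (f i) (ball a r))
    (hb : ∀ ζ ∈ sphere a r, ∃ δ > 0, ∃ g : A → ℂ → ℂ, ∀ i, MeromorphicNFOn (g i) (ball ζ δ) ∧
      Set.EqOn (f i) (g i) (ball ζ δ ∩ ball a r)) :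
    ∃ r' > r, ∃ F : A → ℂ → ℂ, ∀ i, MeromorphicNFOn (F i) (ball a r') ∧
      Set.EqOn (f i) (F i) (ball a r) := by
  obtain ⟨r', h, F, h1, h2⟩ := ext_gen (α := A → ℂ)
    (fun z E => ∀ i, MeromorphicNFAt (fun y => E y i) z)
    (fun z E E' e p i => (meromorphicNFAt_congr (e.mono fun y k => congrFun k i)).1 (p i))
    (fun W _ c E E' p p' ⟨z, hz, e⟩ y hy => funext fun i =>
      nf_ident c.isPreconnected (fun x hx => p x hx i) (fun x hx => p' x hx i) hz
        ((e.mono fun y k => congrFun k i).filter_mono nhdsWithin_le_nhds) hy)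
    hr (E := fun z i => f i z) (fun z hz i => hf i hz) fun ζ h => by
      obtain ⟨δ, d, g, k⟩ := hb ζ h
      exact ⟨δ, d, fun z i => g i z, fun z hz i => (k i).1 hz,
        fun z hz => funext fun i => (k i).2 hz⟩
  exact ⟨r', h, fun i z => F z i, fun i => ⟨fun z hz => h1 z hz i, fun z hz => congrFun (h2 hz) i⟩⟩

/-! ## variants -/

/-- **MAJ**, inequality form -/
theorem maj_le {ι : Type*} [Finite ι] (V : ι → ℂ⟦X⟧) (P : ι → MvPolynomial ι ℂ)
    (h : ∀ i n, ‖coeff (n + 1) (V i)‖ ≤ ‖coeff n (MvPolynomial.aeval V (P i))‖) :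
    ∃ c : ℝ, 0 < c ∧ ∀ i n, ‖coeff n (V i)‖ ≤ c ^ (n + 1) := by
  obtain ⟨c, hc⟩ := (Set.finite_range fun i => ‖coeff 0 (V i)‖).bddAbove
  choose B b0 hB using fun i => tn_aeval (P i) (M := |c| + 1) (by positivity)
  obtain ⟨A, hA⟩ := (Set.finite_range B).bddAbove
  have a0 : 0 < |A| + 1 := by positivity
  have r0 := inv_pos.2 a0
  have k : ∀ n i, tn (|A| + 1)⁻¹ n (V i) ≤ |c| + 1 := fun n => by
    induction n with
    | zero =>
      intro i
      have := (hc ⟨i, rfl⟩).trans (le_abs_self c)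
      simp only [tn, zero_add, Finset.sum_range_one, pow_zero, mul_one]
      linarith
    | succ n ih =>
      intro i
      have h1 := (hB i _ r0.le n V ih).trans ((hA ⟨i, rfl⟩).trans (le_abs_self A))
      have h2 : ∑ k ∈ Finset.range (n + 1), ‖coeff (k + 1) (V i)‖ * (|A| + 1)⁻¹ ^ (k + 1) ≤
          (|A| + 1)⁻¹ * tn (|A| + 1)⁻¹ n (MvPolynomial.aeval V (P i)) := by
        rw [tn, Finset.mul_sum]
        refine Finset.sum_le_sum fun k _ => ?_
        rw [pow_succ', mul_left_comm]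
        gcongr
        exact h i k
      rw [tn, Finset.sum_range_succ', add_comm, pow_zero, mul_one]
      refine add_le_add ((hc ⟨i, rfl⟩).trans (le_abs_self c)) (h2.trans ?_)
      rw [inv_mul_le_iff₀ a0, mul_one]
      linarith
  refine ⟨|c| + 1 + (|A| + 1), by positivity, fun i n => ?_⟩
  have l := (Finset.single_le_sum (f := fun k => ‖coeff k (V i)‖ * (|A| + 1)⁻¹ ^ k)
    (fun _ _ => by positivity) (Finset.self_mem_range_succ n)).trans (k n i)
  rw [inv_pow, mul_inv_le_iff₀ (by positivity)] at l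
  rw [pow_succ']
  refine l.trans ?_
  have : 0 ≤ |c| + 1 := by positivity
  exact mul_le_mul (by linarith) (pow_le_pow_left₀ a0.le (by linarith) n) (by positivity)
    (by positivity)

/-- geometric bounds give convergence -/
theorem ball_of_le {c : ℝ} (hc : 0 < c) {f : ℂ⟦X⟧} (h : ∀ n, ‖coeff n f‖ ≤ c ^ (n + 1)) :
    HasFPowerSeriesOnBall (psum f) (fms f) 0 (ENNReal.ofReal c⁻¹) := by
  have l : ENNReal.ofReal c⁻¹ ≤ (fms f).radius :=
    (fms f).le_radius_of_bound c (r := c⁻¹.toNNReal) fun n => by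
      rw [fms, FormalMultilinearSeries.ofScalars_norm, Real.coe_toNNReal _ (inv_pos.2 hc).le,
        inv_pow, mul_inv_le_iff₀ (by positivity), ← pow_succ']
      exact h n
  have p : 0 < ENNReal.ofReal c⁻¹ := ENNReal.ofReal_pos.2 (inv_pos.2 hc)
  have := ((fms f).hasFPowerSeriesOnBall (p.trans_le l)).mono p l
  rwa [show (fms f).sum = psum f from funext fun z =>
    FormalMultilinearSeries.ofScalars_sum_eq _ z] at this

/-- **GLUE** -/
theorem glue {ι : Type*} {W : ι → Set ℂ} (hW : ∀ i, IsOpen (W i)) {F : ι → ℂ → ℂ}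
    (hF : ∀ i, MeromorphicOn (F i) (W i))
    (h : ∀ i j, ∀ z ∈ W i, z ∈ W j → F i =ᶠ[𝓝[≠] z] F j) :
    ∃ G : ℂ → ℂ, MeromorphicNFOn G (⋃ i, W i) ∧ ∀ i, ∀ z ∈ W i, G =ᶠ[𝓝[≠] z] F i := by
  classical
  let N : ι → ℂ → ℂ := fun i => toMeromorphicNFOn (F i) (W i)
  have n : ∀ i, MeromorphicNFOn (N i) (W i) := fun i => meromorphicNFOn_toMeromorphicNFOn _ _
  have e : ∀ i, ∀ z ∈ W i, N i =ᶠ[𝓝[≠] z] F i := fun i z hz =>
    (hF i).toMeromorphicNFOn_eq_self_on_nhdsNE hz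
  have a : ∀ i j, ∀ z ∈ W i, z ∈ W j → N i z = N j z := fun i j z hi hj =>
    (((n i hi).eventuallyEq_nhdsNE_iff_eventuallyEq_nhds (n j hj)).1
      ((e i z hi).trans ((h i j z hi hj).trans (e j z hj).symm))).self_of_nhds
  have k : ∀ i, ∀ z ∈ W i,
      (fun y => if m : ∃ j, y ∈ W j then N m.choose y else 0) =ᶠ[𝓝 z] N i := fun i z hz => by
    filter_upwards [(hW i).mem_nhds hz] with y hy
    have m : ∃ j, y ∈ W j := ⟨i, hy⟩
    rw [dif_pos m]
    exact a _ _ y m.choose_spec hy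
  refine ⟨_, fun z hz => ?_, fun i z hz =>
    ((k i z hz).filter_mono nhdsWithin_le_nhds).trans (e i z hz)⟩
  obtain ⟨i, hi⟩ := Set.mem_iUnion.1 hz
  exact (meromorphicNFAt_congr (k i z hi)).2 (n i hi)

/-- **EXT** for germs -/
theorem ext_mero {A : Type*} {a : ℂ} {r : ℝ} (hr : 0 < r) {f : A → ℂ → ℂ}
    (hf : ∀ i, MeromorphicOn (f i) (ball a r))
    (hb : ∀ ζ ∈ sphere a r, ∃ δ > 0, ∃ g : A → ℂ → ℂ, ∀ i, MeromorphicOn (g i) (ball ζ δ) ∧
      ∀ z ∈ ball ζ δ, z ∈ ball a r → f i =ᶠ[𝓝[≠] z] g i) :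
    ∃ r' > r, ∃ F : A → ℂ → ℂ, ∀ i, MeromorphicNFOn (F i) (ball a r') ∧
      ∀ z ∈ ball a r, F i =ᶠ[𝓝[≠] z] f i := by
  obtain ⟨r', h, F, k⟩ := ext_nf hr (f := fun i => toMeromorphicNFOn (f i) (ball a r))
    (fun i => meromorphicNFOn_toMeromorphicNFOn _ _) fun ζ hζ => by
      obtain ⟨δ, d, g, k⟩ := hb ζ hζ
      refine ⟨δ, d, fun i => toMeromorphicNFOn (g i) (ball ζ δ), fun i =>
        ⟨meromorphicNFOn_toMeromorphicNFOn _ _, fun z hz => ?_⟩⟩
      exact (((meromorphicNFOn_toMeromorphicNFOn _ _ hz.2).eventuallyEq_nhdsNE_iff_eventuallyEq_nhds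
        (meromorphicNFOn_toMeromorphicNFOn _ _ hz.1)).1
        (((hf i).toMeromorphicNFOn_eq_self_on_nhdsNE hz.2).trans (((k i).2 z hz.1 hz.2).trans
          ((k i).1.toMeromorphicNFOn_eq_self_on_nhdsNE hz.1).symm))).self_of_nhds
  refine ⟨r', h, F, fun i => ⟨(k i).1, fun z hz => EventuallyEq.trans ?_
    ((hf i).toMeromorphicNFOn_eq_self_on_nhdsNE hz)⟩⟩
  filter_upwards [mem_nhdsWithin_of_mem_nhds (isOpen_ball.mem_nhds hz)] with y hy
  exact ((k i).2 hy).symm

end Vale.Agent.P022K.Sh.Un
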