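import Vale.Agent.P022K.F0.StC
import Vale.Agent.P022K.F0.Cf.Defs

/-!
# P022K, block F0: values, orders, components, gluing of functions on a tower (helper10)
-/

set_option autoImplicit false

open UpperHalfPlane
open scoped MatrixGroups

noncomputable section

namespace Vale.Agent.P022K.Sh

open Vale.Agent.P022 Vale.Agent.P022.H218.L3 Vale.Agent.P022K.F0.Cf

/-! ## values and orders -/

section val

variable {τ : ℍ} {f f' : Mer} {c c' : ℂ} {k k' : ℤ}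

theorem mval_iff : MVal τ f c ↔ Reg τ f ∧ F0.Cf.ev τ f = c := by
  constructor
  · rintro ⟨g, h, h0, e, v⟩
    refine ⟨⟨g, h, h0, e⟩, ?_⟩
    rw [ev_eq h0 e, div_eq_iff h0]
    exact v
  · rintro ⟨⟨g, h, h0, e⟩, v⟩
    refine ⟨g, h, h0, e, ?_⟩
    rwa [ev_eq h0 e, div_eq_iff h0] at v

theorem MVal.unique (h : MVal τ f c) (h' : MVal τ f c') : c = c' :=
  (mval_iff.1 h).2.symm.trans (mval_iff.1 h').2

theorem MVal.const (τ : ℍ) (c : ℂ) : MVal τ (algebraMap ℂ Mer c) c :=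
  mval_iff.2 ⟨reg_const τ c, ev_const τ c⟩

theorem MVal.one (τ : ℍ) : MVal τ 1 1 := by simpa using MVal.const τ 1

theorem MVal.zero (τ : ℍ) : MVal τ 0 0 := by simpa using MVal.const τ 0

theorem MVal.mul (h : MVal τ f c) (h' : MVal τ f' c') : MVal τ (f * f') (c * c') := by
  rw [mval_iff] at *
  exact ⟨h.1.mul h'.1, by rw [ev_mul h.1 h'.1, h.2, h'.2]⟩

theorem MVal.add (h : MVal τ f c) (h' : MVal τ f' c') : MVal τ (f + f') (c + c') := by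
  rw [mval_iff] at *
  exact ⟨h.1.add h'.1, by rw [ev_add h.1 h'.1, h.2, h'.2]⟩

theorem MVal.jm (τ : ℍ) (g : Hol) : MVal τ (algebraMap Hol Mer g) (g.1 τ) :=
  mval_iff.2 ⟨reg_jm τ g, ev_jm τ g⟩

theorem MVal.inv (h : MVal τ f c) (hc : c ≠ 0) : MVal τ f⁻¹ c⁻¹ := by
  obtain ⟨g, h, h0, e, v⟩ := h
  have g0 : g.1 τ ≠ 0 := v ▸ mul_ne_zero hc h0
  have f0 : f ≠ 0 := by
    rintro rfl
    exact jm_ne' g0 (e.symm.trans (zero_mul _))
  refine ⟨h, g, g0, by rw [← e, inv_mul_cancel_left₀ f0], ?_⟩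
  rw [v, inv_mul_cancel_left₀ hc]

theorem MVal.act (h : MVal τ f c) (g : GP) : MVal (g • τ) (actM g f) c := by
  obtain ⟨a, b, h0, e, v⟩ := h
  refine ⟨actH g a, actH g b, ?_, ?_, ?_⟩
  · rwa [actH_apply, inv_smul_smul]
  · rw [← actM_algebraMap, ← actM_algebraMap, ← map_mul, e]
  · rwa [actH_apply, actH_apply, inv_smul_smul]

theorem actM_mul (g h : GP) (f : Mer) : actM (g * h) f = actM g (actM h f) := by
  rw [map_mul]; rfl

theorem mval_act (g : GP) : MVal (g • τ) (actM g f) c ↔ MVal τ f c := ⟨fun h => by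
  have := h.act g⁻¹
  rwa [inv_smul_smul, ← actM_mul, inv_mul_cancel, map_one, AlgEquiv.one_apply] at this,
  fun h => h.act g⟩

theorem om_unit {u : Hol} (h : u.1 τ ≠ 0) : H587.L3.om τ u = 0 := by
  have : analyticOrderAt (u.1 ∘ ofComplex) (τ : ℂ) = 0 :=
    (an u τ).analyticOrderAt_eq_zero.2 (by simpa using h)
  unfold H587.L3.om
  rw [analyticOrderNatAt, this]
  rfl

theorem om_tz (τ : ℍ) : H587.L3.om τ (tz τ) = 1 := by
  have : analyticOrderAt ((tz τ).1 ∘ ofComplex) (τ : ℂ) = (1 : ℕ) := by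
    rw [(an (tz τ) τ).analyticOrderAt_eq_natCast]
    refine ⟨fun _ => 1, analyticAt_const, one_ne_zero, ev_coe.2 (Filter.Eventually.of_forall
      fun σ => ?_)⟩
    simp [tz_val]
  unfold H587.L3.om
  rw [analyticOrderNatAt, this]
  rfl

theorem om_eq_od {g : Hol} (h : g ≠ 0) : (H587.L3.om τ g : ℤ) = od τ (jm g) := by
  obtain ⟨m, u, hu, rfl⟩ := ex_fac τ h
  have t0 : (tz τ).1 ≠ 0 := fun e => jt_ne τ (by
    rw [show tz τ = 0 from Subtype.ext e]; exact map_zero _)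
  have u0 : u.1 ≠ 0 := fun e => hu (congrFun e τ)
  have e : ((tz τ ^ m * u : Hol) : ℍ → ℂ) = (tz τ).1 ^ m * u.1 := rfl
  rw [e, H587.L3.om_mul (Hol.pow_mem (tz τ).2 m) u.2 (H587.L3.pow_ne (tz τ).2 t0 m) u0,
    H587.L3.om_pow (tz τ).2 t0, om_tz, om_unit hu,
    IsOd.eq (m := m) ⟨u, 1, hu, one_ne_zero, by simp⟩]
  simp

theorem mord_iff : MOrd τ f k ↔ f ≠ 0 ∧ od τ f = k := by
  have key : ∀ g h : Hol, g ≠ 0 → h ≠ 0 → f * jm h = jm g →
      f ≠ 0 ∧ od τ f = (H587.L3.om τ g : ℤ) - H587.L3.om τ h := fun g h g0 h0 e => by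
    have f0 : f ≠ 0 := by
      rintro rfl
      exact jm_ne g0 (e.symm.trans (zero_mul _))
    rw [om_eq_od g0, om_eq_od h0, ← e, od_mul τ f0 (jm_ne h0)]
    exact ⟨f0, by ring⟩
  constructor
  · rintro ⟨g, h, g0, h0, e, rfl⟩
    exact key g h g0 h0 e
  · rintro ⟨f0, rfl⟩
    obtain ⟨g, h, h0, e⟩ := ex_frac f
    have g0 : g ≠ 0 := by
      rintro rfl
      exact mul_ne_zero f0 (jm_ne h0) (e.trans (map_zero _))
    exact ⟨g, h, g0, h0, e, (key g h g0 h0 e).2⟩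

theorem MOrd.unique (h : MOrd τ f k) (h' : MOrd τ f k') : k = k' :=
  (mord_iff.1 h).2.symm.trans (mord_iff.1 h').2

theorem MOrd.ne (h : MOrd τ f k) : f ≠ 0 := (mord_iff.1 h).1

theorem mord_od (τ : ℍ) (h : f ≠ 0) : MOrd τ f (od τ f) := mord_iff.2 ⟨h, rfl⟩

theorem MOrd.dvd_pow {n : ℕ} (h : MOrd τ (f ^ n) k) : (n : ℤ) ∣ k :=
  ⟨od τ f, by rw [← (mord_iff.1 h).2, od_pow]⟩

/-- roots -/
theorem ex_root {n : ℕ} (hn : 0 < n) (f0 : f ≠ 0) (h : ∀ τ k, MOrd τ f k → (n : ℤ) ∣ k) :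
    ∃ y : Mer, y ≠ 0 ∧ y ^ n = f :=
  H587.L3.exists_root hn f0 fun a b ha hb a0 b0 e τ => h τ _ ⟨⟨a, ha⟩, ⟨b, hb⟩,
    fun e => a0 (congrArg Subtype.val e), fun e => b0 (congrArg Subtype.val e),
    by rw [e]; exact div_mul_cancel₀ _ (H587.L3.inc_ne hb b0), rfl⟩

/-- the multiplier at a fixed point -/
theorem mval_mu (g : GP) (hg : g • τ = τ) (h : MOrd τ f 1) : MVal τ (actM g⁻¹ f * f⁻¹)
    (((g : GL (Fin 2) ℝ).det.val : ℂ) / denom (g : GL (Fin 2) ℝ) τ ^ 2) := by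
  obtain ⟨f0, h1⟩ := mord_iff.1 h
  obtain ⟨a, b, a0, b0, e⟩ := h1 ▸ isOd τ f0
  rw [zpow_one] at e
  let d : Hol := ⟨fun z => denom (g : GL (Fin 2) ℝ) z, mdifferentiable_denom _⟩
  have d0 := denom_ne_zero (g : GL (Fin 2) ℝ)
  obtain ⟨c, hc⟩ : ∃ c, c = ((g : GL (Fin 2) ℝ).det.val : ℂ) / denom (g : GL (Fin 2) ℝ) τ := ⟨_, rfl⟩
  have e1 : actH g⁻¹ (tz τ) * d = algebraMap ℂ Hol c * tz τ := by
    refine Subtype.ext (funext fun z => ?_)
    show ((((g⁻¹⁻¹ : GP) • z : ℍ) : ℂ) - τ) * denom (g : GL (Fin 2) ℝ) z = c * ((z : ℂ) - τ)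
    have h2 : (τ : ℂ) = num (g : GL (Fin 2) ℝ) τ / denom (g : GL (Fin 2) ℝ) τ := by
      rw [← coe_smul_of_det_pos g.2]
      exact congrArg _ hg.symm
    have h3 : (((g : GP) • z : ℍ) : ℂ) = num (g : GL (Fin 2) ℝ) z / denom (g : GL (Fin 2) ℝ) z :=
      coe_smul_of_det_pos g.2 z
    have d1 := d0 z
    have d2 := d0 τ
    rw [inv_inv, h3, hc]
    nth_rewrite 1 [h2]
    rw [Matrix.GeneralLinearGroup.val_det_apply, Matrix.det_fin_two]
    field_simp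
    simp only [num, denom]
    push_cast
    ring
  have v : ∀ u : Hol, MVal τ (actM g⁻¹ (jm u)) (u.1 τ) := fun u => by
    have := (MVal.jm τ u).act g⁻¹
    rwa [inv_smul_eq_iff.2 hg.symm] at this
  have e2 := congrArg (actM g⁻¹) e
  have e3 := congrArg jm e1
  simp only [jm, map_mul] at e e2 e3
  rw [← actM_algebraMap, ← IsScalarTower.algebraMap_apply] at e3
  have n1 := jm_ne' a0
  have n2 := jm_ne' b0
  have n3 := jt_ne τ
  have n4 : jm d ≠ 0 := jm_ne' (d0 τ)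
  have n5 : actM g⁻¹ (jm b) ≠ 0 := (map_ne_zero _).2 n2
  have e4 : actM g⁻¹ f * f⁻¹ = algebraMap ℂ Mer c * (jm d)⁻¹ * (actM g⁻¹ (jm a) * (jm a)⁻¹) *
      ((actM g⁻¹ (jm b))⁻¹ * jm b) := by
    rw [(eq_div_iff n5).2 e2, (eq_div_iff n4).2 e3]
    nth_rewrite 1 [(eq_div_iff n2).2 e]
    field_simp
  have := (((MVal.const τ c).mul ((MVal.jm τ d).inv (d0 τ))).mul
    ((v a).mul ((MVal.jm τ a).inv a0))).mul (((v b).inv b0).mul (MVal.jm τ b))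
  rw [e4]
  convert this using 1
  have d2 := d0 τ
  rw [hc, mul_inv_cancel₀ a0, inv_mul_cancel₀ b0, mul_one, mul_one]
  show _ = _ * (denom (g : GL (Fin 2) ℝ) τ)⁻¹
  field_simp

end val

/-! ## roots of unity -/

section en

variable {n : ℕ}

theorem en_eq [NeZero n] (k : ZMod n) : en n k = ZMod.toCircle k := (ZMod.toCircle_apply k).symm

theorem en_add (hn : 0 < n) (a b : ZMod n) : en n (a + b) = en n a * en n b := by
  have : NeZero n := ⟨hn.ne'⟩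
  rw [en_eq, en_eq, en_eq, AddChar.map_add_eq_mul, Circle.coe_mul]

theorem en_zero (n : ℕ) : en n 0 = 1 := by simp [en]

theorem en_ne (a : ZMod n) : en n a ≠ 0 := Complex.exp_ne_zero _

theorem en_inj (hn : 0 < n) {a b : ZMod n} (h : en n a = en n b) : a = b := by
  have : NeZero n := ⟨hn.ne'⟩
  rw [en_eq, en_eq] at h
  exact ZMod.injective_toCircle (Circle.ext h)

theorem en_nsmul (hn : 0 < n) (m : ℕ) (a : ZMod n) : en n (m • a) = en n a ^ m := by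
  induction m with
  | zero => rw [zero_smul, en_zero, pow_zero]
  | succ m ih => rw [succ_nsmul, en_add hn, ih, pow_succ]

theorem en_pow (hn : 0 < n) (a : ZMod n) : en n a ^ n = 1 := by
  rw [← en_nsmul hn, nsmul_eq_mul, ZMod.natCast_self, zero_mul, en_zero]

/-- `en` with values in `Mer` -/
def eM (n : ℕ) (a : ZMod n) : Mer := algebraMap ℂ Mer (en n a)

theorem eM_add (hn : 0 < n) (a b : ZMod n) : eM n (a + b) = eM n a * eM n b := by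
  rw [eM, en_add hn, map_mul]; rfl

theorem eM_zero (n : ℕ) : eM n 0 = 1 := by rw [eM, en_zero, map_one]

theorem eM_ne (a : ZMod n) : eM n a ≠ 0 := (map_ne_zero _).2 (en_ne a)

theorem eM_inj (hn : 0 < n) {a b : ZMod n} (h : eM n a = eM n b) : a = b :=
  en_inj hn ((algebraMap ℂ Mer).injective h)

theorem eM_pow (hn : 0 < n) (a : ZMod n) : eM n a ^ n = 1 := by
  rw [eM, ← map_pow, en_pow hn, map_one]

theorem eM_nsmul (hn : 0 < n) (m : ℕ) (a : ZMod n) : eM n (m • a) = eM n a ^ m := by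
  rw [eM, en_nsmul hn, map_pow]; rfl

theorem eM_sum (hn : 0 < n) {I : Type} (s : Finset I) (a : I → ZMod n) :
    eM n (∑ i ∈ s, a i) = ∏ i ∈ s, eM n (a i) := by
  classical
  induction s using Finset.induction_on with
  | empty => rw [Finset.sum_empty, Finset.prod_empty, eM_zero]
  | insert i s hi ih => rw [Finset.sum_insert hi, Finset.prod_insert hi, eM_add hn, ih]

theorem ex_eM (hn : 0 < n) {y : Mer} (h : y ^ n = 1) : ∃ a, y = eM n a := by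
  have h1 : IsPrimitiveRoot (algebraMap ℂ Mer _) n :=
    (Complex.isPrimitiveRoot_exp n hn.ne').map_of_injective (algebraMap ℂ Mer).injective
  have : NeZero n := ⟨hn.ne'⟩
  obtain ⟨i, -, hi⟩ := h1.eq_pow_of_pow_eq_one h
  refine ⟨(i : ZMod n), ?_⟩
  rw [← hi, eM, en_eq, ZMod.toCircle_natCast, ← map_pow, ← Complex.exp_nat_mul]
  congr 2
  ring

end en

/-! ## functions on the tower -/

variable {G0 G0' G : Type} [Group G0] [Group G0'] [Group G]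

namespace Tw

variable {T : Tw G0 G} {T' : Tw G0' G} {U U' : Subgroup G} {x y z : G} {φ ψ : G → Mer}

theorem act_mul (γ δ : G0) (f : Mer) : T.act (γ * δ) f = T.act γ (T.act δ f) := by
  rw [map_mul]; rfl

theorem act_one (f : Mer) : T.act 1 f = f := by
  rw [map_one]; rfl

theorem act_eM (γ : G0) (n : ℕ) (a : ZMod n) : T.act γ (eM n a) = eM n a := (T.act γ).commutes _

theorem mem_Z0 {γ : G0} : γ ∈ T.Z0 ↔ ∀ τ : ℍ, T.r γ • τ = τ :=
  ⟨fun h τ => congrArg (fun e : Equiv.Perm ℍ => e τ) (MonoidHom.mem_ker.1 h),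
    fun h => MonoidHom.mem_ker.2 (Equiv.ext h)⟩

theorem act_Z0 {γ : G0} (h : γ ∈ T.Z0) (f : Mer) : T.act γ f = f := by
  have key : ∀ a : Hol, T.act γ (jm a) = jm a := fun a => by
    refine (actM_algebraMap _ _).trans (congrArg jm (Subtype.ext (funext fun τ => ?_)))
    rw [actH_apply, ← map_inv, mem_Z0.1 (inv_mem h)]
  obtain ⟨a, b, b0, e⟩ := ex_frac f
  refine mul_right_cancel₀ (jm_ne b0) ?_
  rw [e, ← key a, ← e, map_mul, key]

theorem mval_act {τ : ℍ} {f : Mer} {c : ℂ} (γ : G0) :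
    MVal (T.r γ • τ) (T.act γ f) c ↔ MVal τ f c := Sh.mval_act _

theorem Z_le (hU : U ∈ T.Lev) : T.Z ≤ U := sInf_le hU

theorem Ok.com (h : T.Ok) (hz : z ∈ T.Z) (x : G) : x * z = z * x :=
  Subgroup.mem_center_iff.1 (h.zc hz) x

theorem mem_RU : φ ∈ T.RU U ↔ Inv U φ ∧ ∀ γ x, T.act γ (φ ((T.j γ)⁻¹ * x)) = φ x :=
  ⟨fun h => ⟨h.2, fun γ x => by rw [← h.1, mul_inv_cancel_left]⟩,
    fun h => ⟨fun γ x => by rw [← h.2 γ, inv_mul_cancel_left], h.1⟩⟩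

theorem RU_val (h : φ ∈ T.RU U) (γ : G0) (x : G) {u : G} (hu : u ∈ U) :
    φ (T.j γ * x * u) = T.act γ (φ x) := by rw [h.2 _ u hu, h.1]

theorem RU_mono (h : U ≤ U') : T.RU U' ≤ T.RU U :=
  fun _ hφ => ⟨hφ.1, fun x u hu => hφ.2 x u (h hu)⟩

theorem RU_rt (h : φ ∈ T.RU U) (g : G) : rt g φ ∈ T.RU (cj g U) :=
  ⟨fun γ x => by rw [rt, rt, mul_assoc, h.1], fun x u hu => by
    rw [rt, rt, ← h.2 (x * g) _ (mem_cj.1 hu)]
    congr 1
    group⟩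

theorem RU_inv (h : φ ∈ T.RU U) : φ⁻¹ ∈ T.RU U :=
  ⟨fun γ x => by rw [Pi.inv_apply, Pi.inv_apply, h.1, map_inv₀],
    fun x u hu => by rw [Pi.inv_apply, Pi.inv_apply, h.2 x u hu]⟩

theorem RU_KF (h : φ ∈ T.RU U) (x : G) : φ x ∈ T.KF (T.Gam U x) := T.mem_KF.2 fun γ hγ => by
  rw [← RU_val h γ x (one_mem U), ← h.2 x _ (T.mem_Gam.1 hγ)]
  congr 1
  group

variable (T) in
/-- the same component in level `U` -/
def Rel (U : Subgroup G) (x y : G) : Prop := ∃ γ, ∃ u ∈ U, y = T.j γ * x * u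

theorem Rel.refl (x : G) : T.Rel U x x := ⟨1, 1, one_mem U, by simp⟩

theorem Rel.symm (h : T.Rel U x y) : T.Rel U y x := by
  obtain ⟨γ, u, hu, rfl⟩ := h
  exact ⟨γ⁻¹, u⁻¹, inv_mem hu, by rw [map_inv]; group⟩

theorem Rel.trans (h : T.Rel U x y) (h' : T.Rel U y z) : T.Rel U x z := by
  obtain ⟨γ, u, hu, rfl⟩ := h
  obtain ⟨δ, v, hv, rfl⟩ := h'
  exact ⟨δ * γ, u * v, mul_mem hu hv, by rw [map_mul]; group⟩

theorem rel_left (γ : G0) (x : G) : T.Rel U x ((T.j γ)⁻¹ * x) :=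
  ⟨γ⁻¹, 1, one_mem U, by rw [map_inv, mul_one]⟩

theorem rel_right (x : G) {u : G} (hu : u ∈ U) : T.Rel U x (x * u) := ⟨1, u, hu, by simp⟩

theorem RU_ext (h : φ ∈ T.RU U) (h' : ψ ∈ T.RU U) (e : φ x = ψ x) (r : T.Rel U x y) :
    φ y = ψ y := by
  obtain ⟨γ, u, hu, rfl⟩ := r
  rw [RU_val h γ x hu, RU_val h' γ x hu, e]

theorem RU_zero (h : φ ∈ T.RU U) (r : T.Rel U x y) : φ y = 0 ↔ φ x = 0 :=
  ⟨fun e => RU_ext h (zero_mem _) e r.symm, fun e => RU_ext h (zero_mem _) e r⟩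

variable (T) in
/-- the chosen representative of the component -/
def rp (U : Subgroup G) (x : G) : G := Classical.epsilon (T.Rel U x)

theorem rel_rp (x : G) : T.Rel U x (T.rp U x) := Classical.epsilon_spec ⟨x, Rel.refl x⟩

theorem rp_eq (h : T.Rel U x y) : T.rp U x = T.rp U y :=
  congrArg Classical.epsilon (funext fun _ => propext ⟨h.symm.trans, h.trans⟩)

theorem Ok.fin_rp (h : T.Ok) (hU : U ∈ T.Lev) : (Set.range (T.rp U)).Finite := by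
  obtain ⟨S, hS⟩ := h.fin U hU
  refine (S.finite_toSet.image (T.rp U)).subset ?_
  rintro _ ⟨x, rfl⟩
  obtain ⟨s, hs, r⟩ := hS x
  exact ⟨s, hs, rp_eq r⟩

variable (T) in
/-- `h` is a section of level `U` for the factor `c` -/
def Sec (U : Subgroup G) (c : G0 → G → ℂ) (h : G → Mer) : Prop :=
  Inv U h ∧ ∀ γ x, T.act γ (h ((T.j γ)⁻¹ * x)) = algebraMap ℂ Mer (c γ x) * h x

section glue

variable {c : G0 → G → ℂ} (c0 : ∀ γ x, c γ x ≠ 0) (cU : ∀ γ, Inv U (c γ))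
  (cm : ∀ γ δ x, c (γ * δ) x = c γ x * c δ ((T.j γ)⁻¹ * x))

include c0 cU cm

/-- extension from one component -/
theorem ex_one (x : G) {f : Mer}
    (hf : ∀ γ ∈ T.Gam U x, T.act γ f = algebraMap ℂ Mer (c γ x) * f) :
    ∃ h, T.Sec U c h ∧ h x = f ∧ ∀ y, ¬ T.Rel U x y → h y = 0 := by
  classical
  let h : G → Mer := fun y => if r : T.Rel U x y then
    algebraMap ℂ Mer (c r.choose y)⁻¹ * T.act r.choose f else 0
  have key : ∀ γ, ∀ u ∈ U, ∀ y, y = T.j γ * x * u →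
      h y = algebraMap ℂ Mer (c γ y)⁻¹ * T.act γ f := fun γ u hu y e => by
    have r : T.Rel U x y := ⟨γ, u, hu, e⟩
    have e0 : h y = algebraMap ℂ Mer (c r.choose y)⁻¹ * T.act r.choose f := dif_pos r
    obtain ⟨v, hv, e1⟩ := r.choose_spec
    generalize r.choose = δ at e0 e1
    obtain ⟨ε, rfl⟩ : ∃ ε, δ = γ * ε := ⟨γ⁻¹ * δ, by group⟩
    have m : ε ∈ T.Gam U x := T.mem_Gam.2 (by
      have : x⁻¹ * T.j ε * x = u * v⁻¹ := by
        rw [map_mul, e] at e1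
        rw [eq_mul_inv_iff_mul_eq, ← mul_left_cancel_iff (a := T.j γ * x), e1]
        group
      exact this ▸ mul_mem hu (inv_mem hv))
    have e2 : c ε ((T.j γ)⁻¹ * y) = c ε x := by
      rw [e, mul_assoc, inv_mul_cancel_left, cU ε x u hu]
    rw [e0, act_mul, hf ε m, map_mul, AlgEquiv.commutes, cm, e2, ← mul_assoc, ← map_mul, mul_inv,
      inv_mul_cancel_right₀ (c0 ε x)]
  have c1 : ∀ y, c 1 y = 1 := fun y => by
    have := cm 1 1 y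
    rw [mul_one, map_one, inv_one, one_mul] at this
    exact (mul_eq_left₀ (c0 1 y)).1 this.symm
  have z : ∀ y, ¬ T.Rel U x y → h y = 0 := fun y r => dif_neg r
  refine ⟨h, ⟨fun y u hu => ?_, fun γ y => ?_⟩, ?_, z⟩
  · by_cases r : T.Rel U x y
    · obtain ⟨γ, v, hv, e⟩ := r
      rw [key γ v hv y e, key γ (v * u) (mul_mem hv hu) _ (by rw [e, mul_assoc]), cU γ y u hu]
    · rw [z y r, z _ fun r' => r (r'.trans (rel_right y hu).symm)]
  · by_cases r : T.Rel U x y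
    · obtain ⟨δ, v, hv, e⟩ := r
      obtain ⟨ε, rfl⟩ : ∃ ε, δ = γ * ε := ⟨γ⁻¹ * δ, by group⟩
      rw [key _ v hv y e, key ε v hv _ (by rw [e, map_mul]; group), map_mul, AlgEquiv.commutes,
        act_mul, cm, ← mul_assoc, ← map_mul, mul_inv, mul_inv_cancel_left₀ (c0 γ y)]
    · rw [z y r, z _ fun r' => r (r'.trans (rel_left γ y).symm), map_zero, mul_zero]
  · rw [key 1 1 (one_mem U) x (by simp), c1, act_one]
    simp

/-- gluing along all components -/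
theorem ex_all {f : G → Mer}
    (hf : ∀ x, ∀ γ ∈ T.Gam U x, T.act γ (f x) = algebraMap ℂ Mer (c γ x) * f x) :
    ∃ h, T.Sec U c h ∧ ∀ x, h (T.rp U x) = f (T.rp U x) := by
  choose H h1 h2 _ using fun x => ex_one c0 cU cm x (hf x)
  refine ⟨fun y => H (T.rp U y) y, ⟨fun y u hu => ?_, fun γ y => ?_⟩, fun x => ?_⟩
  · beta_reduce
    rw [← rp_eq (rel_right y hu), (h1 _).1 y u hu]
  · beta_reduce
    rw [← rp_eq (rel_left γ y), (h1 _).2]
  · beta_reduce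
    rw [← rp_eq (rel_rp x), h2]

end glue

theorem sec_one : T.Sec U (fun _ _ => 1) φ ↔ φ ∈ T.RU U := by
  simp only [Sec, map_one, one_mul, mem_RU]

theorem ex_RU (x : G) {f : Mer} (hf : f ∈ T.KF (T.Gam U x)) :
    ∃ φ ∈ T.RU U, φ x = f ∧ ∀ y, ¬ T.Rel U x y → φ y = 0 := by
  obtain ⟨h, h1, h2⟩ := ex_one (T := T) (U := U) (c := fun _ _ => 1) (fun _ _ => one_ne_zero)
    (fun _ _ _ _ => rfl) (fun _ _ _ => (mul_one _).symm) x (f := f)
    fun γ hγ => by rw [T.mem_KF.1 hf γ hγ, map_one, one_mul]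
  exact ⟨h, sec_one.1 h1, h2⟩

theorem ex_RU_all {f : G → Mer} (hf : ∀ x, f x ∈ T.KF (T.Gam U x)) :
    ∃ φ ∈ T.RU U, ∀ x, φ (T.rp U x) = f (T.rp U x) := by
  obtain ⟨h, h1, h2⟩ := ex_all (T := T) (U := U) (c := fun _ _ => 1) (fun _ _ => one_ne_zero)
    (fun _ _ _ _ => rfl) (fun _ _ _ => (mul_one _).symm) (f := f)
    fun x γ hγ => by rw [T.mem_KF.1 (hf x) γ hγ, map_one, one_mul]
  exact ⟨h, sec_one.1 h1, h2⟩

theorem RU_ext_rp (h : φ ∈ T.RU U) (h' : ψ ∈ T.RU U)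
    (e : ∀ x, φ (T.rp U x) = ψ (T.rp U x)) : φ = ψ :=
  funext fun x => RU_ext h h' (e x) (rel_rp x).symm

/-- the characteristic function of a component -/
theorem ex_ind (U : Subgroup G) (x : G) : ∃ e ∈ T.RU U, (∀ y, T.Rel U x y → e y = 1) ∧
    ∀ y, ¬ T.Rel U x y → e y = 0 := by
  obtain ⟨e, h1, h2, h3⟩ := ex_RU (T := T) (U := U) x (one_mem _)
  exact ⟨e, h1, fun y r => RU_ext h1 (one_mem _) h2 r, h3⟩

variable (T) in
/-- restriction to a component -/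
def evK (U : Subgroup G) (x : G) : T.RU U →+* T.KF (T.Gam U x) where
  toFun φ := ⟨φ.1 x, RU_KF φ.2 x⟩
  map_one' := rfl
  map_mul' _ _ := rfl
  map_zero' := rfl
  map_add' _ _ := rfl

theorem evK_surj (U : Subgroup G) (x : G) : Function.Surjective (T.evK U x) := fun f => by
  obtain ⟨φ, h1, h2, -⟩ := ex_RU x f.2
  exact ⟨⟨φ, h1⟩, Subtype.ext h2⟩

theorem Neat.fr (h : T.Neat U) (x : G) : T.Fr (T.Gam U x) := h x

theorem Neat.mono (h : T.Neat U) (le : U' ≤ U) : T.Neat U' :=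
  fun x γ hγ => h x γ (T.mem_Gam.2 (le (T.mem_Gam.1 hγ)))

/-! ## homomorphisms of towers -/

variable {σ : ℂ ≃+* ℂ} {θ : (G → Mer) → G → Mer}

theorem is_iff : T.Is T σ θ ↔ T.Sl σ θ :=
  ⟨fun h => ⟨h.1.mem, h.2, h.1.add, h.1.mul, h.1.cst, h.1.eqv⟩,
    fun h => ⟨⟨rfl, h.mem, h.add, h.mul, h.cst, h.eqv⟩, h.bij⟩⟩

theorem Sl.is (h : T.Sl σ θ) : T.Is T σ θ := is_iff.2 h

theorem Sl.em (h : T.Sl σ θ) : T.Em T σ θ := h.is.1

theorem Em.one (h : T.Em T' σ θ) : θ 1 = 1 := by simpa using h.cst 1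

theorem Em.zero (h : T.Em T' σ θ) : θ 0 = 0 := by simpa using h.cst 0

theorem Em.Z_eq (h : T.Em T' σ θ) : T'.Z = T.Z := congrArg sInf h.lev

/-- the ring homomorphism in level `U` -/
def Em.hom (h : T.Em T' σ θ) (hU : U ∈ T.Lev) : T.RU U →+* T'.RU U where
  toFun φ := ⟨θ φ.1, h.mem U hU _ φ.2⟩
  map_one' := Subtype.ext h.one
  map_mul' φ ψ := Subtype.ext (h.mul U hU _ φ.2 _ ψ.2)
  map_zero' := Subtype.ext h.zero
  map_add' φ ψ := Subtype.ext (h.add U hU _ φ.2 _ ψ.2)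

theorem Em.pow (h : T.Em T' σ θ) (hU : U ∈ T.Lev) (hφ : φ ∈ T.RU U) (n : ℕ) :
    θ (φ ^ n) = θ φ ^ n := by
  have := map_pow (h.hom hU) ⟨φ, hφ⟩ n
  exact congrArg Subtype.val this

theorem Em.prod (h : T.Em T' σ θ) (hU : U ∈ T.Lev) {I : Type} (s : Finset I) {f : I → G → Mer}
    (hf : ∀ i ∈ s, f i ∈ T.RU U) : θ (∏ i ∈ s, f i) = ∏ i ∈ s, θ (f i) := by
  classical
  induction s using Finset.induction_on with
  | empty => rw [Finset.prod_empty, Finset.prod_empty, h.one]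
  | insert i s hi ih =>
    have h1 := fun k hk => hf k (Finset.mem_insert_of_mem hk)
    rw [Finset.prod_insert hi, Finset.prod_insert hi, h.mul U hU _ (hf i (Finset.mem_insert_self _ _))
      _ (prod_mem h1), ih h1]

/-- products of functions of different levels -/
theorem Em.prod' (h : T.Em T' σ θ) (ok : T.Ok) {I : Type} (s : Finset I) {f : I → G → Mer}
    (hf : ∀ i ∈ s, ∃ U ∈ T.Lev, f i ∈ T.RU U) : θ (∏ i ∈ s, f i) = ∏ i ∈ s, θ (f i) := by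
  classical
  have : ∃ U ∈ T.Lev, ∀ i ∈ s, f i ∈ T.RU U := by
    induction s using Finset.induction_on with
    | empty => exact ok.neat.imp fun U hU => ⟨hU.1, by simp⟩
    | insert i s hi ih =>
      obtain ⟨U, hU, h1⟩ := ih fun k hk => hf k (Finset.mem_insert_of_mem hk)
      obtain ⟨V, hV, h2⟩ := hf i (Finset.mem_insert_self _ _)
      exact ⟨U ⊓ V, ok.inf U hU V hV, Finset.forall_mem_insert _ _ _ |>.2
        ⟨RU_mono inf_le_right h2, fun k hk => RU_mono inf_le_left (h1 k hk)⟩⟩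
  obtain ⟨U, hU, h1⟩ := this
  exact h.prod hU s h1

/-- nowhere vanishing functions go to nowhere vanishing functions -/
theorem Em.ne (h : T.Em T' σ θ) (hU : U ∈ T.Lev) (hφ : φ ∈ T.RU U) (h0 : ∀ x, φ x ≠ 0) (x : G) :
    θ φ x ≠ 0 := by
  have e : φ * φ⁻¹ = 1 := funext fun x => mul_inv_cancel₀ (h0 x)
  have := congrFun (h.mul U hU _ hφ _ (RU_inv hφ)) x
  rw [e, h.one] at this
  exact left_ne_zero_of_mul_eq_one this.symm

/-- the homomorphism of the function fields of two components -/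
theorem Em.ex_hom (h : T.Em T' σ θ) (hU : U ∈ T.Lev) {x x' : G}
    (hx : ∀ φ ∈ T.RU U, φ x = 0 → θ φ x' = 0) :
    ∃ s : T.KF (T.Gam U x) →+* T'.KF (T'.Gam U x'), (∀ c, s (algebraMap ℂ _ c) =
      algebraMap ℂ _ (σ c)) ∧ ∀ φ (hφ : φ ∈ T.RU U), (s ⟨φ x, RU_KF hφ x⟩ : Mer) = θ φ x' := by
  let s := (T.evK U x).liftOfSurjective (evK_surj U x) ⟨(T'.evK U x').comp (h.hom hU),
    fun φ hφ => Subtype.ext (hx _ φ.2 (congrArg Subtype.val (RingHom.mem_ker.1 hφ)))⟩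
  have hs : ∀ φ (hφ : φ ∈ T.RU U), (s ⟨φ x, RU_KF hφ x⟩ : Mer) = θ φ x' := fun φ hφ =>
    congrArg Subtype.val (RingHom.liftOfRightInverse_comp_apply _ _ _ _ (⟨φ, hφ⟩ : T.RU U))
  refine ⟨s, fun c => Subtype.ext ((hs _ (algebraMap_mem _ c)).trans ?_), hs⟩
  exact congrFun (h.cst c) x'

/-- the isomorphism of the function fields of two components -/
theorem Is.ex_equiv (h : T.Is T' σ θ) (hU : U ∈ T.Lev) {x x' : G}
    (hx : ∀ φ ∈ T.RU U, φ x = 0 → θ φ x' = 0) :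
    ∃ s : T.KF (T.Gam U x) ≃+* T'.KF (T'.Gam U x'), (∀ c, s (algebraMap ℂ _ c) =
      algebraMap ℂ _ (σ c)) ∧ ∀ φ (hφ : φ ∈ T.RU U), (s ⟨φ x, RU_KF hφ x⟩ : Mer) = θ φ x' := by
  obtain ⟨s, h1, h2⟩ := h.1.ex_hom hU hx
  refine ⟨RingEquiv.ofBijective s ⟨s.injective, fun f => ?_⟩, h1, h2⟩
  obtain ⟨ψ, rfl⟩ := evK_surj U x' f
  obtain ⟨φ, hφ, e⟩ := (h.2 U hU).surjOn ψ.2
  exact ⟨_, Subtype.ext ((h2 φ hφ).trans (congrFun e x'))⟩

/-- the component of `x'` lies over the component of `x` -/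
theorem Em.ker_of_ind (h : T.Em T' σ θ) (hU : U ∈ T.Lev) {x x' : G} {e : G → Mer}
    (he : e ∈ T.RU U) (e0 : ∀ y, ¬ T.Rel U x y → e y = 0) (e1 : θ e x' ≠ 0) :
    ∀ φ ∈ T.RU U, φ x = 0 → θ φ x' = 0 := fun φ hφ h0 => by
  have e : φ * e = 0 := funext fun y => by
    by_cases r : T.Rel U x y
    · exact mul_eq_zero_of_left ((RU_zero hφ r).2 h0) _
    · exact mul_eq_zero_of_right _ (e0 y r)
  have := congrFun (h.mul U hU _ hφ _ he) x'
  rw [e, h.zero] at this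
  exact (mul_eq_zero.1 this.symm).resolve_right e1

/-- every component has an image -/
theorem Is.ex_comp (h : T.Is T' σ θ) (hU : U ∈ T.Lev) (x : G) :
    ∃ x', ∀ φ ∈ T.RU U, φ x = 0 → θ φ x' = 0 := by
  obtain ⟨e, h1, h2, h3⟩ := ex_ind (T := T) U x
  have : θ e ≠ 0 := fun e0 => one_ne_zero ((h2 x (Rel.refl x)).symm.trans
    (congrFun ((h.2 U hU).injOn h1 (zero_mem _) (e0.trans h.1.zero.symm)) x))
  obtain ⟨x', hx⟩ := Function.ne_iff.1 this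
  exact ⟨x', h.1.ker_of_ind hU h1 h3 hx⟩

theorem Em.comp {G1 : Type} [Group G1] {T1 : Tw G1 G} {σ' : ℂ ≃+* ℂ} {θ' : (G → Mer) → G → Mer}
    (h : T.Em T' σ θ) (h' : T'.Em T1 σ' θ') : T.Em T1 (σ.trans σ') (θ' ∘ θ) where
  lev := h'.lev.trans h.lev
  mem U hU φ hφ := h'.mem U (h.lev ▸ hU) _ (h.mem U hU φ hφ)
  add U hU φ hφ ψ hψ := (congrArg θ' (h.add U hU φ hφ ψ hψ)).trans
    (h'.add U (h.lev ▸ hU) _ (h.mem U hU φ hφ) _ (h.mem U hU ψ hψ))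
  mul U hU φ hφ ψ hψ := (congrArg θ' (h.mul U hU φ hφ ψ hψ)).trans
    (h'.mul U (h.lev ▸ hU) _ (h.mem U hU φ hφ) _ (h.mem U hU ψ hψ))
  cst c := (congrArg θ' (h.cst c)).trans (h'.cst _)
  eqv U hU φ hφ g := (congrArg θ' (h.eqv U hU φ hφ g)).trans
    (h'.eqv U (h.lev ▸ hU) _ (h.mem U hU φ hφ) g)

theorem Is.comp {G1 : Type} [Group G1] {T1 : Tw G1 G} {σ' : ℂ ≃+* ℂ} {θ' : (G → Mer) → G → Mer}
    (h : T.Is T' σ θ) (h' : T'.Is T1 σ' θ') : T.Is T1 (σ.trans σ') (θ' ∘ θ) :=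
  ⟨h.1.comp h'.1, fun U hU => (h'.2 U (h.1.lev ▸ hU)).comp (h.2 U hU)⟩

theorem Sl.comp {σ' : ℂ ≃+* ℂ} {θ' : (G → Mer) → G → Mer} (h : T.Sl σ θ) (h' : T.Sl σ' θ') :
    T.Sl (σ'.trans σ) (θ ∘ θ') := is_iff.1 (h'.is.comp h.is)

theorem sl_id : T.Sl (RingEquiv.refl ℂ) id :=
  ⟨fun _ _ _ h => h, fun _ _ => Set.bijOn_id _, fun _ _ _ _ _ _ => rfl, fun _ _ _ _ _ _ => rfl,
    fun _ => rfl, fun _ _ _ _ _ => rfl⟩

/-- the inverse of an isomorphism -/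
theorem Is.ex_inv (h : T.Is T' σ θ) (ok : T.Ok) : ∃ θ', T'.Is T σ.symm θ' ∧
    (∀ U ∈ T.Lev, ∀ φ ∈ T.RU U, θ' (θ φ) = φ) ∧ ∀ U ∈ T.Lev, ∀ ψ ∈ T'.RU U, θ (θ' ψ) = ψ := by
  let R : Set (G → Mer) := {φ | ∃ U ∈ T.Lev, φ ∈ T.RU U}
  have inj : Set.InjOn θ R := by
    rintro φ ⟨U, hU, hφ⟩ ψ ⟨V, hV, hψ⟩ e
    exact (h.2 _ (ok.inf U hU V hV)).injOn (RU_mono inf_le_left hφ) (RU_mono inf_le_right hψ) e
  have li : ∀ U ∈ T.Lev, ∀ φ ∈ T.RU U, Function.invFunOn θ R (θ φ) = φ :=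
    fun U hU φ hφ => inj.leftInvOn_invFunOn ⟨U, hU, hφ⟩
  have su : ∀ U ∈ T'.Lev, ∀ ψ ∈ T'.RU U, ∃ φ ∈ T.RU U, θ φ = ψ :=
    fun U hU ψ hψ => (h.2 U (h.1.lev ▸ hU)).surjOn hψ
  have hl : ∀ {U}, U ∈ T'.Lev → U ∈ T.Lev := fun hU => h.1.lev ▸ hU
  have ri : ∀ U ∈ T.Lev, ∀ ψ ∈ T'.RU U, θ (Function.invFunOn θ R ψ) = ψ := fun U hU ψ hψ => by
    obtain ⟨φ, hφ, rfl⟩ := su U (h.1.lev ▸ hU) ψ hψ
    rw [li U hU φ hφ]
  have me : ∀ U ∈ T'.Lev, ∀ ψ ∈ T'.RU U, Function.invFunOn θ R ψ ∈ T.RU U := fun U hU ψ hψ => by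
    obtain ⟨φ, hφ, rfl⟩ := su U hU ψ hψ
    rwa [li U (hl hU) φ hφ]
  refine ⟨Function.invFunOn θ R, ⟨⟨h.1.lev.symm, me, fun U hU ψ hψ ψ' hψ' => ?_,
    fun U hU ψ hψ ψ' hψ' => ?_, fun c => ?_, fun U hU ψ hψ g => ?_⟩, fun U hU =>
    Set.InvOn.bijOn (f' := θ) ⟨ri U (hl hU), li U (hl hU)⟩ (me U hU) (h.1.mem U (hl hU))⟩, li, ri⟩
  · obtain ⟨φ, hφ, rfl⟩ := su U hU ψ hψ
    obtain ⟨φ', hφ', rfl⟩ := su U hU ψ' hψ'
    rw [← h.1.add U (hl hU) φ hφ φ' hφ', li U (hl hU) _ hφ, li U (hl hU) _ hφ',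
      li U (hl hU) _ (add_mem hφ hφ')]
  · obtain ⟨φ, hφ, rfl⟩ := su U hU ψ hψ
    obtain ⟨φ', hφ', rfl⟩ := su U hU ψ' hψ'
    rw [← h.1.mul U (hl hU) φ hφ φ' hφ', li U (hl hU) _ hφ, li U (hl hU) _ hφ',
      li U (hl hU) _ (mul_mem hφ hφ')]
  · obtain ⟨U, hU, -⟩ := ok.neat
    have := li U hU _ (algebraMap_mem (T.RU U) (σ.symm c))
    rwa [h.1.cst, σ.apply_symm_apply] at this
  · obtain ⟨φ, hφ, rfl⟩ := su U hU ψ hψ
    rw [← h.1.eqv U (hl hU) φ hφ, li U (hl hU) _ hφ, li _ (ok.conj U (hl hU) g) _ (RU_rt hφ g)]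

end Tw

end Vale.Agent.P022K.Sh
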