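import Vale.Agent.P022K.F0.Defs

/-!
# P022K, block F0: weights, eigenclasses and types on a tower (definitions)
-/

set_option autoImplicit false

open Polynomial
open scoped MatrixGroups

noncomputable section

namespace Vale.Agent.P022K.Sh

section sym

variable {R : Type} [CommRing R]

/-- the polynomial `(a X + b) ^ j (c X + d) ^ (w - j)` -/
def mon (w : ℕ) (A : Matrix (Fin 2) (Fin 2) R) (j : ℕ) : R[X] :=
  (C (A 0 0) * X + C (A 0 1)) ^ j * (C (A 1 0) * X + C (A 1 1)) ^ (w - j)

variable {S : Type} [CommRing S] [Algebra R S]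

/-- the value of the form of degree `w` attached to a polynomial -/
def hm (w : ℕ) (f : R[X]) (x y : S) : S :=
  ∑ k ∈ Finset.range (w + 1), algebraMap R S (f.coeff k) * (x ^ k * y ^ (w - k))

theorem hm_lin_mul (w : ℕ) (f : R[X]) (hf : f.natDegree ≤ w) (a b : R) (x y : S) :
    hm (w + 1) ((C a * X + C b) * f) x y =
      (algebraMap R S a * x + algebraMap R S b * y) * hm w f x y := by
  have h1 : hm (w + 1) (C a * X * f) x y = algebraMap R S a * x * hm w f x y := by
    rw [hm, hm, Finset.sum_range_succ', mul_assoc (C a), Finset.mul_sum]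
    simp only [coeff_C_mul, coeff_X_mul, mul_coeff_zero, coeff_X_zero, zero_mul, mul_zero,
      map_zero, add_zero, map_mul]
    refine Finset.sum_congr rfl fun k _ => ?_
    rw [show w + 1 - (k + 1) = w - k by omega]
    ring
  have h2 : hm (w + 1) (C b * f) x y = algebraMap R S b * y * hm w f x y := by
    rw [hm, hm, Finset.sum_range_succ, Finset.mul_sum]
    have h0 : f.coeff (w + 1) = 0 := coeff_eq_zero_of_natDegree_lt (by omega)
    simp only [coeff_C_mul, h0, mul_zero, map_zero, zero_mul, add_zero, map_mul]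
    refine Finset.sum_congr rfl fun k hk => ?_
    have hk' := Finset.mem_range.1 hk
    rw [show w + 1 - k = (w - k) + 1 by omega, pow_succ]
    ring
  have h3 : hm (w + 1) ((C a * X + C b) * f) x y =
      hm (w + 1) (C a * X * f) x y + hm (w + 1) (C b * f) x y := by
    rw [hm, hm, hm, ← Finset.sum_add_distrib]
    refine Finset.sum_congr rfl fun k _ => ?_
    rw [add_mul (C a * X), coeff_add, map_add]
    ring
  rw [h3, h1, h2]
  ring

theorem natDegree_lin_pow (a b : R) (j : ℕ) : ((C a * X + C b : R[X]) ^ j).natDegree ≤ j :=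
  natDegree_pow_le_of_le j (natDegree_linear_le (a := a) (b := b)) |>.trans (by simp)

theorem hm_lin_pow (w : ℕ) (f : R[X]) (hf : f.natDegree ≤ w) (a b : R) (x y : S) (j : ℕ) :
    hm (w + j) ((C a * X + C b) ^ j * f) x y =
      (algebraMap R S a * x + algebraMap R S b * y) ^ j * hm w f x y := by
  induction j with
  | zero => simp
  | succ j ih =>
    rw [pow_succ', mul_assoc, ← add_assoc, hm_lin_mul, ih, pow_succ', mul_assoc]
    refine natDegree_mul_le.trans ?_
    have := natDegree_lin_pow a b j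
    omega

theorem hm_mon (w : ℕ) (A : Matrix (Fin 2) (Fin 2) R) (j : ℕ) (hj : j ≤ w) (x y : S) :
    hm w (mon w A j) x y = (algebraMap R S (A 0 0) * x + algebraMap R S (A 0 1) * y) ^ j *
      (algebraMap R S (A 1 0) * x + algebraMap R S (A 1 1) * y) ^ (w - j) := by
  have h1 := hm_lin_pow (S := S) (w - j) ((C (A 1 0) * X + C (A 1 1)) ^ (w - j))
    (natDegree_lin_pow _ _ _) (A 0 0) (A 0 1) x y j
  rw [Nat.sub_add_cancel hj] at h1
  rw [mon, h1]
  congr 1
  have h2 := hm_lin_pow (R := R) (S := S) 0 1 (by simp) (A 1 0) (A 1 1) x y (w - j)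
  rw [zero_add, mul_one] at h2
  rw [h2]
  simp [hm]

/-- homogenisation -/
theorem sum_mon (w : ℕ) (A : Matrix (Fin 2) (Fin 2) R) (j : Fin (w + 1)) (x y : S) :
    ∑ k : Fin (w + 1), algebraMap R S ((mon w A j).coeff k) * (x ^ (k : ℕ) * y ^ (w - (k : ℕ))) =
      (algebraMap R S (A 0 0) * x + algebraMap R S (A 0 1) * y) ^ (j : ℕ) *
        (algebraMap R S (A 1 0) * x + algebraMap R S (A 1 1) * y) ^ (w - (j : ℕ)) := by
  rw [← hm_mon w A j (Nat.lt_succ_iff.1 j.2) x y, hm, ← Fin.sum_univ_eq_sum_range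
    (fun k => algebraMap R S ((mon w A j).coeff k) * (x ^ k * y ^ (w - k)))]

/-- the action on the vectors `(x ^ k y ^ (w - k))_k` -/
def sy (w : ℕ) : Matrix (Fin 2) (Fin 2) R →* Matrix (Fin (w + 1)) (Fin (w + 1)) R where
  toFun A := Matrix.of fun j k => (mon w A j).coeff k
  map_one' := by
    ext j k
    simp [mon, Matrix.one_apply, coeff_X_pow, Fin.ext_iff, eq_comm]
  map_mul' A B := by
    ext j i
    have h1 : mon w (A * B) j = ∑ k : Fin (w + 1), C ((mon w A j).coeff k) * mon w B k := by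
      have h2 := sum_mon (S := R[X]) w A j (C (B 0 0) * X + C (B 0 1)) (C (B 1 0) * X + C (B 1 1))
      simp only [← C_eq_algebraMap] at h2
      refine Eq.trans ?_ h2.symm
      simp only [mon, Matrix.mul_apply, Fin.sum_univ_two, C_add, C_mul]
      congr 2 <;> ring
    simp only [Matrix.of_apply, Matrix.mul_apply, h1, finsetSum_coeff, coeff_C_mul]

theorem sy_apply (w : ℕ) (A : Matrix (Fin 2) (Fin 2) R) (j k : Fin (w + 1)) :
    sy w A j k = (mon w A j).coeff k := rfl

omit [Algebra R S] in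
theorem sy_map (f : R →+* S) (w : ℕ) (A : Matrix (Fin 2) (Fin 2) R) :
    sy w (A.map f) = (sy w A).map f := by
  ext j k
  simp [sy_apply, mon, ← coeff_map f]

variable {ι n : Type} [Fintype ι] [DecidableEq ι] [Fintype n] [DecidableEq n]

/-- the Kronecker product of a family of matrices -/
def kr : (ι → Matrix n n R) →* Matrix (ι → n) (ι → n) R where
  toFun A := Matrix.of fun a b => ∏ i, A i (a i) (b i)
  map_one' := by
    ext a b
    simp only [Matrix.of_apply, Pi.one_apply, Matrix.one_apply, Finset.prod_ite_zero,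
      Finset.mem_univ, forall_const, Finset.prod_const_one, funext_iff]
  map_mul' A B := by
    ext a b
    simp only [Matrix.of_apply, Pi.mul_apply, Matrix.mul_apply, Finset.prod_univ_sum,
      Fintype.piFinset_univ, Finset.prod_mul_distrib]

/-- `Sym ^ (2 m) ⊗ det ^ (- m)` -/
def syd (m : ℕ) : GL (Fin 2) R →* Matrix (Fin (2 * m + 1)) (Fin (2 * m + 1)) R where
  toFun g := ((g.det⁻¹ ^ m : Rˣ) : R) • sy (2 * m) g.val
  map_one' := by simp
  map_mul' g h := by
    rw [map_mul, mul_inv, mul_pow, Units.val_mul, Units.val_mul, map_mul, smul_mul_smul_comm]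

variable (ι R) in
/-- the space of the parallel weight `2 m + 2` -/
abbrev Vw (m : ℕ) : Type := (ι → Fin (2 * m + 1)) → R

/-- the matrices of the parallel weight `2 m + 2` -/
def wm {Γ : Type} [Group Γ] (m : ℕ) (s : ι → Γ →* GL (Fin 2) R) :
    Γ →* Matrix (ι → Fin (2 * m + 1)) (ι → Fin (2 * m + 1)) R :=
  kr.comp (MonoidHom.pi fun i => (syd m).comp (s i))

/-- the representation of parallel weight `2 m + 2` -/
def wt {Γ : Type} [Group Γ] (m : ℕ) (s : ι → Γ →* GL (Fin 2) R) : Representation R Γ (Vw R ι m) :=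
  (Matrix.toLinAlgEquiv' (R := R)).toMonoidHom.comp (wm m s)

theorem wt_apply {Γ : Type} [Group Γ] (m : ℕ) (s : ι → Γ →* GL (Fin 2) R) (γ : Γ)
    (v : Vw R ι m) : wt m s γ v = (wm m s γ).mulVec v := rfl

end sym

variable {G0 G : Type} [Group G0] [Group G] (T : Tw G0 G) {Λ B : Type} [CommRing Λ]
  [AddCommGroup B] [Module Λ B] (ρ : Representation Λ G0 B)

namespace Tw

/-- the class of `z` is an eigenclass of the operator `A` on functions on `G` -/
def Eig (U : Subgroup G) (z : G0 → G → B) (A : (G → B) → G → B) (c : Λ) : Prop :=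
  (fun γ => A (z γ)) - c • z ∈ T.B1 ρ U

variable {T}

/-- a lift of a matrix modulo `l` -/
def lf (l : ℕ) [Fact l.Prime] (g : GL (Fin 2) (ZMod l)) : GL (Fin 2) ℚ_[l] :=
  Matrix.GeneralLinearGroup.map (algebraMap ℤ_[l] ℚ_[l]) (Classical.epsilon
    fun k : GL (Fin 2) ℤ_[l] => Matrix.GeneralLinearGroup.map PadicInt.toZMod k = g)

/-- the operator `∑ c(g) g` -/
def Lc.ec {l : ℕ} [Fact l.Prime] (w : T.Lc ℤ_[l] ℚ_[l]) (c : GL (Fin 2) (ZMod l) → Λ)
    (f : G → B) : G → B := ∑ g, c g • rt (w.ι (lf l g)) f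

/-- the class of `z` has the type `c` at `w` -/
def Lc.HasTy {l : ℕ} [Fact l.Prime] (w : T.Lc ℤ_[l] ℚ_[l]) (U : Subgroup G) (z : G0 → G → B)
    (c : GL (Fin 2) (ZMod l) → Λ) : Prop :=
  w.At (Km ℤ_[l] ℚ_[l] 1) U ∧ ∃ e, e ≠ 0 ∧ T.Eig ρ U z (w.ec c) e

end Tw

end Vale.Agent.P022K.Sh
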