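import Vale.Agent.P022K.F0.StS
import Vale.Agent.P022K.F0.Wt
import Vale.Agent.P022K.CH.St

/-!
# P022K, block F0: automorphic systems of eigenvalues over a totally real field
-/

set_option autoImplicit false

open NumberField IsDedekindDomain
open scoped MatrixGroups

noncomputable section

namespace Vale.Agent.P022K.Sh

open Vale.Agent.P022 CH
open Vale.Agent.P022D.W (dec)
open Vale.Agent.P022E.GW (Ov)

/-- an element of the group ring acts on functions -/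
def op {G Λ B : Type} [Group G] [CommRing Λ] [AddCommGroup B] [Module Λ B] (f : G →₀ Λ)
    (φ : G → B) : G → B := f.sum fun g c => c • rt g φ

/-- the integers of the completion -/
abbrev Oc {F : Type} [Field F] [NumberField F] (w : Pl F) : Type := w.adicCompletionIntegers F

namespace QD

variable {F : Type} [Field F] [NumberField F] (Y : QD F)

/-- splittings of `D` over `R` above all embeddings of `F` in `ℚ̄` -/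
abbrev Sp (R : Type) [CommRing R] : Type := (F →+* Qb) → Y.D →+* Matrix (Fin 2) (Fin 2) R

/-- `s τ` lies above `τ` -/
def IsSp (s : Y.Sp Qb) : Prop := ∀ τ c, s τ (algebraMap F _ c) = algebraMap Qb _ (τ c)

open Classical in
/-- the local system of parallel weight `2 m + 2` -/
def rw {R : Type} [CommRing R] (m : ℕ) (s : Y.Sp R) :
    Representation R Y.G0 (Vw R (F →+* Qb) m) :=
  wt m fun τ => (Units.map (s τ).toMonoidHom).comp Y.G0.subtype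

end QD

/-- the places where the level is maximal -/
def SphW (X : Fd) (S : Finset ℕ) (w : X.Pl) : Prop :=
  ∃ l P, Ov l P ∧ below X.j P = w.asIdeal ∧ X.Sph S l P

/-- the places with a type -/
def TyW (X : Fd) (S : Finset ℕ) (l : ℕ) (w : X.Pl) : Prop :=
  l ∈ S ∧ w ≠ X.v0 ∧ ∃ P, Ov l P ∧ below X.j P = w.asIdeal ∧ dec P ≤ X.H

/-- the data of an automorphic system -/
structure Ad (X : Fd) (m : ℕ) (S : Finset ℕ) (L : Lv) (b : X.Pl → Qb) (Y : QD X.F)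
    (io : Qb →+* ℂ) (s : Y.Sp Qb) (V : ∀ w, Subgroup (Y.Dw w)ˣ)
    (z : Y.G0 → Y.G → Vw Qb (X.F →+* Qb) m) : Prop where
  emb : Y.Emb X.j io
  spl : ∀ w, Y.Spl w ↔ w ≠ X.v0
  sp : Y.IsSp s
  lev : Y.PU V ∈ Y.tw.Lev
  neat : Y.tw.Neat (Y.PU V)
  coc : z ∈ Y.tw.Z1 (Y.rw m s) (Y.PU V)
  ne : z ∉ Y.tw.B1 (Y.rw m s) (Y.PU V)
  sph : ∀ w, SphW X S w → ∃ Lw : Y.tw.Lc (Oc w) (Fw w), Y.IsPl w Lw ∧
    Lw.At (KK (Oc w) (Fw w)) (Y.PU V) ∧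
    Y.tw.Eig (Y.rw m s) (Y.PU V) z (hk (Lw.To (Y.PU V)) (Y.PU V)) (b w)
  ty : ∀ (l : ℕ) [Fact l.Prime] c w, TyW X S l w → L l = some c →
    ∃ Lw : Y.tw.Lc ℤ_[l] ℚ_[l], Y.IsPl w Lw ∧ Lw.HasTy (Y.rw m s) (Y.PU V) z c
  nE : ∀ B : Finset X.Pl, ∃ w, w ∉ B ∧ SphW X S w ∧ b w ^ 2 ≠ (qw w + 1) ^ 2

/-- **automorphic systems** -/
def Aut (X : Fd) (m : ℕ) (S : Finset ℕ) (L : Lv) (b : X.Pl → Qb) : Prop :=
  ∃ Y io s V z, Ad X m S L b Y io s V z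

/-- the integers of a finite extension of `ℚ_p` -/
def OE {p : ℕ} [Fact p.Prime] (E : IntermediateField ℚ_[p] (Cp p)) : Subring (Cp p) :=
  Op p ⊓ E.toSubfield.toSubring

/-- **EMB**: the `p`-adic embeddings extend to the adeles -/
def EMB : Prop := ∀ (F : Type) [Field F] [NumberField F] (p : ℕ) [Fact p.Prime]
  (φ : F →+* Cp p), ∃ (v : Pl F) (e : Fw v →+* Cp p), (p : 𝓞 F) ∈ v.asIdeal ∧
    (∀ c, e (algebraMap F _ c) = φ c) ∧ (∀ x, ‖e x‖ ≤ 1 ↔ x ∈ Ow v) ∧ Continuous e ∧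
    ∀ x, e x ∈ IntermediateField.adjoin ℚ_[p] (Set.range φ)

/-- **BNDK**: the eigenvalues of one class lie in a number field -/
def BNDK : Prop := AllQ fun {F} _ _ Y => ∀ m (s : Y.Sp Qb), Y.IsSp s → ∀ U ∈ Y.tw.Lev,
  ∀ z ∈ Y.tw.Z1 (Y.rw m s) U, z ∉ Y.tw.B1 (Y.rw m s) U →
    ∃ (K : IntermediateField ℚ Qb) (_ : FiniteDimensional ℚ K),
      ∀ O, Cor U O U → ∀ c, Y.tw.Eig (Y.rw m s) U z (hk O U) c → c ∈ K

/-- **BNDA**: the archimedean bound -/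
def BNDA : Prop := AllQ fun {F} _ _ Y => ∀ m (s : Y.Sp Qb), Y.IsSp s → ∀ U ∈ Y.tw.Lev,
  ∀ z ∈ Y.tw.Z1 (Y.rw m s) U, z ∉ Y.tw.B1 (Y.rw m s) U → ∀ O, Cor U O U → ∀ c,
    Y.tw.Eig (Y.rw m s) U z (hk O U) c → ∀ φ : Qb →+* ℂ,
      ‖φ c‖ ≤ {y : Y.G ⧸ U | y.out ∈ O}.ncard

/-- **BNDI**: the denominators -/
def BNDI : Prop := AllQ fun {F} _ _ Y => ∀ m (s : Y.Sp Qb), Y.IsSp s → ∀ U ∈ Y.tw.Lev,
  ∀ z ∈ Y.tw.Z1 (Y.rw m s) U, z ∉ Y.tw.B1 (Y.rw m s) U →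
    Y.tw.AllL fun {O K} _ _ _ _ _ Lw => ∀ w, Y.IsPl w Lw → Lw.At (KK O K) U → ∀ c,
      Y.tw.Eig (Y.rw m s) U z (hk (Lw.To U) U) c → IsIntegral ℤ ((qw w : Qb) ^ m * c)

/-- **APE**: eigenclasses modulo `p ^ n` with constant coefficients -/
def APE : Prop := AllQ fun {F} _ _ Y => ∀ m (s : Y.Sp Qb), Y.IsSp s →
  ∀ V, Y.PU V ∈ Y.tw.Lev → ∀ z ∈ Y.tw.Z1 (Y.rw m s) (Y.PU V),
  z ∉ Y.tw.B1 (Y.rw m s) (Y.PU V) → ∀ (p : ℕ) [Fact p.Prime] (ι : Qb →+* Cp p),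
  (∃ (w : Pl F) (Lw : Y.tw.Lc (Oc w) (Fw w)) (c : Qb), (p : 𝓞 F) ∉ w.asIdeal ∧ Y.IsPl w Lw ∧
    Lw.At (KK (Oc w) (Fw w)) (Y.PU V) ∧ Lw.SA ∧ c ^ 2 ≠ (qw w + 1) ^ 2 ∧
    Y.tw.Eig (Y.rw m s) (Y.PU V) z (hk (Lw.To (Y.PU V)) (Y.PU V)) c) →
  ∀ (K : IntermediateField ℚ Qb), FiniteDimensional ℚ K →
  ∃ (E : IntermediateField ℚ_[p] (Cp p)) (_ : FiniteDimensional ℚ_[p] E) (k : ℕ),
    (∀ x ∈ K, ι x ∈ E) ∧ ∀ n : ℕ, ∃ V' : ∀ w, Subgroup (Y.Dw w)ˣ, (∀ w, V' w ≤ V w) ∧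
      (∀ w, (p : 𝓞 F) ∉ w.asIdeal → V' w = V w) ∧ Y.PU V' ∈ Y.tw.Lev ∧
      ∃ z' ∈ Y.tw.Z1 (Representation.trivial (OE E) Y.G0
          (OE E ⧸ Ideal.span {(p : OE E) ^ n})) (Y.PU V'),
        (∀ a : OE E, a • z' ∈ Y.tw.B1 (Representation.trivial (OE E) Y.G0 _) (Y.PU V') →
          (p : OE E) ^ n ∣ a * p ^ k) ∧
        ∀ (f₀ : Y.G →₀ Qb) (f : Y.G →₀ OE E) (c₀ : Qb) (c : OE E), (∀ g, (f g : Cp p) = ι (f₀ g)) →
          (c : Cp p) = ι c₀ → (∀ g ∈ f₀.support, ∀ w, (p : 𝓞 F) ∈ w.asIdeal → Y.cw w g = 1) →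
          (∀ φ : Y.G → Qb, Inv (Y.PU V) φ → Inv (Y.PU V) (op f₀ φ)) →
          Y.tw.Eig (Y.rw m s) (Y.PU V) z (op f₀) c₀ →
          Y.tw.Eig (Representation.trivial (OE E) Y.G0 _) (Y.PU V') z' (op f) c

/-- **TFR**: continuous pseudo-characters over `ℚ̄_p` come from representations -/
def TFR : Prop := ∀ (p : ℕ) [Fact p.Prime] (H : Subgroup GQ) (t : H → Cp p) (d : H →* (Cp p)ˣ),
  H346.TF t d → Continuous t → Continuous (fun g => (d g : Cp p)) →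
  ∃ ρ : H →* GL (Fin 2) (Cp p), Continuous ρ ∧ (∀ g, tr ρ g = t g) ∧ (∀ g, dt ρ g = d g) ∧
    ∀ s, (∀ g, t (s * g) = t g) → ρ s = 1

/-- **REPF** -/
def REPF : Prop := ∀ A : Thy, A.Aut = Aut → A.REP

/-- **BNDF** -/
def BNDF : Prop := ∀ A : Thy, A.Aut = Aut → A.BND

end Vale.Agent.P022K.Sh
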