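import Mathlib.GroupTheory.Index
import Mathlib.Data.Complex.Basic
import Mathlib.Algebra.BigOperators.Finprod
import Mathlib.Algebra.BigOperators.Ring.Finset
import Mathlib.GroupTheory.GroupAction.Quotient
import Mathlib.Tactic

/-!
# P022K, block F0, row ORB: orbital sums without measures (abstract part)

`HasOrb T T1 φ val`: the support of `φ` has a finite section `R` (every `T`-orbit in the support
meets `R` in exactly one `T1`-orbit, and stabilisers lie in `T1`), and `φ` sums to `val` over `R`.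
-/

set_option autoImplicit false

open scoped Pointwise

namespace Vale.Agent.P022K.Sh.Orb

variable {H Y : Type} [Group H] [MulAction H Y]

/-- the orbital sum of `φ` is `val` -/
def HasOrb (T T1 : Subgroup H) (φ : Y → ℂ) (val : ℂ) : Prop :=
  ∃ R : Finset Y, (∀ y, φ y ≠ 0 → ∃ t ∈ T, t • y ∈ R) ∧
    (∀ t ∈ T, ∀ r ∈ R, t • r ∈ R ↔ t ∈ T1) ∧ ∑ r ∈ R, φ r = val

/-- the support of `φ` is the orbit of the base point `y0` -/
def Base (T T1 : Subgroup H) (φ : Y → ℂ) (y0 : Y) : Prop :=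
  (∀ y, φ y ≠ 0 → ∃ t ∈ T, t • y = y0) ∧ (∀ t ∈ T, t • y0 = y0 ↔ t ∈ T1) ∧ φ y0 = 1

/-- invariance -/
def Iv (T : Subgroup H) (φ : Y → ℂ) : Prop := ∀ t ∈ T, ∀ y, φ (t • y) = φ y

variable {T T1 Γ Z : Subgroup H} {φ : Y → ℂ} {val val' : ℂ}

theorem Base.hasOrb {y0 : Y} (h : Base T T1 φ y0) : HasOrb T T1 φ 1 :=
  ⟨{y0}, fun y hy => by simpa using h.1 y hy, fun t ht r hr => by
    rw [Finset.mem_singleton.1 hr, Finset.mem_singleton]; exact h.2.1 t ht, by simp [h.2.2]⟩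

theorem hasOrb_zero (h : ∀ y, φ y = 0) : HasOrb T T1 φ 0 :=
  ⟨∅, fun y hy => absurd (h y) hy, by simp, by simp⟩

theorem HasOrb.mul (h : HasOrb T T1 φ val) (c : ℂ) :
    HasOrb T T1 (fun y => c * φ y) (c * val) := by
  obtain ⟨R, h1, h2, h3⟩ := h
  exact ⟨R, fun y hy => h1 y (right_ne_zero_of_mul hy), h2, by rw [← Finset.mul_sum, h3]⟩

theorem HasOrb.congr {T1' : Subgroup H} (h : HasOrb T T1 φ val)
    (e : ∀ t ∈ T, t ∈ T1 ↔ t ∈ T1') : HasOrb T T1' φ val := by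
  obtain ⟨R, h1, h2, h3⟩ := h
  exact ⟨R, h1, fun t ht r hr => (h2 t ht r hr).trans (e t ht), h3⟩

/-- uniqueness of the value when `Z` acts trivially -/
theorem HasOrb.unique (hi : Iv Γ φ) (hz : ∀ z ∈ Γ, z ∈ Z → ∀ y : Y, z • y = y)
    (h : HasOrb Γ Z φ val) (h' : HasOrb Γ Z φ val') : val = val' := by
  classical
  obtain ⟨R, h1, h2, rfl⟩ := h
  obtain ⟨R', h1', h2', rfl⟩ := h'
  rw [← Finset.sum_filter_ne_zero R, ← Finset.sum_filter_ne_zero R']
  choose! a ha ha' using h1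
  choose! b hb hb' using h1'
  have key : ∀ (R : Finset Y), (∀ t ∈ Γ, ∀ r ∈ R, t • r ∈ R ↔ t ∈ Z) → ∀ s ∈ Γ, ∀ t ∈ Γ,
      ∀ r ∈ R, s • t • r ∈ R → s • t • r = r := fun R hR s hs t ht r hr e => by
    rw [← mul_smul] at e ⊢
    exact hz _ (mul_mem hs ht) ((hR _ (mul_mem hs ht) r hr).1 e) r
  refine Finset.sum_bij' (fun r _ => b r • r) (fun r _ => a r • r) (fun r hr => ?_)
    (fun r hr => ?_) (fun r hr => ?_) (fun r hr => ?_) fun r hr => ?_
  · have hr := Finset.mem_filter.1 hr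
    exact Finset.mem_filter.2 ⟨hb' r hr.2, by rw [hi _ (hb r hr.2)]; exact hr.2⟩
  · have hr := Finset.mem_filter.1 hr
    exact Finset.mem_filter.2 ⟨ha' r hr.2, by rw [hi _ (ha r hr.2)]; exact hr.2⟩
  · have hr := Finset.mem_filter.1 hr
    have e : φ (b r • r) ≠ 0 := by rw [hi _ (hb r hr.2)]; exact hr.2
    exact key R h2 _ (ha _ e) _ (hb r hr.2) r hr.1 (ha' _ e)
  · have hr := Finset.mem_filter.1 hr
    have e : φ (a r • r) ≠ 0 := by rw [hi _ (ha r hr.2)]; exact hr.2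
    exact key R' h2' _ (hb _ e) _ (ha r hr.2) r hr.1 (hb' _ e)
  · exact (hi _ (hb r (Finset.mem_filter.1 hr).2) r).symm

/-- translation by an element `g` -/
theorem HasOrb.trans {T' T1' : Subgroup H} {φ' : Y → ℂ} (h : HasOrb T T1 φ val) (g : H)
    (hT : ∀ t, t ∈ T' ↔ g⁻¹ * t * g ∈ T) (hT1 : ∀ t, t ∈ T1' ↔ g⁻¹ * t * g ∈ T1)
    (hφ : ∀ y, φ' (g • y) = φ y) : HasOrb T' T1' φ' val := by
  classical
  obtain ⟨R, h1, h2, h3⟩ := h
  refine ⟨R.image (g • ·), fun y hy => ?_, fun t ht r hr => ?_, ?_⟩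
  · obtain ⟨t, ht, e⟩ := h1 (g⁻¹ • y) (by rwa [← hφ, smul_inv_smul])
    refine ⟨g * t * g⁻¹, (hT _).2 (by simpa [mul_assoc] using ht), ?_⟩
    exact Finset.mem_image.2 ⟨_, e, by simp [mul_smul]⟩
  · obtain ⟨r, hr', rfl⟩ := Finset.mem_image.1 hr
    rw [hT1, ← h2 _ ((hT t).1 ht) r hr', Finset.mem_image]
    constructor
    · rintro ⟨s, hs, e⟩
      have : (g⁻¹ * t * g) • r = s := by rw [mul_smul, mul_smul, ← e, inv_smul_smul]
      rwa [this]
    · exact fun hs => ⟨_, hs, by simp [mul_smul]⟩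
  · rw [Finset.sum_image fun a _ b _ e => MulAction.injective g e, ← h3]
    exact Finset.sum_congr rfl fun r _ => hφ r

/-- a sign change kills the sum -/
theorem HasOrb.zero_of_flip (hi : Iv Γ φ) (hz : ∀ z ∈ Γ, z ∈ Z → ∀ y : Y, z • y = y)
    (h : HasOrb Γ Z φ val) (g : H) (hΓ : ∀ t, t ∈ Γ ↔ g⁻¹ * t * g ∈ Γ)
    (hZ : ∀ t, t ∈ Z ↔ g⁻¹ * t * g ∈ Z) (hφ : ∀ y, φ (g • y) = -φ y) : val = 0 := by
  have h' : HasOrb Γ Z φ (-1 * val) :=
    (h.mul (-1)).trans g hΓ hZ fun y => by rw [hφ, neg_one_mul]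
  have := HasOrb.unique hi hz h h'
  linear_combination this / 2

/-- passage to a smaller level -/
theorem HasOrb.level {U V : Subgroup H} (hUV : U ≤ V) (hf : U.relIndex V ≠ 0)
    {ψ : H ⧸ V → ℂ} {ψ' : H ⧸ U → ℂ} (e : ∀ x : H, ψ' x = ψ x) (h : HasOrb T T1 ψ val) :
    HasOrb T T1 ψ' (U.relIndex V * val) := by
  classical
  obtain ⟨R, h1, h2, h3⟩ := h
  let π : H ⧸ U → H ⧸ V := Subgroup.quotientMapOfLE hUV
  have hπ : ∀ x : H, π x = x := fun x => rfl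
  have hs : ∀ (t : H) (y : H ⧸ U), π (t • y) = t • π y := fun t y => by
    induction y using QuotientGroup.induction_on
    rfl
  have e' : ∀ y, ψ' y = ψ (π y) := fun y => by
    induction y using QuotientGroup.induction_on
    rw [e, hπ]
  have fib : ∀ r : H ⧸ V, Nonempty ({y // π y = r} ≃ V ⧸ U.subgroupOf V) := fun r => by
    obtain ⟨x, rfl⟩ := QuotientGroup.mk_surjective r
    refine ⟨(Equiv.ofBijective (fun c : V ⧸ U.subgroupOf V => (⟨((x * c.out : H) : H ⧸ U), ?_⟩ :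
      {y // π y = x})) ⟨fun c c' hc => ?_, ?_⟩).symm⟩
    · rw [hπ, QuotientGroup.eq]
      simp
    · have hc := congrArg Subtype.val hc
      rw [← c.out_eq', ← c'.out_eq', QuotientGroup.eq, Subgroup.mem_subgroupOf]
      simpa [mul_assoc] using QuotientGroup.eq.1 hc
    · rintro ⟨y, hy⟩
      obtain ⟨y, rfl⟩ := QuotientGroup.mk_surjective y
      rw [hπ, eq_comm, QuotientGroup.eq] at hy
      refine ⟨((⟨_, hy⟩ : V) : V ⧸ U.subgroupOf V), Subtype.ext ?_⟩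
      obtain ⟨u, hu⟩ := QuotientGroup.mk_out_eq_mul (U.subgroupOf V) (⟨_, hy⟩ : V)
      show ((x * _ : H) : H ⧸ U) = y
      rw [hu, eq_comm, QuotientGroup.eq]
      simpa [mul_assoc] using Subgroup.mem_subgroupOf.1 u.2
  have : Finite (V ⧸ U.subgroupOf V) := Nat.finite_of_card_ne_zero hf
  have fin : ∀ r, {y | π y = r}.Finite := fun r => by
    obtain ⟨e⟩ := fib r
    exact Set.finite_coe_iff.1 (Finite.of_equiv _ e.symm)
  have fin' : (π ⁻¹' (R : Set (H ⧸ V))).Finite := R.finite_toSet.preimage' fun r _ => fin r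
  refine ⟨fin'.toFinset, fun y hy => ?_, fun t ht r hr => ?_, ?_⟩
  · obtain ⟨t, ht, h⟩ := h1 (π y) (by rwa [← e'])
    exact ⟨t, ht, by simpa [hs] using h⟩
  · rw [← h2 t ht (π r) (by simpa using hr)]
    simp [hs]
  · rw [← Finset.sum_fiberwise_of_maps_to (t := R) (g := π) (by simp), ← h3, Finset.mul_sum]
    refine Finset.sum_congr rfl fun r hr => ?_
    rw [Finset.sum_congr rfl (g := fun _ => ψ r) fun y hy => by
      rw [e', (Finset.mem_filter.1 hy).2], Finset.sum_const, nsmul_eq_mul]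
    congr 2
    obtain ⟨e⟩ := fib r
    rw [Subgroup.relIndex, Subgroup.index, ← Nat.card_congr e, ← Nat.card_eq_finsetCard]
    refine Nat.card_congr (Equiv.subtypeEquivRight fun y => ?_)
    simp only [Finset.mem_filter, Set.Finite.mem_toFinset, Set.mem_preimage, Finset.mem_coe]
    exact ⟨fun h => h.2, fun h => ⟨h ▸ hr, h⟩⟩

/-- from `T` to a subgroup `Γ` -/
theorem HasOrb.down (hc : ∀ s ∈ T, ∀ t ∈ T, s * t = t * s) (hΓ : Γ ≤ T) (h1T : T1 ≤ T)
    (hi : Iv T φ) (hf : (Γ ⊔ T1).relIndex T ≠ 0) (h : HasOrb T T1 φ val) :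
    HasOrb Γ (Γ ⊓ T1) φ ((Γ ⊔ T1).relIndex T * val) := by
  classical
  obtain ⟨R, h1, h2, h3⟩ := h
  set A := (Γ ⊔ T1).subgroupOf T with hA
  have : Finite (T ⧸ A) := Nat.finite_of_card_ne_zero hf
  have := Fintype.ofFinite (T ⧸ A)
  have dec : ∀ x ∈ Γ ⊔ T1, ∃ γ ∈ Γ, ∃ u ∈ T1, x = γ * u := fun x hx => by
    rw [Subgroup.sup_eq_closure] at hx
    induction hx using Subgroup.closure_induction with
    | mem x hx =>
      rcases hx with hx | hx
      · exact ⟨x, hx, 1, one_mem _, by simp⟩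
      · exact ⟨1, one_mem _, x, hx, by simp⟩
    | one => exact ⟨1, one_mem _, 1, one_mem _, by simp⟩
    | mul x y _ _ hx hy =>
      obtain ⟨a, ha, b, hb, rfl⟩ := hx
      obtain ⟨c, hc', d, hd, rfl⟩ := hy
      refine ⟨a * c, mul_mem ha hc', b * d, mul_mem hb hd, ?_⟩
      rw [mul_assoc, ← mul_assoc b, hc b (h1T hb) c (hΓ hc')]
      simp [mul_assoc]
    | inv x _ hx =>
      obtain ⟨a, ha, b, hb, rfl⟩ := hx
      exact ⟨a⁻¹, inv_mem ha, b⁻¹, inv_mem hb, by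
        rw [mul_inv_rev, hc _ (inv_mem (h1T hb)) _ (inv_mem (hΓ ha))]⟩
  have same : ∀ (c c' : T ⧸ A), ∀ r ∈ R, ∀ r' ∈ R, ∀ γ ∈ Γ,
      γ • (c.out : H) • r = (c'.out : H) • r' → c = c' ∧ γ ∈ T1 := by
    intro c c' r hr r' hr' γ hγ e
    have m : (c'.out : H)⁻¹ * (γ * c.out) ∈ T :=
      mul_mem (inv_mem c'.out.2) (mul_mem (hΓ hγ) c.out.2)
    have m1 : (c'.out : H)⁻¹ * (γ * c.out) ∈ T1 := (h2 _ m r hr).1 (by
      rw [mul_smul, mul_smul, e, inv_smul_smul]; exact hr')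
    rw [hc γ (hΓ hγ) _ c.out.2, ← mul_assoc] at m1
    have ec : c = c' := by
      rw [← c.out_eq', ← c'.out_eq', eq_comm, QuotientGroup.eq]
      refine Subgroup.mem_subgroupOf.2 ?_
      have := mul_mem (Subgroup.mem_sup_right (S := Γ) m1)
        (Subgroup.mem_sup_left (T := T1) (inv_mem hγ))
      simpa [mul_assoc] using this
    subst ec
    exact ⟨rfl, by simpa using m1⟩
  refine ⟨(Finset.univ ×ˢ R).image fun p : (T ⧸ A) × Y => (p.1.out : H) • p.2, fun y hy => ?_,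
    fun γ hγ r hr => ?_, ?_⟩
  · obtain ⟨t, ht, e⟩ := h1 y hy
    let c : T ⧸ A := ((⟨t⁻¹, inv_mem ht⟩ : T) : T ⧸ A)
    obtain ⟨u, hu⟩ := QuotientGroup.mk_out_eq_mul A (⟨t⁻¹, inv_mem ht⟩ : T)
    obtain ⟨γ, hγ, s, hs, e'⟩ := dec _ (Subgroup.mem_subgroupOf.1 u.2)
    have hu' : (c.out : H) = t⁻¹ * (γ * s) := by rw [← e']; exact congrArg Subtype.val hu
    refine ⟨γ, hγ, Finset.mem_image.2 ⟨(c, s⁻¹ • t • y), Finset.mem_product.2
      ⟨Finset.mem_univ _, (h2 _ (inv_mem (h1T hs)) _ e).2 (inv_mem hs)⟩, ?_⟩⟩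
    show (c.out : H) • s⁻¹ • t • y = γ • y
    rw [hu', ← mul_smul, ← mul_smul]
    congr 1
    rw [← mul_assoc, hc _ (inv_mem ht) _ (hΓ hγ)]
    simp [mul_assoc]
  · obtain ⟨⟨c, r⟩, hr', rfl⟩ := Finset.mem_image.1 hr
    have hr' := (Finset.mem_product.1 hr').2
    constructor
    · intro h
      obtain ⟨⟨c', r'⟩, hr'', e⟩ := Finset.mem_image.1 h
      exact ⟨hγ, (same c c' r hr' r' (Finset.mem_product.1 hr'').2 γ hγ e.symm).2⟩
    · intro h
      refine Finset.mem_image.2 ⟨(c, γ • r), Finset.mem_product.2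
        ⟨Finset.mem_univ _, (h2 _ (hΓ hγ) r hr').2 h.2⟩, ?_⟩
      show (c.out : H) • γ • r = γ • (c.out : H) • r
      rw [← mul_smul, ← mul_smul, hc _ c.out.2 _ (hΓ hγ)]
  · rw [Finset.sum_image, Finset.sum_product]
    · rw [Finset.sum_congr rfl (g := fun _ => val) fun c _ => by
        rw [← h3]; exact Finset.sum_congr rfl fun r _ => hi _ c.out.2 r]
      rw [Finset.sum_const, nsmul_eq_mul, Finset.card_univ, ← Nat.card_eq_fintype_card]
      rfl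
    · rintro ⟨c, r⟩ h ⟨c', r'⟩ h' e
      have h := (Finset.mem_product.1 (Finset.mem_coe.1 h)).2
      have h' := (Finset.mem_product.1 (Finset.mem_coe.1 h')).2
      obtain ⟨rfl, -⟩ := same c c' r h r' h' 1 (one_mem _) (by simpa using e)
      exact Prod.ext rfl (MulAction.injective _ e)

/-- from `Γ1` to a subgroup `Z` that is the stabiliser of every point -/
theorem HasOrb.free {Γ1 : Subgroup H} (h1Γ : Γ1 ≤ Γ) (hi : Iv Γ φ)
    (hz : ∀ z ∈ Z, ∀ y : Y, z • y = y) (hn : ∀ γ ∈ Γ, ∀ y : Y, γ • y = y → γ ∈ Z)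
    (h : HasOrb Γ Γ1 φ val) :
    ∃ v, HasOrb Γ Z φ v ∧ Z.relIndex Γ1 * v = val ∧ (val ≠ 0 → Z.relIndex Γ1 ≠ 0) := by
  classical
  obtain ⟨R, h1, h2, h3⟩ := h
  let π : Y → MulAction.orbitRel.Quotient Γ1 Y := Quotient.mk _
  have hπ : ∀ y y', π y = π y' ↔ ∃ s ∈ Γ1, s • y' = y := fun y y' => by
    rw [Quotient.eq]
    constructor
    · rintro ⟨s, hs⟩
      exact ⟨s, s.2, hs⟩
    · rintro ⟨s, hs, e⟩
      exact ⟨⟨s, hs⟩, e⟩
  have out : ∀ r ∈ R, (π r).out ∈ R := fun r hr => by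
    obtain ⟨s, hs, e⟩ := (hπ (π r).out r).1 (Quotient.out_eq _)
    exact e ▸ (h2 s (h1Γ hs) r hr).2 hs
  have card : ∀ r ∈ R, (R.filter fun y => π y = π r).card = Z.relIndex Γ1 := fun r hr => by
    rw [Subgroup.relIndex, Subgroup.index, ← Nat.card_eq_finsetCard, eq_comm]
    refine Nat.card_congr (Equiv.ofBijective (fun c : Γ1 ⧸ Z.subgroupOf Γ1 =>
      (⟨(c.out : H) • r, Finset.mem_filter.2 ⟨(h2 _ (h1Γ c.out.2) r hr).2 c.out.2,
        (hπ _ _).2 ⟨_, c.out.2, rfl⟩⟩⟩ : (R.filter fun y => π y = π r))) ⟨fun c c' e => ?_, ?_⟩)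
    · have e := congrArg Subtype.val e
      rw [← c.out_eq', ← c'.out_eq', QuotientGroup.eq, Subgroup.mem_subgroupOf]
      refine hn _ (h1Γ (c.out⁻¹ * c'.out).2) r ?_
      show ((c.out : H)⁻¹ * c'.out) • r = r
      rw [mul_smul, inv_smul_eq_iff]
      exact e.symm
    · rintro ⟨y, hy⟩
      obtain ⟨s, hs, rfl⟩ := (hπ _ _).1 (Finset.mem_filter.1 hy).2
      obtain ⟨u, hu⟩ := QuotientGroup.mk_out_eq_mul (Z.subgroupOf Γ1) (⟨s, hs⟩ : Γ1)
      refine ⟨((⟨s, hs⟩ : Γ1) : Γ1 ⧸ Z.subgroupOf Γ1), Subtype.ext ?_⟩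
      show ((Quotient.out _ : Γ1) : H) • r = s • r
      rw [hu, Subgroup.coe_mul, mul_smul, hz _ (Subgroup.mem_subgroupOf.1 u.2)]
  refine ⟨∑ c ∈ R.image π, φ c.out, ⟨(R.image π).image Quotient.out, fun y hy => ?_,
    fun γ hγ r hr => ?_, ?_⟩, ?_, fun hv => ?_⟩
  · obtain ⟨t, ht, e⟩ := h1 y hy
    obtain ⟨s, hs, e'⟩ := (hπ (π (t • y)).out (t • y)).1 (Quotient.out_eq _)
    refine ⟨s * t, mul_mem (h1Γ hs) ht, ?_⟩
    rw [mul_smul, e']
    exact Finset.mem_image_of_mem _ (Finset.mem_image_of_mem _ e)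
  · obtain ⟨c, hc, rfl⟩ := Finset.mem_image.1 hr
    obtain ⟨r, hr', rfl⟩ := Finset.mem_image.1 hc
    refine ⟨fun h => ?_, fun h => by rwa [hz _ h]⟩
    obtain ⟨c', hc', e⟩ := Finset.mem_image.1 h
    obtain ⟨r', hr'', rfl⟩ := Finset.mem_image.1 hc'
    have m : γ ∈ Γ1 := (h2 γ hγ _ (out r hr')).1 (e ▸ out r' hr'')
    have e2 : π (π r').out = π (π r).out := (hπ _ _).2 ⟨γ, m, e.symm⟩
    have e3 : π r' = π r := by
      rw [← Quotient.out_eq (π r'), ← Quotient.out_eq (π r)]; exact e2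
    rw [e3] at e
    exact hn γ hγ _ e.symm
  · exact Finset.sum_image fun a _ b _ e => Quotient.out_injective e
  · rw [← h3, ← Finset.sum_fiberwise_of_maps_to (s := R) (t := R.image π) (g := π)
      (fun r hr => Finset.mem_image_of_mem _ hr), Finset.mul_sum]
    refine Finset.sum_congr rfl fun c hc => ?_
    obtain ⟨r, hr, rfl⟩ := Finset.mem_image.1 hc
    rw [Finset.sum_congr rfl (g := fun _ => φ (π r).out) fun y hy => ?_, Finset.sum_const,
      nsmul_eq_mul, card r hr]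
    obtain ⟨s, hs, e⟩ := (hπ y (π r).out).1
      ((Finset.mem_filter.1 hy).2.trans (Quotient.out_eq _).symm)
    rw [← e, hi _ (h1Γ hs)]
  · obtain ⟨r, hr⟩ : R.Nonempty := by
      by_contra hR
      rw [Finset.not_nonempty_iff_eq_empty] at hR
      exact hv (by rw [← h3, hR, Finset.sum_empty])
    rw [← card r hr]
    exact Finset.card_ne_zero.2 ⟨r, Finset.mem_filter.2 ⟨hr, rfl⟩⟩

/-- **ORB-A**: the sum over `Γ \ Y` -/
theorem orbA (hc : ∀ s ∈ T, ∀ t ∈ T, s * t = t * s) (hΓ : Γ ≤ T) (h1T : T1 ≤ T)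
    (hi : Iv T φ) (hz : ∀ z ∈ Z, ∀ y : Y, z • y = y)
    (hn : ∀ γ ∈ Γ, ∀ y : Y, γ • y = y → γ ∈ Z) (hf : (Γ ⊔ T1).relIndex T ≠ 0)
    (h : HasOrb T T1 φ val) :
    ∃ v, HasOrb Γ Z φ v ∧ Z.relIndex (Γ ⊓ T1) * v = (Γ ⊔ T1).relIndex T * val ∧
      (val ≠ 0 → Z.relIndex (Γ ⊓ T1) ≠ 0) := by
  obtain ⟨v, h1, h2, h3⟩ := (h.down hc hΓ h1T hi hf).free inf_le_left
    (fun t ht => hi t (hΓ ht)) hz hn
  exact ⟨v, h1, h2, fun hv => h3 (mul_ne_zero (Nat.cast_ne_zero.2 hf) hv)⟩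

/-- **ORB-P**: the product formula -/
theorem orbP {ι : Type} {Hv Yv : ι → Type} [∀ v, Group (Hv v)] [∀ v, MulAction (Hv v) (Yv v)]
    (p : ∀ v, H →* Hv v) (c : ∀ v, Y → Yv v) (hc : ∀ v h y, c v (h • y) = p v h • c v y)
    (inj : ∀ y y', (∀ v, c v y = c v y') → y = y') (y0 : ∀ v, Yv v) (S : Finset ι)
    (sur : ∀ z : ∀ v, Yv v, (∀ v ∉ S, z v = y0 v) → ∃ y, ∀ v, c v y = z v)
    (ae : ∀ y, {v | c v y ≠ y0 v}.Finite) (Tv T1v : ∀ v, Subgroup (Hv v))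
    (hT : ∀ t ∈ T, ∀ v, p v t ∈ Tv v) (hT1 : ∀ t ∈ T, t ∈ T1 ↔ ∀ v, p v t ∈ T1v v)
    (surT : ∀ s : ∀ v, Hv v, (∀ v, s v ∈ Tv v) → {v | s v ≠ 1}.Finite →
      ∃ t ∈ T, ∀ v, p v t = s v)
    (φv : ∀ v, Yv v → ℂ) (hφ : ∀ y, φ y = ∏ᶠ v, φv v (c v y)) (vl : ι → ℂ)
    (hS : ∀ v ∈ S, HasOrb (Tv v) (T1v v) (φv v) (vl v))
    (hB : ∀ v ∉ S, Base (Tv v) (T1v v) (φv v) (y0 v)) :
    HasOrb T T1 φ (∏ v ∈ S, vl v) := by
  classical
  choose! R h1 h2 h3 using hS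
  have ex : ∀ z : ∀ v ∈ S, Yv v, ∃ y, (∀ v (h : v ∈ S), c v y = z v h) ∧
      ∀ v ∉ S, c v y = y0 v := fun z => by
    obtain ⟨y, hy⟩ := sur (fun v => if h : v ∈ S then z v h else y0 v) fun v hv => dif_neg hv
    exact ⟨y, fun v h => (hy v).trans (dif_pos h), fun v h => (hy v).trans (dif_neg h)⟩
  choose L hL hL' using ex
  have mem : ∀ y, y ∈ (S.pi R).image L ↔ (∀ v ∈ S, c v y ∈ R v) ∧ ∀ v ∉ S, c v y = y0 v := by
    intro y
    rw [Finset.mem_image]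
    constructor
    · rintro ⟨z, hz, rfl⟩
      exact ⟨fun v h => by rw [hL z v h]; exact Finset.mem_pi.1 hz v h, hL' z⟩
    · rintro ⟨ha, hb⟩
      refine ⟨fun v _ => c v y, Finset.mem_pi.2 ha, inj _ _ fun v => ?_⟩
      by_cases h : v ∈ S
      · exact hL _ v h
      · rw [hL' _ v h, hb v h]
  refine ⟨(S.pi R).image L, fun y hy => ?_, fun t ht r hr => ?_, ?_⟩
  · have fin : (Function.mulSupport fun v => φv v (c v y)).Finite := by
      refine (S.finite_toSet.union (ae y)).subset fun v hv => ?_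
      by_contra hn
      simp only [Set.mem_union, Finset.mem_coe, Set.mem_ofPred_eq, not_or, not_not] at hn
      exact hv (by show φv v (c v y) = 1; rw [hn.2]; exact (hB v hn.1).2.2)
    have ne : ∀ v, φv v (c v y) ≠ 0 := fun v h =>
      hy (by rw [hφ]; exact finprod_eq_zero _ v h fin)
    have ex : ∀ v, ∃ s ∈ Tv v, (v ∈ S → s • c v y ∈ R v) ∧ (v ∉ S → s • c v y = y0 v) ∧
        (v ∉ S → c v y = y0 v → s = 1) := fun v => by
      by_cases h : v ∈ S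
      · obtain ⟨s, hs, e⟩ := h1 v h _ (ne v)
        exact ⟨s, hs, fun _ => e, fun h' => absurd h h', fun h' => absurd h h'⟩
      · by_cases e : c v y = y0 v
        · exact ⟨1, one_mem _, fun h' => absurd h' h, fun _ => by rw [one_smul, e],
            fun _ _ => rfl⟩
        · obtain ⟨s, hs, e'⟩ := (hB v h).1 _ (ne v)
          exact ⟨s, hs, fun h' => absurd h' h, fun _ => e', fun _ e'' => absurd e'' e⟩
    choose s hs ha hb hd using ex
    obtain ⟨t, ht, e⟩ := surT s hs ((S.finite_toSet.union (ae y)).subset fun v hv => by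
      by_contra hn
      simp only [Set.mem_union, Finset.mem_coe, Set.mem_ofPred_eq, not_or, not_not] at hn
      exact hv (hd v hn.1 hn.2))
    exact ⟨t, ht, (mem _).2 ⟨fun v h => by rw [hc, e]; exact ha v h,
      fun v h => by rw [hc, e]; exact hb v h⟩⟩
  · obtain ⟨ha, hb⟩ := (mem r).1 hr
    rw [mem, hT1 t ht]
    constructor
    · rintro ⟨ha', hb'⟩ v
      by_cases h : v ∈ S
      · exact (h2 v h _ (hT t ht v) _ (ha v h)).1 (hc v t r ▸ ha' v h)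
      · refine ((hB v h).2.1 _ (hT t ht v)).1 ?_
        have := hb' v h
        rwa [hc, hb v h] at this
    · intro h
      exact ⟨fun v hv => by rw [hc]; exact (h2 v hv _ (hT t ht v) _ (ha v hv)).2 (h v),
        fun v hv => by rw [hc, hb v hv]; exact ((hB v hv).2.1 _ (hT t ht v)).2 (h v)⟩
  · rw [Finset.sum_image, Finset.prod_congr rfl fun v hv => (h3 v hv).symm, Finset.prod_sum]
    · refine Finset.sum_congr rfl fun z _ => ?_
      rw [hφ, finprod_eq_prod_of_mulSupport_subset (s := S), ← Finset.prod_attach]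
      · exact Finset.prod_congr rfl fun v _ => by rw [hL z v.1 v.2]
      · intro v hv
        by_contra hn
        exact hv (by show φv v (c v (L z)) = 1; rw [hL' z v hn]; exact (hB v hn).2.2)
    · intro z _ z' _ e
      funext v h
      rw [← hL z v h, e, hL z' v h]

end Vale.Agent.P022K.Sh.Orb
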