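import Vale.Agent.P022K.F0.OrbL

/-!
# P022K, block F0, row ORB: orbital sums at a place where the torus is unramified
-/

set_option autoImplicit false

open scoped MatrixGroups WithZero
open WithZero Matrix

noncomputable section

namespace Vale.Agent.P022K.Sh.Orb

variable {K : Type} [Field K] {v : Valuation K ℤᵐ⁰} {ϖ : Kˣ} {ω : Matrix (Fin 2) (Fin 2) K}

/-- the centraliser of `ω` -/
def Tor (ω : Matrix (Fin 2) (Fin 2) K) : Subgroup (GL (Fin 2) K) where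
  carrier := {g | g.val * ω = ω * g.val}
  mul_mem' {g h} hg hh := by
    show (g * h).val * ω = ω * (g * h).val
    rw [Units.val_mul, mul_assoc, hh, ← mul_assoc, hg, mul_assoc]
  one_mem' := by simp
  inv_mem' {g} hg := by
    show (g⁻¹).val * ω = ω * (g⁻¹).val
    rw [Units.inv_mul_eq_iff_eq_mul, ← mul_assoc, hg, Units.mul_inv_cancel_right]

theorem mem_Tor {g : GL (Fin 2) K} : g ∈ Tor ω ↔ g.val * ω = ω * g.val := Iff.rfl

/-- the conjugate of `ω` -/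
def Wx (ω : Matrix (Fin 2) (Fin 2) K) (x : GL (Fin 2) K) : Matrix (Fin 2) (Fin 2) K :=
  (x⁻¹).val * ω * x.val

variable (v) in
/-- `b ω` preserves the lattices of the vertex `x` -/
def In (ω : Matrix (Fin 2) (Fin 2) K) (b : K) (x : GL (Fin 2) K) : Prop := IM v (b • Wx ω x)

variable (v) in
/-- the sign of a vertex -/
def sg (ε : ℂ) (x : GL (Fin 2) K) : ℂ := ε ^ log (v x.val.det)

variable (v) in
/-- `O[ω]` is étale -/
structure Et (ω : Matrix (Fin 2) (Fin 2) K) : Prop where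
  int : IM v ω
  disc : v (ω.trace ^ 2 - 4 * ω.det) = 1

variable (v) in
/-- a primitive pair -/
structure Prim (a b : K) : Prop where
  ha : v a ≤ 1
  hb : v b ≤ 1
  or : v a = 1 ∨ v b = 1

variable (v) in
/-- scalar modulo `ϖ` -/
def Sc (g : GL (Fin 2) K) : Prop :=
  v (g.val 0 1) < 1 ∧ v (g.val 1 0) < 1 ∧ v (g.val 0 0 - g.val 1 1) < 1

variable (v) in
/-- a class function on `GL₂(O)`, extended by the centre and by zero; `c1` is its value on scalars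
modulo `ϖ`, `cu` its value on the other elements with a double eigenvalue modulo `ϖ` -/
structure Typ (f : GL (Fin 2) K → ℂ) (c1 cu : ℂ) : Prop where
  zero : ∀ g, g ∉ ZV v → f g = 0
  cen : ∀ (z : Kˣ) g, f (sc z * g) = f g
  cls : ∀ k ∈ KV v, ∀ g, f (k⁻¹ * g * k) = f g
  sca : ∀ g ∈ KV v, Sc v g → f g = c1
  uni : ∀ g ∈ KV v, ¬ Sc v g → v (g.val.trace ^ 2 - 4 * g.val.det) < 1 → f g = cu

variable (v) in
/-- the support of the Hecke operator -/
def TV : Set (GL (Fin 2) K) :=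
  {g | ∃ z : Kˣ, IM v (sc z * g).val ∧ v (sc z * g).val.det = exp (-1)}

variable (v ϖ ω) in
/-- a section `P` for the action of the torus on the vertices -/
structure Sec (ε κ : ℂ) (P : Set (GL (Fin 2) K ⧸ ZV v)) : Prop where
  cov : ∀ y, ∃ t ∈ Tor ω, t • y ∈ P
  stab : ∀ t ∈ Tor ω, ∀ r ∈ P, t • r ∈ P ↔ t ∈ ZV v
  cnt : ∀ N : ℕ, ∃ R : Finset (GL (Fin 2) K ⧸ ZV v),
    (∀ x : GL (Fin 2) K, ↑x ∈ R ↔ ↑x ∈ P ∧ In v ω ((ϖ : K) ^ N) x) ∧
      ∑ r ∈ R, sg v ε r.out = κ ^ N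
  base : ∀ x : GL (Fin 2) K, ↑x ∈ P → In v ω 1 x → x ∈ ZV v
  one : ((1 : GL (Fin 2) K) : GL (Fin 2) K ⧸ ZV v) ∈ P

theorem Wx_mul (x y : GL (Fin 2) K) : Wx ω (x * y) = Wx (Wx ω x) y := by
  simp only [Wx, _root_.mul_inv_rev, Units.val_mul, mul_assoc]

theorem Wx_tor {t : GL (Fin 2) K} (ht : t ∈ Tor ω) : Wx ω t = ω := by
  rw [Wx, mul_assoc, ← mem_Tor.1 ht, Units.inv_mul_cancel_left]

theorem sc_tor (z : Kˣ) : sc z ∈ Tor ω := by
  rw [mem_Tor, Matrix.GeneralLinearGroup.coe_scalar]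
  exact (Matrix.scalar_comm (z : K) (Commute.all _) ω)

theorem Wx_trace (x : GL (Fin 2) K) : (Wx ω x).trace = ω.trace := Matrix.trace_units_conj' x ω

theorem Wx_det (x : GL (Fin 2) K) : (Wx ω x).det = ω.det := Matrix.det_units_conj' x ω

theorem In.tor {b : K} {t x : GL (Fin 2) K} (ht : t ∈ Tor ω) : In v ω b (t * x) ↔ In v ω b x := by
  rw [In, Wx_mul, Wx_tor ht, In]

theorem In.mulK {b : K} {x k : GL (Fin 2) K} (hk : k ∈ ZV v) (h : In v ω b x) :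
    In v ω b (x * k) := by
  obtain ⟨z, k, hk', rfl⟩ := ZV_dec hk
  rw [In, Wx_mul, Wx_mul, Wx_tor (sc_tor z), Wx, ← smul_mul_assoc, ← mul_smul_comm]
  exact ((inv_mem hk').1.mul h).mul hk'.1

theorem In.quot {b : K} {x y : GL (Fin 2) K} (e : (x : GL (Fin 2) K ⧸ ZV v) = y) :
    In v ω b x ↔ In v ω b y := by
  have h := QuotientGroup.eq.1 e
  refine ⟨fun hx => by simpa using hx.mulK h, fun hy => by simpa using hy.mulK (inv_mem h)⟩

theorem In.mono {b b' : K} {x : GL (Fin 2) K} (hb : v b' ≤ v b) (h : In v ω b x) :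
    In v ω b' x := fun i j => by
  have := h i j
  rw [Matrix.smul_apply, smul_eq_mul, map_mul] at this ⊢
  exact (mul_le_mul_left hb _).trans this

theorem In.congr {b b' : K} {x : GL (Fin 2) K} (hb : v b' = v b) : In v ω b x ↔ In v ω b' x :=
  ⟨In.mono hb.le, In.mono hb.ge⟩

theorem vdet_ne (x : GL (Fin 2) K) : v x.val.det ≠ 0 := by simpa using x.det_ne_zero

theorem sg_mul {ε : ℂ} (hε : ε ^ 2 = 1) (x y : GL (Fin 2) K) :
    sg v ε (x * y) = sg v ε x * sg v ε y := by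
  have h0 : ε ≠ 0 := fun e => by simp [e] at hε
  rw [sg, Units.val_mul, det_mul, map_mul, log_mul (vdet_ne x) (vdet_ne y), zpow_add₀ h0, sg, sg]

theorem sg_ZV {ε : ℂ} (hε : ε ^ 2 = 1) {k : GL (Fin 2) K} (hk : k ∈ ZV v) : sg v ε k = 1 := by
  obtain ⟨z, k, hk', rfl⟩ := ZV_dec hk
  rw [sg, det_sc_mul, map_mul, hk'.2, mul_one, map_pow, log_pow, nsmul_eq_mul, zpow_mul,
    zpow_natCast, hε, _root_.one_zpow]

theorem sg_quot {ε : ℂ} (hε : ε ^ 2 = 1) {x y : GL (Fin 2) K}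
    (e : (x : GL (Fin 2) K ⧸ ZV v) = y) : sg v ε x = sg v ε y := by
  rw [show y = x * (x⁻¹ * y) by simp, sg_mul hε, sg_ZV hε (QuotientGroup.eq.1 e), mul_one]

theorem conj_val {γ : GL (Fin 2) K} {a b : K}
    (hγ : γ.val = a • (1 : Matrix (Fin 2) (Fin 2) K) + b • ω) (x : GL (Fin 2) K) :
    (x⁻¹ * γ * x).val = a • (1 : Matrix (Fin 2) (Fin 2) K) + b • Wx ω x := by
  rw [Units.val_mul, Units.val_mul, hγ, Wx]
  simp only [mul_add, add_mul, mul_smul_comm, smul_mul_assoc, mul_one, Units.inv_mul]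

theorem tr_lin (a b : K) (W : Matrix (Fin 2) (Fin 2) K) :
    (a • (1 : Matrix (Fin 2) (Fin 2) K) + b • W).trace = 2 * a + b * W.trace := by
  simp [Matrix.trace_fin_two]; ring

theorem det_lin (a b : K) (W : Matrix (Fin 2) (Fin 2) K) :
    (a • (1 : Matrix (Fin 2) (Fin 2) K) + b • W).det =
      a ^ 2 + a * b * W.trace + b ^ 2 * W.det := by
  simp [Matrix.trace_fin_two, Matrix.det_fin_two]; ring

theorem v_nat (n : ℕ) : v (n : K) ≤ 1 := by
  induction n with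
  | zero => simp
  | succ n ih => rw [Nat.cast_succ]; exact v.map_add_le ih (by simp)

theorem v_mul_le {x y : K} (hx : v x ≤ 1) (hy : v y ≤ 1) : v (x * y) ≤ 1 := by
  rw [map_mul]; exact mul_le_one' hx hy

theorem v_mul_lt {x y : K} (hx : v x < 1) (hy : v y ≤ 1) : v (x * y) < 1 := by
  rw [map_mul]; exact mul_lt_one_of_lt_of_le hx hy

theorem v_sq_le {x : K} (hx : v x ≤ 1) : v (x ^ 2) ≤ 1 := by
  rw [pow_two]; exact v_mul_le hx hx

theorem sq_le_one {x : ℤᵐ⁰} (h : x ^ 2 ≤ 1) : x ≤ 1 :=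
  (pow_le_one_iff_of_nonneg zero_le two_ne_zero).1 h

theorem Et.int_of (h : Et v ω) {A B : K} (h1 : v (2 * A + B * ω.trace) ≤ 1)
    (h2 : v (A ^ 2 + A * B * ω.trace + B ^ 2 * ω.det) ≤ 1) : v A ≤ 1 ∧ v B ≤ 1 := by
  have hB : v B ≤ 1 := by
    have e : B ^ 2 * (ω.trace ^ 2 - 4 * ω.det) = (2 * A + B * ω.trace) ^ 2 -
      4 * (A ^ 2 + A * B * ω.trace + B ^ 2 * ω.det) := by ring
    have : v (B ^ 2 * (ω.trace ^ 2 - 4 * ω.det)) ≤ 1 := by
      rw [e]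
      exact v.map_sub_le (v_sq_le h1) (v_mul_le (by exact_mod_cast v_nat 4) h2)
    rw [map_mul, h.disc, mul_one, map_pow] at this
    exact sq_le_one this
  refine ⟨not_lt.1 fun hA => ?_, hB⟩
  have h3 : v (A * (A + B * ω.trace)) ≤ 1 := by
    rw [show A * (A + B * ω.trace) = A ^ 2 + A * B * ω.trace + B ^ 2 * ω.det - B ^ 2 * ω.det by
      ring]
    exact v.map_sub_le h2 (v_mul_le (v_sq_le hB) h.int.det)
  rw [map_mul, v.map_add_eq_of_lt_left ((v_mul_le hB h.int.trace).trans_lt hA), ← pow_two] at h3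
  exact absurd (sq_le_one h3) (not_le.2 hA)

section

variable {γ : GL (Fin 2) K} {a b : K} (h : Et v ω) (hp : Prim v a b)
  (hγ : γ.val = a • (1 : Matrix (Fin 2) (Fin 2) K) + b • ω)
include h hp hγ

theorem im_gam : IM v γ.val := hγ ▸ (IM.one.smul hp.ha).add (h.int.smul hp.hb)

theorem scal_le {z : Kˣ} {x : GL (Fin 2) K} (hz : IM v (sc z * (x⁻¹ * γ * x)).val) :
    v z ≤ 1 := by
  rw [sc_mul_val, conj_val hγ, smul_add, smul_smul, smul_smul] at hz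
  have h1 := hz.trace
  have h2 := hz.det
  rw [tr_lin, Wx_trace] at h1
  rw [det_lin, Wx_trace, Wx_det] at h2
  obtain ⟨h3, h4⟩ := h.int_of h1 h2
  rw [map_mul] at h3 h4
  rcases hp.or with e | e
  · rwa [e, mul_one] at h3
  · rwa [e, mul_one] at h4

omit h in
theorem im_conj (x : GL (Fin 2) K) : IM v (x⁻¹ * γ * x).val ↔ In v ω b x := by
  rw [conj_val hγ]
  exact ⟨fun h' => by simpa [In] using h'.sub (IM.one.smul hp.ha),
    fun h' => (IM.one.smul hp.ha).add h'⟩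

omit h hp hγ in
theorem det_conj (x : GL (Fin 2) K) : (x⁻¹ * γ * x).val.det = γ.val.det :=
  Matrix.det_units_conj' x γ.val

theorem conj_KV (x : GL (Fin 2) K) : x⁻¹ * γ * x ∈ ZV v ↔ v γ.val.det = 1 ∧ In v ω b x := by
  constructor
  · rintro ⟨z, h1, h2⟩
    have hz := scal_le h hp hγ h1
    rw [det_sc_mul, det_conj, map_mul, map_pow] at h2
    have hd : v γ.val.det = 1 := le_antisymm (im_gam h hp hγ).det (by
      calc (1 : ℤᵐ⁰) = v z ^ 2 * v γ.val.det := h2.symm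
        _ ≤ 1 * v γ.val.det := mul_le_mul_left (pow_le_one' hz 2) _
        _ = _ := one_mul _)
    refine ⟨hd, (im_conj hp hγ x).1 (KV_of_ZV ⟨z, h1, ?_⟩ (by rw [det_conj, hd])).1⟩
    rw [det_sc_mul, det_conj, map_mul, map_pow, h2]
  · exact fun h' => KV_le ⟨(im_conj hp hγ x).2 h'.2, by rw [det_conj, h'.1]⟩

theorem det_unit (hb : v b < 1) : v γ.val.det = 1 := by
  have ha : v a = 1 := hp.or.resolve_right hb.ne
  rw [hγ, det_lin, show a ^ 2 + a * b * ω.trace + b ^ 2 * ω.det =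
    a ^ 2 + b * (a * ω.trace + b * ω.det) by ring, v.map_add_eq_of_lt_left, map_pow, ha, one_pow]
  rw [map_pow, ha, one_pow]
  exact v_mul_lt hb (v.map_add_le (v_mul_le hp.ha h.int.trace) (v_mul_le hp.hb h.int.det))

theorem conj_TV (x : GL (Fin 2) K) :
    x⁻¹ * γ * x ∈ TV v ↔ v γ.val.det = exp (-1) ∧ In v ω 1 x := by
  have key : v γ.val.det = exp (-1) → v b = v (1 : K) := fun e => by
    rw [map_one]
    refine hp.hb.eq_or_lt.resolve_right fun hb => ?_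
    rw [det_unit h hp hγ hb, eq_comm, exp_eq_one] at e
    omega
  constructor
  · rintro ⟨z, h1, h2⟩
    have hz := scal_le h hp hγ h1
    rw [det_sc_mul, det_conj, map_mul, map_pow] at h2
    have hz1 : v z = 1 := hz.eq_or_lt.resolve_right fun hl => by
      have h3 : v z ^ 2 * v γ.val.det ≤ exp (-1) ^ 2 * 1 :=
        mul_le_mul' (pow_le_pow_left' (lt_one_iff.1 hl) 2) (im_gam h hp hγ).det
      rw [h2, mul_one, ← exp_nsmul, exp_le_exp] at h3
      simp at h3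
    rw [hz1, one_pow, one_mul] at h2
    refine ⟨h2, (In.congr (key h2).symm).1 ((im_conj hp hγ x).1 ?_)⟩
    have := IM.smul (c := ((z⁻¹ : Kˣ) : K))
      (by rw [Units.val_inv_eq_inv_val, map_inv₀, hz1, inv_one]) h1
    rwa [sc_mul_val, smul_smul, Units.inv_mul, one_smul] at this
  · rintro ⟨h1, h2⟩
    refine ⟨1, ?_, ?_⟩ <;> rw [map_one, one_mul]
    · exact (im_conj hp hγ x).2 ((In.congr (key h1)).1 h2)
    · rw [det_conj, h1]

omit hp in
theorem sc_iff (hϖ : v ϖ = exp (-1)) {N : ℕ} (hb : v b = exp (-((N + 1 : ℕ) : ℤ)))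
    (x : GL (Fin 2) K) : Sc v (x⁻¹ * γ * x) ↔ In v ω ((ϖ : K) ^ N) x := by
  have e : ∀ y : K, v ((ϖ : K) ^ N * y) ≤ 1 ↔ v (b * y) < 1 := fun y => by
    rw [lt_one_iff, map_mul, map_mul, hb, v_pow hϖ, Nat.cast_succ, neg_add, exp_add,
      mul_right_comm, mul_le_iff_le_one_left exp_pos]
  have hb1 : v b < 1 := by rw [hb, ← exp_zero, exp_lt_exp]; omega
  have hd : v (b * Wx ω x 0 0 * (b * Wx ω x 1 1) - b * Wx ω x 0 1 * (b * Wx ω x 1 0)) < 1 := by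
    rw [show b * Wx ω x 0 0 * (b * Wx ω x 1 1) - b * Wx ω x 0 1 * (b * Wx ω x 1 0) =
      b * (b * (Wx ω x).det) by rw [det_fin_two]; ring, Wx_det]
    exact v_mul_lt hb1 (v_mul_le hb1.le h.int.det)
  have e0 : Sc v (x⁻¹ * γ * x) ↔ v (b * Wx ω x 0 1) < 1 ∧ v (b * Wx ω x 1 0) < 1 ∧
      v (b * Wx ω x 0 0 - b * Wx ω x 1 1) < 1 := by
    simp [Sc, conj_val hγ]
  rw [e0]
  constructor
  · rintro ⟨h1, h2, h3⟩
    have h4 : v (b * Wx ω x 0 0) * v (b * Wx ω x 1 1) < 1 := by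
      have := v.map_add_lt hd (v_mul_lt h1 h2.le)
      rwa [sub_add_cancel, map_mul] at this
    have h5 : v (b * Wx ω x 0 0) < 1 ∧ v (b * Wx ω x 1 1) < 1 := by
      by_cases h6 : v (b * Wx ω x 0 0) < 1
      · exact ⟨h6, by simpa using v.map_sub_lt h6 h3⟩
      · have h7 : v (b * Wx ω x 1 1) < 1 := not_le.1 fun h7 =>
          absurd (one_le_mul (not_lt.1 h6) h7) (not_le.2 h4)
        exact ⟨by simpa using v.map_add_lt h3 h7, h7⟩
    intro i j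
    rw [Matrix.smul_apply, smul_eq_mul, e]
    fin_cases i <;> fin_cases j
    exacts [h5.1, h1, h2, h5.2]
  · intro h'
    have h'' : ∀ i j, v (b * Wx ω x i j) < 1 := fun i j => (e _).1 (h' i j)
    exact ⟨h'' _ _, h'' _ _, v.map_sub_lt (h'' _ _) (h'' _ _)⟩

end

theorem smul_mk (t x : GL (Fin 2) K) :
    t • (x : GL (Fin 2) K ⧸ ZV v) = ((t * x : GL (Fin 2) K) : GL (Fin 2) K ⧸ ZV v) := rfl

theorem conj_sc (z : Kˣ) (γ x : GL (Fin 2) K) : x⁻¹ * (sc z * γ) * x = sc z * (x⁻¹ * γ * x) := by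
  rw [← mul_assoc, ← sc_comm]; simp only [mul_assoc]

theorem Typ.clsZ {f : GL (Fin 2) K → ℂ} {c1 cu : ℂ} (hf : Typ v f c1 cu) {k : GL (Fin 2) K}
    (hk : k ∈ ZV v) (g : GL (Fin 2) K) : f (k⁻¹ * g * k) = f g := by
  obtain ⟨z, k, hk', rfl⟩ := ZV_dec hk
  rw [← hf.cls k hk' g, _root_.mul_inv_rev, ← mul_assoc, mul_assoc _ g, ← sc_comm, ← mul_assoc,
    inv_mul_cancel_right]

/-- the normal form of an element of the torus -/
theorem ex_unit {γ : GL (Fin 2) K} {z : Kˣ} {a b : K}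
    (hγ : γ.val = (z : K) • (a • (1 : Matrix (Fin 2) (Fin 2) K) + b • ω)) :
    ∃ γ0 : GL (Fin 2) K, γ = sc z * γ0 ∧ γ0.val = a • (1 : Matrix (Fin 2) (Fin 2) K) + b • ω :=
  ⟨sc z⁻¹ * γ, by rw [← mul_assoc, ← map_mul, mul_inv_cancel, map_one, one_mul],
    by rw [sc_mul_val, hγ, smul_smul, Units.inv_mul, one_smul]⟩

section

variable {ε κ : ℂ} {P : Set (GL (Fin 2) K ⧸ ZV v)} (hS : Sec v ϖ ω ε κ P)
  (h : Et v ω) {γ : GL (Fin 2) K} {z : Kˣ} {a b : K} (hp : Prim v a b)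
  (hγ : γ.val = (z : K) • (a • (1 : Matrix (Fin 2) (Fin 2) K) + b • ω))
  {f : GL (Fin 2) K → ℂ} {φ : GL (Fin 2) K ⧸ ZV v → ℂ}
  (hφ : ∀ x : GL (Fin 2) K, φ x = sg v ε x * f (x⁻¹ * γ * x))

include hS in
theorem base_of (h1 : ∀ x : GL (Fin 2) K, φ x ≠ 0 → In v ω 1 x)
    (h2 : φ (1 : GL (Fin 2) K) = 1) :
    Base (Tor ω) (Tor ω ⊓ ZV v) φ (1 : GL (Fin 2) K) := by
  refine ⟨fun y hy => ?_, fun t ht => ?_, h2⟩
  · obtain ⟨x, rfl⟩ := QuotientGroup.mk_surjective y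
    obtain ⟨t, ht, e⟩ := hS.cov x
    refine ⟨t, ht, ?_⟩
    rw [smul_mk, eq_comm, QuotientGroup.eq, inv_one, one_mul]
    exact hS.base _ e ((In.tor ht).2 (h1 x hy))
  · rw [smul_mk, eq_comm, QuotientGroup.eq, inv_one, one_mul, mul_one]
    exact ⟨fun h => ⟨ht, h⟩, fun h => h.2⟩

include h hp hγ hφ

/-- a type function vanishes on the conjugates of an element whose norm is not a unit -/
theorem typ_zero {c1 cu : ℂ} (hf : Typ v f c1 cu)
    (hd : v (a ^ 2 + a * b * ω.trace + b ^ 2 * ω.det) ≠ 1) (y : GL (Fin 2) K ⧸ ZV v) :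
    φ y = 0 := by
  obtain ⟨x, rfl⟩ := QuotientGroup.mk_surjective y
  obtain ⟨γ0, rfl, h0⟩ := ex_unit hγ
  rw [hφ, conj_sc, hf.cen, hf.zero _ fun hx => hd ?_, mul_zero]
  rw [← det_lin, ← h0]
  exact ((conj_KV h hp h0 x).1 hx).1

/-- the Hecke function vanishes unless the norm has valuation one -/
theorem hecke_zero (hf : ∀ g, g ∉ TV v → f g = 0)
    (hd : v (a ^ 2 + a * b * ω.trace + b ^ 2 * ω.det) ≠ exp (-1)) (y : GL (Fin 2) K ⧸ ZV v) :
    φ y = 0 := by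
  obtain ⟨x, rfl⟩ := QuotientGroup.mk_surjective y
  obtain ⟨γ0, rfl, h0⟩ := ex_unit hγ
  rw [hφ, hf _ fun hx => hd ?_, mul_zero]
  rw [← det_lin, ← h0]
  obtain ⟨w, hw⟩ := hx
  rw [conj_sc, ← mul_assoc, ← map_mul] at hw
  exact ((conj_TV h hp h0 x).1 ⟨_, hw⟩).1

include hS

/-- **ORB-T** -/
theorem hecke_base (hf : ∀ g, g ∉ TV v → f g = 0) (hf1 : ∀ g ∈ TV v, f g = 1)
    (hd : v (a ^ 2 + a * b * ω.trace + b ^ 2 * ω.det) = exp (-1)) :
    Base (Tor ω) (Tor ω ⊓ ZV v) φ (1 : GL (Fin 2) K) := by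
  obtain ⟨γ0, rfl, h0⟩ := ex_unit hγ
  have key : ∀ x : GL (Fin 2) K, x⁻¹ * (sc z * γ0) * x ∈ TV v ↔ x⁻¹ * γ0 * x ∈ TV v := fun x => by
    rw [conj_sc]
    constructor
    · rintro ⟨w, hw⟩
      exact ⟨w * z, by rwa [map_mul, mul_assoc]⟩
    · rintro ⟨w, hw⟩
      exact ⟨w * z⁻¹, by rwa [← mul_assoc, ← map_mul, inv_mul_cancel_right]⟩
  refine base_of hS (fun x hx => ?_) ?_
  · by_contra hn
    exact hx (by rw [hφ, hf _ fun hx => hn ((conj_TV h hp h0 x).1 ((key x).1 hx)).2, mul_zero])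
  · rw [hφ, hf1 _ ((key 1).2 ((conj_TV h hp h0 1).2 ⟨by rw [h0, det_lin, hd], ?_⟩))]
    · simp [sg]
    · simpa [In, Wx] using h.int

/-- **ORB-I / ORB-S** for a type function, `ord b = 0` -/
theorem typ_orb0 {c1 cu : ℂ} (hf : Typ v f c1 cu) (hb : v b = 1) :
    (∀ y, φ y ≠ 0 → ∃ t ∈ Tor ω, t • y = (1 : GL (Fin 2) K)) ∧
      (∀ t ∈ Tor ω, t • ((1 : GL (Fin 2) K) : GL (Fin 2) K ⧸ ZV v) = (1 : GL (Fin 2) K) ↔
        t ∈ Tor ω ⊓ ZV v) ∧ φ (1 : GL (Fin 2) K) = f γ := by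
  classical
  obtain ⟨γ0, rfl, h0⟩ := ex_unit hγ
  have hB : Base (Tor ω) (Tor ω ⊓ ZV v)
      (fun y => if φ y ≠ 0 ∨ y = (1 : GL (Fin 2) K) then (1 : ℂ) else 0) (1 : GL (Fin 2) K) := by
    refine base_of hS (fun x hx => ?_) (by simp)
    have hx : φ x ≠ 0 ∨ (x : GL (Fin 2) K ⧸ ZV v) = (1 : GL (Fin 2) K) := by
      by_contra hn
      exact hx (if_neg hn)
    rcases hx with hx | hx
    · by_contra hn
      exact hx (by rw [hφ, conj_sc, hf.cen, hf.zero _ fun hx => hn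
        ((In.congr (by rw [map_one, hb])).1 ((conj_KV h hp h0 x).1 hx).2), mul_zero])
    · exact (In.quot hx).2 (by simpa [In, Wx] using h.int)
  exact ⟨fun y hy => hB.1 y (by simp [hy]), hB.2.1, by simp [hφ, sg]⟩

/-- **ORB-I / ORB-S** for a type function, `ord b = N + 1` -/
theorem typ_orb1 (hϖ : v ϖ = exp (-1)) {c1 cu : ℂ} (hf : Typ v f c1 cu) {N : ℕ}
    (hb : v b = exp (-((N + 1 : ℕ) : ℤ))) :
    HasOrb (Tor ω) (Tor ω ⊓ ZV v) φ (c1 * κ ^ N + cu * (κ ^ (N + 1) - κ ^ N)) := by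
  classical
  obtain ⟨γ0, rfl, h0⟩ := ex_unit hγ
  obtain ⟨R, hR, hs⟩ := hS.cnt (N + 1)
  obtain ⟨R', hR', hs'⟩ := hS.cnt N
  have hb1 : v b < 1 := by rw [hb, ← exp_zero, exp_lt_exp]; omega
  have hd := det_unit h hp h0 hb1
  have hbb : v ((ϖ : K) ^ (N + 1)) = v b := by rw [hb, v_pow hϖ]
  have sub : R' ⊆ R := fun y hy => by
    obtain ⟨x, rfl⟩ := QuotientGroup.mk_surjective y
    have := (hR' x).1 hy
    refine (hR x).2 ⟨this.1, this.2.mono ?_⟩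
    rw [v_pow hϖ, v_pow hϖ, exp_le_exp]; omega
  refine ⟨R, fun y hy => ?_, fun t ht r hr => ?_, ?_⟩
  · obtain ⟨x, rfl⟩ := QuotientGroup.mk_surjective y
    obtain ⟨t, ht, e⟩ := hS.cov x
    refine ⟨t, ht, (hR (t * x)).2 ⟨e, (In.tor ht).2 ?_⟩⟩
    by_contra hn
    exact hy (by rw [hφ, conj_sc, hf.cen, hf.zero _ fun hx => hn
      ((In.congr hbb).1 ((conj_KV h hp h0 x).1 hx).2), mul_zero])
  · obtain ⟨x, rfl⟩ := QuotientGroup.mk_surjective r
    have hx := (hR x).1 hr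
    rw [smul_mk, hR, In.tor ht, and_iff_left hx.2, ← smul_mk, hS.stab t ht _ hx.1]
    exact ⟨fun h => ⟨ht, h⟩, fun h => h.2⟩
  · have val : ∀ r ∈ R, φ r = sg v ε r.out * if r ∈ R' then c1 else cu := fun r hr => by
      obtain ⟨x, hx⟩ : ∃ x, x = r.out := ⟨_, rfl⟩
      have e : (x : GL (Fin 2) K ⧸ ZV v) = r := by rw [hx, QuotientGroup.out_eq']
      rw [← hx]
      clear hx
      subst e
      have h1 := (hR x).1 hr
      have hK : x⁻¹ * γ0 * x ∈ KV v :=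
        ⟨(im_conj hp h0 x).2 ((In.congr hbb).2 h1.2), by rw [det_conj, hd]⟩
      rw [hφ, conj_sc, hf.cen]
      congr 1
      split_ifs with h2
      · exact hf.sca _ hK ((sc_iff h h0 hϖ hb x).2 ((hR' x).1 h2).2)
      · refine hf.uni _ hK (fun h3 => h2 ((hR' x).2 ⟨h1.1, (sc_iff h h0 hϖ hb x).1 h3⟩)) ?_
        rw [conj_val h0, tr_lin, det_lin, Wx_trace, Wx_det, show (2 * a + b * ω.trace) ^ 2 -
          4 * (a ^ 2 + a * b * ω.trace + b ^ 2 * ω.det) = b * (b * (ω.trace ^ 2 - 4 * ω.det)) by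
            ring]
        exact v_mul_lt hb1 (v_mul_le hb1.le h.disc.le)
    rw [Finset.sum_congr rfl val, ← Finset.sum_sdiff sub, ← hs, ← hs', ← Finset.sum_sdiff sub,
      add_sub_cancel_right, Finset.mul_sum, Finset.mul_sum, add_comm]
    congr 1
    · exact Finset.sum_congr rfl fun r hr => by rw [if_pos hr, mul_comm]
    · exact Finset.sum_congr rfl fun r hr => by rw [if_neg (Finset.mem_sdiff.1 hr).2, mul_comm]

end

end Vale.Agent.P022K.Sh.Orb
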