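import Vale.Agent.P027M.S.Defs

/-!
# P022K, block F0, row TOR: the torus side of the twisted trace formula (definitions)
-/

set_option linter.all false

open NumberField IsDedekindDomain

noncomputable section

namespace Vale.Agent.P022K.Sh.Tor

open Vale.Agent.P022.C (ordv)
open Vale.Agent.P027M.S (Pr Nr)

variable {F E : Type} [Field F] [NumberField F] [Field E] [NumberField E] [Algebra F E]

variable (F E) in
/-- a CM extension `E = F(δ)`, `δ ^ 2 = a`, a CM type, one place `t1` of `F` and a modulus `D` -/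
structure CM where
  δ : E
  a : 𝓞 F
  c : E ≃ₐ[F] E
  D : ℕ
  sec : (F →+* ℂ) → (E →+* ℂ)
  t1 : F →+* ℂ
  δ0 : δ ≠ 0
  sq : δ ^ 2 = algebraMap F E a
  cδ : c δ = -δ
  span : ∀ x : E, ∃ s t : F, x = algebraMap F E s + algebraMap F E t * δ
  cj : ∀ (φ : E →+* ℂ) (x : E), φ (c x) = starRingEnd ℂ (φ x)
  ovr : ∀ τ x, sec τ (algebraMap F E x) = τ x
  two : ∃ τ, τ ≠ t1
  D3 : 3 ≤ D
  D2 : 2 ∣ D
  aD : ∀ v : Pr F, (D : 𝓞 F) ∉ v.asIdeal → a ∉ v.asIdeal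

/-- `P` lies above `v` -/
def Ab (v : Pr F) (P : Pr E) : Prop := P.asIdeal.comap (algebraMap (𝓞 F) (𝓞 E)) = v.asIdeal

/-- the value of `Ψ` on a principal ideal -/
def pv (Ψ : Pr E → ℂˣ) (γ : E) : ℂˣ := ∏ᶠ P : Pr E, Ψ P ^ ordv P γ

/-- the value of `Ψ` on the ideal generated by an unramified prime `v` -/
def kap (Ψ : Pr E → ℂˣ) (v : Pr F) : ℂˣ := ∏ᶠ (P : Pr E) (_ : Ab v P), Ψ P

/-- the Hecke eigenvalue at a split prime -/
def tw (Ψ : Pr E → ℂˣ) (v : Pr F) : ℂ := ∑ᶠ (P : Pr E) (_ : Ab v P), (Ψ P : ℂ)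

/-- the content of `s + t δ` at `v` -/
def mv (v : Pr F) (s t : F) : ℤ := by
  classical exact if s = 0 then ordv v t else min (ordv v s) (ordv v t)

variable (F E) in
/-- the scalars -/
abbrev sc : Fˣ →* Eˣ := Units.map (algebraMap F E : F →* E)

variable (F E) in
/-- the torus `E^× / F^×` -/
abbrev TF : Type := Eˣ ⧸ (sc F E).range

namespace CM

variable (C : CM F E)

/-- the units at the primes above `D` -/
def G : Subgroup Eˣ where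
  carrier := {γ | ∀ P : Pr E, (C.D : 𝓞 E) ∈ P.asIdeal → P.valuation E (γ : E) = 1}
  mul_mem' {x y} hx hy P h := by rw [Units.val_mul, map_mul, hx P h, hy P h, one_mul]
  one_mem' P h := by rw [Units.val_one, map_one]
  inv_mem' {x} hx P h := by rw [Units.val_inv_eq_inv_val, map_inv₀, hx P h, inv_one]

theorem val_D_lt {P : Pr E} (h : (C.D : 𝓞 E) ∈ P.asIdeal) : P.valuation E (C.D : E) < 1 := by
  have := (P.valuation_lt_one_iff_mem (K := E) (C.D : 𝓞 E)).2 h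
  exact_mod_cast this

/-- the elements `≡ 1` modulo `D` at the primes in `S` -/
def G1 (S : Set (Pr E)) : Subgroup C.G where
  carrier := {γ | ∀ P ∈ S, (C.D : 𝓞 E) ∈ P.asIdeal →
    P.valuation E (((γ : Eˣ) : E) - 1) ≤ P.valuation E (C.D : E)}
  mul_mem' {x y} hx hy P hP h := by
    have e : (((x * y : C.G) : Eˣ) : E) - 1 = (x : Eˣ) * (((y : Eˣ) : E) - 1) + ((x : Eˣ) - 1) := by
      push_cast; ring
    rw [e]
    refine Valuation.map_add_le _ ?_ (hx P hP h)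
    rw [map_mul, x.2 P h, one_mul]
    exact hy P hP h
  one_mem' P hP h := by simp
  inv_mem' {x} hx P hP h := by
    have e : (((x⁻¹ : C.G) : Eˣ) : E) - 1 = -((x⁻¹ : C.G) : Eˣ) * (((x : Eˣ) : E) - 1) := by
      have : (((x⁻¹ : C.G) : Eˣ) : E) * (x : Eˣ) = 1 := by
        rw [← Units.val_mul, ← Subgroup.coe_mul, inv_mul_cancel]; rfl
      linear_combination this
    rw [e, map_mul, Valuation.map_neg, (x⁻¹).2 P h, one_mul]
    exact hx P hP h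

/-- the type norm -/
def NT (γ : E) : ℂ := ∏ τ, C.sec τ γ

/-- `Ψ` is a Hecke character of the given type and of modulus `D` -/
def Hk (Ψ : Pr E → ℂˣ) : Prop := ∀ u ∈ C.G1 Set.univ, (pv Ψ ((u : Eˣ) : E) : ℂ) = C.NT (u : Eˣ)

/-- the component of `Ψ` at `D` -/
def eps (Ψ : Pr E → ℂˣ) (γ : E) : ℂ := C.NT γ / pv Ψ γ

/-- `η_D(t) |t|_D⁻¹`, defined by the product formula -/
def rho (Ψ : Pr E → ℂˣ) (t : F) : ℂ := (∏ τ : F →+* ℂ, τ t) /
  (∏ᶠ (v : Pr F) (_ : (C.D : 𝓞 F) ∉ v.asIdeal), kap Ψ v ^ ordv v t : ℂˣ)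

/-- a split prime outside `D` -/
def Gd (v : Pr F) : Prop := (C.D : 𝓞 F) ∉ v.asIdeal ∧ ∃ x : 𝓞 F, x ^ 2 - C.a ∈ v.asIdeal

open Classical in
/-- the orbital count of `s + t δ` at a prime outside `D` (unit for `v ∉ W`, `T_v` for `v ∈ W`) -/
def Ov (Ψ : Pr E → ℂˣ) (W : Finset (Pr F)) (s t : F) (v : Pr F) : ℂ :=
  if ordv v (s ^ 2 - C.a * t ^ 2) = 2 * mv v s t + (if v ∈ W then 1 else 0) then
    (kap Ψ v ^ (ordv v t - mv v s t) : ℂˣ) else 0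

/-- the geometric side: `wt W q` is the term of the class `q`, `φ` is the part at `D` -/
structure Geo (Ψ : Pr E → ℂˣ) (φ : C.G → ℂ) (Z : Finset (Pr F))
    (wt : Finset (Pr F) → TF F E → ℂ) : Prop where
  per : ∀ u ∈ C.G1 Set.univ, ∀ γ, φ (u * γ) = φ γ
  ne : ∑ᶠ q : C.G ⧸ C.G1 Set.univ, φ q.out * C.eps Ψ (q.out : Eˣ) ≠ 0
  w0 : ∀ W, (∀ w ∈ W, C.Gd w ∧ w ∉ Z) → ∀ q : TF F E,
    (q = 1 ∨ ∀ γ : C.G, ((γ : Eˣ) : TF F E) ≠ q) → wt W q = 0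
  w1 : ∀ W, (∀ w ∈ W, C.Gd w ∧ w ∉ Z) → ∀ (γ : C.G) (s t : F), t ≠ 0 →
    ((γ : Eˣ) : E) = algebraMap F E s + algebraMap F E t * C.δ →
    wt W ((γ : Eˣ) : TF F E) =
      C.sec C.t1 (γ : Eˣ) / (C.sec C.t1 (γ : Eˣ) - C.sec C.t1 (C.c (γ : Eˣ))) *
        (φ γ * C.rho Ψ t) * ∏ᶠ (v : Pr F) (_ : (C.D : 𝓞 F) ∉ v.asIdeal), C.Ov Ψ W s t v

end CM

/-- **TOR** -/
def TOR : Prop := ∀ (F E : Type) [Field F] [NumberField F] [Field E] [NumberField E] [Algebra F E]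
  (C : CM F E) (Ψ : Pr E → ℂˣ) (φ : C.G → ℂ) (Z : Finset (Pr F))
  (wt : Finset (Pr F) → TF F E → ℂ), C.Hk Ψ → C.Geo Ψ φ Z wt →
  ∀ (R V : Type) [CommRing R] [Algebra ℂ R] [AddCommGroup V] [Module ℂ V] [FiniteDimensional ℂ V]
    (ρ : R →ₐ[ℂ] Module.End ℂ V) (T : Pr F → R) (A : Module.End ℂ V),
    (∀ W : Finset (Pr F), (∀ w ∈ W, C.Gd w ∧ w ∉ Z) →
      LinearMap.trace ℂ V (A * ρ (∏ w ∈ W, T w)) = ∑ᶠ q, wt W q) →
    ∃ x : V, x ≠ 0 ∧ ∃ Z' : Finset (Pr F), ∀ w, C.Gd w → w ∉ Z' → ρ (T w) x = tw Ψ w • x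

end Vale.Agent.P022K.Sh.Tor
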