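import Vale.Agent.P022K.F0.St
import Vale.Agent.P022K.F0.TorD
import Vale.Agent.P022K.F0.OrbA
import Vale.Agent.P022K.F0.OrbG

/-!
# P022K, block F0: statements of the rows for forms with complex multiplication
-/

set_option autoImplicit false

open UpperHalfPlane NumberField IsDedekindDomain
open scoped MatrixGroups

noncomputable section

namespace Vale.Agent.P022K.Sh

open Vale.Agent.P022 Vale.Agent.P022.H218.L3 Orb Tor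
open Vale.Agent.P022.C (ordv)

section abstract

variable {G0 G : Type} [Group G0] [Group G] (T : Tw G0 G)

/-- the operator of the function `f` on `G ⧸ U` -/
def wk {B : Type} [AddCommMonoid B] [Module ℂ B] (f : G → ℂ) (U : Subgroup G) (ω : G → B) :
    G → B := fun x => ∑ᶠ c : G ⧸ U, f c.out • ω (x * c.out)

/-- a test function of level `U` -/
structure Tf (U : Subgroup G) (f : G → ℂ) : Prop where
  left : ∀ u ∈ U, ∀ x, f (u * x) = f x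
  right : Inv U f
  fin : {c : G ⧸ U | f c.out ≠ 0}.Finite

namespace Tw

/-- the stabiliser of a point -/
def Sb (τ : ℍ) : Subgroup G0 := (MulAction.stabilizer GP τ).comap T.r

/-- the integrand of the twisted orbital sum -/
def oi (U : Subgroup G) (η f : G → ℂ) (γ : G0) (y : G ⧸ U) : ℂ :=
  η y.out * f (y.out⁻¹ * T.j γ * y.out)

/-- **FIXA**: the trace formula when only one orbit of elliptic points contributes -/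
def FIXA : Prop := ∀ U ∈ T.Lev, T.Neat U → ∀ f η : G → ℂ, Tf U f → f 1 = 0 →
  η ∈ T.H0 (Representation.trivial ℂ G0 ℂ) U → ∀ τ₀ : ℍ,
  (∀ τ γ, γ ∈ T.Sb τ → γ ∉ T.Z0 → (∀ δ, T.r δ • τ₀ ≠ τ) →
    ∃ g, (∀ δ ∈ T.Sb τ, Commute g (T.j δ)) ∧ ∀ x, η (g * x) = -η x) →
  ∀ (A : Module.End ℂ (T.Om U)) (A0 : Module.End ℂ (T.H0 (Representation.trivial ℂ G0 ℂ) U)),
    (∀ ω x, (A ω).1 x = η x • wk f U ω.1 x) → (∀ h x, (A0 h).1 x = η x * wk f U h.1 x) →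
    ∀ v : T.Sb τ₀ ⧸ T.Z0.subgroupOf (T.Sb τ₀) → ℂ,
      (∀ γ : T.Sb τ₀, HasOrb ((T.Sb τ₀).map T.j ⊔ T.Z) T.Z (T.oi U η f γ) (v γ)) →
      (Function.support v).Finite ∧ LinearMap.trace ℂ _ A = LinearMap.trace ℂ _ A0 +
        ∑ᶠ q, v q / (T.mu (q.out : T.Sb τ₀) τ₀ - 1)

/-- **CLS**: finiteness of the class number of the centraliser of an elliptic element -/
def CLS : Prop := ∀ U ∈ T.Lev, ∀ τ γ, γ ∈ T.Sb τ → γ ∉ T.Z0 →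
  (∀ a ∈ T.Sb τ, ∀ b ∈ T.Sb τ, Commute a b) →
  ((T.Sb τ).map T.j ⊔ (U ⊓ Subgroup.centralizer ((T.Sb τ).map T.j))).relIndex
    (Subgroup.centralizer ((T.Sb τ).map T.j)) ≠ 0

end Tw

end abstract

variable {F : Type} [Field F] [NumberField F]

/-- the valuation of the completion -/
abbrev vw (w : Pl F) : Valuation (Fw w) (WithZero (Multiplicative ℤ)) := Valued.v

/-- the order of an element of the completion -/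
def ow {w : Pl F} (x : Fw w) : ℤ := -WithZero.log (vw w x)

/-- the size of the residue field -/
abbrev qw (w : Pl F) : ℕ := Ideal.absNorm w.asIdeal

namespace QD

variable (X : QD F)

/-- the component at `w` on units -/
def cu (w : Pl F) : X.G →* (X.Dw w)ˣ := Units.map (X.cw w).toMonoidHom

/-- the standard local level -/
def U0 (w : Pl F) : Subgroup (X.Dw w)ˣ := Subgroup.center _ ⊔ (X.ODw w).toSubmonoid.units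

/-- the local principal level `N` -/
def U1 (w : Pl F) (N : ℕ) : Subgroup (X.Dw w)ˣ := (X.UN N).map (X.cu w)

/-- the product of local levels -/
def PU (V : ∀ w, Subgroup (X.Dw w)ˣ) : Subgroup X.G := ⨅ w, (V w).comap (X.cu w)

/-- the local torus -/
def Tl (w : Pl F) : Subgroup (X.Dw w)ˣ :=
  Subgroup.centralizer {x | (x : X.Dw w).imJ = 0 ∧ (x : X.Dw w).imK = 0}

variable {X} in
/-- an integral element of unit norm -/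
def Un {w : Pl F} (x : (X.Dw w)ˣ) : Prop :=
  vw w (nrd (x : X.Dw w)) = 1 ∧ vw w (2 * (x : X.Dw w).re) ≤ 1

variable {X} in
/-- `x ≡ 1` modulo `N` in the integral closure -/
def Cg {w : Pl F} (N : ℕ) (x : (X.Dw w)ˣ) : Prop :=
  vw w (nrd ((x : X.Dw w) - 1)) ≤ vw w (N : Fw w) ^ 2 ∧
    vw w (2 * ((x : X.Dw w) - 1).re) ≤ vw w (N : Fw w)

/-- the value of `η` at a non zero element -/
def ap {w : Pl F} (η : (Fw w)ˣ →* ℂˣ) (x : Fw w) : ℂ := by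
  classical exact if h : x = 0 then 0 else η (Units.mk0 x h)

/-- `φ` is the transfer to the torus of the function `f` of level `V` -/
structure Tr (w : Pl F) (N : ℕ) (η : (Fw w)ˣ →* ℂˣ) (V : Subgroup (X.Dw w)ˣ)
    (f φ : (X.Dw w)ˣ → ℂ) (T1 : Subgroup (X.Dw w)ˣ) : Prop where
  opn : ∃ M, 0 < M ∧ X.U1 w M ≤ V ∧ (X.U1 w M).relIndex V ≠ 0
  eta : ∀ u ∈ V, ap η (nrd (u : X.Dw w)) = 1
  tf : Tf V f
  le : T1 ≤ X.Tl w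
  ge : X.Tl w ⊓ V ≤ T1
  idx : V.relIndex T1 ≠ 0
  orb0 : ∀ γ ∈ X.Tl w, (∀ z ∈ Subgroup.center (X.Dw w)ˣ, ¬ Un (z * γ)) → ∀ x, f (x⁻¹ * γ * x) = 0
  orb1 : ∀ γ ∈ X.Tl w, Un γ → (γ : X.Dw w).imI ≠ 0 → HasOrb (X.Tl w) T1
    (fun y : (X.Dw w)ˣ ⧸ V => ap η (nrd (y.out : X.Dw w)) * f (y.out⁻¹ * γ * y.out))
    (φ γ * (ap η (γ : X.Dw w).imI * (qw w : ℂ) ^ ow (γ : X.Dw w).imI))
  per : ∀ γ ∈ X.Tl w, ∀ u ∈ X.Tl w, Un γ → Cg N u → φ (u * γ) = φ γ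
  scal : ∀ γ ∈ X.Tl w, ∀ z : (X.Dw w)ˣ, ∀ c : Fw w, (z : X.Dw w) = algebraMap _ _ c →
    vw w c = 1 → Un γ → φ (z * γ) * ap η c = φ γ

variable {E : Type} [Field E] [NumberField E] [Algebra F E]

/-- the CM field `E` in `D` -/
structure Cm (C : CM F E) (ε : E →ₐ[F] X.D) : Prop where
  a : C.a = X.a
  t1 : C.t1 = X.tc
  i : ε C.δ = ⟨0, 1, 0, 0⟩ ∨ ε C.δ = ⟨0, -1, 0, 0⟩
  b : ∀ w : Pl F, (C.D : 𝓞 F) ∉ w.asIdeal → X.b ∉ w.asIdeal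

/-- the component at `w` of an element of `E` -/
def lc (ε : E →ₐ[F] X.D) (w : Pl F) : Eˣ →* (X.Dw w)ˣ :=
  Units.map (((X.cw w).comp X.jD).comp ε.toRingHom).toMonoidHom

end QD

variable {E : Type} [Field E] [NumberField E] [Algebra F E]

open Classical in
/-- the restriction of `Ψ` to `F` outside `D` -/
def Kp (C : CM F E) (Ψ : Pl E → ℂˣ) : Prop := ∀ w : Pl F, (C.D : 𝓞 F) ∉ w.asIdeal →
  (kap Ψ w : ℂ) = if C.Gd w then (qw w : ℂ) else -(qw w : ℂ)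

/-- the restriction of `Ψ` to `F_w` is unramified with value `κ` -/
def Kw (C : CM F E) (Ψ : Pl E → ℂˣ) (w : Pl F) (κ : ℂ) : Prop := ∀ l : F, l ≠ 0 →
  (∀ v : Pl F, v ≠ w → (C.D : 𝓞 F) ∈ v.asIdeal →
    v.valuation F (l - 1) ≤ v.valuation F (C.D : F)) → C.rho Ψ l = κ ^ ordv w l

/-- the local components of the quadratic character -/
structure Eta (C : CM F E) (Ψ : Pl E → ℂˣ) (η : ∀ w : Pl F, (Fw w)ˣ →* ℂˣ) : Prop where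
  sq : ∀ w x, η w x ^ 2 = 1
  off : ∀ w : Pl F, (C.D : 𝓞 F) ∉ w.asIdeal → ∀ x,
    (η w x : ℂ) = ((kap Ψ w : ℂ) / qw w) ^ ow (x : Fw w)
  nrm : ∀ w (x : (Fw w)ˣ) (s t : Fw w), (x : Fw w) = s ^ 2 - algebraMap _ _ C.a * t ^ 2 →
    η w x = 1
  lev : ∀ w (x : (Fw w)ˣ), vw w ((x : Fw w) - 1) < 1 →
    vw w ((x : Fw w) - 1) ≤ vw w (C.D : Fw w) → η w x = 1
  pf : ∀ t : F, t ≠ 0 → C.rho Ψ t = ∏ᶠ (w : Pl F) (_ : (C.D : 𝓞 F) ∈ w.asIdeal),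
    QD.ap (η w) (algebraMap F (Fw w) t) * (qw w : ℂ) ^ ordv w t
  glob : ∀ t : F, (∀ φ : F →+* ℝ, 0 < φ t) → ∏ᶠ w, QD.ap (η w) (algebraMap F (Fw w) t) = 1

/-- `η` is unramified with value `κ / q` -/
def Ur {w : Pl F} (η : (Fw w)ˣ →* ℂˣ) (κ : ℂ) : Prop :=
  ∀ x, (η x : ℂ) = (κ / qw w) ^ ow (x : Fw w)

/-- the local sum of `φ` against the component of `Ψ` at `w` does not vanish -/
def Nl (C : CM F E) (Ψ : Pl E → ℂˣ) (w : Pl F) (φ : Eˣ → ℂ) : Prop :=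
  ∑ᶠ q : C.G1 {P | ¬ Ab w P} ⧸ (C.G1 Set.univ).subgroupOf (C.G1 {P | ¬ Ab w P}),
    φ (q.out : C.G) * C.eps Ψ ((q.out : C.G) : Eˣ) ≠ 0

/-- the scalars modulo `ϖ` -/
def K1 {K : Type} [Field K] (v : Valuation K (WithZero (Multiplicative ℤ))) :
    Set (GL (Fin 2) K) := {g | ∃ z : Kˣ, sc z * g ∈ KV v ∧ Sc v (sc z * g)}

namespace QD

variable (X : QD F)

open Classical in
/-- a depth zero type at a place where `D` splits and `E` is unramified -/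
structure TyM (w : Pl F) (κ : ℂ) (V : Subgroup (X.Dw w)ˣ) (f φ : (X.Dw w)ˣ → ℂ) : Prop where
  ex : ∃ (s : X.Dw w ≃ₐ[Fw w] Matrix (Fin 2) (Fin 2) (Fw w)) (ω : Matrix (Fin 2) (Fin 2) (Fw w))
    (x y : Fw w) (f0 : GL (Fin 2) (Fw w) → ℂ) (c1 cu : ℂ), Et (vw w) ω ∧ y ≠ 0 ∧
    s ⟨0, 1, 0, 0⟩ = x • 1 + y • ω ∧ Typ (vw w) f0 c1 cu ∧
    (∀ k ∈ K1 (vw w), ∀ g, f0 (g * k) = f0 g) ∧
    (∀ u, u ∈ V ↔ Units.map s.toRingEquiv.toMonoidHom u ∈ K1 (vw w)) ∧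
    (∀ u, f u = f0 (Units.map s.toRingEquiv.toMonoidHom u)) ∧
    (∀ u, φ u = (if u ∈ V then cu + (c1 - cu) / κ else f u)) ∧
    ((κ = qw w ∧ IsSquare (algebraMap (𝓞 F) (Fw w) X.a)) ∨
      (κ = -(qw w : ℂ) ∧ ¬ IsSquare (algebraMap (𝓞 F) (Fw w) X.a)))

/-- a depth zero type at a place where `D` is ramified and `E` is inert -/
structure TyR (w : Pl F) (V : Subgroup (X.Dw w)ˣ) (f φ : (X.Dw w)ˣ → ℂ) : Prop where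
  a : 2 * X.a ∉ w.asIdeal
  ns : ¬ IsSquare (algebraMap (𝓞 F) (Fw w) X.a)
  b : Odd (ordv w (X.b : F))
  lev : ∀ u, u ∈ V ↔ ∃ z ∈ Subgroup.center (X.Dw w)ˣ, vw w (nrd ((z * u : (X.Dw w)ˣ) - 1 : X.Dw w)) < 1
  zero : ∀ u : (X.Dw w)ˣ, Odd (ow (nrd (u : X.Dw w))) → f u = 0
  one : ∀ u ∈ V, f u = 1
  mul : ∀ u u' : (X.Dw w)ˣ, Even (ow (nrd (u : X.Dw w))) → f (u * u') = f u * f u'
  tr : ∀ u, φ u = f u - f (star u)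

/-- the conclusion: an eigenform in the image of `f` -/
def Sd (C : CM F E) (Ψ : Pl E → ℂˣ) (U : Subgroup X.G) (f : X.G → ℂ) : Prop :=
  ∃ ω₀ ∈ X.tw.Om U, wk f U ω₀ ≠ 0 ∧ ∃ Z : Finset (Pl F),
    X.tw.AllL fun {O K} _ _ _ _ _ L => ∀ w, C.Gd w → w ∉ Z → X.IsPl w L → L.At (KK O K) U →
      hk (L.To U) U (wk f U ω₀) = Tor.tw Ψ w • wk f U ω₀

open Classical in
/-- the global function with components `f w` for `w ∈ S` and the unit elsewhere -/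
def gf (S : Finset (Pl F)) (V : ∀ w, Subgroup (X.Dw w)ˣ) (f : ∀ w, (X.Dw w)ˣ → ℂ) (x : X.G) : ℂ :=
  if ∀ w, w ∉ S → X.cu w x ∈ V w then ∏ w ∈ S, f w (X.cu w x) else 0

end QD

/-- a row about CM data -/
def AllC (P : ∀ {F E : Type} [Field F] [NumberField F] [Field E] [NumberField E] [Algebra F E],
    QD F → CM F E → (Pl E → ℂˣ) → Prop) : Prop :=
  ∀ (F E : Type) [Field F] [NumberField F] [Field E] [NumberField E] [Algebra F E] (X : QD F)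
    (C : CM F E) (Ψ : Pl E → ℂˣ), C.Hk Ψ → Kp C Ψ → P X C Ψ

/-- **ETA** -/
def ETA : Prop := AllC fun {F _} _ _ _ _ _ _ C Ψ => ∃ η, Eta C Ψ η ∧
  ∀ (w : Pl F) (κ : ℂ), (C.D : 𝓞 F) ∈ w.asIdeal → Kw C Ψ w κ → Ur (η w) κ

/-- **NEL**: the global sum is the product of the local sums -/
def NEL : Prop := AllC fun {F E} _ _ _ _ _ _ C Ψ => ∀ (S : Finset (Pl F)) (φ : Pl F → Eˣ → ℂ),
  (∀ w, w ∈ S ↔ (C.D : 𝓞 F) ∈ w.asIdeal) →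
  (∀ w ∈ S, ∀ u ∈ C.G1 {P | Ab w P}, ∀ γ : C.G, φ w (u * γ : C.G) = φ w γ) →
  (∀ w ∈ S, Nl C Ψ w (φ w)) →
  ∑ᶠ q : C.G ⧸ C.G1 Set.univ, (∏ w ∈ S, φ w (q.out : C.G)) * C.eps Ψ (q.out : Eˣ) ≠ 0

/-- **NLM**: change of the modulus -/
def NLM : Prop := AllC fun {F E} _ _ _ _ _ _ C Ψ => ∀ (w : Pl F) (φ : Eˣ → ℂ),
  (∀ u ∈ C.G1 {P | Ab w P}, ∀ γ : C.G, φ (u * γ : C.G) = φ γ) → Nl C Ψ w φ →
  ∀ C' : CM F E, C'.sec = C.sec → ∀ m, C'.D = C.D ^ (m + 1) → Nl C' Ψ w φ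

/-- **KRON**: the restriction of `Ψ` to `F_w` when `E = F(√-Δ)` is unramified at `w` -/
def KRON : Prop := AllC fun {F _} _ _ _ _ _ _ C Ψ => ∀ Δ : ℕ, Δ % 4 = 3 → C.a = -(Δ : 𝓞 F) →
  ∀ w : Pl F, (C.D : 𝓞 F) ∈ w.asIdeal → (Δ : 𝓞 F) ∉ w.asIdeal →
    (IsSquare (algebraMap (𝓞 F) (Fw w) C.a) → Kw C Ψ w (qw w)) ∧
    (¬ IsSquare (algebraMap (𝓞 F) (Fw w) C.a) → Kw C Ψ w (-(qw w : ℂ)))

/-- **NTW**: neatness from one place -/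
def NTW : Prop := AllQ fun {F} _ _ X => ∀ w : Pl F, ∃ N, 0 < N ∧ ∀ U ∈ X.tw.Lev,
  (∀ u ∈ U, X.cu w u ∈ X.U1 w N) → X.tw.Neat U

/-- **TRM**, **TRR**: transfer of the depth zero types -/
def TRM : Prop := AllC fun {F _} _ _ _ _ _ X C Ψ => ∀ ε η, X.Cm C ε → Eta C Ψ η → ∀ w : Pl F,
  (C.D : 𝓞 F) ∈ w.asIdeal → ∀ V f φ,
  (∀ κ, X.TyM w κ V f φ → Ur (η w) κ →
    ∃ (T1 : _) (c : ℂ), c ≠ 0 ∧ X.Tr w C.D (η w) V f (fun u => c * φ u) T1) ∧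
  (X.TyR w V f φ → Ur (η w) (-(qw w : ℂ)) →
    ∃ (T1 : _) (c : ℂ), c ≠ 0 ∧ X.Tr w C.D (η w) V f (fun u => c * φ u) T1)

/-- **TRD**: deep test functions -/
def TRD : Prop := AllC fun {F _} _ _ _ _ _ X C Ψ => ∀ ε η, X.Cm C ε → Eta C Ψ η → ∀ w : Pl F,
  (C.D : 𝓞 F) ∈ w.asIdeal → X.Spl w → ∀ N, 0 < N → ∃ (V : _) (f φ : _) (T1 : _) (k : ℕ),
    V ≤ X.U1 w N ∧ f 1 = 0 ∧ X.Tr w (C.D ^ (k + 1)) (η w) V f φ T1 ∧
    ∀ C' : CM F _, C'.δ = C.δ → C'.a = C.a → C'.c = C.c → C'.sec = C.sec → ∀ m, k ≤ m →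
      C'.D = C.D ^ (m + 1) → Nl C' Ψ w fun γ => φ (X.lc ε w γ)

/-- **FLIP**: the other tori -/
def FLIP : Prop := AllC fun {F E} _ _ _ _ _ X C _ => ∀ ε : E →ₐ[F] X.D, X.Cm C ε → ∃ τ₀ : ℍ,
  (∀ γ : X.G0, γ ∈ X.tw.Sb τ₀ ↔ ((γ : X.Dˣ) : X.D) ∈ ε.range) ∧
  (∀ γ : Eˣ, Units.map ε.toRingHom.toMonoidHom γ ∈ X.G0) ∧
  ((∀ (γ : X.G0) x, ((γ : X.Dˣ) : X.D) = ε x →
      X.tw.mu γ τ₀ = C.sec C.t1 (C.c x) / C.sec C.t1 x) ∨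
    ∀ (γ : X.G0) x, ((γ : X.Dˣ) : X.D) = ε x →
      X.tw.mu γ τ₀ = C.sec C.t1 x / C.sec C.t1 (C.c x)) ∧
  (∀ B : Finset (Pl F), ∃ w, w ∉ B ∧ ¬ C.Gd w) ∧
  ∀ τ γ, γ ∈ X.tw.Sb τ → γ ∉ X.tw.Z0 → (∀ δ, X.tw.r δ • τ₀ ≠ τ) → ∀ B : Finset (Pl F),
    ∃ w, w ∉ B ∧ ¬ C.Gd w ∧ ∃ g : X.G, X.Sup w g ∧ (∀ δ ∈ X.tw.Sb τ, Commute g (X.tw.j δ)) ∧
      ow (nrd (X.cw w g)) = 1

/-- **SEEDA**: forms with complex multiplication from local transfers -/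
def SEEDA : Prop := AllC fun {F _} _ _ _ _ _ X C Ψ => ∀ η, Eta C Ψ η →
  ∀ (S : Finset (Pl F)) (V : ∀ w, Subgroup (X.Dw w)ˣ) (f φ : ∀ w, (X.Dw w)ˣ → ℂ)
    (T1 : ∀ w, Subgroup (X.Dw w)ˣ),
  (∀ w, w ∈ S ↔ (C.D : 𝓞 F) ∈ w.asIdeal) → (∀ w, w ∉ S → V w = X.U0 w) →
  (∀ w ∈ S, X.Tr w C.D (η w) (V w) (f w) (φ w) (T1 w)) → (∃ w ∈ S, f w 1 = 0) →
  X.tw.Neat (X.PU V) → (∃ ε, X.Cm C ε) →
  (∀ ε, X.Cm C ε → ∀ w ∈ S, Nl C Ψ w fun γ => φ w (X.lc ε w γ)) →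
  X.PU V ∈ X.tw.Lev ∧ X.Sd C Ψ (X.PU V) (X.gf S V f)

/-- **SEED**: forms with complex multiplication and prescribed depth zero types at `S`; the level
at the places of `S'` is deep -/
def SEED : Prop := AllC fun {F _} _ _ _ _ _ X C Ψ => ∀ (S S' : Finset (Pl F))
  (V : ∀ w, Subgroup (X.Dw w)ˣ) (f φ : ∀ w, (X.Dw w)ˣ → ℂ), Disjoint S S' → S'.Nonempty →
  (∀ w, (w ∈ S ∨ w ∈ S') ↔ (C.D : 𝓞 F) ∈ w.asIdeal) → (∀ w ∈ S', X.Spl w) → (∃ ε, X.Cm C ε) →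
  (∀ w ∈ S, ((∃ κ, X.TyM w κ (V w) (f w) (φ w) ∧ Kw C Ψ w κ) ∨
      (X.TyR w (V w) (f w) (φ w) ∧ Kw C Ψ w (-(qw w : ℂ)))) ∧
    ∀ ε, X.Cm C ε → Nl C Ψ w fun γ => φ w (X.lc ε w γ)) →
  ∀ N, 0 < N → ∃ V' : ∀ w, Subgroup (X.Dw w)ˣ, (∀ w ∈ S, V' w = V w) ∧
    (∀ w ∈ S', V' w ≤ X.U1 w N) ∧ (∀ w, w ∉ S → w ∉ S' → V' w = X.U0 w) ∧
    X.PU V' ∈ X.tw.Lev ∧ X.tw.Neat (X.PU V') ∧ X.Sd C Ψ (X.PU V') (X.gf S V' f)

end Vale.Agent.P022K.Sh
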