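import Vale.Agent.P022K.F0.Loc
import Vale.Agent.P022K.F0.StS

/-!
# P022K, block F0, rows NTW and NEATW: neat levels from one place
-/

set_option autoImplicit false

open NumberField IsDedekindDomain IsDedekindDomain.HeightOneSpectrum
open scoped Quaternion MatrixGroups

noncomputable section

namespace Vale.Agent.P022K.Sh

open F0
open Vale.Agent.P022K.F0.Fuj (OF trd qi qj qk)

section ring

variable {R : Type} [CommRing R] {a b : R}

/-- the invariant `trd ^ 2 / nrd` -/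
def tau (u : ℍ[R,a,b]ˣ) : R := trd u.1 * trd (u⁻¹).1

theorem trd_inv (u : ℍ[R,a,b]ˣ) : trd (u⁻¹).1 * Fuj.nrd u.1 = trd u.1 := by
  have : star u.1 = Fuj.nrd u.1 • (u⁻¹).1 := by
    rw [← Units.inv_mul_cancel_left u (star u.1), Fuj.mul_star_eq, ← Algebra.commutes,
      Algebra.smul_def]
  rw [← Fuj.trd_star u.1, this, Fuj.trd_smul, mul_comm]

theorem tau_mul (u : ℍ[R,a,b]ˣ) : tau u * Fuj.nrd u.1 = trd u.1 ^ 2 := by
  rw [tau, mul_assoc, trd_inv, sq]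

theorem trd_sq (q : ℍ[R,a,b]) : trd (q * q) = trd q ^ 2 - 2 * Fuj.nrd q := by
  simp [trd, Fuj.nrd]
  ring

theorem tau_sq (u : ℍ[R,a,b]ˣ) : tau (u ^ 2) - 2 = (tau u - 2) ^ 2 - 2 := by
  have h1 := trd_inv u
  have h2 := trd_inv u⁻¹
  have h3 := Fuj.nrd_units_inv u
  rw [inv_inv] at h2
  simp only [tau, mul_inv_rev, sq, Units.val_mul, trd_sq]
  linear_combination (-2 * trd (u⁻¹).1) * h1 + (-2 * trd u.1) * h2 + 4 * h3

theorem tau_conj (x u : ℍ[R,a,b]ˣ) : tau (x⁻¹ * u * x) = tau u := by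
  have h : ∀ v : ℍ[R,a,b]ˣ, trd (x⁻¹ * v * x).1 = trd v.1 := fun v => Fuj.trd_conj x⁻¹ v.1
  rw [tau, h, show (x⁻¹ * u * x)⁻¹ = x⁻¹ * u⁻¹ * x by group, h, tau]

theorem trace_ad (u v : ℍ[R,a,b]) : (u * 1 * v).re + (u * qi a b * v).imI + (u * qj a b * v).imJ +
    (u * qk a b * v).imK = trd u * trd v := by
  simp [qi, qj, qk, trd]
  ring

end ring

variable {F : Type} [Field F] [NumberField F]

theorem isIntegral_of_seq {s : ℕ → F} (hs : ∀ k, s (k + 1) = s k ^ 2 - 2) {m : ℕ} (m0 : m ≠ 0)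
    (h : ∀ k, IsIntegral ℤ (m * s k)) : IsIntegral ℤ (s 0) := by
  rw [← alg_mem_OA, OA_iff]
  intro w
  by_contra h0
  rw [not_le, ev_alg, v_alg] at h0
  have h1 : ∀ k, w.valuation F (s 0) ^ (k + 1) ≤ w.valuation F (s k) := fun k => by
    induction k with
    | zero => simp
    | succ k ih =>
      have h2 : w.valuation F (s 0) ≤ w.valuation F (s k) :=
        (le_self_pow h0.le k.succ_ne_zero).trans ih
      have h3 : w.valuation F 2 < w.valuation F (s k ^ 2) := by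
        rw [map_pow]
        exact lt_of_le_of_lt (by simpa [map_ofNat] using valuation_le_one (K := F) w 2)
          (one_lt_pow₀ (h0.trans_le h2) two_ne_zero)
      rw [hs, Valuation.map_sub_eq_of_lt_left _ h3, map_pow, sq, pow_succ]
      exact mul_le_mul' ih h2
  have n0 := v_nat_ne w (Nat.pos_of_ne_zero m0)
  obtain ⟨k, hk⟩ := exists_pow_lt₀ (inv_lt_one_of_one_lt₀ h0) (Units.mk0 _ n0)
  have h4 := OA_iff.1 (alg_mem_OA.2 (h k)) w
  rw [ev_alg, map_mul, map_natCast, map_mul, v_alg] at h4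
  have h5 : 0 < w.valuation F (s 0) ^ k := pow_pos (zero_lt_one.trans h0) k
  rw [inv_pow, Units.val_mk0, inv_lt_iff_one_lt_mul₀ h5] at hk
  refine absurd (hk.trans_le ?_) (not_lt.2 h4)
  exact mul_le_mul_right ((pow_le_pow_right₀ h0.le k.le_succ).trans (h1 k)) _

theorem exists_ne_pl (w : Pl F) : ∃ v : Pl F, v ≠ w := by
  have key : ∀ p : ℕ, p.Prime → ∃ v : Pl F, (p : 𝓞 F) ∈ v.asIdeal := fun p hp => by
    have h1 : ¬ IsUnit (p : 𝓞 F) := fun h => by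
      have := h.map (Algebra.norm ℤ)
      rw [← map_natCast (algebraMap ℤ (𝓞 F)), Algebra.norm_algebraMap,
        isUnit_pow_iff Module.finrank_pos.ne', Int.isUnit_iff_natAbs_eq] at this
      exact hp.one_lt.ne' (by simpa using this)
    obtain ⟨M, hM, h2⟩ := exists_max_ideal_of_mem_nonunits h1
    exact ⟨⟨M, hM.isPrime,
      Ring.ne_bot_of_isMaximal_of_not_isField hM (RingOfIntegers.not_isField F)⟩, h2⟩
  obtain ⟨v, hv⟩ := key 2 Nat.prime_two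
  obtain ⟨v', hv'⟩ := key 3 Nat.prime_three
  by_contra! h
  rw [h v] at hv
  rw [h v'] at hv'
  refine w.isPrime.ne_top ((Ideal.eq_top_iff_one _).2 ?_)
  convert w.asIdeal.sub_mem hv' hv using 1
  norm_num

namespace QD

variable (X : QD F)

theorem tau_j (g : X.Dˣ) : tau (Units.map X.jD.toMonoidHom g) = algebraMap F (AF F) (tau g) := by
  rw [tau, tau, map_mul, ← trd_jD, ← trd_jD]
  rfl

theorem tau_cu (w : Pl F) (u : X.G) : tau (X.cu w u) = ev w (tau u) := by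
  rw [tau, tau, map_mul, ← trd_map, ← trd_map]
  rfl

theorem tau_UN {N : ℕ} {u : X.G} (h : u ∈ X.UN N) : ∃ z ∈ OA F, tau u - 4 = N * z := by
  obtain ⟨c, ⟨y, hy, e⟩, ⟨y', hy', e'⟩⟩ := h
  have h1 := congrArg trd e
  have h2 := congrArg trd e'
  rw [nat_mul_eq, Fuj.trd_smul, Fuj.trd_add, Fuj.trd_smul] at h1 h2
  have m : ∀ y ∈ X.OD, trd y ∈ OA F := fun y hy => mul_mem (ofNat_mem _ 2) (mem_qint.1 hy).1
  refine ⟨2 * trd y + 2 * trd y' + N * trd y * trd y', add_mem (add_mem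
    (mul_mem (ofNat_mem _ 2) (m y hy)) (mul_mem (ofNat_mem _ 2) (m y' hy')))
    (mul_mem (mul_mem (natCast_mem _ N) (m y hy)) (m y' hy')), ?_⟩
  have h3 : trd (1 : X.DA) = 2 := by simp [trd]
  rw [h3] at h1 h2
  have k2 : (c : AF F) * (c⁻¹ : (AF F)ˣ) = 1 := c.mul_inv
  generalize ((c⁻¹ : (AF F)ˣ) : AF F) = d at *
  rw [tau]
  linear_combination (-(trd u.1 * trd (u⁻¹).1)) * k2 + (d * trd (u⁻¹).1) * h1 +
    (2 + N * trd y) * h2

/-- **INT**: the invariant `trd ^ 2 / nrd` is integral on the group of any component -/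
theorem tau_int {U : Subgroup X.G} (hU : U ∈ X.tw.Lev) {x : X.G} {γ : X.G0}
    (h : γ ∈ X.tw.Gam U x) : IsIntegral ℤ (tau (γ : X.Dˣ)) := by
  obtain ⟨m, m0, hm⟩ := (bdd_of_lev X.lt hU).cj X.lt x
  have key : ∀ δ ∈ X.tw.Gam U x, IsIntegral ℤ (m * (tau (δ : X.Dˣ) - 2)) := fun δ hδ => by
    have h1 := fun y hy => mem_qint.1 ((nat_mul_eq (F := F) (a := X.a) (b := X.b) m _).subst
      (motive := fun z => z ∈ X.OD) (hm _ hδ y hy))
    have z := (OA F).zero_mem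
    have o := (OA F).one_mem
    have h2 := add_mem (add_mem (add_mem (h1 1 (one_mem _)).1
      (h1 (qi _ _) (mem_qint.2 ⟨z, o, z, z⟩)).2.1) (h1 (qj _ _) (mem_qint.2 ⟨z, z, o, z⟩)).2.2.1)
      (h1 (qk _ _) (mem_qint.2 ⟨z, z, z, o⟩)).2.2.2
    simp only [QuaternionAlgebra.re_smul, QuaternionAlgebra.imI_smul, QuaternionAlgebra.imJ_smul,
      QuaternionAlgebra.imK_smul, smul_eq_mul, ← mul_add] at h2
    rw [trace_ad] at h2
    rw [← alg_mem_OA, map_mul, map_sub, ← tau_j, map_natCast, map_ofNat, mul_sub]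
    exact sub_mem h2 (mul_mem (natCast_mem _ m) (ofNat_mem _ 2))
  have := isIntegral_of_seq (s := fun k => tau ((γ : X.Dˣ) ^ 2 ^ k) - 2)
    (fun k => by rw [pow_succ 2, pow_mul, tau_sq]) m0 fun k => key _ (pow_mem h (2 ^ k))
  simp only [pow_zero, pow_one] at this
  simpa using this.add (isIntegral_natCast 2)

theorem tau_bdd (γ : X.G0) {τ : UpperHalfPlane} (h : X.tw.r γ • τ = τ) (t : F →+* ℝ) :
    |t (tau (γ : X.Dˣ) - 4)| ≤ 4 := by
  have h1 := X.disc_fix γ h t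
  have h2 := congrArg t (tau_mul (γ : X.Dˣ))
  have h3 : t (Fuj.nrd (γ : X.Dˣ).1) ≠ 0 := (map_ne_zero t).2 (X.div _ (γ : X.Dˣ).ne_zero)
  rw [map_mul, map_pow] at h2
  rw [map_sub, map_ofNat]
  generalize t (tau (γ : X.Dˣ)) = s at *
  generalize t (Fuj.nrd (γ : X.Dˣ).1) = n at *
  generalize t (trd (γ : X.Dˣ).1) = T at *
  have h4 : 0 < n := lt_of_le_of_ne (by nlinarith [sq_nonneg T]) h3.symm
  have h5 : 0 ≤ s := by
    by_contra! h5
    nlinarith [sq_nonneg T, mul_pos (neg_pos.2 h5) h4]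
  have h6 : s ≤ 4 := by
    by_contra! h6
    nlinarith [mul_pos (sub_pos.2 h6) h4]
  rw [abs_le]
  constructor <;> linarith

theorem ntw (w : Pl F) : ∃ N, 0 < N ∧ ∀ U ∈ X.tw.Lev,
    (∀ u ∈ U, X.cu w u ∈ X.U1 w N) → X.tw.Neat U := by
  have := X.isTotallyReal
  have hf := ((Fuj.finite_bdd (F := F) 4).subset (Set.sdiff_subset (t := {0}))).to_subtype
  obtain ⟨p, p0, hp⟩ := exists_nat_lt w
  obtain ⟨N, N0, hN⟩ := LocA.den_fin (w := w)
    fun β : ↥({x : F | x ∈ OF F ∧ ∀ τ : F →+* ℝ, |τ x| ≤ 4} \ {0}) => (algebraMap F (Fw w) β)⁻¹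
  refine ⟨p * N, mul_pos p0 N0, fun U hU h x γ hγ τ hτ => ?_⟩
  have h0 : tau (γ : X.Dˣ) - 4 = 0 := by
    by_contra h0
    have h1 := hN ⟨_, ⟨(X.tau_int hU hγ).sub (isIntegral_natCast 4), X.tau_bdd γ hτ⟩, h0⟩
    obtain ⟨u, hu, e⟩ := h _ (X.tw.mem_Gam.1 hγ)
    obtain ⟨z, hz, e1⟩ := X.tau_UN hu
    have h2 := le_of_mul hz e1 w
    have h3 : ev w (tau u) = algebraMap F (Fw w) (tau (γ : X.Dˣ)) := by
      rw [← tau_cu, e, tau_cu, tau_conj, ← ev_alg, ← tau_j]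
      rfl
    have h4 : Valued.v (algebraMap F (Fw w) (tau (γ : X.Dˣ) - 4)) ≠ 0 :=
      (Valuation.ne_zero_iff _).2 ((map_ne_zero _).2 h0)
    rw [map_sub, map_ofNat, h3, ← map_ofNat (algebraMap F (Fw w)) 4, ← map_sub, Nat.cast_mul,
      map_mul] at h2
    simp only [Nat.cast_ofNat] at h1
    rw [map_mul, map_inv₀, mul_inv_le_iff₀ (zero_lt_iff.2 h4), one_mul] at h1
    exact absurd (h1.trans h2) (not_le.2 (mul_lt_of_lt_one_left
      (zero_lt_iff.2 (v_nat_ne w N0)) hp))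
  refine (X.mem_Z0_iff _).2 ⟨_, X.scalar_of_disc ?_⟩
  rw [← tau_mul, sub_eq_zero.1 h0, sub_self]

section

variable {O K : Type} [CommRing O] [IsDomain O] [IsDiscreteValuationRing O] [Field K] [Algebra O K]
  {X} {w : Pl F} {L : X.tw.Lc O K}

theorem Km_zero : Km O K 0 = KK O K := by
  refine le_antisymm (LocA.Km_le 0) ?_
  rintro _ ⟨k, rfl⟩
  refine ⟨k, MonoidHom.mem_ker.2 ?_, rfl⟩
  have : Subsingleton (O ⧸ IsLocalRing.maximalIdeal O ^ 0) := by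
    rw [pow_zero, Ideal.one_eq_top]
    infer_instance
  ext i j
  exact Subsingleton.elim _ _

/-- **NEATW**: neat levels that are maximal at a given place -/
theorem IsPl.neat_set (h : X.IsPl w L) : ∃ N, 0 < N ∧ ∀ M, 0 < M → N ∣ M →
    L.set (KK O K) (X.UN M) ∈ X.tw.Lev ∧ X.tw.Neat (L.set (KK O K) (X.UN M)) ∧
      L.At (KK O K) (L.set (KK O K) (X.UN M)) := by
  obtain ⟨v, hv⟩ := exists_ne_pl w
  obtain ⟨N, N0, hN⟩ := X.ntw v
  refine ⟨N, N0, fun M M0 hM => ?_⟩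
  have h1 : L.set (KK O K) (X.UN M) ∈ X.tw.Lev := Km_zero (O := O) (K := K) ▸ L.lev _ (X.UN_mem M0) 0
  obtain ⟨-, -, -, -, -, h2⟩ := h
  refine ⟨h1, hN _ h1 fun u hu => ?_, fun g hg => Subgroup.mem_sup_right ⟨g, hg, rfl⟩,
    fun u hu => ?_⟩
  · refine (sup_le (sup_le ?_ ?_) ?_ :
      L.set (KK O K) (X.UN M) ≤ (X.U1 v N).comap (X.cu v)) hu
    · exact fun y hy => ⟨y, X.UN_mono hM hy.1, rfl⟩
    · exact fun y hy => ⟨y, X.Z_le_UN N hy, rfl⟩
    · rintro _ ⟨g, -, rfl⟩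
      have : X.cu v (L.ι g) = 1 := Units.ext (h2 g v hv)
      exact Subgroup.mem_comap.2 (this ▸ one_mem _)
  · refine (sup_le (sup_le ?_ ?_) ?_ :
      L.set (KK O K) (X.UN M) ≤ (KK O K ⊔ Zl K).comap L.π) hu
    · exact fun y hy => Subgroup.mem_comap.2 ((show L.π y = 1 from hy.2) ▸ one_mem _)
    · exact fun y hy => Subgroup.mem_sup_right (L.cen' y hy)
    · rintro _ ⟨g, hg, rfl⟩
      exact Subgroup.mem_comap.2 ((L.πι g).symm ▸ Subgroup.mem_sup_left hg)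

theorem IsPl.neat_at (h : X.IsPl w L) : ∃ U ∈ X.tw.Lev, X.tw.Neat U ∧ L.At (KK O K) U := by
  obtain ⟨N, N0, hN⟩ := h.neat_set
  exact ⟨_, (hN N N0 dvd_rfl).1, (hN N N0 dvd_rfl).2⟩

end

end QD

/-- **NTW** -/
theorem ntw : NTW := fun _ _ _ X => X.ntw

end Vale.Agent.P022K.Sh
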