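import Vale.Agent.P025.R2.H816.BC3

/-!
# P022K, block F0: automorphisms of the complex numbers, descent of function fields (helper10)
-/

set_option autoImplicit false

open Cardinal IntermediateField

noncomputable section

namespace Vale.Agent.P022K.Sh.Dsc

open Vale.Agent.P019P P025H816

/-! ## automorphisms of `ℂ` -/

theorem ext_alg (R K L : Type) [CommRing R] [Nontrivial R] [Countable R] [Field K] [Field L]
    [IsAlgClosed K] [IsAlgClosed L] [Algebra R K] [Algebra R L] [FaithfulSMul R K]
    [FaithfulSMul R L] (hK : ℵ₀ < #K) (h : #K = #L) :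
    ∃ φ : K ≃+* L, ∀ r, φ (algebraMap R K r) = algebraMap R L r := by
  obtain ⟨s, hs⟩ := exists_isTranscendenceBasis R K
  obtain ⟨t, ht⟩ := exists_isTranscendenceBasis R L
  have h1 := IsAlgClosed.cardinal_eq_cardinal_transcendence_basis_of_aleph0_lt' _ hs
    mk_le_aleph0 hK
  have h2 := IsAlgClosed.cardinal_eq_cardinal_transcendence_basis_of_aleph0_lt' _ ht
    mk_le_aleph0 (h ▸ hK)
  obtain ⟨e⟩ := Cardinal.eq.1 (h1.symm.trans (h.trans h2))
  have := IsAlgClosed.isAlgClosure_of_transcendence_basis _ hs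
  have := IsAlgClosed.isAlgClosure_of_transcendence_basis _ ht
  let ψ := hs.1.aevalEquiv.symm.trans ((MvPolynomial.renameEquiv R e).trans ht.1.aevalEquiv)
  refine ⟨IsAlgClosure.equivOfEquiv K L ψ.toRingEquiv, fun r => ?_⟩
  rw [IsScalarTower.algebraMap_apply R (Algebra.adjoin R (Set.range ((↑) : s → K))) K,
    IsAlgClosure.equivOfEquiv_algebraMap,
    IsScalarTower.algebraMap_apply R (Algebra.adjoin R (Set.range ((↑) : t → L))) L]
  exact congrArg _ (ψ.commutes r)

/-- two embeddings of a countable ring are conjugate -/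
theorem ext_inj {A : Type} [CommRing A] [Countable A] (f g : A →+* ℂ) (hf : Function.Injective f)
    (hg : Function.Injective g) : ∃ φ : ℂ ≃+* ℂ, ∀ a, φ (f a) = g a :=
  @ext_alg A ℂ ℂ _ f.domain_nontrivial _ _ _ _ _ f.toAlgebra g.toAlgebra
    (letI := f.toAlgebra; (faithfulSMul_iff_algebraMap_injective _ ℂ).2 hf)
    (letI := g.toAlgebra; (faithfulSMul_iff_algebraMap_injective _ ℂ).2 hg)
    (by rw [mk_complex]; exact aleph0_lt_continuum) rfl

theorem mem_range_of_alg {k C : Type} [Field k] [IsAlgClosed k] [Field C] [Algebra k C] {w : C}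
    (h : IsAlgebraic k w) : w ∈ (algebraMap k C).range :=
  minpoly.mem_range_of_degree_eq_one k w
    (IsAlgClosed.degree_eq_one_of_irreducible k (minpoly.irreducible h.isIntegral))

/-- the fixed field of the automorphisms over a countable algebraically closed field -/
theorem fix {k : Type} [Field k] [IsAlgClosed k] [Countable k] (i : k →+* ℂ) {w : ℂ}
    (h : ∀ σ : ℂ ≃+* ℂ, (∀ a, σ (i a) = i a) → σ w = w) : w ∈ i.range := by
  let _ := i.toAlgebra
  have : Countable (Polynomial k) := by
    rw [← mk_le_aleph0_iff]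
    exact Polynomial.cardinalMk_le_max.trans (max_le mk_le_aleph0 le_rfl)
  by_contra hw
  have h1 : Transcendental k w := fun e => hw (mem_range_of_alg e)
  have h2 : Transcendental k (w + 1) := fun e => h1 (by
    simpa using (e.isIntegral.sub isIntegral_one).isAlgebraic)
  obtain ⟨φ, hφ⟩ := ext_inj (Polynomial.aeval (R := k) w).toRingHom
    (Polynomial.aeval (R := k) (w + 1)).toRingHom (transcendental_iff_injective.1 h1)
    (transcendental_iff_injective.1 h2)
  have e1 : φ w = w + 1 := by simpa using hφ Polynomial.X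
  have e2 := h φ fun a => by
    have := hφ (Polynomial.C a)
    simp only [AlgHom.toRingHom_eq_coe, RingHom.coe_coe, Polynomial.aeval_C] at this
    exact this
  rw [e2] at e1
  simp at e1

/-! ## descent -/

section

variable {k C K : Type} [Field k] [Field C] [Field K] [Algebra k C] [Algebra C K] [Algebra k K]
  [IsScalarTower k C K] {A : Set (C →+* C)}
  (hA : ∀ c, (∀ σ ∈ A, σ c = c) → c ∈ (algebraMap k C).range)

include hA

theorem li_up {ι : Type} {v : ι → K} (hs : ∀ σ ∈ A, ∃ s : K →+* K,
    (∀ c, s (algebraMap C K c) = algebraMap C K (σ c)) ∧ ∀ i, s (v i) = v i)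
    (h : LinearIndependent k v) : LinearIndependent C v := by
  classical
  rw [linearIndependent_iff'] at h ⊢
  intro s
  induction s using Finset.strongInduction with
  | H s ih =>
    intro g hg i hi
    by_contra h0
    have e1 : ∑ j ∈ s, algebraMap C K (g j / g i) * v j = 0 := by
      have := congrArg (fun y => (g i)⁻¹ • y) hg
      simpa [Finset.smul_sum, smul_smul, Algebra.smul_def, div_eq_inv_mul, Finset.mul_sum,
        mul_assoc] using this
    have e2 : ∀ j ∈ s, g j / g i ∈ (algebraMap k C).range := fun j hj => hA _ fun σ hσ => by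
      obtain ⟨t, t1, t2⟩ := hs σ hσ
      by_cases e : j = i
      · rw [e, div_self h0, map_one]
      have e3 := congrArg t e1
      simp only [map_sum, map_mul, t1, t2, map_zero] at e3
      refine sub_eq_zero.1 (ih (s.erase i) (Finset.erase_ssubset hi)
        (fun j => σ (g j / g i) - g j / g i) ?_ j (Finset.mem_erase.2 ⟨e, hj⟩))
      rw [Finset.sum_erase _ (by rw [div_self h0, map_one, sub_self, zero_smul])]
      simp only [Algebra.smul_def, map_sub, sub_mul, Finset.sum_sub_distrib, e1, e3, sub_self]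
    choose! d hd using e2
    have := h s d (by
      rw [← e1]
      refine Finset.sum_congr rfl fun j hj => ?_
      rw [Algebra.smul_def, ← hd j hj, ← IsScalarTower.algebraMap_apply]) i hi
    have e4 := hd i hi
    rw [this, map_zero, div_self h0] at e4
    exact zero_ne_one e4

omit hA in
theorem ai_iff {R : Type} [Field R] [Algebra R K] {ι : Type} {x : ι → K} :
    AlgebraicIndependent R x ↔
      LinearIndependent R fun m : ι →₀ ℕ => m.prod fun i n => x i ^ n := by
  have e : (fun m : ι →₀ ℕ => m.prod fun i n => x i ^ n) =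
      (MvPolynomial.aeval (R := R) x).toLinearMap ∘ MvPolynomial.basisMonomials ι R := by
    funext m
    simp [MvPolynomial.aeval_monomial]
  rw [e, algebraicIndependent_iff_injective_aeval]
  exact ⟨fun h => (MvPolynomial.basisMonomials ι R).linearIndependent.map' _
    (LinearMap.ker_eq_bot.2 h), fun h => LinearMap.injective_of_linearIndependent
      (MvPolynomial.basisMonomials ι R).span_eq h⟩

theorem ai_up {ι : Type} {x : ι → K} (hs : ∀ σ ∈ A, ∃ s : K →+* K,
    (∀ c, s (algebraMap C K c) = algebraMap C K (σ c)) ∧ ∀ i, s (x i) = x i)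
    (h : AlgebraicIndependent k x) : AlgebraicIndependent C x := by
  rw [ai_iff] at h ⊢
  refine li_up hA (fun σ hσ => (hs σ hσ).imp fun s h => ⟨h.1, fun m => ?_⟩) h
  simp only [Finsupp.prod, map_prod, map_pow, h.2]

/-- **descent**: the classes modulo `n`-th powers are defined over a finite set of constants -/
theorem desc [IsAlgClosed k] [CharZero k] [CFF C K] {I : Set K} (hf : I.Finite)
    (hI : adjoin C I = ⊤) (hs : ∀ σ ∈ A, ∃ s : K →+* K,
      (∀ c, s (algebraMap C K c) = algebraMap C K (σ c)) ∧ ∀ y ∈ I, s y = y) {n : ℕ} (hn : n ≠ 0) :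
    ∃ S : Finset k, ∀ s : K →+* K, (∀ a ∈ S, s (algebraMap k K a) = algebraMap k K a) →
      (∀ y ∈ I, s y = y) → ∀ f : K, f ≠ 0 → (∀ P : Plk C K, (n : ℤ) ∣ ord P f) →
        ∃ y, y ≠ 0 ∧ s f = f * y ^ n := by
  classical
  obtain ⟨t, tI, ht⟩ : ∃ t ∈ I, ∀ a, t ≠ algebraMap C K a := by
    by_contra hc
    push Not at hc
    obtain ⟨x, hx, -⟩ := CFF.ex (k := C) (F := K)
    have : adjoin C I ≤ ⊥ := adjoin_le_iff.2 fun y hy => (hc y hy).imp fun a e => e.symm
    obtain ⟨a, rfl⟩ := mem_bot.1 (this (hI ▸ mem_top : x ∈ adjoin C I))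
    exact hx (isAlgebraic_algebraMap a)
  obtain ⟨t1, t2⟩ := finite_of_notMem ht
  have t3 : Transcendental k t := t1.of_tower_top k
  have alg : ∀ y ∈ I, IsIntegral k⟮t⟯ y := fun y hy => by
    refine IsAlgebraic.isIntegral ?_
    by_contra hc
    have r : Set.range (fun _ : Unit => t) = {t} := Set.range_const
    have h1 : AlgebraicIndependent k fun o : Option Unit => o.elim y fun _ => t :=
      AlgebraicIndependent.option_iff.2 ⟨algebraicIndependent_unique_type_iff.2 t3, by
        rw [r]
        exact fun e => hc (isAlgebraic_adjoin_iff.2 e)⟩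
    have h2 := (AlgebraicIndependent.option_iff.1 (ai_up hA (fun σ hσ => (hs σ hσ).imp
      fun s h => ⟨h.1, fun o => by
        cases o
        · exact h.2 y hy
        · exact h.2 t tI⟩) h1)).2
    rw [r] at h2
    exact h2 (isAlgebraic_adjoin_iff.1 (Algebra.IsAlgebraic.isAlgebraic y))
  have := hf.to_subtype
  have : FiniteDimensional k⟮t⟯ (adjoin k⟮t⟯ I) := finiteDimensional_adjoin alg
  have : CFF k k⟮t⟯ := ⟨inferInstance, AdjoinSimple.gen k t, by
    rwa [← transcendental_algebraMap_iff (A := K) (algebraMap k⟮t⟯ K).injective],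
    Module.finite_of_finrank_pos (by
      have : k⟮AdjoinSimple.gen k t⟯ = (⊤ : IntermediateField k k⟮t⟯) := by
        refine lift_injective _ ?_
        rw [lift_top, lift_adjoin_simple]
        rfl
      rw [this, IntermediateField.finrank_top]
      exact one_pos)⟩
  have : CFF k (adjoin k⟮t⟯ I) := cff_of_finite (K := k⟮t⟯)
  have bc : IsBC (algebraMap k C) (algebraMap (adjoin k⟮t⟯ I) K) := ⟨fun a =>
    IsScalarTower.algebraMap_apply k C K a, fun S h1 h2 => by
    have : adjoin C I ≤ S.toIntermediateField h1 :=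
      adjoin_le_iff.2 fun y hy => h2 ⟨y, subset_adjoin _ _ hy⟩
    exact eq_top_iff.2 fun y _ => this (hI ▸ mem_top)⟩
  have fx : ∀ f : adjoin k⟮t⟯ I, ∃ S : Finset k, ∀ s : K →+* K,
      (∀ a ∈ S, s (algebraMap k K a) = algebraMap k K a) → (∀ y ∈ I, s y = y) → s f = f := by
    rintro ⟨f, hf⟩
    have hf' : f ∈ adjoin k ({t} ∪ I) := by
      rw [← adjoin_adjoin_left]
      exact hf
    show ∃ S : Finset k, ∀ s : K →+* K, _ → _ → s f = f
    clear hf
    induction hf' using adjoin_induction with
    | mem y hy =>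
      refine ⟨∅, fun s _ h => h y ?_⟩
      rcases hy with rfl | hy
      exacts [tI, hy]
    | algebraMap a => exact ⟨{a}, fun s h _ => h a (Finset.mem_singleton_self a)⟩
    | add a b _ _ ha hb =>
      obtain ⟨S, hS⟩ := ha
      obtain ⟨S', hS'⟩ := hb
      exact ⟨S ∪ S', fun s h h' => by
        rw [map_add, hS s (fun a m => h a (Finset.mem_union_left _ m)) h',
          hS' s (fun a m => h a (Finset.mem_union_right _ m)) h']⟩
    | inv a _ ha =>
      obtain ⟨S, hS⟩ := ha
      exact ⟨S, fun s h h' => by rw [map_inv₀, hS s h h']⟩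
    | mul a b _ _ ha hb =>
      obtain ⟨S, hS⟩ := ha
      obtain ⟨S', hS'⟩ := hb
      exact ⟨S ∪ S', fun s h h' => by
        rw [map_mul, hS s (fun a m => h a (Finset.mem_union_left _ m)) h',
          hS' s (fun a m => h a (Finset.mem_union_right _ m)) h']⟩
  have : CharZero C := charZero_of_injective_algebraMap (algebraMap k C).injective
  have : Finite (HK C K n) := Nat.finite_of_card_ne_zero (by
    rw [card_HK (Nat.cast_ne_zero.2 hn)]
    exact pow_ne_zero _ hn)
  have := Fintype.ofFinite (HK C K n)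
  choose f0 _ _ y0 y1 y2 using fun q : HK C K n =>
    bc.exists_eq_mul_pow hn (Units.ne_zero (q.out : Kˣ)) q.out.2
  choose S hS using fx
  refine ⟨Finset.univ.biUnion fun q => S (f0 q), fun s h h' f hf hd => ?_⟩
  let F : divU C K n := ⟨Units.mk0 f hf, hd⟩
  obtain ⟨g, hg⟩ : ∃ g : Kˣ, g ^ n = ((F : HK C K n).out : Kˣ)⁻¹ * Units.mk0 f hf :=
    QuotientGroup.eq.1 (QuotientGroup.out_eq' (F : HK C K n))
  have e1 : f = (f0 F : K) * (y0 F * g) ^ n := by
    have := congrArg Units.val (eq_inv_mul_iff_mul_eq.1 hg)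
    rw [Units.val_mul, y2, Units.val_pow_eq_pow_val] at this
    rw [mul_pow, ← mul_assoc]
    exact this.symm
  have n1 : y0 F * g ≠ 0 := mul_ne_zero (y1 _) g.ne_zero
  refine ⟨s (y0 F * g) / (y0 F * g), div_ne_zero ((map_ne_zero s).2 n1) n1, ?_⟩
  have e2 := hS (f0 F) s (fun a m => h a (Finset.mem_biUnion.2 ⟨_, Finset.mem_univ _, m⟩)) h'
  generalize y0 F * g = y at e1 n1
  generalize (f0 F : K) = f1 at e1 e2
  rw [e1, map_mul, e2, map_pow, div_pow, mul_assoc, mul_div_cancel₀ _ (pow_ne_zero n n1)]

end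

theorem adjoin_preimage {C M : Type} [Field C] [Field M] [Algebra C M] {K : IntermediateField C M}
    {s : Set M} (h : K = adjoin C s) : adjoin C (Subtype.val ⁻¹' s : Set K) = ⊤ := by
  refine lift_injective K ?_
  rw [lift_top, lift_adjoin, Set.image_preimage_eq_of_subset, ← h]
  rw [Subtype.range_coe, h]
  exact subset_adjoin _ _

end Vale.Agent.P022K.Sh.Dsc
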