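import Vale.Agent.P022K.F0.Twb

/-!
# P022K, block F0: row KUM (Kummer theory on the tower) (helper10)
-/

set_option autoImplicit false

open UpperHalfPlane
open scoped MatrixGroups

noncomputable section

namespace Vale.Agent.P022K.Sh

open Vale.Agent.P022 Vale.Agent.P022.H218.L3

variable {G0 G : Type} [Group G0] [Group G]

namespace Tw

variable {T : Tw G0 G} {U U' : Subgroup G} {n : ℕ} {h h' φ ψ : G → Mer} {z z' : G0 → G → ZMod n}

section triv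

variable {Λ B : Type} [CommRing Λ] [AddCommGroup B] [Module Λ B] {w : G0 → G → B}

theorem mem_Z1 : w ∈ T.Z1 (Representation.trivial Λ G0 B) U ↔ (∀ γ, Inv U (w γ)) ∧
    (∀ γ δ x, w (γ * δ) x = w γ x + w δ ((T.j γ)⁻¹ * x)) ∧ ∀ γ ∈ T.Z0, ∀ x, w γ x = 0 :=
  ⟨fun h => ⟨h.1, fun γ δ x => congrFun (h.2.1 γ δ) x, fun γ hγ x => congrFun (h.2.2 γ hγ) x⟩,
    fun h => ⟨h.1, fun γ δ => funext (h.2.1 γ δ), fun γ hγ => funext (h.2.2 γ hγ)⟩⟩

theorem mem_B1 : w ∈ T.B1 (Representation.trivial Λ G0 B) U ↔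
    ∃ f : G → B, Inv U f ∧ ∀ γ x, w γ x = f ((T.j γ)⁻¹ * x) - f x :=
  ⟨fun ⟨f, h1, h2⟩ => ⟨f, h1, fun γ x => congrFun (h2 γ) x⟩,
    fun ⟨f, h1, h2⟩ => ⟨f, h1, fun γ => funext (h2 γ)⟩⟩

theorem mk_eq_mk {a b : T.Z1 (Representation.trivial Λ G0 B) U} :
    (Submodule.Quotient.mk a : T.Hc Λ B U) = Submodule.Quotient.mk b ↔
      a.1 - b.1 ∈ T.B1 (Representation.trivial Λ G0 B) U := Submodule.Quotient.eq _

variable {Λ' B' : Type} [CommRing Λ'] [AddCommGroup B'] [Module Λ' B']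

theorem Z1_map (hw : w ∈ T.Z1 (Representation.trivial Λ G0 B) U) (l : B →+ B') :
    (fun γ x => l (w γ x)) ∈ T.Z1 (Representation.trivial Λ' G0 B') U := by
  rw [mem_Z1] at *
  exact ⟨fun γ x u hu => congrArg l (hw.1 γ x u hu), fun γ δ x => by rw [hw.2.1, map_add],
    fun γ hγ x => by rw [hw.2.2 γ hγ, map_zero]⟩

theorem B1_map (hw : w ∈ T.B1 (Representation.trivial Λ G0 B) U) (l : B →+ B') :
    (fun γ x => l (w γ x)) ∈ T.B1 (Representation.trivial Λ' G0 B') U := by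
  rw [mem_B1] at *
  obtain ⟨f, h1, h2⟩ := hw
  exact ⟨fun x => l (f x), fun x u hu => congrArg l (h1 x u hu), fun γ x => by rw [h2, map_sub]⟩

end triv

theorem Kum.eq (k : T.Kum n U h z) (γ : G0) (x : G) :
    T.act γ (h ((T.j γ)⁻¹ * x)) = eM n (z γ x) * h x := k.2.2 γ x

theorem Kum.mono (k : T.Kum n U h z) (le : U' ≤ U) : T.Kum n U' h z :=
  ⟨k.1, fun x u hu => k.2.1 x u (le hu), k.2.2⟩

theorem Kum.unique (hn : 0 < n) (k : T.Kum n U h z) (k' : T.Kum n U h z') : z = z' :=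
  funext₂ fun γ x => eM_inj hn (mul_right_cancel₀ (k.1 x) ((k.eq γ x).symm.trans (k'.eq γ x)))

theorem Kum.mul (hn : 0 < n) (k : T.Kum n U h z) (k' : T.Kum n U h' z') :
    T.Kum n U (h * h') (z + z') :=
  ⟨fun x => mul_ne_zero (k.1 x) (k'.1 x),
    fun x u hu => by rw [Pi.mul_apply, Pi.mul_apply, k.2.1 x u hu, k'.2.1 x u hu], fun γ x => by
    show _ = eM n (z γ x + z' γ x) * (h x * h' x)
    rw [Pi.mul_apply, map_mul, k.eq, k'.eq, eM_add hn]
    ring⟩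

theorem kum_RU (hφ : φ ∈ T.RU U) (h0 : ∀ x, φ x ≠ 0) : T.Kum n U φ 0 :=
  ⟨h0, hφ.2, fun γ x => by
    show _ = eM n 0 * _
    rw [eM_zero, one_mul, (mem_RU.1 hφ).2]⟩

theorem Kum.mul_RU (hn : 0 < n) (k : T.Kum n U h z) (hφ : φ ∈ T.RU U) (h0 : ∀ x, φ x ≠ 0) :
    T.Kum n U (h * φ) z := by
  have := k.mul hn (kum_RU hφ h0)
  rwa [add_zero] at this

theorem Kum.prod (hn : 0 < n) {I : Type} (s : Finset I) {h : I → G → Mer}
    {z : I → G0 → G → ZMod n} (k : ∀ i ∈ s, T.Kum n U (h i) (z i)) :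
    T.Kum n U (∏ i ∈ s, h i) (∑ i ∈ s, z i) := by
  classical
  induction s using Finset.induction_on with
  | empty =>
    rw [Finset.prod_empty, Finset.sum_empty]
    exact kum_RU (one_mem _) fun _ => one_ne_zero
  | insert i s hi ih =>
    rw [Finset.prod_insert hi, Finset.sum_insert hi]
    exact (k i (Finset.mem_insert_self _ _)).mul hn
      (ih fun i hi => k i (Finset.mem_insert_of_mem hi))

theorem Kum.pow (hn : 0 < n) (k : T.Kum n U h z) (m : ℕ) : T.Kum n U (h ^ m) (m • z) := by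
  have := Kum.prod hn (Finset.range m) (h := fun _ => h) (z := fun _ => z) fun _ _ => k
  rwa [Finset.prod_const, Finset.sum_const, Finset.card_range] at this

theorem Kum.rt (k : T.Kum n U h z) (g : G) :
    T.Kum n (cj g U) (rt g h) fun γ => rt g (z γ) :=
  ⟨fun x => k.1 _, fun x u hu => by
    rw [Sh.rt, Sh.rt, ← k.2.1 (x * g) _ (mem_cj.1 hu)]
    congr 1
    group, fun γ x => by
    rw [Sh.rt, mul_assoc]
    exact k.2.2 γ _⟩

theorem Kum.pow_mem (hn : 0 < n) (k : T.Kum n U h z) : h ^ n ∈ T.RU U :=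
  mem_RU.2 ⟨fun x u hu => by rw [Pi.pow_apply, Pi.pow_apply, k.2.1 x u hu], fun γ x => by
    rw [Pi.pow_apply, Pi.pow_apply, map_pow, k.eq, mul_pow, eM_pow hn, one_mul]⟩

theorem Kum.pow_ne (k : T.Kum n U h z) (x : G) : (h ^ n) x ≠ 0 := pow_ne_zero _ (k.1 x)

theorem Kum.mem (ok : T.Ok) (hU : U ∈ T.Lev) (hn : 0 < n) (k : T.Kum n U h z) :
    z ∈ T.Z1 (Representation.trivial (ZMod n) G0 (ZMod n)) U := by
  refine mem_Z1.2 ⟨fun γ x u hu => ?_, fun γ δ x => ?_, fun γ hγ x => ?_⟩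
  · refine eM_inj hn (mul_right_cancel₀ (k.1 x) ?_)
    rw [← k.eq, ← k.2.1 x u hu, ← k.eq, ← mul_assoc, k.2.1 _ u hu]
  · refine eM_inj hn (mul_right_cancel₀ (k.1 x) ?_)
    rw [← k.eq, act_mul, map_mul, mul_inv_rev, mul_assoc, k.eq, map_mul, act_eM, k.eq, eM_add hn]
    ring
  · have hz := inv_mem ((ok.z0 γ).1 hγ)
    refine eM_inj hn (mul_right_cancel₀ (k.1 x) ?_)
    rw [← k.eq, act_Z0 hγ, ← ok.com hz, k.2.1 x _ (Z_le hU hz), eM_zero, one_mul]

theorem ex_kum (ok : T.Ok) (poi : T.POI) (hU : U ∈ T.Lev) (hn : 0 < n)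
    (hz : z ∈ T.Z1 (Representation.trivial (ZMod n) G0 (ZMod n)) U) : ∃ h, T.Kum n U h z := by
  obtain ⟨z1, z2, z3⟩ := mem_Z1.1 hz
  have loc : ∀ x, ∃ f : Mer, f ≠ 0 ∧ ∀ γ ∈ T.Gam U x,
      T.act γ f = algebraMap ℂ Mer (en n (z γ x)) * f := fun x => by
    let χ : T.Gam U x →* ℂˣ := MonoidHom.mk' (fun γ => Units.mk0 (en n (z γ x)) (en_ne _))
      fun γ δ => Units.ext (by
        show en n (z (γ * δ) x) = en n (z γ x) * en n (z δ x)
        rw [z2, en_add hn, ← z1 δ x _ (inv_mem (T.mem_Gam.1 γ.2))]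
        congr 3
        group)
    obtain ⟨f, f0, hf⟩ := poi _ (ok.fu U hU x) n hn χ (fun γ => Units.ext (en_pow hn _))
      fun γ hγ => Units.ext (by
        show en n (z γ x) = 1
        rw [z3 γ hγ, en_zero])
    exact ⟨f, f0, fun γ hγ => hf ⟨γ, hγ⟩⟩
  choose f f0 hf using loc
  obtain ⟨h, h1, h2⟩ := ex_all (c := fun γ x => en n (z γ x)) (fun _ _ => en_ne _)
    (fun γ x u hu => congrArg (en n) (z1 γ x u hu)) (fun γ δ x => by rw [z2, en_add hn]) hf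
  refine ⟨h, fun x e => ?_, h1⟩
  obtain ⟨γ, u, hu, r⟩ := (rel_rp (T := T) (U := U) x).symm
  have := h1.2 γ x
  rw [e, mul_zero, map_eq_zero, show (T.j γ)⁻¹ * x = T.rp U x * u by
    rw [inv_mul_eq_iff_eq_mul, ← mul_assoc]; exact r, h1.1 _ u hu, h2] at this
  exact f0 _ this

theorem ex_kum_root (hn : 0 < n) (hφ : φ ∈ T.RU U) (h0 : ∀ x, φ x ≠ 0)
    (hd : ∀ x τ k, MOrd τ (φ x) k → (n : ℤ) ∣ k) : ∃ h z, T.Kum n U h z ∧ h ^ n = φ := by
  let rt : Mer → Mer := fun f => Classical.epsilon fun y => y ≠ 0 ∧ y ^ n = f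
  have hr : ∀ x, rt (φ x) ≠ 0 ∧ rt (φ x) ^ n = φ x := fun x =>
    Classical.epsilon_spec (ex_root hn (h0 x) (hd x))
  have key : ∀ γ x, ∃ a, T.act γ (rt (φ ((T.j γ)⁻¹ * x))) / rt (φ x) = eM n a := fun γ x =>
    ex_eM hn (by rw [div_pow, ← map_pow, (hr _).2, (hr _).2, (mem_RU.1 hφ).2, div_self (h0 x)])
  choose z hz using key
  exact ⟨fun x => rt (φ x), z, ⟨fun x => (hr x).1, fun x u hu => congrArg rt (hφ.2 x u hu),
    fun γ x => (div_eq_iff (hr x).1).1 (hz γ x)⟩, funext fun x => (hr x).2⟩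

theorem Kum.cob (hn : 0 < n) (k : T.Kum n U h z)
    (k' : T.Kum n U h' z') : z - z' ∈ T.B1 (Representation.trivial (ZMod n) G0 (ZMod n)) U ↔
      ∃ ψ ∈ T.RU U, h ^ n = h' ^ n * ψ ^ n := by
  rw [mem_B1]
  constructor
  · rintro ⟨f, f1, f2⟩
    refine ⟨fun x => h x / h' x / eM n (f x), mem_RU.2 ⟨fun x u hu => ?_, fun γ x => ?_⟩,
      funext fun x => ?_⟩
    · beta_reduce
      rw [k.2.1 x u hu, k'.2.1 x u hu, f1 x u hu]
    · have e : eM n (z γ x) * eM n (f x) = eM n (z' γ x) * eM n (f ((T.j γ)⁻¹ * x)) := by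
        rw [← eM_add hn, ← eM_add hn]
        congr 1
        have : z γ x - z' γ x = _ := f2 γ x
        linear_combination this
      have n1 := k'.1 x
      have n2 := eM_ne (f x)
      have n3 := eM_ne (f ((T.j γ)⁻¹ * x))
      have n4 := eM_ne (z' γ x)
      rw [map_div₀, map_div₀, k.eq, k'.eq, act_eM]
      field_simp
      linear_combination h x * e
    · have n1 := pow_ne_zero n (k'.1 x)
      simp only [Pi.mul_apply, Pi.pow_apply, div_pow, eM_pow hn]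
      field_simp
  · rintro ⟨ψ, hψ, e⟩
    have e' : ∀ x, h x ^ n = h' x ^ n * ψ x ^ n := congrFun e
    have ψ0 : ∀ x, ψ x ≠ 0 := fun x e0 => pow_ne_zero n (k.1 x) (by
      rw [e', e0, zero_pow hn.ne', mul_zero])
    have key : ∀ x, ∃ a, h x / (h' x * ψ x) = eM n a := fun x => ex_eM hn (by
      rw [div_pow, mul_pow, ← e', div_self (pow_ne_zero n (k.1 x))])
    choose f hf using key
    have hf' : ∀ x, h x = eM n (f x) * (h' x * ψ x) := fun x =>
      (div_eq_iff (mul_ne_zero (k'.1 x) (ψ0 x))).1 (hf x)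
    refine ⟨f, fun x u hu => eM_inj hn ?_, fun γ x => ?_⟩
    · rw [← hf, ← hf, k.2.1 x u hu, k'.2.1 x u hu, hψ.2 x u hu]
    · have := k.eq γ x
      rw [hf', hf' x, map_mul, map_mul, act_eM, k'.eq, (mem_RU.1 hψ).2, mul_assoc, ← mul_assoc,
        ← mul_assoc (eM n (z γ x)), ← eM_add hn, ← eM_add hn] at this
      have := eM_inj hn (mul_right_cancel₀ (mul_ne_zero (k'.1 x) (ψ0 x)) this)
      show z γ x - z' γ x = _
      linear_combination -this

theorem kum_of (ok : T.Ok) (poi : T.POI) : T.KUM := fun _ hU _ _ hn =>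
  ⟨fun _ hz => ex_kum ok poi hU hn hz, fun _ _ k => ⟨k.mem ok hU hn, k.pow_mem hn⟩,
    fun _ hφ h0 hd => ex_kum_root hn hφ h0 hd, fun _ _ _ _ k k' => k.cob hn k'⟩

end Tw

/-- **KUM** -/
theorem kum (poi : All fun T => T.POI) : All fun T => T.KUM :=
  fun _ _ _ _ T ok => Tw.kum_of ok (poi _ _ T ok)

end Vale.Agent.P022K.Sh
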