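import Vale.Agent.P022K.F0.Pts
import Vale.Agent.P022K.F0.Kum
import Vale.Agent.P022K.F0.Dsc

/-!
# P022K, block F0: row GALH (the Galois action on cohomology) (helper10)
-/

set_option autoImplicit false

open UpperHalfPlane
open scoped MatrixGroups

noncomputable section

namespace Vale.Agent.P022K.Sh

open Vale.Agent.P022 Vale.Agent.P022.H218.L3 Vale.Agent.P019P P025H816 P027M.K

variable {G0 G : Type} [Group G0] [Group G]

theorem hp_eq {B : Type} [CommMonoid B] {U U' : Subgroup G} {O : Set G} (h : Cor U' O U)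
    (f : G → B) : hp O U f = ∏ c ∈ h.fin.toFinset, rt c.out f := by
  funext x
  rw [Finset.prod_apply]
  exact finprod_mem_eq_finite_toFinset_prod _ h.fin

theorem hp_inv {B : Type} [CommMonoid B] {U U' : Subgroup G} {O : Set G} (h : Cor U' O U)
    {f : G → B} (hf : Inv U f) : Inv U' (hp O U f) := fun x u hu => by
  have := hk_inv h (f := fun x => Additive.ofMul (f x)) (fun x u hu => congrArg _ (hf x u hu)) x u hu
  rw [hk_eq h, hk_eq h, ← ofMul_prod, ← ofMul_prod] at this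
  rw [hp_eq h, Finset.prod_apply, Finset.prod_apply]
  exact this

namespace Tw

variable {T : Tw G0 G} {U U' : Subgroup G} {O : Set G} {n : ℕ} {h h' φ ψ : G → Mer}
  {z z' w w' : G0 → G → ZMod n} {σ σ' : ℂ ≃+* ℂ} {θ θ' : (G → Mer) → G → Mer}

/-! ## classes with coefficients in `ℤ / n` -/

theorem Kum.hp (hn : 0 < n) (c : Cor U' O U) (k : T.Kum n U h z) :
    T.Kum n U' (hp O U h) fun γ => hk O U (z γ) := by
  refine ⟨fun x => ?_, hp_inv c k.2.1, fun γ x => ?_⟩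
  · rw [hp_eq c, Finset.prod_apply]
    exact Finset.prod_ne_zero_iff.2 fun _ _ => k.1 _
  · show _ = eM n (hk O U (z γ) x) * _
    rw [hp_eq c, Finset.prod_apply, Finset.prod_apply, hk_eq c, eM_sum hn, map_prod,
      ← Finset.prod_mul_distrib]
    refine Finset.prod_congr rfl fun a _ => ?_
    rw [Sh.rt, mul_assoc]
    exact k.eq γ _

theorem KGal.congr (hn : 0 < n) (k : T.KGal θ n U z z') (e : ∀ φ ∈ T.RU U, θ' φ = θ φ) :
    T.KGal θ' n U z z' := by
  obtain ⟨h, h', k, k', r⟩ := k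
  exact ⟨h, h', k, k', (e _ (k.pow_mem hn)).trans r⟩

theorem kgal_zero (s : T.Sl σ θ) : T.KGal θ n U 0 0 :=
  ⟨1, 1, kum_RU (one_mem _) fun _ => one_ne_zero, kum_RU (one_mem _) fun _ => one_ne_zero, by
    rw [one_pow, s.em.one]⟩

section

variable (s : T.Sl σ θ) (hU : U ∈ T.Lev) (hn : 0 < n)

include s hU hn

theorem KGal.add (k : T.KGal θ n U z z') (l : T.KGal θ n U w w') :
    T.KGal θ n U (z + w) (z' + w') := by
  obtain ⟨h, h', k, k', r⟩ := k
  obtain ⟨g, g', l, l', r'⟩ := l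
  exact ⟨_, _, k.mul hn l, k'.mul hn l', by
    rw [mul_pow, mul_pow, s.mul U hU _ (k.pow_mem hn) _ (l.pow_mem hn), r, r']⟩

theorem KGal.sum {I : Type} (t : Finset I) {z z' : I → G0 → G → ZMod n}
    (k : ∀ i ∈ t, T.KGal θ n U (z i) (z' i)) : T.KGal θ n U (∑ i ∈ t, z i) (∑ i ∈ t, z' i) := by
  classical
  induction t using Finset.induction_on with
  | empty => exact kgal_zero s
  | insert i t hi ih =>
    rw [Finset.sum_insert hi, Finset.sum_insert hi]
    exact (k i (Finset.mem_insert_self _ _)).add s hU hn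
      (ih fun i hi => k i (Finset.mem_insert_of_mem hi))

theorem KGal.nsmul (k : T.KGal θ n U z z') (m : ℕ) : T.KGal θ n U (m • z) (m • z') := by
  have := KGal.sum s hU hn (Finset.range m) (z := fun _ => z) (z' := fun _ => z') fun _ _ => k
  rwa [Finset.sum_const, Finset.sum_const, Finset.card_range] at this

theorem KGal.cob (k : T.KGal θ n U z z') (l : T.KGal θ n U w w')
    (b : z - w ∈ T.B1 (Representation.trivial (ZMod n) G0 (ZMod n)) U) :
    z' - w' ∈ T.B1 (Representation.trivial (ZMod n) G0 (ZMod n)) U := by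
  obtain ⟨h, h', k, k', r⟩ := k
  obtain ⟨g, g', l, l', r'⟩ := l
  obtain ⟨ψ, hψ, e⟩ := (k.cob hn l).1 b
  refine (k'.cob hn l').2 ⟨θ ψ, s.mem U hU ψ hψ, ?_⟩
  rw [← r, e, s.mul U hU _ (l.pow_mem hn) _ (pow_mem hψ n), r', s.em.pow hU hψ]

theorem KGal.comp (k : T.KGal θ' n U z z') (l : T.KGal θ n U w w')
    (b : z' - w ∈ T.B1 (Representation.trivial (ZMod n) G0 (ZMod n)) U) :
    T.KGal (θ ∘ θ') n U z w' := by
  obtain ⟨h, h', k, k', r⟩ := k
  obtain ⟨g, g', l, l', r'⟩ := l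
  obtain ⟨ψ, hψ, e⟩ := (k'.cob hn l).1 b
  have ψ0 : ∀ x, ψ x ≠ 0 := fun x e0 => k'.pow_ne x (by
    rw [e, Pi.mul_apply, Pi.pow_apply ψ, e0, zero_pow hn.ne', mul_zero])
  refine ⟨h, g' * θ ψ, k, l'.mul_RU hn (s.mem U hU ψ hψ) (s.em.ne hU hψ ψ0), ?_⟩
  rw [Function.comp_apply, r, e, s.mul U hU _ (l.pow_mem hn) _ (pow_mem hψ n), r', s.em.pow hU hψ,
    mul_pow]

theorem KGal.cor (ok : T.Ok) (c : Cor U' O U) (k : T.KGal θ n U z z') :
    T.KGal θ n U' (fun γ => hk O U (z γ)) fun γ => hk O U (z' γ) := by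
  obtain ⟨h, h', k, k', r⟩ := k
  refine ⟨_, _, k.hp hn c, k'.hp hn c, ?_⟩
  have e : ∀ g : G → Mer, Sh.hp O U g ^ n = ∏ a ∈ c.fin.toFinset, rt a.out (g ^ n) := fun g => by
    rw [hp_eq c, ← Finset.prod_pow]
    exact Finset.prod_congr rfl fun a _ => funext fun x => rfl
  have e2 := s.em.prod' ok c.fin.toFinset (f := fun a => rt a.out (h ^ n))
    fun a _ => ⟨_, ok.conj U hU a.out, RU_rt (k.pow_mem hn) a.out⟩
  rw [e, e, e2]
  exact Finset.prod_congr rfl fun a _ => by rw [s.eqv U hU _ (k.pow_mem hn), r]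

theorem ex_kgal (ok : T.Ok) (cf : T.CF) (poi : T.POI) (ne : T.Neat U)
    (hz : z ∈ T.Z1 (Representation.trivial (ZMod n) G0 (ZMod n)) U) :
    ∃ z' ∈ T.Z1 (Representation.trivial (ZMod n) G0 (ZMod n)) U, T.KGal θ n U z z' := by
  obtain ⟨h, k⟩ := ex_kum ok poi hU hn hz
  have m := k.pow_mem hn
  obtain ⟨h', z', k', r⟩ := ex_kum_root hn (s.mem U hU _ m) (s.em.ne hU m k.pow_ne)
    fun x' τ' a o => by
      obtain ⟨τ, x, p⟩ := s.is.pt_onto ok ok cf cf τ' x'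
      have o1 := mord_od τ (k.pow_ne x)
      rw [o.unique (s.is.mord ok ok cf cf hU ne ne (p U hU) m o1)]
      exact o1.dvd_pow
  exact ⟨z', k'.mem ok hU hn, h, h', k, k', r.symm⟩

end

/-! ## general coefficients -/

section coef

variable {Λ B : Type} [CommRing Λ] [AddCommGroup B] [Module Λ B]

theorem IsGal.congr (hn : 0 < n) {a a' : T.Hc Λ B U} (k : T.IsGal θ n U a a')
    (e : ∀ φ ∈ T.RU U, θ' φ = θ φ) : T.IsGal θ' n U a a' := by
  obtain ⟨z, z', e1, e2, k⟩ := k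
  exact ⟨z, z', e1, e2, fun l => (k l).congr hn e⟩

theorem IsGal.smul {a a' : T.Hc Λ B U} (k : T.IsGal θ n U a a') (c : Λ) :
    T.IsGal θ n U (c • a) (c • a') := by
  obtain ⟨z, z', rfl, rfl, k⟩ := k
  exact ⟨c • z, c • z', rfl, rfl, fun l => k (l.comp (DistribSMul.toAddMonoidHom B c))⟩

theorem B1_sub_map {z w : T.Z1 (Representation.trivial Λ G0 B) U}
    (e : (Submodule.Quotient.mk z : T.Hc Λ B U) = Submodule.Quotient.mk w) (l : B →+ ZMod n) :
    ((fun γ x => l (z.1 γ x)) - fun γ x => l (w.1 γ x)) ∈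
      T.B1 (Representation.trivial (ZMod n) G0 (ZMod n)) U := by
  convert B1_map (Λ' := ZMod n) (mk_eq_mk.1 e) l using 1
  funext γ x
  exact (map_sub l _ _).symm

variable (s : T.Sl σ θ) (hU : U ∈ T.Lev) (hn : 0 < n)

include s hU hn

theorem IsGal.add {a a' b b' : T.Hc Λ B U} (k : T.IsGal θ n U a a') (k' : T.IsGal θ n U b b') :
    T.IsGal θ n U (a + b) (a' + b') := by
  obtain ⟨z, z', rfl, rfl, k⟩ := k
  obtain ⟨w, w', rfl, rfl, k'⟩ := k'
  refine ⟨z + w, z' + w', rfl, rfl, fun l => ?_⟩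
  convert (k l).add s hU hn (k' l) using 1 <;> exact funext₂ fun γ x => map_add l _ _

theorem IsGal.comp {a a' a'' : T.Hc Λ B U} (k : T.IsGal θ' n U a a') (k' : T.IsGal θ n U a' a'') :
    T.IsGal (θ ∘ θ') n U a a'' := by
  obtain ⟨z, z', rfl, rfl, k⟩ := k
  obtain ⟨w, w', e, rfl, k'⟩ := k'
  exact ⟨z, w', rfl, rfl, fun l => (k l).comp s hU hn (k' l) (B1_sub_map e.symm l)⟩

theorem IsGal.hC (ok : T.Ok) (c : Cor U' O U) {a a' : T.Hc Λ B U} (k : T.IsGal θ n U a a') :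
    T.IsGal θ n U' (T.hC Λ B c a) (T.hC Λ B c a') := by
  obtain ⟨z, z', rfl, rfl, k⟩ := k
  refine ⟨T.hZ _ c z, T.hZ _ c z', rfl, rfl, fun l => ?_⟩
  convert (k l).cor s hU hn ok c using 1
  all_goals
    funext γ x
    show l (hk O U _ x) = _
    rw [hk_eq c, hk_eq c, map_sum]

variable [Module (ZMod n) B] [Module.Free (ZMod n) B] [Module.Finite (ZMod n) B]

omit s hU hn in
theorem B1_of_coord {v : G0 → G → B} (e : ∀ l : B →+ ZMod n, (fun γ x => l (v γ x)) ∈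
    T.B1 (Representation.trivial (ZMod n) G0 (ZMod n)) U) :
    v ∈ T.B1 (Representation.trivial Λ G0 B) U := by
  let b := Module.Free.chooseBasis (ZMod n) B
  choose f f1 f2 using fun i => mem_B1.1 (e (b.coord i).toAddMonoidHom)
  refine mem_B1.2 ⟨fun x => ∑ i, f i x • b i, fun x u hu => by simp only [f1 _ x u hu],
    fun γ x => ?_⟩
  rw [← b.sum_repr (v γ x), ← Finset.sum_sub_distrib]
  exact Finset.sum_congr rfl fun i _ => by rw [← sub_smul, ← f2]; rfl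

theorem IsGal.unique {a a' a'' : T.Hc Λ B U} (k : T.IsGal θ n U a a') (k' : T.IsGal θ n U a a'') :
    a' = a'' := by
  obtain ⟨z, z', rfl, rfl, k⟩ := k
  obtain ⟨w, w', e, rfl, k'⟩ := k'
  refine mk_eq_mk.2 (B1_of_coord (n := n) fun l => ?_)
  convert (k l).cob s hU hn (k' l) (B1_sub_map e.symm l) using 1
  exact funext₂ fun γ x => map_sub l _ _

theorem ex_isGal (ok : T.Ok) (cf : T.CF) (poi : T.POI) (ne : T.Neat U) (a : T.Hc Λ B U) :
    ∃ a', T.IsGal θ n U a a' := by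
  obtain ⟨z, rfl⟩ := Submodule.Quotient.mk_surjective _ a
  have : NeZero n := ⟨hn.ne'⟩
  let b := Module.Free.chooseBasis (ZMod n) B
  choose y y1 y2 using fun i => ex_kgal s hU hn ok cf poi ne
    (Z1_map (Λ' := ZMod n) z.2 (b.coord i).toAddMonoidHom)
  have key : ∀ (l : B →+ ZMod n) (c : _ → ZMod n),
      l (∑ i, c i • b i) = ∑ i, (l (b i)).val • c i := fun l c => by
    rw [map_sum]
    refine Finset.sum_congr rfl fun i _ => ?_
    rw [ZMod.map_smul, nsmul_eq_mul, ZMod.natCast_zmod_val, smul_eq_mul, mul_comm]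
  refine ⟨Submodule.Quotient.mk ⟨fun γ x => ∑ i, y i γ x • b i, mem_Z1.2 ⟨fun γ x u hu => ?_,
    fun γ δ x => ?_, fun γ hγ x => ?_⟩⟩, z, _, rfl, rfl, fun l => ?_⟩
  · simp only [(mem_Z1.1 (y1 _)).1 γ x u hu]
  · simp only [(mem_Z1.1 (y1 _)).2.1 γ δ x, add_smul, Finset.sum_add_distrib]
  · simp only [(mem_Z1.1 (y1 _)).2.2 γ hγ x, zero_smul, Finset.sum_const_zero]
  · convert KGal.sum s hU hn Finset.univ fun i _ => (y2 i).nsmul s hU hn (l (b i)).val using 1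
    · funext γ x
      rw [← b.sum_repr (z.1 γ x), key, Finset.sum_apply, Finset.sum_apply]
      rfl
    · funext γ x
      rw [key, Finset.sum_apply, Finset.sum_apply]
      rfl

/-- the linear map induced by a semilinear automorphism -/
theorem ex_lin (ok : T.Ok) (cf : T.CF) (poi : T.POI) (ne : T.Neat U) :
    ∃ L : T.Hc Λ B U →ₗ[Λ] T.Hc Λ B U, ∀ a, T.IsGal θ n U a (L a) := by
  choose L hL using ex_isGal (Λ := Λ) (B := B) s hU hn ok cf poi ne
  exact ⟨⟨⟨L, fun a b => (hL _).unique s hU hn ((hL a).add s hU hn (hL b))⟩,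
    fun c a => (hL _).unique s hU hn ((hL a).smul c)⟩, hL⟩

end coef

/-! ## continuity -/

theorem alg_Qb : Algebra.IsAlgebraic ℚ Qb := AlgebraicClosure.isAlgebraic ℚ

theorem countable_Qb : Countable Qb :=
  have := alg_Qb
  Cardinal.mk_le_aleph0_iff.1
    ((Algebra.IsAlgebraic.cardinalMk_le_max ℚ Qb).trans (max_le Cardinal.mk_le_aleph0 le_rfl))

theorem ex_ext (io : Qb →+* ℂ) (g : GQ) : ∃ σ, Ext io g σ := by
  have := countable_Qb
  exact Dsc.ext_inj io (io.comp (g : Qb →+* Qb)) io.injective (RingHom.injective _)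

theorem mem_range_io (io : Qb →+* ℂ) {c : ℂ} (h : IsAlgebraic ℚ c) : c ∈ io.range := by
  let _ := io.toAlgebra
  have : IsScalarTower ℚ Qb ℂ := IsScalarTower.of_algebraMap_eq fun a => by simp
  exact Dsc.mem_range_of_alg (h.tower_top Qb)

/-- automorphisms which fix a suitable finite set of algebraic numbers act trivially -/
theorem ex_triv (ok : T.Ok) (cf : T.CF) (poi : T.POI) (io : Qb →+* ℂ) (md : T.Mod)
    (ex : ∀ σ : ℂ ≃+* ℂ, (∀ a, σ (io a) = io a) → ∃ θ, T.Sl σ θ) (hU : U ∈ T.Lev) (ne : T.Neat U)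
    (hn : 0 < n) : ∃ S : Finset Qb, ∀ σ θ, T.Sl σ θ → (∀ a ∈ S, σ (io a) = io a) →
      ∀ z ∈ T.Z1 (Representation.trivial (ZMod n) G0 (ZMod n)) U, T.KGal θ n U z z := by
  classical
  obtain ⟨S0, I, m1, m2, m3, m4, m5⟩ := md U hU
  choose! a0 ha0 using fun c (hc : c ∈ S0) => mem_range_io io (m1 c hc)
  have hom : ∀ σ θ, T.Sl σ θ → (∀ c ∈ S0, σ c = c) → ∀ x,
      ∃ s : T.KF (T.Gam U x) →+* T.KF (T.Gam U x),
        (∀ c, s (algebraMap ℂ _ c) = algebraMap ℂ _ (σ c)) ∧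
        (∀ y ∈ (Subtype.val ⁻¹' ((fun φ : G → Mer => φ x) '' (I : Set (G → Mer))) :
          Set (T.KF (T.Gam U x))), s y = y) ∧
        ∀ φ (hφ : φ ∈ T.RU U), (s ⟨φ x, RU_KF hφ x⟩ : Mer) = θ φ x := fun σ θ s f x => by
    obtain ⟨x', hx⟩ := s.is.ex_comp hU x
    have r : T.Rel U x' x := (m5 x' x).resolve_right fun ⟨φ, hφ, e1, e0⟩ => by
      have := hx φ (m2 φ hφ) e0
      rw [m3 σ θ s f φ hφ, e1] at this
      exact one_ne_zero this
    obtain ⟨t, t1, t2⟩ := s.em.ex_hom hU (x' := x) fun φ hφ e =>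
      (RU_zero (s.mem U hU φ hφ) r).2 (hx φ hφ e)
    refine ⟨t, t1, ?_, t2⟩
    rintro ⟨_, hy⟩ ⟨φ, hφ, rfl⟩
    exact Subtype.ext ((t2 φ (m2 φ hφ)).trans (congrFun (m3 σ θ s f φ hφ) x))
  have loc : ∀ x, ∃ S : Finset Qb, ∀ σ θ, T.Sl σ θ → (∀ c ∈ S0, σ c = c) →
      (∀ a ∈ S, σ (io a) = io a) → ∀ h z, T.Kum n U h z →
      ∃ y ∈ T.KF (T.Gam U x), y ≠ 0 ∧ θ (h ^ n) x = (h ^ n) x * y ^ n := fun x => by
    obtain ⟨_, pt, hp⟩ := cf _ (ok.fu U hU x)
    have := countable_Qb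
    let _ := io.toAlgebra
    let _ := ((algebraMap ℂ (T.KF (T.Gam U x))).comp io).toAlgebra
    have : IsScalarTower Qb ℂ (T.KF (T.Gam U x)) := IsScalarTower.of_algebraMap_eq fun _ => rfl
    obtain ⟨S, hS⟩ := Dsc.desc (k := Qb) (C := ℂ)
      (A := {f | ∃ σ : ℂ ≃+* ℂ, f = σ ∧ ∀ a, σ (io a) = io a})
      (fun c hc => Dsc.fix io fun σ hσ => hc σ ⟨σ, rfl, hσ⟩)
      ((I.finite_toSet.image _).preimage Subtype.val_injective.injOn)
      (Dsc.adjoin_preimage (m4 x)) (by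
        rintro _ ⟨σ, rfl, hσ⟩
        obtain ⟨θ, s⟩ := ex σ hσ
        obtain ⟨t, t1, t2, -⟩ := hom σ θ s (fun c hc => by rw [← ha0 c hc, hσ]) x
        exact ⟨t, t1, t2⟩) hn.ne'
    refine ⟨S, fun σ θ s f f' h z k => ?_⟩
    obtain ⟨t, t1, t2, t3⟩ := hom σ θ s f x
    have f0 : (⟨(h ^ n) x, RU_KF (k.pow_mem hn) x⟩ : T.KF (T.Gam U x)) ≠ 0 :=
      fun e => k.pow_ne x (congrArg Subtype.val e)
    obtain ⟨y, y0, e⟩ := hS t (fun a ha => (t1 (io a)).trans (congrArg _ (f' a ha))) t2 _ f0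
      fun P => by
        obtain ⟨τ, rfl⟩ := hp.onto P
        exact (hp.ord (ne x) τ _ f0).dvd_pow
    refine ⟨y, y.2, fun e0 => y0 (Subtype.ext e0), ?_⟩
    rw [← t3 _ (k.pow_mem hn), e]
    rfl
  choose S hS using loc
  refine ⟨S0.image a0 ∪ (ok.fin_rp hU).toFinset.biUnion S, fun σ θ s f z hz => ?_⟩
  obtain ⟨h, k⟩ := ex_kum ok poi hU hn hz
  have f0 : ∀ c ∈ S0, σ c = c := fun c hc => by
    rw [← ha0 c hc]
    exact f _ (Finset.mem_union_left _ (Finset.mem_image_of_mem _ hc))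
  have key : ∀ x, ∃ y ∈ T.KF (T.Gam U x), x ∈ Set.range (T.rp U) →
      y ≠ 0 ∧ θ (h ^ n) x = (h ^ n) x * y ^ n := fun x => by
    by_cases hx : x ∈ Set.range (T.rp U)
    · obtain ⟨y, y1, y2⟩ := hS x σ θ s f0 (fun a ha => f a (Finset.mem_union_right _
        (Finset.mem_biUnion.2 ⟨x, (ok.fin_rp hU).mem_toFinset.2 hx, ha⟩))) h z k
      exact ⟨y, y1, fun _ => y2⟩
    · exact ⟨1, one_mem _, fun e => absurd e hx⟩
  choose y y1 y2 using key
  obtain ⟨ψ, hψ, e⟩ := ex_RU_all y1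
  refine ⟨h, h * ψ, k, k.mul_RU hn hψ fun x e0 => (y2 _ ⟨x, rfl⟩).1 ?_, ?_⟩
  · rw [← e]
    exact (RU_zero hψ (rel_rp x)).2 e0
  · rw [mul_pow]
    refine RU_ext_rp (s.mem U hU _ (k.pow_mem hn)) (mul_mem (k.pow_mem hn) (pow_mem hψ n))
      fun x => ?_
    rw [(y2 _ ⟨x, rfl⟩).2, ← e]
    rfl

theorem isOpen_GK {K : Type} [Field K] [NumberField K] (j : K →+* Qb) :
    IsOpen (GK j : Set GQ) := by
  have : FiniteDimensional ℚ j.toRatAlgHom.fieldRange :=
    Module.Finite.equiv j.toRatAlgHom.equivFieldRange.toLinearEquiv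
  refine Subgroup.isOpen_mono (fun g hg x => ?_) j.toRatAlgHom.fieldRange.fixingSubgroup_isOpen
  exact (IntermediateField.mem_fixingSubgroup_iff _ _).1 hg _ (AlgHom.mem_fieldRange.2 ⟨x, rfl⟩)

theorem ex_gact {Λ B : Type} [CommRing Λ] [AddCommGroup B] [Module Λ B] [Module (ZMod n) B]
    [Module.Free (ZMod n) B] [Module.Finite (ZMod n) B] (ok : T.Ok) (cf : T.CF) (poi : T.POI)
    (io : Qb →+* ℂ) {H : Subgroup GQ} (hH : IsOpen (H : Set GQ)) (md : T.Mod)
    (ex : ∀ g ∈ H, ∀ σ, Ext io g σ → ∃ θ, T.Sl σ θ) (hU : U ∈ T.Lev) (ne : T.Neat U)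
    (hn : 0 < n) : ∃ ρ, T.GAct (Λ := Λ) (B := B) io H n U ρ := by
  obtain ⟨S, hS⟩ := ex_triv ok cf poi io md (fun σ hσ => ex 1 (one_mem H) σ hσ) hU ne hn
  have tr : ∀ σ θ, T.Sl σ θ → (∀ a ∈ S, σ (io a) = io a) → ∀ a : T.Hc Λ B U,
      T.IsGal θ n U a a := fun σ θ s f a => by
    obtain ⟨z, rfl⟩ := Submodule.Quotient.mk_surjective _ a
    exact ⟨z, z, rfl, rfl, fun l => hS σ θ s f _ (Z1_map z.2 l)⟩
  choose sg hsg using ex_ext io
  choose th hth using fun g : H => ex g g.2 _ (hsg g)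
  choose L hL using fun g : H => ex_lin (Λ := Λ) (B := B) (hth g) hU hn ok cf poi ne
  have all : ∀ (g : H) σ θ, Ext io g σ → T.Sl σ θ → ∀ a, T.IsGal θ n U a (L g a) :=
    fun g σ θ e s a => by
      obtain ⟨θ', s', -, ri⟩ := (hth g).is.ex_inv ok
      have := (tr _ _ ((is_iff.1 s').comp s) (fun b _ => by
        rw [RingEquiv.trans_apply, RingEquiv.symm_apply_eq, e, hsg]) a).comp (hth g) hU hn (hL g a)
      exact this.congr hn fun φ hφ => (ri U hU _ (s.mem U hU φ hφ)).symm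
  have mul : ∀ g g' a, L (g * g') a = L g (L g' a) := fun g g' a =>
    (all (g * g') _ _ (fun b => by rw [RingEquiv.trans_apply, hsg, hsg]; rfl)
      ((hth g).comp (hth g')) a).unique ((hth g).comp (hth g')) hU hn
      ((hL g' a).comp (hth g) hU hn (hL g _))
  have fx : ∀ g : H, (∀ b ∈ S, (g : GQ) b = b) → ∀ a, L g a = a := fun g f a =>
    (hL g a).unique (hth g) hU hn (tr _ _ (hth g) (fun b hb => by rw [hsg, f b hb]) a)
  have one : ∀ a, L 1 a = a := fx 1 fun _ _ => rfl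
  let ρ : H →* (T.Hc Λ B U ≃ₗ[Λ] T.Hc Λ B U) := MonoidHom.mk'
    (fun g => LinearEquiv.ofLinearMap (L g) (L g⁻¹)
      (LinearMap.ext fun a => by rw [LinearMap.comp_apply, ← mul, mul_inv_cancel, one]; rfl)
      (LinearMap.ext fun a => by rw [LinearMap.comp_apply, ← mul, inv_mul_cancel, one]; rfl))
    fun g g' => LinearEquiv.ext (mul g g')
  refine ⟨ρ, ?_, all⟩
  have : FiniteDimensional ℚ (IntermediateField.adjoin ℚ (S : Set Qb)) :=
    IntermediateField.finiteDimensional_adjoin fun a _ => (alg_Qb.isAlgebraic a).isIntegral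
  refine Subgroup.isOpen_mono (H₁ := H ⊓ (IntermediateField.adjoin ℚ (S : Set Qb)).fixingSubgroup)
    (fun g hg => ⟨⟨g, hg.1⟩, LinearEquiv.ext (fx _ fun b hb => ?_), rfl⟩)
    (hH.inter (IntermediateField.fixingSubgroup_isOpen _))
  exact (IntermediateField.mem_fixingSubgroup_iff _ _).1 hg.2 b
    (IntermediateField.subset_adjoin _ _ hb)

theorem galh_of (ok : T.Ok) (cf : T.CF) (poi : T.POI) : T.GALH := fun _ _ _ _ _ _ hn _ _ _ =>
  ⟨fun _ hU _ _ _ s _ _ _ k k' => k.unique s hU hn k',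
    fun _ hU _ _ _ _ _ c _ _ s _ _ k => k.hC s hU hn ok c,
    fun _ _ _ j io can _ hU ne => ex_gact ok cf poi io (isOpen_GK j) can.mod
      (fun g hg σ e => can.ex σ (by
        rintro _ ⟨a, rfl⟩
        exact (e (j a)).trans (congrArg io (hg a)))) hU ne hn⟩

end Tw

/-- **GALH** -/
theorem galh (cf : All fun T => T.CF) (poi : All fun T => T.POI) : All fun T => T.GALH :=
  fun _ _ _ _ T ok => Tw.galh_of ok (cf _ _ T ok) (poi _ _ T ok)

end Vale.Agent.P022K.Sh
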