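import Vale.Agent.P022K.F0.OkA

/-!
# P022K, block F0, row LOC: the factors at the split places
-/

set_option autoImplicit false

open NumberField IsDedekindDomain IsDedekindDomain.HeightOneSpectrum IsLocalRing
open scoped Quaternion MatrixGroups

noncomputable section

namespace Vale.Agent.P022K.Sh

open F0
open Vale.Agent.P022K.F0.Fuj (Um qi qj qk)

namespace LocA

/-! ## congruence subgroups of `GL₂(K)` -/

section Gl

variable {O K : Type} [CommRing O] [IsDomain O] [IsDiscreteValuationRing O] [Field K] [Algebra O K]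

omit [IsDomain O] [IsDiscreteValuationRing O] in
theorem mem_KK (hi : Function.Injective (algebraMap O K)) {g : GL (Fin 2) K} :
    g ∈ KK O K ↔ (∀ i j, g.val i j ∈ (algebraMap O K).range) ∧
      ∀ i j, (g⁻¹).val i j ∈ (algebraMap O K).range := by
  constructor
  · rintro ⟨k, rfl⟩
    exact ⟨fun i j => ⟨k i j, rfl⟩, fun i j => ⟨k⁻¹ i j, rfl⟩⟩
  · rintro ⟨h1, h2⟩
    choose A hA using h1
    choose B hB using h2
    have eA : (algebraMap O K).mapMatrix (Matrix.of A) = g.val := by ext i j; exact hA i j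
    have eB : (algebraMap O K).mapMatrix (Matrix.of B) = (g⁻¹).val := by ext i j; exact hB i j
    have inj : Function.Injective ((algebraMap O K).mapMatrix (m := Fin 2)) :=
      Matrix.map_injective hi
    refine ⟨⟨Matrix.of A, Matrix.of B, inj ?_, inj ?_⟩, Units.ext eA⟩
    · rw [map_mul, eA, eB, map_one, Units.mul_inv]
    · rw [map_mul, eA, eB, map_one, Units.inv_mul]

theorem mem_Km (hi : Function.Injective (algebraMap O K)) {m : ℕ} {g : GL (Fin 2) K} :
    g ∈ Km O K m ↔ g ∈ KK O K ∧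
      ∀ i j, ∃ o ∈ maximalIdeal O ^ m, algebraMap O K o = (g.val - 1) i j := by
  have key : ∀ (k : GL (Fin 2) O) i j, algebraMap O K ((k.val - 1) i j) =
      ((Matrix.GeneralLinearGroup.map (algebraMap O K) k).val - 1) i j := fun k i j => by
    simp only [Matrix.sub_apply, map_sub, Matrix.one_apply]
    congr 1
    split <;> simp
  have key2 : ∀ k : GL (Fin 2) O, Matrix.GeneralLinearGroup.map
      (Ideal.Quotient.mk (maximalIdeal O ^ m)) k = 1 ↔
      ∀ i j, (k.val - 1) i j ∈ maximalIdeal O ^ m := fun k => by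
    rw [Units.ext_iff, ← Matrix.ext_iff]
    refine forall₂_congr fun i j => ?_
    rw [Matrix.sub_apply, ← Ideal.Quotient.eq]
    have : Ideal.Quotient.mk (maximalIdeal O ^ m) ((1 : Matrix (Fin 2) (Fin 2) O) i j) =
        (1 : Matrix (Fin 2) (Fin 2) (O ⧸ maximalIdeal O ^ m)) i j := by
      simp only [Matrix.one_apply]
      split <;> simp
    rw [this]
    rfl
  constructor
  · rintro ⟨k, hk, rfl⟩
    exact ⟨⟨k, rfl⟩, fun i j => ⟨_, (key2 k).1 hk i j, key k i j⟩⟩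
  · rintro ⟨⟨k, rfl⟩, h⟩
    refine ⟨k, (key2 k).2 fun i j => ?_, rfl⟩
    obtain ⟨o, ho, e⟩ := h i j
    rw [← key, hi.eq_iff] at e
    exact e ▸ ho

theorem Km_le (m : ℕ) : Km O K m ≤ KK O K := by
  rintro _ ⟨k, -, rfl⟩
  exact ⟨k, rfl⟩

theorem Km_anti (hi : Function.Injective (algebraMap O K)) {m n : ℕ} (h : m ≤ n) :
    Km O K n ≤ Km O K m := fun g hg => by
  obtain ⟨h1, h2⟩ := (mem_Km hi).1 hg
  refine (mem_Km hi).2 ⟨h1, fun i j => ?_⟩
  obtain ⟨o, ho, e⟩ := h2 i j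
  exact ⟨o, Ideal.pow_le_pow_right h ho, e⟩

theorem relIndex_Km [Finite (ResidueField O)] (m : ℕ) :
    (Km O K m ⊔ Zl K).relIndex (KK O K ⊔ Zl K) ≠ 0 := by
  have : Finite (O ⧸ maximalIdeal O) := ‹Finite (ResidueField O)›
  have : Finite (O ⧸ maximalIdeal O ^ m) :=
    Ideal.finite_quotient_pow (IsNoetherian.noetherian _) m
  refine relIndex_ne_of_finite (Set.finite_univ (α := GL (Fin 2) (O ⧸ maximalIdeal O ^ m)))
    (fun g r => ∃ k : GL (Fin 2) O, ∃ z ∈ Zl K,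
      Matrix.GeneralLinearGroup.map (algebraMap O K) k * z = g ∧
      Matrix.GeneralLinearGroup.map (Ideal.Quotient.mk _) k = r) ?_ ?_
  · intro g hg
    obtain ⟨_, ⟨k, rfl⟩, z, hz, e⟩ := Subgroup.mem_sup_of_normal_right.1 hg
    exact ⟨_, trivial, k, z, hz, e, rfl⟩
  · rintro _ _ _ ⟨k, z, hz, rfl, rfl⟩ ⟨k', z', hz', rfl, e⟩
    have h1 : Matrix.GeneralLinearGroup.map (algebraMap O K) (k⁻¹ * k') ∈ Km O K m :=
      ⟨_, by rw [SetLike.mem_coe, MonoidHom.mem_ker, map_mul, map_inv, e, inv_mul_cancel], rfl⟩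
    have := mul_mem (mul_mem (Subgroup.mem_sup_right (inv_mem hz)) (Subgroup.mem_sup_left h1))
      (Subgroup.mem_sup_right (S := Km O K m) hz')
    simpa [mul_assoc] using this

end Gl

/-! ## copies of the completion -/

variable {F : Type} [Field F] [NumberField F]

theorem max_eq {w : Pl F} {π : w.adicCompletionIntegers F}
    (hπ : Valued.v (π : Fw w) = WithZero.exp (-1 : ℤ)) :
    maximalIdeal (w.adicCompletionIntegers F) = Ideal.span {π} := by
  ext x
  have h2 := P011.H519.mem_span_pow hπ 1 x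
  rw [pow_one] at h2
  rw [h2, mem_maximalIdeal, mem_nonunits_iff, adicCompletionIntegers.isUnit_iff_valued_eq_one]
  have h1 : Valued.v (x : Fw w) ≤ 1 := x.2
  constructor
  · intro h
    by_cases hx : Valued.v (x : Fw w) = 0
    · rw [hx]; exact zero_le
    · have h3 := lt_of_le_of_ne h1 h
      rw [← WithZero.exp_log hx, ← WithZero.exp_zero, WithZero.exp_lt_exp] at h3
      rw [← WithZero.exp_log hx, WithZero.exp_le_exp]
      push_cast
      omega
  · intro h e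
    rw [e, ← WithZero.exp_zero, WithZero.exp_le_exp] at h
    simp at h

theorem den_fin {w : Pl F} {ι : Type} [Finite ι] (x : ι → Fw w) :
    ∃ N : ℕ, 0 < N ∧ ∀ i, Valued.v ((N : Fw w) * x i) ≤ 1 := by
  classical
  have := Fintype.ofFinite ι
  choose n n0 hn using fun i => den_w (x i)
  refine ⟨∏ i, n i, Finset.prod_pos fun i _ => n0 i, fun i => ?_⟩
  rw [← Finset.prod_erase_mul _ _ (Finset.mem_univ i), Nat.cast_mul, mul_assoc, map_mul]
  exact mul_le_one' (v_nat_le w _) (hn i)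

theorem bdd {w : Pl F} {V ι κ : Type} [AddCommGroup V] [Module (Fw w) V] [Fintype ι] [Finite κ]
    (b : ι → V) (l : κ → V →ₗ[Fw w] Fw w) : ∃ N : ℕ, 0 < N ∧ ∀ c : ι → Fw w,
      (∀ i, Valued.v (c i) ≤ 1) → ∀ j, Valued.v ((N : Fw w) * l j (∑ i, c i • b i)) ≤ 1 := by
  obtain ⟨N, N0, h⟩ := den_fin fun p : ι × κ => l p.2 (b p.1)
  refine ⟨N, N0, fun c hc j => ?_⟩
  rw [map_sum, Finset.mul_sum]
  refine Valuation.map_sum_le _ fun i _ => ?_
  rw [map_smul, smul_eq_mul, mul_left_comm, map_mul]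
  exact mul_le_one' (hc i) (h (i, j))

section Cp

variable {O K : Type} [CommRing O] [IsDomain O] [IsDiscreteValuationRing O] [Field K] [Algebra O K]
  {w : Pl F}

variable (O) in
/-- `K ⊇ O` is a copy of `F_w ⊇ O_w` -/
structure Cp (e : Fw w ≃+* K) : Prop where
  inj : Function.Injective (algebraMap O K)
  int : ∀ x, x ∈ Ow w ↔ e x ∈ (algebraMap O K).range

variable {e : Fw w ≃+* K} (h : Cp O e)

namespace Cp

include h

omit [IsDomain O] [IsDiscreteValuationRing O] in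
theorem mem_iff {x : K} : x ∈ (algebraMap O K).range ↔ Valued.v (e.symm x) ≤ 1 := by
  rw [← mem_Ow, h.int, e.apply_symm_apply]

/-- the isomorphism of the rings of integers -/
def eO : O ≃+* w.adicCompletionIntegers F :=
  RingEquiv.ofBijective ((e.symm.toRingHom.comp (algebraMap O K)).codRestrict
    (w.adicCompletionIntegers F) fun o => h.mem_iff.1 ⟨o, rfl⟩)
    ⟨fun _ _ hx => h.inj (e.symm.injective (congrArg Subtype.val hx)), fun x => by
      obtain ⟨o, ho⟩ := (h.int x).1 x.2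
      exact ⟨o, Subtype.ext (by simp [ho])⟩⟩

omit [IsDomain O] [IsDiscreteValuationRing O] in
theorem coe_eO (o : O) : (h.eO o : Fw w) = e.symm (algebraMap O K o) := rfl

theorem map_max : (maximalIdeal (w.adicCompletionIntegers F)).map h.eO.symm = maximalIdeal O :=
  IsLocalRing.map_ringEquiv_maximalIdeal _

theorem mem_pow {m : ℕ} {o : O} : o ∈ maximalIdeal O ^ m ↔
    Valued.v (e.symm (algebraMap O K o)) ≤ WithZero.exp (-(m : ℤ)) := by
  obtain ⟨π, hπ⟩ := P011.H519.exists_unif F w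
  rw [← h.map_max, ← Ideal.map_pow, max_eq hπ, ← coe_eO h, ← P011.H519.mem_span_pow hπ,
    Ideal.map_symm, Ideal.mem_comap]

theorem mem_max {o : O} : o ∈ maximalIdeal O ↔ Valued.v (e.symm (algebraMap O K o)) < 1 := by
  rw [← h.map_max, Ideal.map_symm, Ideal.mem_comap, mem_maximalIdeal, mem_nonunits_iff,
    adicCompletionIntegers.isUnit_iff_valued_eq_one, lt_iff_le_and_ne]
  exact (and_iff_right (h.eO o).2).symm

theorem cpl : IsAdicComplete (maximalIdeal O) O := by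
  obtain ⟨π, hπ⟩ := P011.H519.exists_unif F w
  rw [← h.map_max, IsAdicComplete.congr_ringEquiv, max_eq hπ]
  exact P011.H519.isAdicComplete hπ

omit [IsDomain O] [IsDiscreteValuationRing O] in
theorem fr : IsFractionRing O K := by
  have : FaithfulSMul O K := (faithfulSMul_iff_algebraMap_injective O K).2 h.inj
  refine IsFractionRing.of_field O K fun z => ?_
  obtain ⟨N, N0, hN⟩ := den_w (e.symm z)
  rw [← map_natCast e.symm, ← map_mul, ← h.mem_iff] at hN
  obtain ⟨o, ho⟩ := hN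
  have : (N : K) ≠ 0 := by
    rw [← map_natCast e]
    exact (map_ne_zero e).2 (Nat.cast_ne_zero.2 N0.ne')
  exact ⟨o, N, by rw [ho, map_natCast, mul_div_cancel_left₀ _ this]⟩

/-- the reduction of global integers -/
def red : 𝓞 F →+* ResidueField O :=
  (residue O).comp (h.eO.symm.toRingHom.comp (algebraMap (𝓞 F) (w.adicCompletionIntegers F)))

omit [IsDomain O] [IsDiscreteValuationRing O] in
theorem eO_alg (r : 𝓞 F) : (h.eO ((h.eO.symm.toRingHom.comp
    (algebraMap (𝓞 F) (w.adicCompletionIntegers F))) r) : Fw w) = algebraMap (𝓞 F) (Fw w) r :=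
  congrArg Subtype.val (h.eO.apply_symm_apply _)

theorem red_surj : Function.Surjective h.red := fun x => by
  obtain ⟨o, rfl⟩ := residue_surjective x
  obtain ⟨r, hr⟩ := dense_O (h.eO o).2 one_ne_zero
  refine ⟨r, (Ideal.Quotient.eq.2 (h.mem_max.2 ?_)).symm⟩
  rw [← coe_eO h, map_sub, AddSubgroupClass.coe_sub, h.eO_alg]
  exact hr

theorem ker_red : RingHom.ker h.red = w.asIdeal := by
  ext r
  rw [RingHom.mem_ker, ← intValuation_lt_one_iff_mem, ← v_int]
  refine (residue_eq_zero_iff _).trans (h.mem_max.trans ?_)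
  rw [← coe_eO h, h.eO_alg]

theorem qq_eq : qq O = Ideal.absNorm w.asIdeal := by
  rw [Ideal.absNorm_apply, Submodule.cardQuot_apply, ← h.ker_red]
  exact (Nat.card_congr (RingHom.quotientKerEquivOfSurjective h.red_surj).toEquiv).symm

theorem fin : Finite (ResidueField O) := by
  refine Nat.finite_of_card_ne_zero ?_
  have := h.qq_eq
  rw [qq] at this
  rw [this]
  exact fun h => w.ne_bot (Ideal.absNorm_eq_zero_iff.1 h)

omit [IsDomain O] [IsDiscreteValuationRing O] in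
theorem mem_KK {g : GL (Fin 2) K} : g ∈ KK O K ↔ (∀ i j, Valued.v (e.symm (g.val i j)) ≤ 1) ∧
    ∀ i j, Valued.v (e.symm ((g⁻¹).val i j)) ≤ 1 := by
  simp only [LocA.mem_KK h.inj, h.mem_iff]

theorem mem_Km {m : ℕ} {g : GL (Fin 2) K} : g ∈ Km O K m ↔ g ∈ KK O K ∧
    ∀ i j, Valued.v (e.symm ((g.val - 1) i j)) ≤ WithZero.exp (-(m : ℤ)) := by
  rw [LocA.mem_Km h.inj]
  refine and_congr_right fun _ => forall₂_congr fun i j => ⟨?_, fun h1 => ?_⟩
  · rintro ⟨o, ho, e1⟩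
    rw [← e1]
    exact h.mem_pow.1 ho
  · obtain ⟨o, ho⟩ := h.mem_iff.2 (h1.trans (by
      rw [← WithZero.exp_zero, WithZero.exp_le_exp]; omega))
    exact ⟨o, h.mem_pow.2 (by rwa [ho]), ho⟩

theorem mem_Km_of {m : ℕ} {g : GL (Fin 2) K}
    (h1 : ∀ i j, Valued.v (e.symm ((g.val - 1) i j)) ≤ WithZero.exp (-(m : ℤ)))
    (h2 : ∀ i j, Valued.v (e.symm (((g⁻¹).val - 1) i j)) ≤ WithZero.exp (-(m : ℤ))) :
    g ∈ Km O K m := by
  have key : ∀ M : Matrix (Fin 2) (Fin 2) K,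
      (∀ i j, Valued.v (e.symm ((M - 1) i j)) ≤ WithZero.exp (-(m : ℤ))) →
      ∀ i j, Valued.v (e.symm (M i j)) ≤ 1 := fun M hM i j => by
    rw [show M i j = (M - 1) i j + (1 : Matrix (Fin 2) (Fin 2) K) i j by simp, map_add]
    refine Valuation.map_add_le _ ((hM i j).trans ?_) ?_
    · rw [← WithZero.exp_zero, WithZero.exp_le_exp]; omega
    · rw [Matrix.one_apply]; split <;> simp
  exact h.mem_Km.2 ⟨h.mem_KK.2 ⟨key _ h1, key _ h2⟩, h1⟩

end Cp

end Cp

/-! ## an explicit splitting -/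

section Split

variable {k : Type} [Field k] [CharZero k]

/-- the splitting attached to a solution of `x ^ 2 - a y ^ 2 = b` -/
def spl {a b x y : k} (ha : a ≠ 0) (hb : b ≠ 0) (h : x ^ 2 - a * y ^ 2 = b) :
    ℍ[k,a,b] ≃ₐ[k] Matrix (Fin 2) (Fin 2) k where
  toFun q := !![q.re + x * q.imJ + a * y * q.imK, a * (q.imI - y * q.imJ - x * q.imK);
    q.imI + y * q.imJ + x * q.imK, q.re - x * q.imJ - a * y * q.imK]
  invFun M := ⟨2⁻¹ * (M 0 0 + M 1 1), 2⁻¹ * (a⁻¹ * M 0 1 + M 1 0),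
    b⁻¹ * (2⁻¹ * (x * (M 0 0 - M 1 1) - a * y * (M 1 0 - a⁻¹ * M 0 1))),
    b⁻¹ * (2⁻¹ * (x * (M 1 0 - a⁻¹ * M 0 1) - y * (M 0 0 - M 1 1)))⟩
  left_inv q := by
    subst h
    ext <;> simp <;> field_simp <;> ring
  right_inv M := by
    subst h
    ext i j
    fin_cases i <;> fin_cases j <;> simp <;> field_simp <;> ring
  map_mul' p q := by
    subst h
    ext i j
    fin_cases i <;> fin_cases j <;> simp [Matrix.mul_apply, Fin.sum_univ_two] <;> ring
  map_add' p q := by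
    ext i j
    fin_cases i <;> fin_cases j <;> simp <;> ring
  commutes' c := by
    ext i j
    fin_cases i <;> fin_cases j <;>
      simp [QuaternionAlgebra.algebraMap_eq, Matrix.algebraMap_matrix_apply]

theorem spl_int {a b x y : k} (ha : a ≠ 0) (hb : b ≠ 0) (h : x ^ 2 - a * y ^ 2 = b)
    (T : Subring k) (m1 : a ∈ T) (m2 : a⁻¹ ∈ T) (m3 : b⁻¹ ∈ T) (m4 : (2 : k)⁻¹ ∈ T) (m5 : x ∈ T)
    (m6 : y ∈ T) (q : ℍ[k,a,b]) : (q.re ∈ T ∧ q.imI ∈ T ∧ q.imJ ∈ T ∧ q.imK ∈ T) ↔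
      ∀ i j, spl ha hb h q i j ∈ T := by
  constructor
  · rintro ⟨h1, h2, h3, h4⟩ i j
    fin_cases i <;> fin_cases j <;> simp only [spl] <;> simp <;>
      apply_rules (maxDepth := 200) [T.add_mem, T.sub_mem, T.mul_mem]
  · intro H
    rw [← (spl ha hb h).symm_apply_apply q]
    generalize spl ha hb h q = M at H
    have := H 0 0
    have := H 0 1
    have := H 1 0
    have := H 1 1
    refine ⟨T.mul_mem m4 ?_, T.mul_mem m4 ?_, T.mul_mem m3 (T.mul_mem m4 ?_),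
      T.mul_mem m3 (T.mul_mem m4 ?_)⟩ <;>
      apply_rules (maxDepth := 200) [T.add_mem, T.sub_mem, T.mul_mem]

end Split

open Polynomial in
theorem exists_sqrt {w : Pl F} {r c : 𝓞 F} (h0 : r ^ 2 - c ∈ w.asIdeal) (h1 : 2 * r ∉ w.asIdeal) :
    ∃ x ∈ Ow w, x ^ 2 = algebraMap (𝓞 F) (Fw w) c := by
  obtain ⟨y, hy, -⟩ := P011.H519.hensel (K := F) (v := w) (f := X ^ 2 - C c) (a := r)
    (monic_X_pow_sub_C c two_ne_zero) (by simpa using h0) (by simpa [one_add_one_eq_two] using h1)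
  refine ⟨y, y.2, ?_⟩
  rw [map_sub, map_pow, aeval_X, aeval_C, sub_eq_zero] at hy
  exact congrArg Subtype.val hy

theorem inv_mem_Ow {w : Pl F} {r : 𝓞 F} (h : r ∉ w.asIdeal) :
    (algebraMap (𝓞 F) (Fw w) r)⁻¹ ∈ Ow w := by
  rw [mem_Ow, map_inv₀, v_int, intValuation_eq_one_iff.2 h, inv_one]

theorem alg_ne {w : Pl F} {r : 𝓞 F} (h : r ≠ 0) : algebraMap (𝓞 F) (Fw w) r ≠ 0 := by
  rw [← (Valued.v (R := Fw w)).ne_zero_iff, v_int]
  exact intValuation_ne_zero w r h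

open Polynomial in
/-- units are norms from an unramified extension -/
theorem exists_norm {w : Pl F} {a b : 𝓞 F} (h : 2 * a * b ∉ w.asIdeal) :
    ∃ x ∈ Ow w, ∃ y ∈ Ow w, x ^ 2 - algebraMap (𝓞 F) (Fw w) a * y ^ 2 = algebraMap _ _ b := by
  classical
  have hp := w.isPrime
  have h2 : 2 ∉ w.asIdeal := fun h' => h (Ideal.mul_mem_right _ _ (Ideal.mul_mem_right _ _ h'))
  have ha : a ∉ w.asIdeal := fun h' => h (Ideal.mul_mem_right _ _ (Ideal.mul_mem_left _ _ h'))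
  have hb : b ∉ w.asIdeal := fun h' => h (Ideal.mul_mem_left _ _ h')
  have := w.isMaximal
  let _ := Ideal.Quotient.field w.asIdeal
  have : Finite (𝓞 F ⧸ w.asIdeal) := Ideal.finiteQuotientOfFreeOfNeBot _ w.ne_bot
  let _ := Fintype.ofFinite (𝓞 F ⧸ w.asIdeal)
  have z : ∀ r, Ideal.Quotient.mk w.asIdeal r = 0 ↔ r ∈ w.asIdeal := fun _ =>
    Ideal.Quotient.eq_zero_iff_mem
  have hc : ringChar (𝓞 F ⧸ w.asIdeal) ≠ 2 := fun e => h2 ((z 2).1 (by
    have := ringChar.Nat.cast_ringChar (R := 𝓞 F ⧸ w.asIdeal)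
    rw [e] at this
    simpa [map_ofNat] using this))
  obtain ⟨x, y, e⟩ := FiniteField.exists_root_sum_quadratic (R := 𝓞 F ⧸ w.asIdeal) (f := X ^ 2)
    (g := C (-Ideal.Quotient.mk _ a) * X ^ 2 + C 0 * X + C (-Ideal.Quotient.mk _ b))
    (degree_X_pow 2) (degree_quadratic (neg_ne_zero.2 ((z a).not.2 ha)))
    (FiniteField.odd_card_of_char_ne_two hc)
  obtain ⟨x, rfl⟩ := Ideal.Quotient.mk_surjective x
  obtain ⟨y, rfl⟩ := Ideal.Quotient.mk_surjective y
  have e1 : x ^ 2 - (a * y ^ 2 + b) ∈ w.asIdeal := (z _).1 (by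
    simp only [eval_add, eval_mul, eval_pow, eval_X, eval_C] at e
    simp only [map_sub, map_add, map_mul, map_pow]
    linear_combination e)
  by_cases hx : x ∈ w.asIdeal
  · have hy : y ∉ w.asIdeal := fun hy => hb (by
      have := w.asIdeal.sub_mem (w.asIdeal.sub_mem (w.asIdeal.mul_mem_left x hx) e1)
        (w.asIdeal.mul_mem_left (a * y) hy)
      convert this using 1
      ring)
    obtain ⟨Y, hY, e2⟩ := exists_sqrt (w := w) (r := a * y) (c := a * (x ^ 2 - b)) (by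
      convert w.asIdeal.mul_mem_left (-a) e1 using 1
      ring) fun h' => (hp.mem_or_mem h').elim h2 fun h' => (hp.mem_or_mem h').elim ha hy
    refine ⟨algebraMap _ _ x, (Ow w).algebraMap_mem x, _, mul_mem (inv_mem_Ow ha) hY, ?_⟩
    have a0 : algebraMap (𝓞 F) (Fw w) a ≠ 0 := alg_ne fun e => ha (e ▸ zero_mem _)
    rw [mul_pow, e2]
    simp only [map_mul, map_sub, map_pow]
    field_simp
    ring
  · obtain ⟨Y, hY, e2⟩ := exists_sqrt e1 fun h' => (hp.mem_or_mem h').elim h2 hx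
    refine ⟨Y, hY, algebraMap _ _ y, (Ow w).algebraMap_mem y, ?_⟩
    rw [e2]
    simp only [map_mul, map_add, map_pow]
    ring

end LocA

open LocA

namespace QD

variable {F : Type} [Field F] [NumberField F] (X : QD F)

/-- splitting at the places prime to `2 a b` -/
theorem loc_two (w : Pl F) (h : 2 * X.a * X.b ∉ w.asIdeal) :
    ∃ s : X.Dw w ≃ₐ[Fw w] Matrix (Fin 2) (Fin 2) (Fw w),
      ∀ x, x ∈ X.ODw w ↔ ∀ i k, s x i k ∈ Ow w := by
  obtain ⟨x, hx, y, hy, e⟩ := exists_norm h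
  have h2 : 2 ∉ w.asIdeal := fun h' => h (Ideal.mul_mem_right _ _ (Ideal.mul_mem_right _ _ h'))
  have ha : X.a ∉ w.asIdeal := fun h' => h (Ideal.mul_mem_right _ _ (Ideal.mul_mem_left _ _ h'))
  have hb : X.b ∉ w.asIdeal := fun h' => h (Ideal.mul_mem_left _ _ h')
  refine ⟨spl (alg_ne X.a0) (alg_ne X.b0) e, fun q => mem_qint.trans
    (spl_int _ _ e (Ow w).toSubring ((Ow w).algebraMap_mem _) (inv_mem_Ow ha) (inv_mem_Ow hb) ?_
      hx hy q)⟩
  have := inv_mem_Ow h2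
  rwa [map_ofNat] at this

/-! ## elements supported at one place -/

open Classical in
theorem exists_sup (w : Pl F) (g : X.Dw w) : ∃ x : X.DA, ∀ v, X.cw v x = Pi.mulSingle w g v := by
  refine X.exists_cw _ ((Set.finite_singleton w).subset fun v hv => ?_)
  by_contra h
  refine hv (show Pi.mulSingle w g v ∈ X.ODw v from ?_)
  rw [Pi.mulSingle_eq_of_ne h]
  exact one_mem _

open Classical in
/-- the element with component `g` at `w` and `1` elsewhere -/
def sup (w : Pl F) : X.Dw w →* X.DA where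
  toFun g := (X.exists_sup w g).choose
  map_one' := X.cw_ext fun v => by rw [(X.exists_sup w 1).choose_spec, Pi.mulSingle_one, map_one]; rfl
  map_mul' g g' := X.cw_ext fun v => by
    rw [map_mul, (X.exists_sup w _).choose_spec, (X.exists_sup w _).choose_spec,
      (X.exists_sup w _).choose_spec, Pi.mulSingle_mul]
    rfl

theorem cw_sup (w : Pl F) (g : X.Dw w) : X.cw w (X.sup w g) = g := by
  classical
  exact ((X.exists_sup w g).choose_spec w).trans (Pi.mulSingle_eq_same _ _)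

theorem cw_sup_ne {v w : Pl F} (h : v ≠ w) (g : X.Dw w) : X.cw v (X.sup w g) = 1 := by
  classical
  exact ((X.exists_sup w g).choose_spec v).trans (Pi.mulSingle_eq_of_ne h _)

theorem one_iff {N : ℕ} {x : X.DA} :
    X.One N x ↔ ∀ v, ∃ y ∈ X.ODw v, X.cw v x = 1 + (N : X.Dw v) * y := by
  constructor
  · rintro ⟨y, hy, rfl⟩ v
    exact ⟨_, X.mem_OD.1 hy v, by rw [map_add, map_one, map_mul, map_natCast]⟩
  · intro h
    choose y hy e using h
    obtain ⟨z, hz⟩ := X.exists_cw y (Filter.Eventually.of_forall hy)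
    exact ⟨z, X.mem_OD.2 fun v => hz v ▸ hy v, X.cw_ext fun v => by
      rw [map_add, map_one, map_mul, map_natCast, hz, e]⟩

theorem one_of_sup {N : ℕ} {w : Pl F} {x : X.DA} (h : ∀ v, v ≠ w → X.cw v x = 1)
    (h' : ∃ y ∈ X.ODw w, X.cw w x = 1 + (N : X.Dw w) * y) : X.One N x :=
  X.one_iff.2 fun v => by
    by_cases hv : v = w
    · subst hv; exact h'
    · exact ⟨0, zero_mem _, by rw [h v hv, mul_zero, add_zero]⟩

theorem cw_alg (w : Pl F) (c : AF F) :
    X.cw w (algebraMap _ _ c) = algebraMap (Fw w) _ (ev w c) := qmap_alg _ c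

theorem mem_Z_of_cw {x : X.G} (h : ∀ v, ∃ c : Fw v, X.cw v x = algebraMap _ _ c) : x ∈ X.tw.Z := by
  refine X.mem_Z.2 ⟨(x : X.DA).re, X.cw_ext fun v => ?_⟩
  obtain ⟨c, hc⟩ := h v
  rw [cw_alg, hc]
  congr 1
  rw [QuaternionAlgebra.algebraMap_eq] at hc
  exact (congrArg QuaternionAlgebra.re hc).symm

theorem cw_inv {v : Pl F} {x : X.G} (h : X.cw v x = 1) : X.cw v (x⁻¹ : X.G) = 1 := by
  rw [← mul_one (X.cw v _), ← h, ← map_mul, Units.inv_mul, map_one, h]

section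

variable {O K : Type} [CommRing O] [IsDomain O] [IsDiscreteValuationRing O] [Field K] [Algebra O K]
  {X} {w : Pl F} {e : Fw w ≃+* K} {s : X.Dw w ≃+* Matrix (Fin 2) (Fin 2) K}

theorem s_smul (hs : ∀ c, s (algebraMap _ _ c) = algebraMap K _ (e c)) (c : Fw w) (q : X.Dw w) :
    s (c • q) = e c • s q := by
  rw [Algebra.smul_def, map_mul, hs, Algebra.smul_def]

theorem symm_smul (hs : ∀ c, s (algebraMap _ _ c) = algebraMap K _ (e c)) (c : Fw w)
    (M : Matrix (Fin 2) (Fin 2) K) : s.symm (e c • M) = c • s.symm M :=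
  s.injective (by rw [s_smul hs, s.apply_symm_apply, s.apply_symm_apply])

/-- the image of the order has bounded denominators -/
theorem bdd_s (hs : ∀ c, s (algebraMap _ _ c) = algebraMap K _ (e c)) : ∃ N : ℕ, 0 < N ∧
    ∀ q ∈ X.ODw w, ∀ i j, Valued.v ((N : Fw w) * e.symm (s q i j)) ≤ 1 := by
  obtain ⟨N, N0, h⟩ := bdd (w := w) (ι := Fin 4) (κ := Fin 2 × Fin 2) (V := X.Dw w)
    ![1, qi _ _, qj _ _, qk _ _] fun p =>
      { toFun := fun q => e.symm (s q p.1 p.2)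
        map_add' := fun _ _ => by rw [map_add, Matrix.add_apply, map_add]
        map_smul' := fun c q => by
          rw [s_smul hs, Matrix.smul_apply, smul_eq_mul, map_mul, e.symm_apply_apply]; rfl }
  refine ⟨N, N0, fun q hq i j => ?_⟩
  obtain ⟨h1, h2, h3, h4⟩ := mem_qint.1 hq
  have := h ![q.re, q.imI, q.imJ, q.imK] (fun i => by fin_cases i <;> assumption) (i, j)
  rwa [show ∑ i, ![q.re, q.imI, q.imJ, q.imK] i • ![1, qi _ _, qj _ _, qk _ _] i = q by
    ext <;> simp [Fin.sum_univ_four, qi, qj, qk]] at this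

/-- the preimage of the integral matrices has bounded denominators -/
theorem bdd_symm (hs : ∀ c, s (algebraMap _ _ c) = algebraMap K _ (e c)) : ∃ N : ℕ, 0 < N ∧
    ∀ M : Matrix (Fin 2) (Fin 2) K, (∀ i j, Valued.v (e.symm (M i j)) ≤ 1) →
      (N : Fw w) • s.symm M ∈ X.ODw w := by
  obtain ⟨N, N0, h⟩ := bdd (w := w) (ι := Fin 2 × Fin 2) (κ := Fin 4) (V := X.Dw w)
    (fun p => s.symm (Matrix.single p.1 p.2 1)) ![QuaternionAlgebra.reₗ _ _ _,
      QuaternionAlgebra.imIₗ _ _ _, QuaternionAlgebra.imJₗ _ _ _, QuaternionAlgebra.imKₗ _ _ _]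
  refine ⟨N, N0, fun M hM => ?_⟩
  have := h (fun p => e.symm (M p.1 p.2)) fun p => hM p.1 p.2
  rw [show ∑ p : Fin 2 × Fin 2, e.symm (M p.1 p.2) • s.symm (Matrix.single p.1 p.2 1) = s.symm M by
    conv_rhs => rw [Matrix.matrix_eq_sum_single M, ← Finset.sum_product', map_sum]
    refine Finset.sum_congr rfl fun p _ => ?_
    rw [← symm_smul hs, e.apply_symm_apply, Matrix.smul_single, smul_eq_mul, mul_one]] at this
  exact mem_qint.2 ⟨this 0, this 1, this 2, this 3⟩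

variable (s) in
/-- the embedding of the factor -/
def io : GL (Fin 2) K →* X.G := Units.map ((X.sup w).comp s.symm.toRingHom.toMonoidHom)

variable (s) in
/-- the projection to the factor -/
def pr : X.G →* GL (Fin 2) K := Units.map (s.toRingHom.comp (X.cw w)).toMonoidHom

theorem coe_pr (x : X.G) : (pr s x : Matrix (Fin 2) (Fin 2) K) = s (X.cw w x) := rfl

theorem cw_io (g : GL (Fin 2) K) : X.cw w (io s g : X.G) = s.symm g := X.cw_sup w _

theorem cw_io_ne {v : Pl F} (h : v ≠ w) (g : GL (Fin 2) K) : X.cw v (io s g : X.G) = 1 :=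
  X.cw_sup_ne h _

theorem pr_io (g : GL (Fin 2) K) : pr s (io s g) = g :=
  Units.ext (by rw [coe_pr, cw_io, s.apply_symm_apply])

theorem io_com (g : GL (Fin 2) K) (x : X.G) (h : pr s x = 1) : Commute (io s g) x := by
  have h1 : X.cw w x = 1 := s.injective (by rw [← coe_pr, h, map_one]; rfl)
  refine Units.ext (X.cw_ext fun v => ?_)
  rw [Units.val_mul, Units.val_mul, map_mul, map_mul]
  by_cases hv : v = w
  · subst hv; rw [h1, mul_one, one_mul]
  · rw [cw_io_ne hv, mul_one, one_mul]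

theorem io_cen (hs : ∀ c, s (algebraMap _ _ c) = algebraMap K _ (e c)) :
    ∀ g ∈ Zl K, io s g ∈ X.tw.Z := fun g hg => by
  obtain ⟨c, hc⟩ := Matrix.GeneralLinearGroup.mem_center_iff_val_mem_range_scalar.1 hg
  refine X.mem_Z_of_cw fun v => ?_
  by_cases hv : v = w
  · subst hv
    refine ⟨e.symm c, s.injective ?_⟩
    rw [cw_io, s.apply_symm_apply, hs, e.apply_symm_apply, ← hc]
    rfl
  · exact ⟨1, by rw [cw_io_ne hv, map_one]⟩

theorem pr_cen (hs : ∀ c, s (algebraMap _ _ c) = algebraMap K _ (e c)) :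
    ∀ z ∈ X.tw.Z, pr s z ∈ Zl K := fun z hz => by
  obtain ⟨c, hc⟩ := X.mem_Z.1 hz
  refine Matrix.GeneralLinearGroup.mem_center_iff_val_mem_range_scalar.2 ⟨e (ev w c), ?_⟩
  rw [coe_pr, hc, cw_alg, hs]
  rfl

theorem io_Km (h : Cp O e) (hs : ∀ c, s (algebraMap _ _ c) = algebraMap K _ (e c)) {N : ℕ}
    (N0 : 0 < N) : ∃ m, ∀ g ∈ Km O K m, io s g ∈ Um X.OD N := by
  obtain ⟨k, k0, hk⟩ := bdd_symm hs
  have n0 := v_nat_ne w (mul_pos N0 k0)
  obtain ⟨m, hm⟩ := WithZero.exists_exp_neg_natCast_lt n0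
  have key : ∀ g ∈ Km O K m, X.One N (io s g : X.G) := fun g hg => by
    refine X.one_of_sup (fun v hv => cw_io_ne hv g)
      ⟨_, hk (e ((N * k : ℕ) : Fw w)⁻¹ • (g.val - 1)) fun i j => ?_, ?_⟩
    · rw [Matrix.smul_apply, smul_eq_mul, map_mul, e.symm_apply_apply, map_mul, map_inv₀,
        inv_mul_le_one₀ (zero_lt_iff.2 n0)]
      exact ((h.mem_Km.1 hg).2 i j).trans hm.le
    · rw [cw_io, symm_smul hs, nat_mul_eq, smul_smul, smul_smul, ← Nat.cast_mul,
        mul_inv_cancel₀ (Nat.cast_ne_zero.2 (mul_pos N0 k0).ne'), one_smul, map_sub, map_one,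
        add_sub_cancel]
  exact ⟨m, fun g hg => ⟨key g hg, by rw [← map_inv]; exact key _ (inv_mem hg)⟩⟩

theorem pr_Um (h : Cp O e) (hs : ∀ c, s (algebraMap _ _ c) = algebraMap K _ (e c)) (m : ℕ) :
    ∃ M, 0 < M ∧ ∀ x ∈ Um X.OD M, pr s x ∈ Km O K m := by
  obtain ⟨k, k0, hk⟩ := bdd_s hs
  obtain ⟨N, N0, hN⟩ := exists_nat_le w (γ := WithZero.exp (-(m : ℤ))) WithZero.exp_ne_zero
  have key : ∀ x : X.G, X.One (N * k) x → ∀ i j,
      Valued.v (e.symm (((pr s x).val - 1) i j)) ≤ WithZero.exp (-(m : ℤ)) := fun x hx i j => by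
    obtain ⟨y, hy, e1⟩ := X.one_iff.1 hx w
    rw [coe_pr, e1, map_add, map_one, add_sub_cancel_left, nat_mul_eq, s_smul hs, Matrix.smul_apply,
      smul_eq_mul, map_mul, e.symm_apply_apply, Nat.cast_mul, mul_assoc, map_mul]
    exact (mul_le_of_le_one_right' (hk y hy i j)).trans hN.le
  exact ⟨N * k, mul_pos N0 k0, fun x hx =>
    h.mem_Km_of (key x hx.1) (by rw [← map_inv]; exact key _ hx.2)⟩

theorem pr_UN (h : Cp O e) (hs : ∀ c, s (algebraMap _ _ c) = algebraMap K _ (e c)) (m : ℕ) :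
    ∃ M, 0 < M ∧ X.UN M ≤ (Km O K m ⊔ Zl K).comap (pr s) := by
  obtain ⟨M, M0, hM⟩ := pr_Um h hs m
  refine ⟨M, M0, fun x hx => ?_⟩
  obtain ⟨c, hc⟩ := X.mem_UN_iff.1 hx
  have := mul_mem (Subgroup.mem_sup_right (inv_mem (pr_cen hs _ (X.sc_mem_Z c))))
    (Subgroup.mem_sup_left (T := Zl K) (hM _ hc))
  simpa using this

theorem io_op (h : Cp O e) (hs : ∀ c, s (algebraMap _ _ c) = algebraMap K _ (e c)) :
    ∀ U ∈ X.tw.Lev, ∃ m, Km O K m ≤ U.comap (io s) := by
  rintro U ⟨N, N0, hN, -⟩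
  obtain ⟨m, hm⟩ := io_Km h hs N0
  exact ⟨m, fun g hg => hN (X.Um_le N (hm g hg))⟩

theorem pr_cpt (h : Cp O e) (hs : ∀ c, s (algebraMap _ _ c) = algebraMap K _ (e c)) :
    ∀ U ∈ X.tw.Lev, (KK O K ⊔ Zl K).relIndex (U.map (pr s)) ≠ 0 := fun U hU => by
  obtain ⟨M, M0, hM⟩ := pr_UN h hs 0
  rw [← Subgroup.relIndex_comap]
  exact fun h0 => X.UN_relIndex hU M0 (Subgroup.relIndex_eq_zero_of_le_left
    (hM.trans (Subgroup.comap_mono (sup_le_sup_right (Km_le 0) _))) h0)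

variable (s) in
/-- the part away from `w` -/
def aw : X.G →* X.G where
  toFun x := (io s (pr s x))⁻¹ * x
  map_one' := by simp
  map_mul' x y := by
    have := (io_com (s := s) (pr s y)⁻¹ ((io s (pr s x))⁻¹ * x) (by simp [pr_io])).eq
    rw [map_mul, map_mul, mul_inv_rev, ← mul_assoc, mul_assoc _ _ x, ← map_inv (io s) (pr s y), this,
      mul_assoc]

theorem aw_apply (x : X.G) : aw s x = (io s (pr s x))⁻¹ * x := rfl

theorem io_lev (h : Cp O e) (hs : ∀ c, s (algebraMap _ _ c) = algebraMap K _ (e c)) :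
    ∀ U ∈ X.tw.Lev, ∀ m, (U ⊓ (pr s).ker) ⊔ X.tw.Z ⊔ (Km O K m).map (io s) ∈ X.tw.Lev := by
  intro U hU m
  have key : ∀ V ∈ X.tw.Lev, ∃ n, ∀ g ∈ Km O K n ⊔ Zl K, io s g ∈ V := fun V hV => by
    obtain ⟨n, hn⟩ := io_op h hs V hV
    exact ⟨n, fun g hg => (sup_le hn fun z hz => X.Z_le hV (io_cen hs z hz) :
      Km O K n ⊔ Zl K ≤ V.comap (io s)) hg⟩
  refine X.mem_Lev'.2 ⟨?_, ?_⟩
  · obtain ⟨n, hn⟩ := key U hU
    obtain ⟨M, M0, hM⟩ := pr_UN h hs (max m n)
    obtain ⟨N, N0, hN, -⟩ := id hU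
    refine ⟨M * N, mul_pos M0 N0, fun x hx => ?_⟩
    have h1 : pr s x ∈ Km O K (max m n) ⊔ Zl K := hM (X.UN_mono (dvd_mul_right _ _) hx)
    have h2 : aw s x ∈ U ⊓ (pr s).ker := ⟨U.mul_mem (U.inv_mem (hn _
      (sup_le_sup_right (Km_anti h.inj (le_max_right _ _)) _ h1)))
      (hN (X.UN_mono (dvd_mul_left _ _) hx)), by simp [aw_apply, pr_io]⟩
    have h3 : Km O K m ⊔ Zl K ≤ ((U ⊓ (pr s).ker) ⊔ X.tw.Z ⊔ (Km O K m).map (io s)).comap (io s) :=
      sup_le (fun g hg => Subgroup.mem_sup_right ⟨g, hg, rfl⟩) fun g hg =>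
        Subgroup.mem_sup_left (Subgroup.mem_sup_right (io_cen hs g hg))
    have := mul_mem (Subgroup.mem_comap.1 (h3 (sup_le_sup_right (Km_anti h.inj (le_max_left _ _)) _
      h1))) (Subgroup.mem_sup_left (Subgroup.mem_sup_left h2))
    simpa [aw_apply] using this
  · obtain ⟨n, hn⟩ := key _ (X.UN_mem one_pos)
    have h1 : (U ⊓ (pr s).ker) ⊔ X.tw.Z ⊔ (Km O K m).map (io s) ≤
        U.comap (aw s) ⊓ (KK O K ⊔ Zl K).comap (pr s) := by
      refine sup_le (sup_le ?_ ?_) ?_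
      · rintro u ⟨hu, hu'⟩
        have e1 : pr s u = 1 := hu'
        exact ⟨by simpa [aw_apply, e1] using hu, by simp [e1]⟩
      · intro z hz
        exact ⟨X.Z_le hU (mul_mem (inv_mem (io_cen hs _ (pr_cen hs z hz))) hz),
          Subgroup.mem_sup_right (pr_cen hs z hz)⟩
      · rintro _ ⟨g, hg, rfl⟩
        refine ⟨by simp [aw_apply, pr_io], Subgroup.mem_comap.2 ?_⟩
        rw [pr_io]
        exact Subgroup.mem_sup_left (Km_le m hg)
    have h2 : (X.UN 1).comap (aw s) ⊓ (Km O K n ⊔ Zl K).comap (pr s) ≤ X.UN 1 := by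
      rintro x ⟨h3, h4⟩
      simpa [aw_apply] using mul_mem (hn _ h4) (Subgroup.mem_comap.1 h3)
    refine fun h0 => Subgroup.relIndex_inf_ne_zero ?_ ?_
      (Subgroup.relIndex_eq_zero_of_le_left h2 (Subgroup.relIndex_eq_zero_of_le_right h1 h0))
    · rw [Subgroup.relIndex_comap]
      exact fun h0 => X.UN_relIndex hU one_pos (Subgroup.relIndex_eq_zero_of_le_right
        (Subgroup.map_le_iff_le_comap.2 inf_le_left) h0)
    · rw [Subgroup.relIndex_comap]
      have := h.fin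
      exact fun h0 => relIndex_Km n (Subgroup.relIndex_eq_zero_of_le_right
        (Subgroup.map_le_iff_le_comap.2 inf_le_right) h0)

omit [IsDomain O] [IsDiscreteValuationRing O] in
theorem alg_ne_zero (h : Cp O e) {p : O} (hp : Irreducible p) : algebraMap O K p ≠ 0 :=
  (map_ne_zero_iff _ h.inj).2 hp.ne_zero

/-- the factor at `w` -/
def mkLc (h : Cp O e) (hs : ∀ c, s (algebraMap _ _ c) = algebraMap K _ (e c)) {p : O}
    (hp : Irreducible p) : X.tw.Lc O K where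
  fr := h.fr
  fin := h.fin
  cpl := h.cpl
  ch := (e.toRingHom.charZero_iff e.injective).1 inferInstance
  ϖ := Units.mk0 _ (alg_ne_zero h hp)
  irr := ⟨p, hp, rfl⟩
  ι := io s
  π := pr s
  πι := pr_io
  com := io_com
  cen := io_cen hs
  cen' := pr_cen hs
  op := io_op h hs
  cpt := pr_cpt h hs
  lev := io_lev h hs

variable {L : X.tw.Lc O K}

theorem IsPl.cp (h : X.IsPl w L) : ∃ e : Fw w ≃+* K, Cp O e := by
  obtain ⟨e, -, h1, -⟩ := h
  have := L.fr
  exact ⟨e, IsFractionRing.injective O K, h1⟩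

theorem IsPl.qq_eq (h : X.IsPl w L) : qq O = Ideal.absNorm w.asIdeal := h.cp.elim fun _ h => h.qq_eq

theorem IsPl.pi_eq_one (h : X.IsPl w L) {x : X.G} : L.π x = 1 ↔ X.cw w x = 1 := by
  obtain ⟨e, s, -, -, h1, -⟩ := h
  rw [Units.ext_iff, h1, Units.val_one, map_eq_one_iff _ s.injective]

/-- an element supported at `w` comes from the factor -/
theorem IsPl.eq_of_sup (h : X.IsPl w L) {x : X.G} (hx : ∀ v, v ≠ w → X.cw v x = 1) :
    L.ι (L.π x) = x := by
  obtain ⟨e, s, -, -, h1, h2⟩ := h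
  refine Units.ext (X.cw_ext fun v => ?_)
  by_cases hv : v = w
  · subst hv
    exact s.injective (by rw [← h1, ← h1, L.πι])
  · rw [h2 _ v hv, hx v hv]

theorem IsPl.at_UN (h : X.IsPl w L) (hi : ∀ x : X.G, X.cw w x ∈ X.ODw w ↔
    ∀ i k, (L.π x : Matrix (Fin 2) (Fin 2) K) i k ∈ (algebraMap O K).range) {N : ℕ}
    (hN : (N : 𝓞 F) ∉ w.asIdeal) : L.At (KK O K) (X.UN N) := by
  obtain ⟨e, he⟩ := h.cp
  obtain ⟨-, -, -, -, -, h2⟩ := h
  constructor
  · have key : ∀ g ∈ KK O K, X.One N (L.ι g : X.G) := fun g hg => by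
      have h3 := (hi (L.ι g)).2 (by rw [L.πι]; exact ((LocA.mem_KK he.inj).1 hg).1)
      have h4 := inv_mem_Ow hN
      have h5 : algebraMap (𝓞 F) (Fw w) N ≠ 0 := alg_ne fun e => hN (e ▸ zero_mem _)
      rw [map_natCast] at h4 h5
      refine X.one_of_sup (fun v hv => h2 g v hv)
        ⟨_, smul_mem_qint h4 (sub_mem h3 (one_mem _)), ?_⟩
      rw [nat_mul_eq, smul_smul, mul_inv_cancel₀ h5, one_smul, add_sub_cancel]
    exact fun g hg => X.Um_le N ⟨key g hg, by rw [← map_inv]; exact key _ (inv_mem hg)⟩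
  · intro u hu
    obtain ⟨c, hc⟩ := X.mem_UN_iff.1 hu
    have h3 : L.π (X.sc c * u) ∈ KK O K := (LocA.mem_KK he.inj).2
      ⟨(hi _).1 (X.mem_OD.1 (One.mem X hc.1) w), by
        rw [← map_inv]; exact (hi _).1 (X.mem_OD.1 (One.mem X hc.2) w)⟩
    simpa using mul_mem (Subgroup.mem_sup_right (inv_mem (L.cen' _ (X.sc_mem_Z c))))
      (Subgroup.mem_sup_left (T := Zl K) h3)

theorem IsPl.mem_iff (h : X.IsPl w L) {U : Subgroup X.G} (hU : U ∈ X.tw.Lev)
    {V : Subgroup (GL (Fin 2) K)} (hV : L.At V U) {x : X.G} (hx : ∀ v, v ≠ w → X.cw v x = 1) :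
    x ∈ U ↔ L.π x ∈ V ⊔ Zl K := by
  refine ⟨hV.2 x, fun h1 => ?_⟩
  rw [← h.eq_of_sup hx]
  exact (sup_le hV.1 fun z hz => X.Z_le hU (L.cen z hz) : V ⊔ Zl K ≤ U.comap L.ι) h1

theorem IsPl.pi_io {O' K' : Type} [CommRing O'] [IsDomain O'] [IsDiscreteValuationRing O']
    [Field K'] [Algebra O' K'] {L' : X.tw.Lc O' K'} {w' : Pl F} (h : X.IsPl w L)
    (h' : X.IsPl w' L') (hne : w ≠ w') (g : GL (Fin 2) K') : L.π (L'.ι g) = 1 := by
  obtain ⟨-, -, -, -, -, h2⟩ := h'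
  exact h.pi_eq_one.2 (h2 g w hne)

end

theorem loc : X.LOC :=
  ⟨fun _ _ _ _ _ _ _ _ e s _ h1 hp h2 hs =>
    ⟨mkLc (e := e) (s := s) ⟨h1, h2⟩ hs hp, ⟨e, s, h2, hs, coe_pr, fun g _ hv => cw_io_ne hv g⟩, rfl,
      coe_pr⟩, X.loc_two, fun _ _ _ _ _ _ _ _ _ h => ⟨h.qq_eq, fun hi _ _ hN => h.at_UN hi hN,
      fun _ hU _ hV _ hx => h.mem_iff hU hV hx, fun _ _ _ _ _ _ _ _ _ h' hne =>
        ⟨h.pi_io h' hne, h'.pi_io h hne.symm⟩⟩⟩

end QD

/-- **LOC** -/
theorem loc : AllQ fun X => X.LOC := fun _ _ _ X => X.loc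

end Vale.Agent.P022K.Sh
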