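import Vale.Agent.P022K.F0.StS2
import Vale.Agent.P022K.F0.Loc
import Vale.Agent.P022K.F0.TorF

/-!
# P022K, block F0: the row DIC (helper80)
-/

set_option autoImplicit false

open NumberField IsDedekindDomain

noncomputable section

namespace Vale.Agent.P022K.Sh

open Vale.Agent.P022K.F0 Tor

namespace Dc

section ring

variable {R : Type} [CommRing R] {a b : R} {x y : QuaternionAlgebra R a 0 b}

theorem comm_tor (hx : x.imJ = 0 ∧ x.imK = 0) (hy : y.imJ = 0 ∧ y.imK = 0) : x * y = y * x := by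
  ext <;> simp [hx.1, hx.2, hy.1, hy.2] <;> ring

theorem comm_i (h2 : IsUnit (2 : R)) (ha : IsUnit a) :
    x * Fuj.qi a b = Fuj.qi a b * x ↔ x.imJ = 0 ∧ x.imK = 0 := by
  refine ⟨fun h => ?_, fun h => comm_tor h ⟨rfl, rfl⟩⟩
  have h1 := congrArg QuaternionAlgebra.imK h
  have h3 := congrArg QuaternionAlgebra.imJ h
  simp only [Fuj.qi, QuaternionAlgebra.imK_mul, QuaternionAlgebra.imJ_mul] at h1 h3
  exact ⟨h2.mul_right_eq_zero.1 (by linear_combination -h1),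
    (h2.mul ha).mul_right_eq_zero.1 (by linear_combination -h3)⟩

theorem unit_i (ha : IsUnit a) : IsUnit (Fuj.qi a b) :=
  (Fuj.isUnit_iff_nrd _).2 (by simpa [Fuj.nrd, Fuj.qi] using ha)

theorem unit_j (hb : IsUnit b) : IsUnit (Fuj.qj a b) :=
  (Fuj.isUnit_iff_nrd _).2 (by simpa [Fuj.nrd, Fuj.qj] using hb)

end ring

variable {F : Type} [Field F] [NumberField F] {X : QD F}

theorem mem_Tl {w : Pl F} {u : (X.Dw w)ˣ} :
    u ∈ X.Tl w ↔ (u : X.Dw w).imJ = 0 ∧ (u : X.Dw w).imK = 0 := by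
  have ha : IsUnit (algebraMap (𝓞 F) (Fw w) X.a) := .mk0 _ (LocA.alg_ne X.a0)
  refine ⟨fun h => (comm_i (.mk0 _ two_ne_zero) ha).1 ?_,
    fun h => Subgroup.mem_centralizer_iff.2 fun y hy => Units.ext (comm_tor hy h)⟩
  exact (congrArg Units.val (Subgroup.mem_centralizer_iff.1 h (unit_i ha).unit ⟨rfl, rfl⟩)).symm

/-- central elements are scalars -/
theorem cen {w : Pl F} {z : (X.Dw w)ˣ} (h : z ∈ Subgroup.center (X.Dw w)ˣ) :
    ∃ c : Fw w, c ≠ 0 ∧ (z : X.Dw w) = algebraMap _ _ c := by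
  have ha := LocA.alg_ne (w := w) X.a0
  have hb := LocA.alg_ne (w := w) X.b0
  have e := Fuj.central ha hb (z : X.Dw w)
    (congrArg Units.val (Subgroup.mem_center_iff.1 h (unit_i (.mk0 _ ha)).unit)).symm
    (congrArg Units.val (Subgroup.mem_center_iff.1 h (unit_j (.mk0 _ hb)).unit)).symm
  have := QuaternionAlgebra.instNontrivial (R := Fw w) (c₁ := algebraMap (𝓞 F) (Fw w) X.a)
    (c₂ := 0) (c₃ := algebraMap (𝓞 F) (Fw w) X.b)
  exact ⟨_, fun k => z.ne_zero (by rw [e, k, map_zero]), e⟩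

variable {E : Type} [Field E] [NumberField E] [Algebra F E] {C : CM F E} {ε : E →ₐ[F] X.D}

theorem ab_le {v : Pl F} {P : Pl E} (h : Ab v P) (x y : F) :
    P.valuation E (algebraMap F E x) ≤ P.valuation E (algebraMap F E y) ↔
      v.valuation F x ≤ v.valuation F y := by
  obtain ⟨e, e0, he⟩ := h.pow
  rw [he, he, pow_le_pow_iff_left₀ zero_le zero_le e0]

theorem eps (h : X.Cm C ε) (x : E) : ((ε x).imJ = 0 ∧ (ε x).imK = 0) ∧
    algebraMap F E (Fuj.nrd (ε x)) = x * C.c x ∧ algebraMap F E (2 * (ε x).re) = x + C.c x := by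
  obtain ⟨s, t, rfl⟩ := C.span x
  rw [C.nm_co, C.c_co, map_add, map_mul ε, ε.commutes, ε.commutes,
    QuaternionAlgebra.algebraMap_eq, QuaternionAlgebra.algebraMap_eq]
  rcases h.i with e | e <;> rw [e] <;> refine ⟨by simp, congrArg _ ?_, ?_⟩ <;>
    simp [Fuj.nrd, h.a, map_ofNat] <;> ring

omit [NumberField E] in
theorem lc_val (w : Pl F) (γ : Eˣ) : (X.lc ε w γ : X.Dw w) = X.cw w (X.jD (ε γ)) := rfl

theorem nrd_loc (w : Pl F) (q : X.D) :
    nrd (X.cw w (X.jD q)) = algebraMap F (Fw w) (Fuj.nrd q) := by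
  rw [nrd_eq, QD.cw, nrd_map, X.nrd_jD, ev_alg]

theorem tr_loc (w : Pl F) (q : X.D) :
    2 * (X.cw w (X.jD q)).re = algebraMap F (Fw w) (2 * q.re) := by
  rw [map_mul, map_ofNat]
  rfl

theorem lc_mem (h : X.Cm C ε) (w : Pl F) (γ : Eˣ) : X.lc ε w γ ∈ X.Tl w :=
  mem_Tl.2 (by simp [lc_val, QD.cw, QD.jD, (eps h _).1.1, (eps h _).1.2])

theorem un_lc (h : X.Cm C ε) {w : Pl F} (hw : (C.D : 𝓞 F) ∈ w.asIdeal) (γ : C.G) :
    QD.Un (X.lc ε w γ) := by
  have a := ab_up (E := E) w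
  have h1 := γ.2 _ ((a.nat _).2 hw)
  have h2 := (C.cG γ).2 _ ((a.nat _).2 hw)
  rw [C.coe_cG] at h2
  constructor
  · rw [lc_val, nrd_loc, vw, v_alg, ← a.eq_one, (eps h _).2.1, map_mul, h1, h2, one_mul]
  · rw [lc_val, tr_loc, vw, v_alg, ← map_one (w.valuation F), ← ab_le a, map_one, map_one,
      (eps h _).2.2]
    exact Valuation.map_add_le _ h1.le h2.le

theorem cg_lc (h : X.Cm C ε) {w : Pl F} (hw : (C.D : 𝓞 F) ∈ w.asIdeal) {u : C.G}
    (hu : u ∈ C.G1 {P | Ab w P}) : QD.Cg C.D (X.lc ε w u) := by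
  have a := ab_up (E := E) w
  have h1 := hu _ a ((a.nat _).2 hw)
  have h2 := hu _ (C.ab_pi a) (((C.ab_pi a).nat _).2 hw)
  rw [C.val_pi, C.val_pi, map_natCast] at h2
  have e : (X.lc ε w u : X.Dw w) - 1 = X.cw w (X.jD (ε ((u : Eˣ) - 1))) := by
    rw [lc_val, map_sub, map_sub, map_sub, map_one, map_one, map_one]
  constructor
  · rw [e, nrd_loc, ← map_pow, ← map_natCast (algebraMap F (Fw w)), ← map_pow, vw, v_alg, v_alg,
      ← ab_le a, (eps h _).2.1, map_pow, map_natCast, map_mul, map_pow, sq]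
    exact mul_le_mul' h1 h2
  · rw [e, tr_loc, ← map_natCast (algebraMap F (Fw w)), vw, v_alg, v_alg, ← ab_le a,
      (eps h _).2.2, map_natCast]
    exact Valuation.map_add_le _ h1 h2

end Dc

open Dc in
/-- **DIC** -/
theorem dic : DIC := by
  intro F E _ _ _ _ _ X C Ψ _ _ ε h
  refine ⟨lc_mem h, fun w hw => ⟨un_lc h hw, fun u => cg_lc h hw⟩, ?_⟩
  rintro T Γ hΓ h0 rfl x
  refine ⟨fun k => (comm_i (by exact_mod_cast isUnit_nat (F := F) two_pos)
    (isUnit_int X.a0)).1 ?_, fun k => Subgroup.mem_centralizer_iff.2 ?_⟩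
  · have e : X.jD (ε C.δ) * (x : X.DA) = x * X.jD (ε C.δ) :=
      congrArg Units.val (Subgroup.mem_centralizer_iff.1 k _ (Subgroup.mem_map_of_mem X.tw.j
        ((hΓ ⟨_, h0 (Units.mk0 _ C.δ0)⟩).2 ⟨C.δ, rfl⟩)))
    rcases h.i with i | i
    · rwa [show X.jD (ε C.δ) = Fuj.qi _ _ by rw [i]; ext <;> simp [QD.jD, Fuj.qi], eq_comm] at e
    · rwa [show X.jD (ε C.δ) = -Fuj.qi _ _ by rw [i]; ext <;> simp [QD.jD, Fuj.qi], neg_mul,
        mul_neg, neg_inj, eq_comm] at e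
  · rintro _ ⟨γ, hγ, rfl⟩
    obtain ⟨y, e⟩ := (hΓ γ).1 hγ
    refine Units.ext (comm_tor ?_ k)
    have := (eps h y).1
    rw [X.coe_j, ← e]
    simp [QD.jD, this.1, this.2]

end Vale.Agent.P022K.Sh
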