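import Vale.Agent.P022K.F0.St

/-!
# P022K, block F0: rows HEC and PI0 (calculus of correspondences)
-/

set_option autoImplicit false

open scoped MatrixGroups Pointwise

noncomputable section

namespace Vale.Agent.P022K.Sh

variable {G0 G : Type} [Group G0] [Group G]

/-! ## representatives -/

/-- `r i`, `i ∈ s`, are representatives of the cosets `c U` in `O` -/
structure Rep (O : Set G) (U : Subgroup G) {I : Type} (s : Finset I) (r : I → G) : Prop where
  right : ∀ y ∈ O, ∀ u ∈ U, y * u ∈ O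
  mem : ∀ i ∈ s, r i ∈ O
  inj : ∀ i ∈ s, ∀ k ∈ s, (r i)⁻¹ * r k ∈ U → i = k
  sur : ∀ y ∈ O, ∃ i ∈ s, (r i)⁻¹ * y ∈ U

section

variable {O : Set G} {U U' : Subgroup G} {I : Type} {s : Finset I} {r : I → G}

theorem out_mk_mem (U : Subgroup G) (y : G) : y⁻¹ * (y : G ⧸ U).out ∈ U :=
  QuotientGroup.eq.1 (QuotientGroup.out_eq' _).symm

theorem Inv.eq {B : Type} {f : G → B} (hf : Inv U f) {a b : G} (h : a⁻¹ * b ∈ U) (x : G) :
    f (x * a) = f (x * b) := by
  rw [← hf (x * a) _ h, mul_assoc, mul_inv_cancel_left]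

theorem Rep.bij (h : Rep O U s r) :
    Set.BijOn (fun i => (r i : G ⧸ U)) s {c : G ⧸ U | c.out ∈ O} := by
  refine ⟨fun i hi => ?_, fun i hi k hk e => h.inj i hi k hk (QuotientGroup.eq.1 e), fun c hc => ?_⟩
  · have := h.right _ (h.mem i hi) _ (out_mk_mem U (r i))
    rwa [mul_inv_cancel_left] at this
  · obtain ⟨i, hi, e⟩ := h.sur _ hc
    exact ⟨i, hi, (QuotientGroup.eq.2 e).trans (QuotientGroup.out_eq' c)⟩

theorem Rep.hk (h : Rep O U s r) {B : Type} [AddCommMonoid B] {f : G → B} (hf : Inv U f) (x : G) :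
    hk O U f x = ∑ i ∈ s, f (x * r i) := by
  rw [← finsum_mem_coe_finset]
  exact (finsum_mem_eq_of_bijOn _ h.bij fun i _ => hf.eq (out_mk_mem U (r i)) x).symm

theorem Rep.hp (h : Rep O U s r) {B : Type} [CommMonoid B] {f : G → B} (hf : Inv U f) (x : G) :
    hp O U f x = ∏ i ∈ s, f (x * r i) := by
  rw [← finprod_mem_coe_finset]
  exact (finprod_mem_eq_of_bijOn _ h.bij fun i _ => hf.eq (out_mk_mem U (r i)) x).symm

theorem Rep.ncard (h : Rep O U s r) : {c : G ⧸ U | c.out ∈ O}.ncard = s.card := by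
  rw [← h.bij.image_eq, h.bij.injOn.ncard_image, Set.ncard_coe_finset]

theorem Rep.fin (h : Rep O U s r) : {c : G ⧸ U | c.out ∈ O}.Finite :=
  h.bij.image_eq ▸ s.finite_toSet.image _

theorem Cor.rep (h : Cor U' O U) : Rep O U h.fin.toFinset Quotient.out where
  right := h.right
  mem _ hi := h.fin.mem_toFinset.1 hi
  inj i _ k _ e := (QuotientGroup.out_eq' i).symm.trans
    ((QuotientGroup.eq.2 e).trans (QuotientGroup.out_eq' k))
  sur y hy := ⟨(y : G ⧸ U), h.fin.mem_toFinset.2 (by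
    have := h.right _ hy _ (out_mk_mem U y)
    rwa [mul_inv_cancel_left] at this), QuotientGroup.eq.1 (QuotientGroup.out_eq' _)⟩

theorem Rep.congr (h : Rep O U s r) {r' : I → G} (e : ∀ i ∈ s, (r i)⁻¹ * r' i ∈ U) :
    Rep O U s r' where
  right := h.right
  mem i hi := by
    have := h.right _ (h.mem i hi) _ (e i hi)
    rwa [mul_inv_cancel_left] at this
  inj i hi k hk m := h.inj i hi k hk (by
    have := mul_mem (mul_mem (e i hi) m) (inv_mem (e k hk))
    rwa [show (r i)⁻¹ * r' i * ((r' i)⁻¹ * r' k) * ((r k)⁻¹ * r' k)⁻¹ = (r i)⁻¹ * r k by group]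
      at this)
  sur y hy := by
    obtain ⟨i, hi, m⟩ := h.sur y hy
    have := mul_mem (inv_mem (e i hi)) m
    exact ⟨i, hi, by
      rwa [show ((r i)⁻¹ * r' i)⁻¹ * ((r i)⁻¹ * y) = (r' i)⁻¹ * y by group] at this⟩

theorem mem_dc {g y : G} : y ∈ dc U' g U ↔ ∃ u' ∈ U', (u' * g)⁻¹ * y ∈ U :=
  ⟨fun ⟨u', h', u, h, e⟩ => ⟨u', h', by rwa [e, inv_mul_cancel_left]⟩,
    fun ⟨u', h', h⟩ => ⟨u', h', _, h, (mul_inv_cancel_left _ _).symm⟩⟩

theorem dc_right {g : G} : ∀ y ∈ dc U' g U, ∀ u ∈ U, y * u ∈ dc U' g U := by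
  rintro _ ⟨a, ha, b, hb, rfl⟩ u hu
  exact ⟨a, ha, b * u, mul_mem hb hu, mul_assoc _ _ _⟩

theorem cor_dc {g : G} (h : (cj g U).relIndex U' ≠ 0) : Cor U' (dc U' g U) U := by
  refine ⟨?_, dc_right, ?_⟩
  · rintro u hu _ ⟨a, ha, b, hb, rfl⟩
    exact ⟨u * a, mul_mem hu ha, b, hb, by simp only [mul_assoc]⟩
  · have := Subgroup.index_ne_zero_iff_finite.1 h
    refine (Set.finite_range fun c : U' ⧸ (cj g U).subgroupOf U' =>
      (((c.out : U') * g : G) : G ⧸ U)).subset fun c hc => ?_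
    obtain ⟨u, hu, e⟩ := mem_dc.1 hc
    refine ⟨((⟨u, hu⟩ : U') : U' ⧸ (cj g U).subgroupOf U'), Eq.trans (QuotientGroup.eq.2 ?_)
      ((QuotientGroup.eq.2 e).trans (QuotientGroup.out_eq' c))⟩
    have := mem_cj.1 (inv_mem (out_mk_mem ((cj g U).subgroupOf U') ⟨u, hu⟩))
    simpa [mul_assoc] using this

end

/-! ## the local computation -/

section

variable {O K : Type} [CommRing O] [IsDomain O] [IsDiscreteValuationRing O] [Field K] [Algebra O K]

/-- the image in `GL₂(K)` -/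
abbrev gK (K : Type) [Field K] [Algebra O K] : GL (Fin 2) O →* GL (Fin 2) K :=
  Matrix.GeneralLinearGroup.map (n := Fin 2) (algebraMap O K)

/-- the unipotent matrices -/
def nO (b : O) : GL (Fin 2) O :=
  ⟨!![1, b; 0, 1], !![1, -b; 0, 1], by simp [Matrix.one_fin_two], by simp [Matrix.one_fin_two]⟩

/-- the Weyl element -/
def sO : GL (Fin 2) O :=
  ⟨!![0, 1; -1, 0], !![0, -1; 1, 0], by simp [Matrix.one_fin_two], by simp [Matrix.one_fin_two]⟩

/-- representatives of the projective line over the residue field -/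
def pO : Option (IsLocalRing.ResidueField O) → GL (Fin 2) O
  | none => sO
  | some t => nO (Quotient.out t)

theorem det_pO (i : Option (IsLocalRing.ResidueField O)) : (pO i).det = 1 := by
  cases i <;> ext <;> simp [pO, sO, nO, Matrix.det_fin_two]

theorem dg_val (c : Kˣ) : (dg c : Matrix (Fin 2) (Fin 2) K) = !![(c : K), 0; 0, 1] := rfl

theorem det_dg (c : Kˣ) : (dg c).det = c := by
  ext
  simp [dg_val, Matrix.det_fin_two]

theorem scalar_mem (c : Kˣ) : Matrix.GeneralLinearGroup.scalar (Fin 2) c ∈ Zl K :=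
  Matrix.GeneralLinearGroup.mem_center_iff_val_mem_range_scalar.2 ⟨c, rfl⟩

theorem conj_mem (hi : Function.Injective (algebraMap O K)) {p : O} (hp : Irreducible p) {c : Kˣ}
    (e : algebraMap O K p = c) (k : GL (Fin 2) O) :
    (dg c)⁻¹ * gK K k * dg c ∈ KK O K ⊔ Zl K ↔ k 0 1 ∈ IsLocalRing.maximalIdeal O := by
  have hm := hp.maximalIdeal_eq
  constructor
  · intro h
    obtain ⟨_, ⟨m, rfl⟩, z, hz, h⟩ := Subgroup.mem_sup_of_normal_right.1 h
    obtain ⟨a, ha⟩ := Matrix.GeneralLinearGroup.mem_center_iff_val_mem_range_scalar.1 hz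
    have h' : (dg c * (gK K m * z) : GL (Fin 2) K) = gK K k * dg c := by
      rw [h]
      group
    have h2 := congrArg Units.val h'
    simp only [Units.val_mul, ← ha, dg_val] at h2
    have e00 := congrFun (congrFun h2 0) 0
    have e01 := congrFun (congrFun h2 0) 1
    have e10 := congrFun (congrFun h2 1) 0
    simp [Matrix.mul_apply, Fin.sum_univ_two, Matrix.diagonal] at e00 e01 e10
    by_contra hk
    have pm : p ∈ IsLocalRing.maximalIdeal O := hm ▸ Ideal.mem_span_singleton_self p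
    have P := (IsLocalRing.maximalIdeal.isMaximal O).isPrime
    have a0 : m 0 0 ∈ IsLocalRing.maximalIdeal O := (P.mem_or_mem (x := k 0 1) (by
      rw [show k 0 1 * m 0 0 = p * (m 0 1 * k 0 0) from hi (by
        have := c.ne_zero
        simp only [map_mul, e]
        rw [← e01]
        refine mul_left_cancel₀ this ?_
        linear_combination (c * algebraMap O K (m 0 1)) * e00)]
      exact Ideal.mul_mem_right _ _ pm)).resolve_left hk
    have a1 : m 1 0 ∈ IsLocalRing.maximalIdeal O := (P.mem_or_mem (x := k 0 1) (by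
      rw [show k 0 1 * m 1 0 = p * (m 0 1 * k 1 0 * p) from hi (by
        simp only [map_mul, e]
        rw [← e01]
        linear_combination (c * algebraMap O K (m 0 1)) * e10)]
      exact Ideal.mul_mem_right _ _ pm)).resolve_left hk
    have d : (m : Matrix (Fin 2) (Fin 2) O).det ∈ IsLocalRing.maximalIdeal O := by
      rw [Matrix.det_fin_two]
      exact sub_mem (Ideal.mul_mem_right _ _ a0) (Ideal.mul_mem_left _ _ a1)
    exact d m.det.isUnit
  · intro h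
    obtain ⟨t, ht⟩ := Ideal.mem_span_singleton'.1 (hm ▸ h)
    have u : IsUnit (!![k 0 0, t; k 1 0 * p, k 1 1] : Matrix (Fin 2) (Fin 2) O) := by
      rw [Matrix.isUnit_iff_isUnit_det]
      convert k.det.isUnit using 1
      simp only [Matrix.GeneralLinearGroup.val_det_apply, Matrix.det_fin_two, ← ht]
      simp
      ring
    refine Subgroup.mem_sup_left ⟨u.unit, ?_⟩
    rw [mul_assoc, eq_inv_mul_iff_mul_eq]
    ext i j
    fin_cases i <;> fin_cases j <;>
      simp [dg_val, Matrix.mul_apply, Fin.sum_univ_two, ← ht, e, mul_comm]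

theorem pO_sur (k : GL (Fin 2) O) : ∃ i, ((pO i)⁻¹ * k : GL (Fin 2) O) 0 1 ∈
    IsLocalRing.maximalIdeal O := by
  by_cases h : k 1 1 ∈ IsLocalRing.maximalIdeal O
  · exact ⟨none, by simpa [pO, sO, Matrix.mul_apply, Fin.sum_univ_two] using h⟩
  · obtain ⟨u, hu⟩ : IsUnit (k 1 1) := by simpa using h
    refine ⟨some (IsLocalRing.residue O (k 0 1 * ↑u⁻¹)), ?_⟩
    have := Ideal.mul_mem_right (k 1 1) _ (Ideal.Quotient.eq.1
      (Quotient.out_eq (IsLocalRing.residue O (k 0 1 * ↑u⁻¹))).symm)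
    rw [sub_mul, ← hu, Units.inv_mul_cancel_right, hu] at this
    simpa [pO, nO, Matrix.mul_apply, Fin.sum_univ_two, sub_eq_add_neg] using this

theorem pO_inj {i j : Option (IsLocalRing.ResidueField O)}
    (h : ((pO i)⁻¹ * pO j : GL (Fin 2) O) 0 1 ∈ IsLocalRing.maximalIdeal O) : i = j := by
  cases i <;> cases j
  · rfl
  · simp [pO, nO, sO, Matrix.mul_apply, Fin.sum_univ_two] at h
  · simp [pO, nO, sO, Matrix.mul_apply, Fin.sum_univ_two] at h
  · rename_i a b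
    have : b.out - a.out ∈ IsLocalRing.maximalIdeal O := by
      simpa [pO, nO, Matrix.mul_apply, Fin.sum_univ_two, sub_eq_add_neg] using h
    exact congrArg some ((Quotient.out_eq a).symm.trans
      ((Ideal.Quotient.eq.2 this).symm.trans (Quotient.out_eq b)))

namespace Tw.Lc

variable {T : Tw G0 G} {w : T.Lc O K} {U U' : Subgroup G} {V : Subgroup (GL (Fin 2) K)}

theorem inj (w : T.Lc O K) : Function.Injective (algebraMap O K) :=
  have := w.fr
  IsFractionRing.injective O K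

theorem At.iff (h : w.At V U) (hU : U ∈ T.Lev) {g : GL (Fin 2) K} : w.ι g ∈ U ↔ g ∈ V ⊔ Zl K :=
  ⟨fun m => w.πι g ▸ h.2 _ m, fun m => (sup_le (fun g hg => h.1 g hg) fun g hg =>
    (sInf_le hU : T.Z ≤ U) (w.cen g hg) : V ⊔ Zl K ≤ U.comap w.ι) m⟩

theorem At.split (h : w.At V U) (hU : U ∈ T.Lev) {u : G} (hu : u ∈ U) :
    ∃ v ∈ V ⊔ Zl K, ∃ y ∈ U, w.π y = 1 ∧ u = w.ι v * y :=
  ⟨_, h.2 u hu, (w.ι (w.π u))⁻¹ * u, mul_mem (inv_mem ((h.iff hU).2 (h.2 u hu))) hu, by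
    rw [map_mul, map_inv, w.πι, inv_mul_cancel], (mul_inv_cancel_left _ _).symm⟩

theorem At.dc (h : w.At V U) (hU : U ∈ T.Lev) {g : GL (Fin 2) K} {y : G} :
    y ∈ dc U (w.ι g) U ↔ ∃ v ∈ V ⊔ Zl K, (w.ι (v * g))⁻¹ * y ∈ U := by
  rw [mem_dc]
  constructor
  · rintro ⟨u, hu, e⟩
    obtain ⟨v, hv, x, hx, h1, rfl⟩ := h.split hU hu
    refine ⟨v, hv, ?_⟩
    have := mul_mem hx e
    rwa [mul_assoc (w.ι v), ← (w.com g x h1).eq, ← mul_assoc (w.ι v), ← map_mul, mul_inv_rev,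
      mul_assoc, mul_inv_cancel_left] at this
  · rintro ⟨v, hv, e⟩
    exact ⟨_, (h.iff hU).2 hv, by rwa [← map_mul]⟩

/-- local representatives give global representatives -/
theorem At.rep (h : w.At V U) (hU : U ∈ T.Lev) {g : GL (Fin 2) K} {I : Type} {s : Finset I}
    {a : I → GL (Fin 2) K} (r : Rep (Sh.dc (V ⊔ Zl K) g (V ⊔ Zl K)) (V ⊔ Zl K) s a) :
    Rep (Sh.dc U (w.ι g) U) U s fun i => w.ι (a i) where
  right := dc_right
  mem i hi := by
    obtain ⟨v, hv, e⟩ := mem_dc.1 (r.mem i hi)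
    exact (h.dc hU).2 ⟨v, hv, by rwa [← map_inv, ← map_mul, h.iff hU]⟩
  inj i hi k hk e := r.inj i hi k hk (by rwa [← map_inv, ← map_mul, h.iff hU] at e)
  sur y hy := by
    obtain ⟨v, hv, e⟩ := (h.dc hU).1 hy
    obtain ⟨i, hi, m⟩ := r.sur (v * g) (mem_dc.2 ⟨v, hv, by simp⟩)
    have := mul_mem ((h.iff hU).2 m) e
    exact ⟨i, hi, by rwa [map_mul, map_inv, mul_assoc, mul_inv_cancel_left] at this⟩

theorem At.ex_rep (h : w.At V U) (hU : U ∈ T.Lev) {g : GL (Fin 2) K}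
    (c : Cor U (Sh.dc U (w.ι g) U) U) : ∃ (s : Finset (G ⧸ U)) (a : G ⧸ U → GL (Fin 2) K),
      Rep (Sh.dc (V ⊔ Zl K) g (V ⊔ Zl K)) (V ⊔ Zl K) s a := by
  have r := c.rep
  choose! v hv e using fun i hi => (h.dc hU).1 (r.mem i hi)
  have r' := r.congr (r' := fun i => w.ι (v i * g)) fun i hi => by simpa using inv_mem (e i hi)
  refine ⟨_, fun i => v i * g, dc_right, fun i hi => mem_dc.2 ⟨_, hv i hi, by simp⟩,
    fun i hi k hk m => r'.inj i hi k hk (by rwa [← map_inv, ← map_mul, h.iff hU]), fun y hy => ?_⟩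
  obtain ⟨u, hu, m⟩ := mem_dc.1 hy
  obtain ⟨i, hi, m'⟩ := r'.sur (w.ι y) ((h.dc hU).2 ⟨u, hu, by rwa [← map_inv, ← map_mul, h.iff hU]⟩)
  exact ⟨i, hi, by rwa [← map_inv, ← map_mul, h.iff hU] at m'⟩

/-- representatives that are trivial at `w` -/
theorem At.ex_away (h : w.At V U) (hU : U ∈ T.Lev) (h' : w.At V U') (hU' : U' ∈ T.Lev) {y : G}
    (hy : w.π y = 1) (c : Cor U' (Sh.dc U' y U) U) : ∃ (s : Finset (G ⧸ U)) (a : G ⧸ U → G),
      Rep (Sh.dc U' y U) U s a ∧ ∀ i ∈ s, w.π (a i) = 1 := by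
  have r := c.rep
  have : ∀ i ∈ c.fin.toFinset, ∃ a, w.π a = 1 ∧ (Quotient.out i)⁻¹ * a ∈ U := fun i hi => by
    obtain ⟨u, hu, e⟩ := mem_dc.1 (r.mem i hi)
    obtain ⟨v, hv, x, -, h1, rfl⟩ := h'.split hU' hu
    have k : w.π (x * y) = 1 := by rw [map_mul, h1, hy, one_mul]
    refine ⟨x * y, k, ?_⟩
    have := mul_mem (inv_mem e) (inv_mem ((h.iff hU).2 hv))
    rwa [mul_assoc (w.ι v), (w.com v _ k).eq, mul_inv_rev, inv_inv, mul_assoc,
      mul_inv_cancel_right] at this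
  choose! a h1 h2 using this
  exact ⟨_, a, r.congr h2, h1⟩

/-- the representatives of `T_w` -/
def tr (w : T.Lc O K) (i : Option (IsLocalRing.ResidueField O)) : GL (Fin 2) K :=
  gK K (pO i) * dg w.ϖ

theorem det_tr (w : T.Lc O K) (i : Option (IsLocalRing.ResidueField O)) : (w.tr i).det = w.ϖ := by
  rw [tr, map_mul, det_dg, Matrix.GeneralLinearGroup.map_det, det_pO, map_one, one_mul]

theorem rep_loc (w : T.Lc O K) [Fintype (IsLocalRing.ResidueField O)] :
    Rep (Sh.dc (KK O K ⊔ Zl K) (dg w.ϖ) (KK O K ⊔ Zl K)) (KK O K ⊔ Zl K) Finset.univ w.tr := by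
  obtain ⟨p, hp, e⟩ := w.irr
  have key : ∀ i k, (w.tr i)⁻¹ * (gK K k * dg w.ϖ) = (dg w.ϖ)⁻¹ * gK K ((pO i)⁻¹ * k) * dg w.ϖ :=
    fun i k => by simp only [tr, map_mul, map_inv, mul_inv_rev, mul_assoc]
  refine ⟨dc_right, fun i _ => mem_dc.2 ⟨_, Subgroup.mem_sup_left ⟨pO i, rfl⟩, by simp [tr]⟩,
    fun i _ k _ m => pO_inj ((conj_mem w.inj hp e _).1 (key i (pO k) ▸ m)), fun y hy => ?_⟩
  obtain ⟨v, hv, m⟩ := mem_dc.1 hy
  obtain ⟨_, ⟨k, rfl⟩, z, hz, rfl⟩ := Subgroup.mem_sup_of_normal_right.1 hv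
  obtain ⟨i, hi⟩ := pO_sur k
  have := mul_mem (mul_mem ((conj_mem w.inj hp e _).2 hi) (Subgroup.mem_sup_right hz)) m
  refine ⟨i, Finset.mem_univ i, ?_⟩
  rwa [← key, mul_assoc _ _ z, mul_assoc _ _ z, Subgroup.mem_center_iff.1 hz, ← mul_assoc _ z,
    mul_assoc, mul_inv_cancel_left] at this

/-- **explicit representatives of `T_w`** -/
theorem At.rep_To (h : w.At (KK O K) U) (hU : U ∈ T.Lev) [Fintype (IsLocalRing.ResidueField O)] :
    Rep (w.To U) U Finset.univ fun i => w.ι (w.tr i) := h.rep hU w.rep_loc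

theorem card_opt [Fintype (IsLocalRing.ResidueField O)] :
    (Finset.univ : Finset (Option (IsLocalRing.ResidueField O))).card = qq O + 1 := by
  rw [Finset.card_univ, Fintype.card_option, qq, Nat.card_eq_fintype_card]

theorem At.To_inv (h : w.At (KK O K) U) (hU : U ∈ T.Lev) : (w.To U)⁻¹ = w.To U := by
  have e : (dg w.ϖ)⁻¹ = gK K (sO (O := O)) * dg w.ϖ *
      (gK K (sO (O := O))⁻¹ * Matrix.GeneralLinearGroup.scalar (Fin 2) w.ϖ⁻¹) := by
    rw [inv_eq_iff_mul_eq_one, map_inv (Matrix.GeneralLinearGroup.scalar (Fin 2)), ← mul_assoc,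
      ← mul_assoc, ← mul_assoc, mul_inv_eq_one]
    ext i j
    fin_cases i <;> fin_cases j <;>
      simp [dg_val, sO, Matrix.mul_apply, Fin.sum_univ_two, Matrix.diagonal, Matrix.vecMul,
        dotProduct]
  have k : ∀ y ∈ w.To U, y⁻¹ ∈ w.To U := by
    rintro _ ⟨a, ha, b, hb, rfl⟩
    refine ⟨b⁻¹ * w.ι (gK K sO), mul_mem (inv_mem hb) (h.1 _ ⟨_, rfl⟩),
      w.ι (gK K (sO (O := O))⁻¹ * Matrix.GeneralLinearGroup.scalar (Fin 2) w.ϖ⁻¹) * a⁻¹,
      mul_mem ((h.iff hU).2 (mul_mem (Subgroup.mem_sup_left ⟨_, rfl⟩)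
        (Subgroup.mem_sup_right (scalar_mem _)))) (inv_mem ha), ?_⟩
    rw [mul_inv_rev, mul_inv_rev, ← map_inv, e]
    simp only [map_mul, mul_assoc]
  exact Set.ext fun y => ⟨fun hy => inv_inv y ▸ k _ hy, k y⟩

end Tw.Lc

end

/-- **HEC** from the two axioms that it needs -/
theorem Tw.hec_of (T : Tw G0 G) (conj : ∀ U ∈ T.Lev, ∀ x, cj x U ∈ T.Lev)
    (fi : ∀ U ∈ T.Lev, ∀ U' ∈ T.Lev, U.relIndex U' ≠ 0) : T.HEC := by
  have c : ∀ U ∈ T.Lev, ∀ U' ∈ T.Lev, ∀ g, Cor U' (dc U' g U) U := fun U hU U' hU' g =>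
    cor_dc (fi _ (conj U hU g) _ hU')
  refine ⟨c, fun O K _ _ _ _ _ w => ⟨fun U hU h => ⟨h.To_inv hU, ?_⟩,
    fun U hU U' hU' V h h' y hy g B _ f hf => funext fun x => ?_⟩⟩
  · have := w.fin
    have := Fintype.ofFinite (IsLocalRing.ResidueField O)
    rw [(h.rep_To hU).ncard, Lc.card_opt]
  · obtain ⟨s, a, r⟩ := h.ex_rep hU (c U hU U hU (w.ι g))
    obtain ⟨t, b, r', hb⟩ := h.ex_away hU h' hU' hy (c U hU U' hU' y)
    rw [r'.hk (hk_inv (c U hU U hU _) hf), (h'.rep hU' r).hk (hk_inv (c U hU U' hU' y) hf)]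
    simp only [(h.rep hU r).hk hf, r'.hk hf]
    rw [Finset.sum_comm]
    exact Finset.sum_congr rfl fun i _ => Finset.sum_congr rfl fun k hk => by
      rw [mul_assoc, mul_assoc, (w.com _ _ (hb k hk)).eq]

/-- **row HEC** -/
theorem hec : All Tw.HEC := fun _ _ _ _ T h => T.hec_of h.conj h.fi

/-- **PI0** for every tower -/
theorem Tw.pi0_of (T : Tw G0 G) : T.PI0 := by
  intro O K _ _ _ _ _ w sa U hU h B _ f hf
  have := w.fin
  have := Fintype.ofFinite (IsLocalRing.ResidueField O)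
  have r := h.rep_To hU
  have c : Cor U (w.To U) U := ⟨by
    rintro u hu _ ⟨a, ha, b, hb, rfl⟩
    exact ⟨u * a, mul_mem hu ha, b, hb, by simp only [mul_assoc]⟩, r.right, r.fin⟩
  have k : ∀ x i j, f (x * w.ι (w.tr i) * w.ι (w.tr j)) = f x := fun x i j => by
    obtain ⟨γ, u, hu, e⟩ := sa U hU x
      (w.tr i * w.tr j * Matrix.GeneralLinearGroup.scalar (Fin 2) w.ϖ⁻¹) (by
        rw [map_mul, map_mul, w.det_tr, w.det_tr]
        ext
        simp [sq])
    rw [← hf.1 _ _ ((h.iff hU).2 (Subgroup.mem_sup_right (scalar_mem w.ϖ⁻¹))), mul_assoc,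
      mul_assoc, ← map_mul, ← map_mul, ← mul_assoc, e, hf.1 _ _ hu]
    simpa [Tw.lt] using congrFun (hf.2 γ⁻¹) x
  funext x
  rw [r.hk (hk_inv c hf.1)]
  simp only [r.hk hf.1, k, Finset.sum_const, Lc.card_opt, smul_smul, Pi.smul_apply, sq]

/-- **row PI0** -/
theorem pi0 : All Tw.PI0 := fun _ _ _ _ T _ => T.pi0_of

end Vale.Agent.P022K.Sh
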