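import Vale.Agent.P022K.F0.StS
import Vale.Agent.P022K.F0.TorF

/-!
# P022K, block F0, rows NEL and NLM
-/

set_option linter.all false

open NumberField IsDedekindDomain WithZero Finset

noncomputable section

namespace Vale.Agent.P022K.Sh

open Tor
open Vale.Agent.P022.C (ordv)

namespace Nel

section

variable {Γ : Type} [CommGroup Γ]

theorem out_inv {N : Subgroup Γ} {f : Γ → ℂ} (hf : ∀ u ∈ N, ∀ γ, f (u * γ) = f γ) (γ : Γ) :
    f (γ : Γ ⧸ N).out = f γ := by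
  obtain ⟨u, hu⟩ := QuotientGroup.mk_out_eq_mul N γ
  rw [hu, mul_comm, hf u u.2]

theorem fin_sub (N H : Subgroup Γ) [Finite (Γ ⧸ N)] : Finite (H ⧸ N.subgroupOf H) := by
  have : N.FiniteIndex := Subgroup.finiteIndex_of_finite_quotient
  infer_instance

/-- the sum over a product -/
theorem prod_sum {ι : Type} [Fintype ι] (N : Subgroup Γ) [Finite (Γ ⧸ N)] (H K : ι → Subgroup Γ)
    (h1 : ∀ i j, i ≠ j → H i ≤ K j) (h2 : ∀ i, H i ⊓ K i ≤ N) (h3 : ∀ i, N ≤ K i)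
    (h4 : ∀ γ, ∃ x : ∀ i, H i, (∏ i, (x i : Γ))⁻¹ * γ ∈ N) (f : ι → Γ → ℂ)
    (hf : ∀ i, ∀ u ∈ K i, ∀ γ, f i (u * γ) = f i γ) (ε : Γ →* ℂ) (hε : ∀ u ∈ N, ε u = 1) :
    ∑ᶠ q : Γ ⧸ N, (∏ i, f i q.out) * ε q.out =
      ∏ i, ∑ᶠ q : H i ⧸ N.subgroupOf (H i), f i (q.out : H i) * ε (q.out : H i) := by
  classical
  have := fun i => fin_sub N (H i)
  let _ := fun i => Fintype.ofFinite (H i ⧸ N.subgroupOf (H i))
  let _ := Fintype.ofFinite (Γ ⧸ N)
  have sp : ∀ (x : ∀ i, H i) i, ∃ u ∈ K i, ∏ j, (x j : Γ) = u * x i := fun x i =>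
    ⟨∏ j ∈ univ.erase i, (x j : Γ), prod_mem fun j hj => h1 j i (ne_of_mem_erase hj) (x j).2,
      (prod_erase_mul _ _ (mem_univ i)).symm⟩
  let m : (∀ i, H i ⧸ N.subgroupOf (H i)) → Γ ⧸ N := fun x => (∏ i, ((x i).out : Γ) : Γ)
  have bij : Function.Bijective m := by
    constructor
    · intro x y h
      funext i
      rw [← (x i).out_eq', ← (y i).out_eq', QuotientGroup.eq, Subgroup.mem_subgroupOf]
      refine h2 i ⟨((x i).out⁻¹ * (y i).out).2, ?_⟩
      obtain ⟨u, u1, u2⟩ := sp (fun i => (x i).out) i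
      obtain ⟨v, v1, v2⟩ := sp (fun i => (y i).out) i
      have := (K i).mul_mem ((K i).mul_mem u1 ((K i).inv_mem v1)) (h3 i (QuotientGroup.eq.1 h))
      have e : ∀ u v a b : Γ, u * v⁻¹ * ((u * a)⁻¹ * (v * b)) = a⁻¹ * b := fun u v a b => by
        apply Additive.ofMul.injective
        simp only [ofMul_mul, ofMul_inv]
        abel
      rwa [u2, v2, e] at this
    · intro q
      obtain ⟨γ, rfl⟩ := QuotientGroup.mk_surjective q
      obtain ⟨x, hx⟩ := h4 γ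
      refine ⟨fun i => x i, Eq.trans (QuotientGroup.eq.2 ?_) (QuotientGroup.eq.2 hx)⟩
      rw [← prod_inv_distrib, ← prod_mul_distrib]
      exact prod_mem fun i _ => Subgroup.mem_subgroupOf.1
        (QuotientGroup.eq.1 (QuotientGroup.out_eq' (x i : H i ⧸ N.subgroupOf (H i))))
  simp only [finsum_eq_sum_of_fintype]
  rw [prod_univ_sum, Fintype.piFinset_univ, ← bij.sum_comp]
  refine sum_congr rfl fun x _ => ?_
  rw [out_inv (f := fun γ => (∏ i, f i γ) * ε γ) fun u hu γ => by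
    simp only [map_mul, hε u hu, one_mul, fun i => hf i u (h3 i hu)], map_prod, prod_mul_distrib]
  congr 1
  refine prod_congr rfl fun i _ => ?_
  obtain ⟨u, u1, u2⟩ := sp (fun i => (x i).out) i
  rw [u2, hf i u u1]

end

theorem sum_surj {A B : Type} [Group A] [Group B] [Finite A] [Finite B] (π : A →* B)
    (hπ : Function.Surjective π) (f : B → ℂ) : ∑ᶠ a, f (π a) = Nat.card π.ker * ∑ᶠ b, f b := by
  classical
  let _ := Fintype.ofFinite A
  let _ := Fintype.ofFinite B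
  simp only [finsum_eq_sum_of_fintype]
  rw [← sum_fiberwise univ π, mul_sum]
  refine sum_congr rfl fun b _ => ?_
  rw [sum_congr rfl fun a ha => by rw [(mem_filter.1 ha).2], sum_const, nsmul_eq_mul]
  obtain ⟨a, rfl⟩ := hπ b
  congr 2
  rw [← Nat.card_eq_finsetCard]
  refine Nat.card_congr ⟨fun x => ⟨a⁻¹ * x.1, ?_⟩, fun x => ⟨a * x.1, ?_⟩,
    fun x => Subtype.ext (mul_inv_cancel_left _ _), fun x => Subtype.ext (inv_mul_cancel_left _ _)⟩
  · rw [MonoidHom.mem_ker, map_mul, map_inv, (mem_filter.1 x.2).2, inv_mul_cancel]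
  · rw [mem_filter, map_mul, MonoidHom.mem_ker.1 x.2, mul_one]
    exact ⟨mem_univ _, rfl⟩

variable {F E : Type} [Field F] [NumberField F] [Field E] [NumberField E] [Algebra F E]
  (C : CM F E)

/-- `eps` as a homomorphism -/
def eH (Ψ : Pl E → ℂˣ) : C.G →* ℂ where
  toFun γ := C.eps Ψ (γ : Eˣ)
  map_one' := by simp [CM.eps, CM.NT, pv_one]
  map_mul' x y := C.eps_mul Ψ (Units.ne_zero _) (Units.ne_zero _)

theorem G1_mono {S S' : Set (Pl E)} (h : S ⊆ S') : C.G1 S' ≤ C.G1 S := fun _ k P a => k P (h a)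

theorem inv_mul_mem {S : Set (Pl E)} {x y : C.G} : x⁻¹ * y ∈ C.G1 S ↔ ∀ P ∈ S,
    (C.D : 𝓞 E) ∈ P.asIdeal →
    P.valuation E (((y : Eˣ) : E) - (x : Eˣ)) ≤ P.valuation E (C.D : E) := by
  have i : (((x⁻¹ : C.G) : Eˣ) : E) * (x : Eˣ) = 1 := by
    rw [← Units.val_mul, ← Subgroup.coe_mul, inv_mul_cancel]; rfl
  have e : (((x⁻¹ * y : C.G) : Eˣ) : E) - 1 =
      ((x⁻¹ : C.G) : Eˣ) * (((y : Eˣ) : E) - (x : Eˣ)) := by
    rw [Subgroup.coe_mul, Units.val_mul]
    linear_combination i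
  refine forall_congr' fun P => forall_congr' fun _ => forall_congr' fun k => ?_
  rw [e, map_mul, (x⁻¹).2 P k, one_mul]

/-- an element which is close to `γ` at the primes of `S` and close to `1` at the others -/
theorem apx (S : Set (Pl E)) (γ : C.G) (b : Pl E → ℤᵐ⁰) (hb : ∀ P, b P ≠ 0) : ∃ x : C.G,
    x⁻¹ * γ ∈ C.G1 S ∧ x ∈ C.G1 Sᶜ ∧ ∀ P ∉ S, (C.D : 𝓞 E) ∈ P.asIdeal →
      P.valuation E (((x : Eˣ) : E) - 1) < b P := by
  classical
  have d0 : ∀ P : Pl E, P.valuation E (C.D : E) ≠ 0 := fun P =>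
    (Valuation.ne_zero_iff _).2 (Nat.cast_ne_zero.2 C.D0)
  obtain ⟨a, ha⟩ := crt0 (fin_nat (E := E) C.D0) (fun P => if P ∈ S then ((γ : Eˣ) : E) else 1)
    (fun P => min (b P) (P.valuation E (C.D : E))) (fun P h => by
      split_ifs
      · exact (γ.2 P h).le
      · exact (map_one _).le) fun P => by
      rcases min_choice (b P) (P.valuation E (C.D : E)) with e | e <;> rw [e]
      exacts [hb P, d0 P]
  have v1 : ∀ P : Pl E, (C.D : 𝓞 E) ∈ P.asIdeal → P.valuation E (a : E) = 1 := fun P h => by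
    have l := ((ha P h).trans_le (min_le_right _ _)).trans (C.val_D_lt h)
    have o : P.valuation E (if P ∈ S then ((γ : Eˣ) : E) else 1) = 1 := by
      split_ifs
      exacts [γ.2 P h, map_one _]
    have := Valuation.map_add_eq_of_lt_right _ (l.trans_eq o.symm)
    rwa [sub_add_cancel, o] at this
  obtain ⟨v, hv⟩ : ∃ P : Pl E, (C.D : 𝓞 E) ∈ P.asIdeal := by
    obtain ⟨M, M1, M2⟩ := Ideal.exists_le_maximal (Ideal.span {(C.D : 𝓞 E)}) fun k => by
      have := Ideal.absNorm_span_natCast (S := 𝓞 E) C.D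
      rw [k, Ideal.absNorm_top, eq_comm, pow_eq_one_iff] at this
      have := C.D3
      have := Module.finrank_pos (R := ℤ) (M := 𝓞 E)
      omega
    exact ⟨⟨M, M1.isPrime, fun k => Nat.cast_ne_zero.2 C.D0 ((Submodule.eq_bot_iff _).1 k _
      (M2 (Ideal.mem_span_singleton_self _)))⟩, M2 (Ideal.mem_span_singleton_self _)⟩
  have a0 : (a : E) ≠ 0 := fun k => by
    have := v1 v hv
    rw [k, map_zero] at this
    exact zero_ne_one this
  refine ⟨⟨Units.mk0 _ a0, v1⟩, (inv_mul_mem C).2 fun P s h => ?_, fun P s h => ?_,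
    fun P s h => ?_⟩
  · have := (ha P h).trans_le (min_le_right _ _)
    rw [if_pos s, Valuation.map_sub_swap] at this
    exact this.le
  · have := (ha P h).trans_le (min_le_right _ _)
    rw [if_neg s] at this
    exact this.le
  · have := (ha P h).trans_le (min_le_left _ _)
    rwa [if_neg s] at this

end Nel

open Nel

theorem nel : NEL := by
  classical
  intro F E _ _ _ _ _ X C Ψ hΨ _ S φ hS hφ hN
  have := prod_sum (ι := S) (C.G1 Set.univ) (fun w => C.G1 {P | ¬ Ab w.1 P})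
    (fun w => C.G1 {P | Ab w.1 P})
    (fun i j h => G1_mono C fun P (a : Ab j.1 P) (b : Ab i.1 P) =>
      h (Subtype.ext (b.eq.symm.trans a.eq)))
    (fun i γ h P _ k => by
      by_cases a : Ab i.1 P
      exacts [h.2 P a k, h.1 P a k])
    (fun i => G1_mono C (Set.subset_univ _))
    (fun γ => by
      choose x x1 x2 _ using fun w : S => apx C {P | Ab w.1 P} γ 1 fun _ => one_ne_zero
      refine ⟨fun w => ⟨x w, x2 w⟩, fun P _ k => ?_⟩
      let w : S := ⟨un F P, (hS _).2 (((ab_un P).nat _).1 k)⟩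
      refine (show _ ∈ C.G1 {P | Ab w.1 P} from ?_) P (ab_un P) k
      rw [← prod_erase_mul _ _ (mem_univ w), mul_inv, mul_assoc]
      refine mul_mem (inv_mem (prod_mem fun j hj => G1_mono C (S := {P | Ab w.1 P})
        (S' := {P | Ab j.1 P}ᶜ) (fun Q (a : Ab w.1 Q) (b : Ab j.1 Q) => ?_) (x2 j))) (x1 w)
      exact ne_of_mem_erase hj (Subtype.ext (b.eq.symm.trans a.eq)))
    (fun w γ => φ w γ) (fun w => hφ w w.2) (eH C Ψ) fun u => C.eps_one hΨ
  simp only [← prod_coe_sort S]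
  exact this.trans_ne (prod_ne_zero_iff.2 fun w _ => hN w w.2)

theorem nlm : NLM := by
  intro F E _ _ _ _ _ X C Ψ hΨ _ w φ hφ hN C' hs m hD
  have mem : ∀ P : Pl E, (C'.D : 𝓞 E) ∈ P.asIdeal ↔ (C.D : 𝓞 E) ∈ P.asIdeal := fun P => by
    rw [hD, Nat.cast_pow]
    exact P.isPrime.pow_mem_iff_mem _ m.succ_pos
  have le : ∀ P : Pl E, P.valuation E (C'.D : E) ≤ P.valuation E (C.D : E) := fun P => by
    rw [hD, Nat.cast_pow, pow_succ, map_mul]
    exact mul_le_of_le_one_left' (by exact_mod_cast val_le P ((C.D : 𝓞 E) ^ m))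
  let ι : C'.G →* C.G := Subgroup.inclusion fun γ h P k => h P ((mem P).2 k)
  have ι1 : ∀ S, ∀ γ ∈ C'.G1 S, ι γ ∈ C.G1 S := fun S γ h P a k =>
    (h P a ((mem P).2 k)).trans (le P)
  let ι' : C'.G1 {P | ¬ Ab w P} →* C.G1 {P | ¬ Ab w P} :=
    (ι.comp (Subgroup.subtype _)).codRestrict _ fun γ => ι1 _ γ γ.2
  let π := QuotientGroup.map ((C'.G1 Set.univ).subgroupOf (C'.G1 {P | ¬ Ab w P}))
    ((C.G1 Set.univ).subgroupOf (C.G1 {P | ¬ Ab w P})) ι' fun γ h => ι1 _ γ h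
  have := fin_sub (C.G1 Set.univ) (C.G1 {P | ¬ Ab w P})
  have := fin_sub (C'.G1 Set.univ) (C'.G1 {P | ¬ Ab w P})
  have sj : Function.Surjective π := fun q => by
    obtain ⟨γ, rfl⟩ := QuotientGroup.mk_surjective q
    obtain ⟨x, x1, x2, x3⟩ := apx C {P | Ab w P} γ (fun P => P.valuation E (C'.D : E)) fun P =>
      (Valuation.ne_zero_iff _).2 (Nat.cast_ne_zero.2 C'.D0)
    refine ⟨QuotientGroup.mk ⟨⟨x, fun P k => x.2 P ((mem P).1 k)⟩,
      fun P a k => (x3 P a ((mem P).1 k)).le⟩, QuotientGroup.eq.2 fun P _ k => ?_⟩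
    by_cases a : Ab w P
    · exact x1 P a k
    · exact mul_mem (inv_mem x2) γ.2 P a k
  have e := sum_surj π sj fun q => φ (q.out : C.G) * C.eps Ψ ((q.out : C.G) : Eˣ)
  refine (finsum_congr fun q => ?_).trans_ne (e.trans_ne
    (mul_ne_zero (Nat.cast_ne_zero.2 Nat.card_pos.ne') hN))
  have e1 : π q = QuotientGroup.mk (ι' q.out) := by
    conv_lhs => rw [← q.out_eq']
    rfl
  rw [e1, out_inv (f := fun γ : C.G1 {P | ¬ Ab w P} =>
    φ (γ : C.G) * C.eps Ψ ((γ : C.G) : Eˣ)) fun u hu γ => ?_, CM.eps, CM.eps, CM.NT, CM.NT, hs]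
  · rfl
  · have := (eH C Ψ).map_mul u γ
    rw [show eH C Ψ u = 1 from C.eps_one hΨ hu, one_mul] at this
    exact congrArg₂ _ (hφ u (G1_mono C (Set.subset_univ _) hu) γ) this

end Vale.Agent.P022K.Sh
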