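import Vale.Agent.P022K.F0.StS3
import Vale.Agent.P022K.F0.Hec
import Vale.Agent.P022K.F0.Dic
import Vale.Agent.P022K.F0.Nel

/-!
# P022K, block F0: the rows ECA and TYP (types of level `K(l)`)
-/

set_option autoImplicit false

open Function Matrix NumberField IsDedekindDomain
open scoped MatrixGroups

noncomputable section

namespace Vale.Agent.P022K.Sh

open Orb F0 LocA Dc
open Tor hiding sc
open Vale.Agent.P022 (Qb)
open Vale.Agent.P022.C (ordv)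

namespace Ty

variable {l : ℕ} [Fact l.Prime]

variable (l) in
/-- the reduction modulo `l` -/
abbrev rd : GL (Fin 2) ℤ_[l] →* GL (Fin 2) (ZMod l) := GeneralLinearGroup.map PadicInt.toZMod

theorem zm_eq {o : ℤ_[l]} : PadicInt.toZMod o = 0 ↔ o ∈ IsLocalRing.maximalIdeal ℤ_[l] := by
  rw [← PadicInt.ker_toZMod, RingHom.mem_ker]

theorem zm_unit {o : ℤ_[l]} (h : PadicInt.toZMod o ≠ 0) : IsUnit o := by
  simpa [zm_eq] using h

theorem rd_surj : Surjective (rd l) := fun g => by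
  choose a ha using fun i j => ZMod.ringHom_surjective (PadicInt.toZMod (p := l)) (g.val i j)
  have e : (Matrix.of a).map PadicInt.toZMod = g.val := Matrix.ext ha
  have hd : IsUnit (Matrix.of a) := (Matrix.isUnit_iff_isUnit_det _).2 (zm_unit (by
    rw [RingHom.map_det, RingHom.mapMatrix_apply, e]
    exact g.det_ne_zero))
  exact ⟨hd.unit, Units.ext e⟩

/-- the chosen lift -/
def l0 (g : GL (Fin 2) (ZMod l)) : GL (Fin 2) ℤ_[l] := Classical.epsilon fun k => rd l k = g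

theorem rd_l0 (g : GL (Fin 2) (ZMod l)) : rd l (l0 g) = g := Classical.epsilon_spec (rd_surj g)

theorem lf_eq (g : GL (Fin 2) (ZMod l)) : Tw.lf l g = gK ℚ_[l] (l0 g) := rfl

section

variable {K : Type} [Field K] {a : ℤ_[l] →+* K}

theorem map_inj (ha : Injective a) : Injective (GeneralLinearGroup.map (n := Fin 2) a) :=
  fun _ _ e => Units.ext (Matrix.map_injective ha (congrArg Units.val e))

theorem cen_of_eq (ha : Injective a) {z z' : Kˣ} {k k' : GL (Fin 2) ℤ_[l]}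
    (e : sc z * GeneralLinearGroup.map a k = sc z' * GeneralLinearGroup.map a k') :
    rd l k * (rd l k')⁻¹ ∈ Subgroup.center (GL (Fin 2) (ZMod l)) := by
  have e1 : GeneralLinearGroup.map a (k * k'⁻¹) = sc (z⁻¹ * z') := by
    rw [map_mul, map_inv, map_mul, map_inv, mul_inv_eq_iff_eq_mul, mul_assoc, ← e,
      inv_mul_cancel_left]
  rw [← map_inv, ← map_mul]
  refine GeneralLinearGroup.map_center_le _ (Subgroup.mem_center_iff.2 fun g => map_inj ha ?_)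
  rw [map_mul, map_mul _ _ g, e1, sc_comm]

variable (a) in
open Classical in
/-- the extension of a function on `GL₂(𝔽_l)` by the centre and by zero -/
def f1 (c : GL (Fin 2) (ZMod l) → ℂ) (g : GL (Fin 2) K) : ℂ :=
  if h : ∃ p : Kˣ × GL (Fin 2) ℤ_[l], g = sc p.1 * GeneralLinearGroup.map a p.2 then
    c (rd l h.choose.2) else 0

theorem f1_eq (ha : Injective a) {c : GL (Fin 2) (ZMod l) → ℂ}
    (hc : ∀ z ∈ Subgroup.center (GL (Fin 2) (ZMod l)), ∀ g, c (z * g) = c g) (z : Kˣ)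
    (k : GL (Fin 2) ℤ_[l]) : f1 a c (sc z * GeneralLinearGroup.map a k) = c (rd l k) := by
  have h : ∃ p : Kˣ × GL (Fin 2) ℤ_[l], sc z * GeneralLinearGroup.map a k =
      sc p.1 * GeneralLinearGroup.map a p.2 := ⟨(z, k), rfl⟩
  rw [f1, dif_pos h, ← hc _ (cen_of_eq ha h.choose_spec), inv_mul_cancel_right]

end

theorem qinj : Injective (algebraMap ℤ_[l] ℚ_[l]) := Subtype.val_injective

theorem mem_Km {k : GL (Fin 2) ℤ_[l]} : gK ℚ_[l] k ∈ Km ℤ_[l] ℚ_[l] 1 ↔ rd l k = 1 := by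
  rw [Km, Subgroup.mem_map_iff_mem (map_inj qinj), MonoidHom.mem_ker, Units.ext_iff, Units.ext_iff,
    ← Matrix.ext_iff, ← Matrix.ext_iff]
  refine forall₂_congr fun i j => ?_
  have e : ∀ {R : Type} [CommRing R] (f : ℤ_[l] →+* R), (GeneralLinearGroup.map f k).val i j =
      (1 : GL (Fin 2) R).val i j ↔ (k.val - 1) i j ∈ RingHom.ker f := fun f => by
    rw [RingHom.mem_ker, Matrix.sub_apply, map_sub, sub_eq_zero, Units.val_one, Matrix.one_apply,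
      Matrix.one_apply, apply_ite f, map_one, map_zero]
    rfl
  rw [e, e, Ideal.mk_ker, pow_one, PadicInt.ker_toZMod]

theorem mem_Kz {g : GL (Fin 2) ℚ_[l]} : g ∈ Km ℤ_[l] ℚ_[l] 1 ⊔ Zl ℚ_[l] ↔
    ∃ z k, rd l k ∈ Subgroup.center _ ∧ g = sc z * gK ℚ_[l] k := by
  constructor
  · intro h
    obtain ⟨_, h1, t, h2, rfl⟩ := Subgroup.mem_sup_of_normal_right.1 h
    obtain ⟨k, -, rfl⟩ := id h1
    obtain ⟨z, rfl⟩ := GeneralLinearGroup.center_eq_range_scalar.le h2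
    exact ⟨z, k, mem_Km.1 h1 ▸ one_mem _, (sc_comm _ _).symm⟩
  · rintro ⟨z, k, h, rfl⟩
    obtain ⟨t, ht⟩ := GeneralLinearGroup.center_eq_range_scalar.le h
    obtain ⟨o, ho⟩ := ZMod.ringHom_surjective (PadicInt.toZMod (p := l)) t
    obtain ⟨u, rfl⟩ := zm_unit (ho ▸ t.ne_zero)
    have e : rd l (GeneralLinearGroup.scalar (Fin 2) u) = rd l k := by
      rw [← ht]
      ext i j
      simp [Matrix.diagonal_apply, apply_ite PadicInt.toZMod, ho]
    rw [← mul_inv_cancel_left (GeneralLinearGroup.scalar (Fin 2) u) k, map_mul]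
    exact mul_mem (Subgroup.mem_sup_right (scalar_mem z)) (mul_mem (Subgroup.mem_sup_right
      (GeneralLinearGroup.map_center_le _ (GeneralLinearGroup.center_eq_range_scalar.ge ⟨u, rfl⟩)))
      (Subgroup.mem_sup_left (mem_Km.2 (by rw [map_mul, map_inv, e, inv_mul_cancel]))))

theorem gK_Kz {k : GL (Fin 2) ℤ_[l]} :
    gK ℚ_[l] k ∈ Km ℤ_[l] ℚ_[l] 1 ⊔ Zl ℚ_[l] ↔ rd l k ∈ Subgroup.center _ := by
  refine mem_Kz.trans ⟨fun ⟨z, k', h, e⟩ => ?_, fun h => ⟨1, k, h, by rw [map_one, one_mul]⟩⟩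
  have := mul_mem (cen_of_eq qinj (((congrArg (· * _) (map_one sc)).trans (one_mul _)).trans e)) h
  rwa [inv_mul_cancel_right] at this

theorem conj_Kz (k : GL (Fin 2) ℤ_[l]) {g : GL (Fin 2) ℚ_[l]}
    (h : g ∈ Km ℤ_[l] ℚ_[l] 1 ⊔ Zl ℚ_[l]) :
    (gK ℚ_[l] k)⁻¹ * g * gK ℚ_[l] k ∈ Km ℤ_[l] ℚ_[l] 1 ⊔ Zl ℚ_[l] := by
  obtain ⟨z, k', h', rfl⟩ := mem_Kz.1 h
  refine mem_Kz.2 ⟨z, k⁻¹ * k' * k, ?_, ?_⟩
  · rw [map_mul, map_mul, map_inv]
    exact Subgroup.Normal.conj_mem' inferInstance _ h' _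
  · rw [← mul_assoc, ← sc_comm]
    simp only [map_mul, map_inv, mul_assoc]

theorem exists_reg {Λ Γ : Type} [Field Λ] [CharZero Λ] [Group Γ] [Finite Γ]
    (e : MonoidAlgebra Λ Γ) : ∃ y, e * y * e = e := by
  have : NeZero (Nat.card Γ : Λ) := ⟨Nat.cast_ne_zero.2 Nat.card_pos.ne'⟩
  obtain ⟨ε, h1, h2⟩ := IsSemisimpleRing.ideal_eq_span_idempotent (Ideal.span {e})
  obtain ⟨y, hy⟩ := Ideal.mem_span_singleton'.1
    (h2 ▸ Ideal.subset_span (Set.mem_singleton ε) : ε ∈ Ideal.span {e})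
  obtain ⟨a, ha⟩ := Ideal.mem_span_singleton'.1
    (h2 ▸ Ideal.subset_span (Set.mem_singleton e) : e ∈ Ideal.span {ε})
  refine ⟨y, ?_⟩
  rw [mul_assoc, hy, ← ha, mul_assoc, h1.eq]

variable {G0 G : Type} [Group G0] [Group G] {T : Tw G0 G} {L : T.Lc ℤ_[l] ℚ_[l]} {U : Subgroup G}

theorem inv_rt (hU : U ∈ T.Lev) (h : L.At (Km ℤ_[l] ℚ_[l] 1) U) {B : Type} {φ : G → B}
    (hφ : Inv U φ) (k : GL (Fin 2) ℤ_[l]) : Inv U (rt (L.ι (gK ℚ_[l] k)) φ) := fun x u hu => by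
  obtain ⟨v, hv, y, hy, e, rfl⟩ := h.split hU hu
  rw [rt, rt, mul_assoc]
  refine (hφ.eq ?_ x).symm
  rw [mul_assoc, ← (L.com _ y e).eq, ← mul_assoc, ← mul_assoc, ← map_inv, ← map_mul, ← map_mul]
  exact mul_mem ((h.iff hU).2 (conj_Kz k hv)) hy

theorem rt_congr (h : L.At (Km ℤ_[l] ℚ_[l] 1) U) {B : Type} {φ : G → B} (hφ : Inv U φ)
    {k k' : GL (Fin 2) ℤ_[l]} (e : rd l k = rd l k') :
    rt (L.ι (gK ℚ_[l] k)) φ = rt (L.ι (gK ℚ_[l] k')) φ := funext fun x => hφ.eq (by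
  rw [← map_inv, ← map_mul, ← map_inv, ← map_mul]
  exact h.1 _ (mem_Km.2 (by rw [map_mul, map_inv, e, inv_mul_cancel]))) x

/-- the invariant functions -/
def IU (Λ B : Type) [Field Λ] [AddCommGroup B] [Module Λ B] (U : Subgroup G) :
    Submodule Λ (G → B) where
  carrier := {φ | Inv U φ}
  add_mem' h h' x u hu := by simp only [Pi.add_apply, h x u hu, h' x u hu]
  zero_mem' _ _ _ := rfl
  smul_mem' c φ h x u hu := by simp only [Pi.smul_apply, h x u hu]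

/-- the action of `GL₂(𝔽_l)` on the invariant functions -/
def rp (hU : U ∈ T.Lev) (h : L.At (Km ℤ_[l] ℚ_[l] 1) U) (Λ B : Type) [Field Λ] [AddCommGroup B]
    [Module Λ B] : Representation Λ (GL (Fin 2) (ZMod l)) (IU Λ B U) where
  toFun g :=
    { toFun := fun φ => ⟨rt (L.ι (Tw.lf l g)) φ.1, inv_rt hU h φ.2 _⟩
      map_add' := fun _ _ => rfl
      map_smul' := fun _ _ => rfl }
  map_one' := LinearMap.ext fun φ => Subtype.ext ((rt_congr h φ.2 (k := l0 1) (k' := 1)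
    (by rw [rd_l0, map_one])).trans (funext fun x => by simp [rt]))
  map_mul' g g' := LinearMap.ext fun φ => Subtype.ext ((rt_congr h φ.2 (k := l0 (g * g'))
    (k' := l0 g * l0 g') (by rw [map_mul, rd_l0, rd_l0, rd_l0])).trans (funext fun x => by
      simp only [rt, map_mul, Module.End.mul_apply, LinearMap.coe_mk, AddHom.coe_mk, lf_eq,
        mul_assoc]))

theorem eca (hU : U ∈ T.Lev) (h : L.At (Km ℤ_[l] ℚ_[l] 1) U) (Λ B : Type) [Field Λ] [CharZero Λ]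
    [AddCommGroup B] [Module Λ B] (c : GL (Fin 2) (ZMod l) → Λ)
    (hc : ∀ g x, c (x⁻¹ * g * x) = c g) (φ : G → B) (hφ : Inv U φ) :
    Inv U (L.ec c φ) ∧ (L.ec c (L.ec c φ) = 0 → L.ec c φ = 0) := by
  let E : MonoidAlgebra Λ (GL (Fin 2) (ZMod l)) := ∑ g, MonoidAlgebra.single g (c g)
  have e : ∀ ψ : IU Λ B U, ((rp hU h Λ B).asAlgebraHom E ψ).1 = L.ec c ψ.1 := fun ψ => by
    simp only [E, map_sum, Representation.asAlgebraHom_single, LinearMap.sum_apply,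
      LinearMap.smul_apply, Submodule.coe_sum, Submodule.coe_smul]
    rfl
  have cm : ∀ y, E * y = y * E := fun y => by
    induction y using MonoidAlgebra.induction_linear with
    | zero => simp
    | add y y' h1 h2 => rw [mul_add, add_mul, h1, h2]
    | single x r =>
      simp only [E, Finset.sum_mul, Finset.mul_sum, MonoidAlgebra.single_mul_single]
      refine Fintype.sum_equiv (MulAut.conj x⁻¹).toEquiv _ _ fun g => ?_
      simp only [MulEquiv.toEquiv_eq_coe, EquivLike.coe_coe, MulAut.conj_apply, inv_inv, hc]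
      rw [mul_comm r, mul_assoc, mul_inv_cancel_left]
  refine ⟨e ⟨φ, hφ⟩ ▸ ((rp hU h Λ B).asAlgebraHom E ⟨φ, hφ⟩).2, fun k => ?_⟩
  obtain ⟨y, hy⟩ := exists_reg E
  have k' : (rp hU h Λ B).asAlgebraHom E ((rp hU h Λ B).asAlgebraHom E ⟨φ, hφ⟩) = 0 :=
    Subtype.ext (by rw [e, e]; exact k)
  rw [← e ⟨φ, hφ⟩, ← hy, cm, mul_assoc, map_mul, map_mul, Module.End.mul_apply,
    Module.End.mul_apply, k', map_zero]
  rfl


theorem wk_eq {Γ B : Type} [Group Γ] [Fintype Γ] [AddCommGroup B] [Module ℂ B] (p : Γ → G)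
    (Z : Subgroup Γ) {f : G → ℂ} {c : Γ → ℂ} (hp : ∀ g g', (p g)⁻¹ * p g' ∈ U ↔ g⁻¹ * g' ∈ Z)
    (h1 : ∀ g, ∀ u ∈ U, f (p g * u) = c g) (h0 : ∀ y, f y ≠ 0 → ∃ g, (p g)⁻¹ * y ∈ U) {ω : G → B}
    (hω : Inv U ω) : wk f U ω = (Nat.card Z : ℂ)⁻¹ • ∑ g, c g • rt (p g) ω := by
  classical
  funext x
  let Φ : G ⧸ U → B := fun q => f q.out • ω (x * q.out)
  have e : ∀ g, Φ (p g) = c g • ω (x * p g) := fun g => by
    have := h1 g _ (out_mk_mem U (p g))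
    rw [mul_inv_cancel_left] at this
    simp only [Φ, this, hω.eq (out_mk_mem U (p g))]
  have n0 : (Nat.card Z : ℂ) ≠ 0 := Nat.cast_ne_zero.2 Nat.card_pos.ne'
  rw [Pi.smul_apply, eq_inv_smul_iff₀ n0, Finset.sum_apply]
  refine Eq.trans ?_ (Finset.sum_congr rfl fun g _ => e g)
  rw [Finset.sum_comp Φ fun g => (p g : G ⧸ U), wk, finsum_eq_sum_of_support_subset Φ
    (s := Finset.univ.image fun g => (p g : G ⧸ U)) fun q hq => ?_, Finset.smul_sum]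
  · refine Finset.sum_congr rfl fun q hq => ?_
    obtain ⟨g, -, rfl⟩ := Finset.mem_image.1 hq
    rw [Nat.cast_smul_eq_nsmul]
    congr 1
    rw [← Nat.subtype_card _ fun a => Finset.mem_filter_univ a]
    exact Nat.card_congr ((Equiv.mulLeft g).subtypeEquiv fun z => by
      rw [eq_comm, QuotientGroup.eq, hp, Equiv.coe_mulLeft, inv_mul_cancel_left])
  · obtain ⟨g, hg⟩ := h0 _ (left_ne_zero_of_smul hq)
    exact Finset.mem_coe.2 (Finset.mem_image.2 ⟨g, Finset.mem_univ _,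
      (QuotientGroup.eq.2 hg).trans q.out_eq'⟩)

theorem sum_nat {H : Type} [CommGroup H] (N : Subgroup H) [Fintype (H ⧸ N)] (χ : H →* ℂ)
    (h : ∀ u ∈ N, χ u = 1) : ∃ n : ℕ, ∑ q : H ⧸ N, χ q.out = n ∧ (χ = 1 → n ≠ 0) := by
  let ψ := QuotientGroup.lift N χ h
  have e : ∀ q : H ⧸ N, χ q.out = ψ q := fun q => by
    conv_rhs => rw [← q.out_eq']
    rfl
  by_cases k : ψ = 1
  · exact ⟨Fintype.card (H ⧸ N), by simp [e, k], fun _ => Fintype.card_ne_zero⟩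
  · refine ⟨0, by simp [e, sum_hom_units_eq_zero ψ k], fun k' => absurd ?_ k⟩
    ext q
    rw [MonoidHom.comp_apply, ← e, k']
    rfl

theorem sum_ne {H : Type} [CommGroup H] (N : Subgroup H) [Finite (H ⧸ N)] (χ : H →* ℂ)
    (h : ∀ u ∈ N, χ u = 1) {J : Finset ℕ} (h1 : 1 ∈ J) :
    ∑ᶠ q : H ⧸ N, ∑ j ∈ J, (χ q.out ^ j + χ q.out⁻¹ ^ j) * χ q.out ≠ 0 := by
  have := Fintype.ofFinite (H ⧸ N)
  choose a ha _ using fun j : ℕ => sum_nat N (χ ^ j * χ) fun u hu => by simp [h u hu]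
  choose b hb hb' using fun j : ℕ => sum_nat N ((χ.comp invMonoidHom) ^ j * χ) fun u hu => by
    simp [h u hu, h _ (inv_mem hu)]
  simp only [MonoidHom.mul_apply, MonoidHom.pow_apply, MonoidHom.comp_apply,
    invMonoidHom_apply] at ha hb
  simp only [finsum_eq_sum_of_fintype, add_mul]
  rw [Finset.sum_comm]
  simp only [Finset.sum_add_distrib, ha, hb, ← Nat.cast_sum, ← Nat.cast_add, Nat.cast_ne_zero]
  have := Finset.single_le_sum (f := b) (fun _ _ => Nat.zero_le _) h1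
  have := hb' 1 (MonoidHom.ext fun x => by
    simp only [pow_one, MonoidHom.mul_apply, MonoidHom.comp_apply, invMonoidHom_apply, ← map_mul,
      inv_mul_cancel, map_one, MonoidHom.one_apply])
  omega

theorem cen_iff {k : Type} [Field k] {g : GL (Fin 2) k} : g ∈ Subgroup.center (GL (Fin 2) k) ↔
    g.val 0 1 = 0 ∧ g.val 1 0 = 0 ∧ g.val 0 0 - g.val 1 1 = 0 := by
  rw [GeneralLinearGroup.mem_center_iff_val_mem_range_scalar]
  constructor
  · rintro ⟨c, e⟩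
    simp [← e]
  · rintro ⟨h1, h2, h3⟩
    refine ⟨g.val 0 0, ?_⟩
    ext i j
    fin_cases i <;> fin_cases j <;> simp [h1, h2, sub_eq_zero.1 h3]

theorem ex_conj {k : Type} [Field k] {A : Matrix (Fin 2) (Fin 2) k} {a : k}
    (h : A * A = algebraMap k _ a) (hn : ∀ c, A ≠ algebraMap k _ c) :
    ∃ P : GL (Fin 2) k, A * P = P * !![0, a; 1, 0] := by
  have key : ∀ x y : k, x * (A 1 0 * x + A 1 1 * y) - (A 0 0 * x + A 0 1 * y) * y ≠ 0 →
      ∃ P : GL (Fin 2) k, A * P = P * !![0, a; 1, 0] := fun x y hd => by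
    refine ⟨GeneralLinearGroup.mkOfDetNeZero
      !![x, A 0 0 * x + A 0 1 * y; y, A 1 0 * x + A 1 1 * y] (by rwa [det_fin_two_of]), ?_⟩
    have e := fun i j => congrFun (congrFun h i) j
    have e1 := e 0 0
    have e2 := e 0 1
    have e3 := e 1 0
    have e4 := e 1 1
    simp [Matrix.mul_apply, Fin.sum_univ_two, algebraMap_matrix_apply] at e1 e2 e3 e4
    ext i j
    fin_cases i <;> fin_cases j <;> simp [Matrix.mul_apply, Fin.sum_univ_two]
    · linear_combination x * e1 + y * e2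
    · linear_combination x * e3 + y * e4
  by_contra hc
  have h1 : A 1 0 = 0 := by simpa using not_not.1 (mt (key 1 0) hc)
  have h2 : A 0 1 = 0 := by simpa using not_not.1 (mt (key 0 1) hc)
  have h3 : A 1 1 = A 0 0 := by simpa [h1, h2, sub_eq_zero] using not_not.1 (mt (key 1 1) hc)
  refine hn (A 0 0) ?_
  ext i j
  fin_cases i <;> fin_cases j <;> simp [h1, h2, h3, algebraMap_matrix_apply]

variable {F : Type} [Field F] [NumberField F] {X : QD F} {w : Pl F}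

theorem ex_spl (h : X.Spl w) : ∃ s : X.Dw w ≃ₐ[Fw w] Matrix (Fin 2) (Fin 2) (Fw w),
    s ⟨0, 1, 0, 0⟩ = !![0, algebraMap (𝓞 F) (Fw w) X.a; 1, 0] := by
  obtain ⟨s⟩ := h
  obtain ⟨P, hP⟩ := ex_conj (A := s ⟨0, 1, 0, 0⟩) (a := algebraMap (𝓞 F) (Fw w) X.a) (by
    rw [← map_mul, ← s.commutes]
    congr 1
    ext <;> simp) fun c e => by
      simpa using congrArg QuaternionAlgebra.imI (s.injective (e.trans (s.commutes c).symm))
  refine ⟨s.trans (MulSemiringAction.toAlgEquiv (Fw w) _ (ConjAct.toConjAct P⁻¹)), ?_⟩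
  rw [AlgEquiv.trans_apply, MulSemiringAction.toAlgEquiv_apply, ConjAct.units_smul_def,
    ConjAct.ofConjAct_toConjAct, inv_inv, mul_assoc, hP, Units.inv_mul_cancel_left]

variable (e : Fw w ≃+* ℚ_[l])

/-- the `l`-adic integers in the completion -/
def ro : ℤ_[l] →+* Fw w := e.symm.toRingHom.comp (algebraMap ℤ_[l] ℚ_[l])

/-- the integral matrices -/
abbrev mo : GL (Fin 2) ℤ_[l] →* GL (Fin 2) (Fw w) := GeneralLinearGroup.map (ro e)

/-- the change of the field -/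
abbrev me : GL (Fin 2) (Fw w) →* GL (Fin 2) ℚ_[l] := GeneralLinearGroup.map e.toRingHom

theorem ro_inj : Injective (ro e) := e.symm.injective.comp qinj

theorem me_inj : Injective (me e) :=
  fun _ _ h => Units.ext (Matrix.map_injective e.injective (congrArg Units.val h))

theorem me_mo (k : GL (Fin 2) ℤ_[l]) : me e (mo e k) = gK ℚ_[l] k :=
  Units.ext (Matrix.ext fun _ _ => e.apply_symm_apply _)

theorem me_sc (z : (Fw w)ˣ) : me e (sc z) = sc (Units.mapEquiv e.toMulEquiv z) := by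
  ext i j
  simp [Matrix.diagonal_apply, apply_ite e]

section

variable {e} (h : Cp ℤ_[l] e)
include h

theorem v_le {x : Fw w} : vw w x ≤ 1 ↔ ∃ o, ro e o = x := by
  rw [← e.symm_apply_apply x, ← h.mem_iff]
  exact exists_congr fun o => e.symm.injective.eq_iff.symm

theorem v_lt {o : ℤ_[l]} : vw w (ro e o) < 1 ↔ PadicInt.toZMod o = 0 :=
  h.mem_max.symm.trans zm_eq.symm

theorem qw_eq : qw w = l := by
  rw [qw, ← h.qq_eq, qq, Nat.card_congr PadicInt.residueField.toEquiv, Nat.card_zmod]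

theorem kv_iff {g : GL (Fin 2) (Fw w)} : g ∈ KV (vw w) ↔ ∃ k, g = mo e k := by
  constructor
  · rintro ⟨h1, h2⟩
    choose a ha using fun i j => (v_le h).1 (h1 i j)
    have e1 : (Matrix.of a).map (ro e) = g.val := Matrix.ext ha
    have hd : IsUnit (Matrix.of a) := (Matrix.isUnit_iff_isUnit_det _).2 (zm_unit (by
      rw [Ne, ← v_lt h, RingHom.map_det, RingHom.mapMatrix_apply, e1, h2]
      exact lt_irrefl _))
    exact ⟨hd.unit, Units.ext e1.symm⟩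
  · rintro ⟨k, rfl⟩
    have e1 : (mo e k).val.det = ro e k.val.det := (RingHom.map_det _ _).symm
    refine ⟨fun i j => (v_le h).2 ⟨_, rfl⟩, e1 ▸ ((v_le h).2 ⟨_, rfl⟩).eq_of_not_lt ?_⟩
    rw [v_lt h, RingHom.map_det]
    exact (rd l k).det_ne_zero

theorem sc_iff {k : GL (Fin 2) ℤ_[l]} : Sc (vw w) (mo e k) ↔ rd l k ∈ Subgroup.center _ := by
  rw [cen_iff]
  refine and_congr (v_lt h) (and_congr (v_lt h) ?_)
  exact (map_sub (ro e) (k.val 0 0) (k.val 1 1) ▸ v_lt h).trans (by rw [map_sub]; rfl)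

theorem disc_iff {k : GL (Fin 2) ℤ_[l]} :
    vw w ((mo e k).val.trace ^ 2 - 4 * (mo e k).val.det) < 1 ↔
      (rd l k).val.trace ^ 2 = 4 * (rd l k).val.det := by
  have e1 : ∀ {R : Type} [CommRing R] (f : ℤ_[l] →+* R), f (k.val.trace ^ 2 - 4 * k.val.det) =
      (GeneralLinearGroup.map f k).val.trace ^ 2 - 4 * (GeneralLinearGroup.map f k).val.det :=
    fun f => by
      rw [map_sub, map_pow, map_mul, map_ofNat, RingHom.map_det, AddMonoidHom.map_trace]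
      rfl
  rw [← e1, v_lt h, e1, sub_eq_zero]

theorem zv_iff {g : GL (Fin 2) (Fw w)} : g ∈ ZV (vw w) ↔ ∃ z k, g = sc z * mo e k := by
  refine ⟨fun hg => ?_, ?_⟩
  · obtain ⟨z, k, hk, rfl⟩ := ZV_dec hg
    obtain ⟨k, rfl⟩ := (kv_iff h).1 hk
    exact ⟨z, k, rfl⟩
  · rintro ⟨z, k, rfl⟩
    exact mul_mem (sc_mem z) (KV_le ((kv_iff h).2 ⟨k, rfl⟩))

theorem k1_iff {g : GL (Fin 2) (Fw w)} :
    g ∈ K1 (vw w) ↔ ∃ z k, rd l k ∈ Subgroup.center _ ∧ g = sc z * mo e k := by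
  constructor
  · rintro ⟨z, h1, h2⟩
    obtain ⟨k, hk⟩ := (kv_iff h).1 h1
    exact ⟨z⁻¹, k, (sc_iff h).1 (hk ▸ h2), by rw [← hk, map_inv, inv_mul_cancel_left]⟩
  · rintro ⟨z, k, hk, rfl⟩
    refine ⟨z⁻¹, ?_⟩
    rw [map_inv, inv_mul_cancel_left]
    exact ⟨(kv_iff h).2 ⟨k, rfl⟩, (sc_iff h).2 hk⟩

theorem k1_me {g : GL (Fin 2) (Fw w)} :
    me e g ∈ Km ℤ_[l] ℚ_[l] 1 ⊔ Zl ℚ_[l] ↔ g ∈ K1 (vw w) := by
  rw [k1_iff h, mem_Kz, (Units.mapEquiv e.toMulEquiv).surjective.exists]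
  simp only [← me_sc, ← me_mo e, ← map_mul, (me_inj e).eq_iff]

variable {c : GL (Fin 2) (ZMod l) → ℂ}
  (hc : ∀ z ∈ Subgroup.center (GL (Fin 2) (ZMod l)), ∀ g, c (z * g) = c g)
include hc

omit h in
theorem f1_mo (k : GL (Fin 2) ℤ_[l]) : f1 (ro e) c (mo e k) = c (rd l k) := by
  rw [← f1_eq (ro_inj e) hc 1 k, map_one, one_mul]

omit hc in
theorem f1_zero {g : GL (Fin 2) (Fw w)} (hg : g ∉ ZV (vw w)) : f1 (ro e) c g = 0 :=
  dif_neg fun ⟨_, hp⟩ => hg ((zv_iff h).2 ⟨_, _, hp⟩)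

theorem f1_k1 {k : GL (Fin 2) (Fw w)} (hk : k ∈ K1 (vw w)) (g : GL (Fin 2) (Fw w)) :
    f1 (ro e) c (g * k) = f1 (ro e) c g := by
  obtain ⟨z', k', h1, rfl⟩ := (k1_iff h).1 hk
  by_cases hg : g ∈ ZV (vw w)
  · obtain ⟨z, k, rfl⟩ := (zv_iff h).1 hg
    rw [← mul_assoc, mul_assoc _ _ (sc z'), ← sc_comm, ← mul_assoc, ← map_mul, mul_assoc,
      ← map_mul, f1_eq (ro_inj e) hc, f1_eq (ro_inj e) hc, map_mul,
      Subgroup.mem_center_iff.1 h1, hc _ h1]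
  · rw [f1_zero h hg, f1_zero h fun k => hg
      ((mul_mem_cancel_right ((zv_iff h).2 ⟨_, _, rfl⟩)).1 k)]

theorem typ_f1 (hc' : ∀ g x, c (x⁻¹ * g * x) = c g) {cu : ℂ}
    (hu : ∀ g : GL (Fin 2) (ZMod l), g ∉ Subgroup.center _ → g.val.trace ^ 2 = 4 * g.val.det →
      c g = cu) : Typ (vw w) (f1 (ro e) c) (c 1) cu where
  zero _ := f1_zero h
  cen z g := by rw [sc_comm, f1_k1 h hc ((k1_iff h).2 ⟨z, 1, by simp, by simp⟩)]
  cls k hk g := by
    by_cases hg : g ∈ ZV (vw w)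
    · obtain ⟨k, rfl⟩ := (kv_iff h).1 hk
      obtain ⟨z, g, rfl⟩ := (zv_iff h).1 hg
      rw [conj_sc, ← map_inv, ← map_mul, ← map_mul, f1_eq (ro_inj e) hc, f1_eq (ro_inj e) hc,
        map_mul, map_mul, map_inv, hc']
    · rw [f1_zero h hg, f1_zero h fun m => hg ((mul_mem_cancel_left (inv_mem (KV_le hk))).1
        ((mul_mem_cancel_right (KV_le hk)).1 m))]
  sca g hg hs := by
    obtain ⟨k, rfl⟩ := (kv_iff h).1 hg
    rw [f1_mo hc, ← hc _ ((sc_iff h).1 hs) 1, mul_one]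
  uni g hg hs hd := by
    obtain ⟨k, rfl⟩ := (kv_iff h).1 hg
    rw [f1_mo hc, hu _ (mt (sc_iff h).2 hs) ((disc_iff h).1 hd)]


end

variable {E : Type} [Field E] [NumberField E] [Algebra F E] {C : CM F E} {Ψ : Pl E → ℂˣ}

theorem eps_nm {κ : ℂ} (hw : (C.D : 𝓞 F) ∈ w.asIdeal) (hk : Kw C Ψ w κ) {γ : C.G}
    (hγ : γ ∈ C.G1 {P | ¬ Ab w P}) : C.eps Ψ (γ : Eˣ) * C.eps Ψ (C.c (γ : Eˣ)) = 1 := by
  obtain ⟨s, t, e⟩ := C.span (γ : Eˣ)
  have hc : C.cG γ ∈ C.G1 {P | ¬ Ab w P} := fun P hP k => by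
    have := hγ _ (fun a => hP (C.pi_pi P ▸ C.ab_pi a)) ((C.nat_pi P _).2 k)
    rwa [C.val_pi, C.val_pi, map_sub, map_one, map_natCast] at this
  have e1 : ((γ * C.cG γ : C.G) : Eˣ) = algebraMap F E (s ^ 2 - C.a * t ^ 2) := by
    rw [← C.nm_co, ← e]
    rfl
  have n0 : s ^ 2 - C.a * t ^ 2 ≠ 0 := fun k => Units.ne_zero _ (by rw [e1, k, map_zero])
  refine ((Nel.eH C Ψ).map_mul γ (C.cG γ)).symm.trans ((C.eps_rho Ψ e1).trans ?_)
  rw [hk _ n0 fun v hv hD => ?_, ordv_one, zpow_zero]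
  · have a := ab_up (E := E) w
    rw [← a.eq_one, ← e1]
    exact (γ * C.cG γ).2 _ ((a.nat _).2 hw)
  · have a := ab_up (E := E) v
    rw [← ab_le a, map_sub, map_one, map_natCast, ← e1]
    exact mul_mem hγ hc _ (fun a' => hv (a.eq.symm.trans a'.eq)) ((a.nat _).2 hD)

theorem loc_mat {s : X.Dw w ≃ₐ[Fw w] Matrix (Fin 2) (Fin 2) (Fw w)}
    (hs : s ⟨0, 1, 0, 0⟩ = !![0, algebraMap (𝓞 F) (Fw w) X.a; 1, 0]) {u : X.Dw w}
    (hu : u.imJ = 0 ∧ u.imK = 0) :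
    s u = !![u.re, algebraMap (𝓞 F) (Fw w) X.a * u.imI; u.imI, u.re] := by
  have e : u = algebraMap _ _ u.re + u.imI • ⟨0, 1, 0, 0⟩ := by
    ext <;> simp [QuaternionAlgebra.algebraMap_eq, hu.1, hu.2]
  conv_lhs => rw [e, map_add, map_smul, hs, s.commutes]
  ext i j
  fin_cases i <;> fin_cases j <;> simp [algebraMap_matrix_apply, mul_comm]

theorem loc_key {e : Fw w ≃+* ℚ_[l]} (h : Cp ℤ_[l] e)
    {s : X.Dw w ≃ₐ[Fw w] Matrix (Fin 2) (Fin 2) (Fw w)}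
    (hs : s ⟨0, 1, 0, 0⟩ = !![0, algebraMap (𝓞 F) (Fw w) X.a; 1, 0]) (ha : 2 * X.a ∉ w.asIdeal)
    {u : (X.Dw w)ˣ} (hu : u ∈ X.Tl w) (hn : QD.Un u) : ∃ k,
      Units.map s.toRingEquiv.toMonoidHom u = mo e k ∧ ro e k.val.trace = 2 * (u : X.Dw w).re ∧
      ro e k.val.det = nrd (u : X.Dw w) ∧
      ((rd l k).val.trace ^ 2 = 4 * (rd l k).val.det → rd l k ∈ Subgroup.center _) := by
  have hm : (Units.map s.toRingEquiv.toMonoidHom u).val = _ := loc_mat hs (mem_Tl.1 hu)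
  have v2 : vw w 2 = 1 := by
    rw [← map_ofNat (algebraMap (𝓞 F) (Fw w)), vw, v_int, HeightOneSpectrum.intValuation_eq_one_iff]
    exact fun k => ha (Ideal.mul_mem_right _ _ k)
  have va : vw w (algebraMap (𝓞 F) (Fw w) X.a) = 1 := by
    rw [vw, v_int, HeightOneSpectrum.intValuation_eq_one_iff]
    exact fun k => ha (Ideal.mul_mem_left _ _ k)
  have hd : (Units.map s.toRingEquiv.toMonoidHom u).val.det = nrd (u : X.Dw w) := by
    rw [hm, det_fin_two_of]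
    simp [nrd, (mem_Tl.1 hu).1, (mem_Tl.1 hu).2, mul_assoc, sub_eq_add_neg]
  have ht : (Units.map s.toRingEquiv.toMonoidHom u).val.trace = 2 * (u : X.Dw w).re := by
    rw [hm, trace_fin_two_of, two_mul]
  have h1 : vw w (u : X.Dw w).re ≤ 1 := by simpa [v2] using hn.2
  have hD : (2 * (u : X.Dw w).re) ^ 2 - 4 * nrd (u : X.Dw w) =
      2 ^ 2 * algebraMap (𝓞 F) (Fw w) X.a * (u : X.Dw w).imI ^ 2 := by
    rw [← hd, hm, det_fin_two_of]
    ring
  have hv : vw w ((2 * (u : X.Dw w).re) ^ 2 - 4 * nrd (u : X.Dw w)) = vw w (u : X.Dw w).imI ^ 2 := by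
    rw [hD, map_mul, map_mul, map_pow, map_pow, v2, va, one_pow, one_mul, one_mul]
  have h2 : vw w (u : X.Dw w).imI ≤ 1 := by
    rw [← pow_le_one_iff_of_nonneg zero_le two_ne_zero, ← hv]
    refine (vw w).map_sub_le (by rw [map_pow]; exact pow_le_one' hn.2 _) ?_
    rw [map_mul, hn.1, mul_one, show (4 : Fw w) = 2 * 2 by norm_num, map_mul, v2, one_mul]
  obtain ⟨k, hk⟩ := (kv_iff h).1 (show Units.map s.toRingEquiv.toMonoidHom u ∈ KV (vw w) from
    ⟨hm ▸ im_of h1 (by rwa [map_mul, va, one_mul]) h2 h1, hd ▸ hn.1⟩)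
  refine ⟨k, hk, ?_, ?_, fun m => (sc_iff h).1 ?_⟩
  · rw [← ht, hk, AddMonoidHom.map_trace]
    rfl
  · rw [← hd, hk, RingHom.map_det]
    rfl
  · rw [← disc_iff h, ← hk, ht, hd, hv, pow_lt_one_iff_of_nonneg zero_le two_ne_zero] at m
    rw [← hk, Sc, hm]
    simpa [va] using m

theorem v_int_lt {e : Fw w ≃+* ℚ_[l]} (h : Cp ℤ_[l] e) {o : ℤ_[l]} {x : F} {m : ℤ}
    (hx : ro e o = algebraMap F (Fw w) x) (hm : (m : ZMod l) = PadicInt.toZMod o) :
    w.valuation F (x - m) < 1 := by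
  rw [← v_alg, map_sub, map_intCast, ← hx, ← map_intCast (ro e), ← map_sub]
  exact (v_lt h).2 (by rw [map_sub, map_intCast, hm, sub_self])

end Ty

open Ty

/-- **ECA** -/
theorem eca : ECA := fun _ _ _ _ _ _ _ _ _ _ hU h => Ty.eca hU h

/-- **TYP** -/
theorem typ : TYP := by
  classical
  intro F E _ _ _ _ _ X C Ψ hΨ _ io w l _ c e he ha hs M ⟨κ0, hκ⟩
  have h : Cp ℤ_[l] e := ⟨qinj, he⟩
  obtain ⟨s, hs⟩ := ex_spl hs
  obtain ⟨cu, e0, e00, hu, h2, h3⟩ := M.ex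
  have ha2 : 2 * X.a ∉ w.asIdeal := ha ▸ M.a
  let s' : X.Dw w ≃+* Matrix (Fin 2) (Fin 2) ℚ_[l] := s.toRingEquiv.trans e.mapMatrix
  have hs' : ∀ x, s' (algebraMap _ _ x) = algebraMap ℚ_[l] _ (e x) := fun x => by
    change e.mapMatrix (s _) = _
    rw [s.commutes]
    ext i j
    simp [algebraMap_matrix_apply, apply_ite e]
  let S : (X.Dw w)ˣ →* GL (Fin 2) (Fw w) := Units.map s.toRingEquiv.toMonoidHom
  let V := (Km ℤ_[l] ℚ_[l] 1 ⊔ Zl ℚ_[l]).comap ((me e).comp S)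
  have hV : ∀ u, u ∈ V ↔ S u ∈ K1 (vw w) := fun u => k1_me h
  have hc : ∀ z ∈ Subgroup.center (GL (Fin 2) (ZMod l)), ∀ g, io (c (z * g)) = io (c g) :=
    fun z hz g => congrArg io (M.cen z hz g)
  let κ : ℂ := if IsSquare (algebraMap (𝓞 F) (Fw w) C.a) then l else -l
  let f0 := f1 (ro e) fun g => io (c g)
  have hπ : ∀ x : X.G, QD.pr s' x = me e (S (X.cu w x)) := fun x => Units.ext rfl
  have hι : ∀ g v, v ≠ w → X.cu v (QD.io s' g) = 1 := fun g v hv => Units.ext (QD.cw_io_ne hv g)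
  refine ⟨V, fun u => f0 (S u), fun u => if u ∈ V then io cu + (io (c 1) - io cu) / κ else f0 (S u),
    κ, (Nat.card (Subgroup.center (GL (Fin 2) (ZMod l))) : ℂ)⁻¹,
    QD.mkLc h hs' PadicInt.irreducible_p, ⟨s, _, 0, 1, f0, io (c 1), io cu, ⟨?_, ?_⟩, one_ne_zero,
      by rw [hs, zero_smul, zero_add, one_smul], typ_f1 h hc (fun g x => congrArg io (M.cls g x))
        fun g a b => congrArg io (hu g a b), fun k hk g => f1_k1 h hc hk g, hV, fun _ => rfl,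
      fun _ => by congr, ?_⟩, fun ε hε => ?_,
    ⟨e, s', he, hs', QD.coe_pr, fun g _ hv => QD.cw_io_ne hv g⟩, fun V' hV' => ?_⟩
  · exact im_of (by simp) ((Ow w).algebraMap_mem _) (by simp) (by simp)
  · have : (!![0, algebraMap (𝓞 F) (Fw w) X.a; 1, 0].trace ^ 2 -
        4 * !![0, algebraMap (𝓞 F) (Fw w) X.a; 1, 0].det) =
        algebraMap (𝓞 F) (Fw w) (2 * (2 * X.a)) := by
      simp [det_fin_two_of, map_ofNat]
      ring
    rw [this, vw, v_int, HeightOneSpectrum.intValuation_eq_one_iff]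
    exact fun k => (w.isPrime.mem_or_mem k).elim (fun k => ha2 (Ideal.mul_mem_right _ _ k)) ha2
  · rw [qw_eq h, ← ha]
    by_cases k : IsSquare (algebraMap (𝓞 F) (Fw w) C.a)
    · exact Or.inl ⟨if_pos k, k⟩
    · exact Or.inr ⟨if_neg k, k⟩
  · have := Nel.fin_sub (C.G1 Set.univ) (C.G1 {P | ¬ Ab w P})
    have key := mul_ne_zero e00.1 (sum_ne ((C.G1 Set.univ).subgroupOf (C.G1 {P | ¬ Ab w P}))
      ((Nel.eH C Ψ).comp (Subgroup.subtype _)) (fun u hu => C.eps_one hΨ hu) e00.2)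
    rw [mul_finsum] at key
    refine fun k => key (Eq.trans (finsum_congr fun q => ?_) k)
    obtain ⟨γ, hγ⟩ := q.out
    obtain ⟨a, t, e1⟩ := C.span (γ : Eˣ)
    obtain ⟨k, k1, k2, k3, k4⟩ := loc_key h hs ha2 (lc_mem hε w γ) (un_lc hε M.mem γ)
    obtain ⟨m, hm⟩ := ZMod.intCast_surjective (PadicInt.toZMod k.val.trace)
    obtain ⟨n, hn⟩ := ZMod.intCast_surjective (PadicInt.toZMod k.val.det)
    have t1 : (rd l k).val.trace = m :=
      (AddMonoidHom.map_trace PadicInt.toZMod k.val).symm.trans hm.symm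
    have t2 : (rd l k).val.det = n := (RingHom.map_det _ k.val).symm.trans hn.symm
    rw [lc_val, tr_loc, (algebraMap F E).injective ((eps hε _).2.2.trans
      (show _ = algebraMap F E (2 * a) by rw [e1, C.c_co, map_mul, map_ofNat]; ring))] at k2
    rw [lc_val, nrd_loc, (algebraMap F E).injective ((eps hε _).2.1.trans
      (by rw [e1, C.nm_co]))] at k3
    obtain ⟨h4, h5⟩ := h3 γ hγ a t m n e1 (v_int_lt h k2 hm) (v_int_lt h k3 hn)
    have mV : X.lc ε w γ ∈ V ↔ rd l k ∈ Subgroup.center _ := by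
      rw [← gK_Kz, ← me_mo e, ← k1]
      rfl
    have hi : Nel.eH C Ψ γ⁻¹ = C.eps Ψ (C.c (γ : Eˣ)) := left_inv_eq_right_inv
      (by rw [← show Nel.eH C Ψ γ = C.eps Ψ (γ : Eˣ) from rfl, ← map_mul, inv_mul_cancel, map_one])
      (eps_nm M.mem hκ hγ)
    change e0.1 * ∑ j ∈ e0.2, (C.eps Ψ (γ : Eˣ) ^ j + Nel.eH C Ψ γ⁻¹ ^ j) * C.eps Ψ (γ : Eˣ) =
      (if X.lc ε w γ ∈ V then _ else _) * C.eps Ψ (γ : Eˣ)
    rw [hi, ← Finset.sum_mul, ← mul_assoc]
    by_cases d : (m : ZMod l) ^ 2 = 4 * n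
    · have h6 := eps_nm M.mem hκ hγ
      rw [h4 d, one_mul] at h6
      rw [if_pos (mV.2 (k4 (by rw [t1, t2, d]))), h4 d, h2, h6]
      simp
      ring
    · rw [if_neg fun b => d ?_, show S (X.lc ε w γ) = mo e k from k1]
      · simp only [f0]
        rw [f1_mo hc, h5 _ t1 t2 d]
      · obtain ⟨b1, b2, b3⟩ := cen_iff.1 (mV.1 b)
        rw [← t1, ← t2, trace_fin_two, det_fin_two, b1, b2, sub_eq_zero.1 b3]
        ring
  have mem : ∀ y, y ∈ X.PU V' ↔ (∀ v, v ≠ w → X.cu v y ∈ V' v) ∧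
      QD.pr s' y ∈ Km ℤ_[l] ℚ_[l] 1 ⊔ Zl ℚ_[l] := fun y => by
    rw [hπ]
    refine Subgroup.mem_iInf.trans ⟨fun a => ⟨fun v _ => a v, (hV' ▸ a w : X.cu w y ∈ V)⟩,
      fun a v => ?_⟩
    by_cases hv : v = w
    · subst hv
      exact (hV'.symm ▸ a.2 : X.cu v y ∈ V' v)
    · exact a.1 v hv
  have mι : ∀ g, QD.io s' g ∈ X.PU V' ↔ g ∈ Km ℤ_[l] ℚ_[l] 1 ⊔ Zl ℚ_[l] := fun g => by
    rw [mem, QD.pr_io, and_iff_right fun v hv => by rw [hι g v hv]; exact one_mem _]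
  refine ⟨⟨fun g hg => (mι g).2 (Subgroup.mem_sup_left hg), fun u hu => ((mem u).1 hu).2⟩,
    fun g hg B _ _ ω hω => ?_⟩
  have hS : ∀ k, S (X.cu w (QD.io s' (gK ℚ_[l] k))) = mo e k := fun k =>
    me_inj e (by rw [← hπ, QD.pr_io, me_mo])
  have gf : ∀ y, X.gf {w} V' g y =
      if ∀ v, v ≠ w → X.cu v y ∈ V' v then f0 (S (X.cu w y)) else 0 := fun y => by
    simp only [QD.gf, Finset.mem_singleton, Finset.prod_singleton, hg]
  refine wk_eq (fun x => QD.io s' (Tw.lf l x)) _ (fun x x' => ?_) (fun x u hu => ?_)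
    (fun y hy => ?_) hω
  · rw [← map_inv, ← map_mul, mι, lf_eq, lf_eq, ← map_inv, ← map_mul, gK_Kz, map_mul, map_inv,
      rd_l0, rd_l0]
  · obtain ⟨u1, u2⟩ := (mem u).1 hu
    rw [gf, if_pos fun v hv => by rw [map_mul, hι _ v hv, one_mul]; exact u1 v hv, map_mul, map_mul,
      lf_eq, hS]
    simp only [f0]
    rw [f1_k1 h hc ((k1_me h).1 (hπ u ▸ u2)), f1_mo hc, rd_l0]
  · rw [gf] at hy
    have y1 : ∀ v, v ≠ w → X.cu v y ∈ V' v := of_not_not fun k => hy (if_neg k)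
    rw [if_pos y1] at hy
    obtain ⟨z, k, hk⟩ := (zv_iff h).1 (of_not_not fun k => hy (f1_zero h k))
    refine ⟨rd l k, (mem _).2 ⟨fun v hv => ?_, ?_⟩⟩
    · rw [map_mul, map_inv, hι _ v hv, inv_one, one_mul]
      exact y1 v hv
    · rw [hπ, k1_me h, map_mul, map_inv, map_mul, map_inv, lf_eq, hS, hk, ← mul_assoc, ← sc_comm,
        mul_assoc, ← map_inv, ← map_mul]
      exact (k1_iff h).2 ⟨z, _, by simp [rd_l0], rfl⟩

end Vale.Agent.P022K.Sh
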