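import Vale.Agent.P022K.F0.WeilA

/-!
# P022K, block F0: row WEIL
-/

set_option autoImplicit false

open UpperHalfPlane MulAction
open scoped MatrixGroups Pointwise

noncomputable section

namespace Vale.Agent.P022K.Sh

open Vale.Agent.P022 Vale.Agent.P022.H218.L3 Vale.Agent.P019P P025H816 P027M.K
  Vale.Agent.P022K.F0.Cf

variable {G0 G : Type} [Group G0] [Group G]

/-- roots of unity as units -/
def eu (n : ℕ) (k : ZMod n) : Additive ℂˣ := Additive.ofMul (Units.mk0 (en n k) (en_ne k))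

theorem eu_add {n : ℕ} (hn : 0 < n) (a b : ZMod n) : eu n (a + b) = eu n a + eu n b :=
  congrArg Additive.ofMul (Units.ext (en_add hn a b))

theorem eu_zero (n : ℕ) : eu n 0 = 0 := congrArg Additive.ofMul (Units.ext (en_zero n))

theorem eu_inj {n : ℕ} (hn : 0 < n) {a b : ZMod n} (h : eu n a = eu n b) : a = b :=
  en_inj hn (congrArg (fun x : Additive ℂˣ => (x.toMul : ℂ)) h)

theorem ex_eu {n : ℕ} (hn : 0 < n) {x : Additive ℂˣ} (h : n • x = 0) : ∃ a, eu n a = x := by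
  obtain ⟨a, ha⟩ := ex_eM hn (y := algebraMap ℂ Mer (x.toMul : ℂˣ)) (by
    rw [← map_pow, ← Units.val_pow_eq_pow_val, ← toMul_nsmul, h, toMul_zero, Units.val_one, map_one])
  exact ⟨a, Additive.toMul.injective (Units.ext ((algebraMap ℂ Mer).injective ha.symm))⟩

theorem aU_eu {n : ℕ} (hn : 0 < n) {σ : ℂ ≃+* ℂ} {k : ZMod n} (h : σ (en n 1) = en n k)
    (a : ZMod n) : aU σ (eu n a) = eu n (k * a) := by
  have : NeZero n := ⟨hn.ne'⟩
  refine congrArg Additive.ofMul (Units.ext ?_)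
  show σ (en n a) = en n (k * a)
  have e : ∀ b : ZMod n, b * a = a.val • b := fun b => by
    rw [nsmul_eq_mul, ZMod.natCast_zmod_val, mul_comm]
  rw [e, en_nsmul hn, ← h, ← map_pow, ← en_nsmul hn, ← e, one_mul]

theorem bij_dual {n : ℕ} (hn : 0 < n) {M : Type} [AddCommGroup M] [Module (ZMod n) M] [Finite M]
    {e : M →ₗ[ZMod n] M →ₗ[ZMod n] ZMod n} (h : Function.Injective e) : Function.Bijective e := by
  have : NeZero n := ⟨hn.ne'⟩
  have : NeZero (Monoid.exponent (Multiplicative M)) := ⟨Monoid.exponent_ne_zero_of_finite⟩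
  have c := CommGroup.card_monoidHom_of_hasEnoughRootsOfUnity (Multiplicative M) ℂ
  have : Finite (Multiplicative M →* ℂˣ) :=
    Nat.finite_of_card_ne_zero (by rw [c]; exact Nat.card_pos.ne')
  let F : (M →ₗ[ZMod n] ZMod n) → Multiplicative M →* ℂˣ := fun l =>
    MonoidHom.mk' (fun x => (eu n (l x.toAdd)).toMul) fun x y => by
      rw [toAdd_mul, map_add, eu_add hn, toMul_add]
  have hF : Function.Injective F := fun l l' e => LinearMap.ext fun x =>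
    eu_inj hn (Additive.toMul.injective (DFunLike.congr_fun e (Multiplicative.ofAdd x)))
  have := Finite.of_injective F hF
  exact (Nat.bijective_iff_injective_and_card _).2 ⟨h, le_antisymm
    (Nat.card_le_card_of_injective _ h) ((Nat.card_le_card_of_injective _ hF).trans c.le)⟩

namespace Tw

variable {T : Tw G0 G} {U U' : Subgroup G} {n : ℕ} {φ φ' ψ ψ' : G → Mer}

variable (T) in
/-- functions of level `U` whose orders are divisible by `n` -/
def KD (n : ℕ) (U : Subgroup G) (φ : G → Mer) : Prop := φ ∈ T.RU U ∧ ∀ x, Dv n (φ x)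

theorem KD.kd (h : T.KD n U φ) (x : G) : T.Kd n (T.Gam U x) (φ x) := ⟨RU_KF h.1 x, h.2 x⟩

theorem o_smul (h : φ ∈ T.RU U) (γ : G0) (p : T.XU U) : φ (γ • p).o = T.act γ (φ p.o) := by
  rw [← h.1]
  exact inv_xm (T := T) h.2 (by rw [xm_o, ← smul_xm, xm_o])

theorem KD.ev (h : T.KD n U φ) : T.Ev n fun p : T.XU U => φ p.o :=
  ⟨o_smul h.1, fun _ => h.2 _⟩

theorem kd_of_rq (h : φ ∈ T.RU U) (d : ∀ c : T.DC U, Dv n (φ (rq c))) : T.KD n U φ :=
  ⟨h, fun x => by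
    obtain ⟨γ, u, hu, e⟩ := ex_rq (T := T) (U := U) x
    rw [e, RU_val h _ _ hu]
    exact (d _).actM _⟩

variable (T) in
/-- the pairing of level `U` on functions -/
def eU (n : ℕ) (U : Subgroup G) (φ ψ : G → Mer) : Additive ℂˣ :=
  T.eX n (fun p : T.XU U => φ p.o) fun p => ψ p.o

theorem eU_skew (φ ψ : G → Mer) : T.eU n U ψ φ = -T.eU n U φ ψ := eX_skew _ _

theorem eU_eq [Fintype (T.DC U)] (φ ψ : G → Mer) :
    T.eU n U φ ψ = ∑ c : T.DC U, T.eG n (T.Gam U (rq c)) (φ (rq c)) (ψ (rq c)) := by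
  rw [eU, eX, finsum_eq_sum_of_fintype]
  exact Finset.sum_congr rfl fun c _ => by rw [eF, stab_o]; rfl

variable (T) in
/-- `φ` is the Kummer function of the class `a` -/
def KR (n : ℕ) (U : Subgroup G) (a : T.Hc (ZMod n) (ZMod n) U) (φ : G → Mer) : Prop :=
  ∃ z h, T.mh z = a ∧ T.Kum n U h z.1 ∧ h ^ n = φ

variable {a a' b b' : T.Hc (ZMod n) (ZMod n) U}

theorem KR.kd (hn : 0 < n) (h : T.KR n U a φ) : T.KD n U φ := by
  obtain ⟨z, h, -, k, rfl⟩ := h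
  exact ⟨k.pow_mem hn, fun x => dv_pow n (k.1 x)⟩

theorem KR.add (hn : 0 < n) (h : T.KR n U a φ) (h' : T.KR n U b ψ) :
    T.KR n U (a + b) (φ * ψ) := by
  obtain ⟨z, h, rfl, k, rfl⟩ := h
  obtain ⟨z', h', rfl, k', rfl⟩ := h'
  exact ⟨z + z', h * h', rfl, k.mul hn k', mul_pow _ _ _⟩

theorem KR.eq_iff (hn : 0 < n) (h : T.KR n U a φ) (h' : T.KR n U b ψ) :
    a = b ↔ ∃ y ∈ T.RU U, φ = ψ * y ^ n := by
  obtain ⟨z, h, rfl, k, rfl⟩ := h
  obtain ⟨z', h', rfl, k', rfl⟩ := h'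
  exact mh_eq.trans (k.cob hn k')

theorem kr_zero : T.KR n U 0 1 := ⟨0, 1, rfl, kum_RU (one_mem _) fun _ => one_ne_zero, one_pow _⟩

theorem KR.hC (hn : 0 < n) {O : Set G} (c : Cor U' O U) (h : T.KR n U a φ) :
    T.KR n U' (T.hC (ZMod n) (ZMod n) c a) (hp O U φ) := by
  obtain ⟨z, h, rfl, k, rfl⟩ := h
  refine ⟨T.hZ _ c z, hp O U h, rfl, ⟨fun x => ?_, hp_invC c k.2.1, fun γ x => ?_⟩,
    funext fun x => ?_⟩
  · rw [c.rep.hp k.2.1]
    exact Finset.prod_ne_zero_iff.2 fun i _ => k.1 _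
  · show _ = eM n (hk O U (z.1 γ) x) * _
    rw [c.rep.hp k.2.1, c.rep.hp k.2.1, hk_eq c, eM_sum hn, map_prod, ← Finset.prod_mul_distrib]
    exact Finset.prod_congr rfl fun i _ => by rw [mul_assoc, k.eq]
  · rw [Pi.pow_apply, c.rep.hp k.2.1, c.rep.hp (k.pow_mem hn).2, ← Finset.prod_pow]
    rfl

section

variable (ok : T.Ok) (hU : U ∈ T.Lev)

include ok hU

theorem Ok.ex_kr (hn : 0 < n) (a : T.Hc (ZMod n) (ZMod n) U) : ∃ φ, T.KR n U a φ := by
  obtain ⟨z, rfl⟩ := mh_surj a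
  obtain ⟨h, k⟩ := ex_kum ok T.poi hU hn z.2
  exact ⟨_, z, h, rfl, k, rfl⟩

theorem Ok.ex_kr' (hn : 0 < n) (h : T.KD n U φ) : ∃ a, T.KR n U a φ := by
  obtain ⟨h, z, k, e⟩ := ex_kum_root hn h.1 (fun x => (h.2 x).1) fun x => (h.2 x).mord
  exact ⟨_, ⟨z, k.mem ok hU hn⟩, h, rfl, k, e⟩

variable (nU : T.Neat U)

include nU

theorem Ok.gd (x : G) : T.Gd (T.Gam U x) := ⟨ok.fu U hU x, nU.fr x⟩

theorem Ok.gd' (p : T.XU U) : T.Gd (stabilizer G0 p) := stab_o p ▸ ok.gd hU nU _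

variable (hn : 0 < n)

include hn

theorem Ok.eU_mul (h : T.KD n U φ) (h' : T.KD n U φ') (k : T.KD n U ψ) :
    T.eU n U (φ * φ') ψ = T.eU n U φ ψ + T.eU n U φ' ψ := by
  have := ok.finDC hU
  have := Fintype.ofFinite (T.DC U)
  simp only [eU_eq, ← Finset.sum_add_distrib]
  exact Finset.sum_congr rfl fun c _ => (ok.gd hU nU _).e_mul hn (h.kd _) (h'.kd _) (k.kd _)

theorem Ok.eU_left (h : T.KR n U a φ) (h' : T.KR n U a φ') (k : T.KD n U ψ) :
    T.eU n U φ ψ = T.eU n U φ' ψ := by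
  have := ok.finDC hU
  have := Fintype.ofFinite (T.DC U)
  obtain ⟨y, hy, e⟩ := (h.eq_iff hn h').1 rfl
  have y0 : ∀ x, y x ≠ 0 := fun x e0 => ((h.kd hn).2 x).1 (by
    rw [e, Pi.mul_apply, Pi.pow_apply, e0, zero_pow hn.ne', mul_zero])
  rw [e, ok.eU_mul hU nU hn (h'.kd hn) ⟨pow_mem hy n, fun x => dv_pow n (y0 x)⟩ k, eU_eq (y ^ n),
    add_eq_left]
  exact Finset.sum_eq_zero fun c _ => (ok.gd hU nU _).e_pow hn (RU_KF hy _) (y0 _) (k.kd _)

theorem Ok.ex_e : ∃ e : T.Hc (ZMod n) (ZMod n) U →ₗ[ZMod n] T.Hc (ZMod n) (ZMod n) U →ₗ[ZMod n]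
    ZMod n, ∀ a b φ ψ, T.KR n U a φ → T.KR n U b ψ → eu n (e a b) = T.eU n U φ ψ := by
  have := ok.finDC hU
  have := Fintype.ofFinite (T.DC U)
  choose k hk using ok.ex_kr hU hn
  have : ∀ a b, ∃ t, eu n t = T.eU n U (k a) (k b) := fun a b => ex_eu hn (by
    rw [eU_eq, ← Finset.sum_nsmul]
    exact Finset.sum_eq_zero fun c _ =>
      (ok.gd hU nU _).e_nsmul hn (((hk a).kd hn).kd _) (((hk b).kd hn).kd _))
  choose t ht using this
  have e : ∀ a b φ ψ, T.KR n U a φ → T.KR n U b ψ → eu n (t a b) = T.eU n U φ ψ :=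
    fun a b φ ψ h h' => by
      rw [ht, ok.eU_left hU nU hn (hk a) h ((hk b).kd hn), eU_skew,
        ok.eU_left hU nU hn (hk b) h' (h.kd hn), ← eU_skew]
  have l : ∀ a a' b, t (a + a') b = t a b + t a' b := fun a a' b => eu_inj hn (by
    rw [eu_add hn, ht a, ht a', e _ _ _ _ ((hk a).add hn (hk a')) (hk b),
      ok.eU_mul hU nU hn ((hk a).kd hn) ((hk a').kd hn) ((hk b).kd hn)])
  have r : ∀ a b b', t a (b + b') = t a b + t a b' := fun a b b' => eu_inj hn (by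
    rw [eu_add hn, ht a b, ht a b', e _ _ _ _ (hk a) ((hk b).add hn (hk b')), eU_skew,
      ok.eU_mul hU nU hn ((hk b).kd hn) ((hk b').kd hn) ((hk a).kd hn), neg_add, ← eU_skew,
      ← eU_skew])
  exact ⟨(AddMonoidHom.mk' (fun a => (AddMonoidHom.mk' (t a) (r a)).toZModLinearMap n)
    fun a a' => LinearMap.ext (l a a')).toZModLinearMap n, e⟩

theorem Ok.fin_Hc : Finite (T.Hc (ZMod n) (ZMod n) U) := by
  have := ok.finDC hU
  choose k hk using ok.ex_kr hU hn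
  choose I hI κ hκ using fun c : T.DC U => (ok.gd hU nU (rq c)).fin hn
  refine Finite.of_injective (fun a c => κ c (k a (rq c))) fun a b e => ?_
  choose y h1 h2 using fun c => hκ c _ _ (((hk b).kd hn).kd _) (((hk a).kd hn).kd _)
    (congrFun e c).symm
  obtain ⟨Y, hY, e⟩ := glue y h1
  exact ((hk a).eq_iff hn (hk b)).2 ⟨Y, hY, RU.ext ((hk a).kd hn).1
    (mul_mem ((hk b).kd hn).1 (pow_mem hY n)) fun c => by
      rw [h2, Pi.mul_apply, Pi.pow_apply, e]⟩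

theorem Ok.eU_nondeg (h : T.KR n U a φ) (l : ∀ ψ, T.KD n U ψ → T.eU n U φ ψ = 0) : a = 0 := by
  classical
  have := ok.finDC hU
  have := Fintype.ofFinite (T.DC U)
  have : ∀ c : T.DC U, ∃ y ∈ T.KF (T.Gam U (rq c)), y ^ n = φ (rq c) := fun c =>
    (ok.gd hU nU _).e_nondeg hn ((h.kd hn).kd _) fun g hg => by
      have m : ∀ d : T.DC U, T.Kd n (T.Gam U (rq d)) (if d = c then g else 1) := fun d => by
        split_ifs with e
        · exact e ▸ hg
        · exact kd_one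
      obtain ⟨ψ, h1, h2⟩ := glue _ fun d => (m d).1
      have := l ψ (kd_of_rq h1 fun d => h2 d ▸ (m d).2)
      rwa [eU_eq, Finset.sum_eq_single c (fun d _ e => by
        rw [h2, if_neg e, eG_skew, (ok.gd hU nU _).e_one hn ((h.kd hn).kd _), neg_zero])
        (by simp), h2, if_pos rfl] at this
  choose y h1 h2 using this
  obtain ⟨Y, hY, e⟩ := glue y h1
  exact (h.eq_iff hn kr_zero).2 ⟨Y, hY, RU.ext (h.kd hn).1
    (mul_mem (one_mem _) (pow_mem hY n)) fun c => by rw [← h2, one_mul, Pi.pow_apply, e]⟩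

theorem Ok.eU_gal {σ : ℂ ≃+* ℂ} {θ : (G → Mer) → G → Mer} (s : T.Sl σ θ) (h : T.KD n U φ)
    (k : T.KD n U ψ) (h' : T.KD n U (θ φ)) (k' : T.KD n U (θ ψ)) :
    T.eU n U (θ φ) (θ ψ) = aU σ (T.eU n U φ ψ) := by
  classical
  have := ok.finDC hU
  have := Fintype.ofFinite (T.DC U)
  choose x hx using fun c : T.DC U => s.is.ex_comp hU (rq c)
  choose t t1 t2 using fun c : T.DC U => s.is.ex_equiv hU (hx c)
  have inj : Function.Injective fun c => T.cls U (x c) := fun c d e => by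
    by_contra ne
    obtain ⟨i, h1, h2⟩ := glue (fun d : T.DC U => if d = c then (0 : Mer) else 1) fun d => by
      split_ifs
      exacts [zero_mem _, one_mem _]
    obtain ⟨γ, u, hu, e⟩ := cls_eq.1 e.symm
    have e1 := (t2 d i h1).trans ((congrArg (θ i) e).trans (RU_val (s.mem U hU i h1) _ _ hu))
    rw [hx c i h1 (by rw [h2, if_pos rfl]), map_zero, ZeroMemClass.coe_eq_zero, map_eq_zero] at e1
    exact one_ne_zero ((if_neg (Ne.symm ne)).symm.trans ((h2 d).symm.trans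
      (congrArg Subtype.val e1)))
  rw [eU_eq φ, map_sum, eU, eX, finsum_eq_sum_of_fintype,
    ← (Finite.injective_iff_bijective.1 inj).sum_comp]
  refine Finset.sum_congr rfl fun c _ => ?_
  refine (eF_orb (ok.gd' hU nU) hn h'.ev k'.ev (orb_out (orb G0 (T.xm U (x c))))).trans ?_
  rw [eF, stab_xm, inv_xm (T := T) h'.1.2 (xm_o _), inv_xm (T := T) k'.1.2 (xm_o _), ← t2 c φ h.1, ← t2 c ψ k.1]
  exact (ok.gd hU nU _).e_semi hn (ok.gd hU nU _) (t c) (t1 c) (h.kd _) (k.kd _)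

/-- push forward along one projection of a correspondence -/
theorem Ok.eU_push {V : Subgroup G} (hV : V ∈ T.Lev) {O : Set G} (c : Cor U O V) {P : Type}
    [MulAction G0 P] {π : P → T.XU U} {ρ : P → T.XU V} (hπ : ∀ (γ : G0) p, π (γ • p) = γ • π p)
    (hρ : ∀ (γ : G0) p, ρ (γ • p) = γ • ρ p) (inj : ∀ p q, π p = π q → ρ p = ρ q → p = q)
    (im : ∀ x y, (∃ p, π p = x ∧ ρ p = y) ↔ x.o⁻¹ * y.o ∈ O) (h : T.KD n V φ) (k : T.KD n U ψ) :
    T.eX n (fun p => φ (ρ p).o) (fun p => ψ (π p).o) = T.eU n U (hp O V φ) ψ := by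
  have := ok.finDC hU
  have i2 : ∀ p q, π p = π q → ((π p).o⁻¹ * (ρ p).o)⁻¹ * ((π p).o⁻¹ * (ρ q).o) ∈ V → p = q :=
    fun p q e m => inj p q e (by
      rw [← xm_o (ρ p), ← xm_o (ρ q), xm_eq]
      simpa [mul_assoc] using m)
  have fi : ∀ x, (π ⁻¹' {x}).Finite := fun x => by
    refine Set.Finite.of_finite_image (f := fun p => ((x.o⁻¹ * (ρ p).o : G) : G ⧸ V))
      (c.fin.subset ?_) ?_
    · rintro _ ⟨p, hp, rfl⟩
      have := c.right _ ((im _ _).1 ⟨p, hp, rfl⟩) _ (out_mk_mem V (x.o⁻¹ * (ρ p).o))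
      rwa [mul_inv_cancel_left] at this
    · rintro p rfl q hq e
      exact i2 p q hq.symm (QuotientGroup.eq.1 e)
  have z : ∀ {W}, W ∈ T.Lev → ∀ γ ∈ T.Z0, ∀ x : T.XU W, γ • x = x := fun hW γ hγ x =>
    mem_stabilizer_iff.1 (stab_o x ▸ (ok.fu _ hW _).z0 hγ)
  refine (eX_adj hπ fi (ok.gd' hU nU) (fun p γ hγ => inj _ _ (by rw [hπ, z hU γ hγ])
    (by rw [hρ, z hV γ hγ])) hn (φ := fun p => φ (ρ p).o)
    ⟨fun γ p => by simp only [hρ, o_smul h.1], fun p => h.2 _⟩ k.ev).trans ?_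
  refine congrArg (T.eX n · _) (funext fun x => ?_)
  have R : Rep O V (fi x).toFinset fun p => x.o⁻¹ * (ρ p).o := by
    refine ⟨c.right, fun p hp => (im _ _).1 ⟨p, (fi x).mem_toFinset.1 hp, rfl⟩,
      fun p hp q hq m => ?_, fun y hy => ?_⟩
    · rw [Set.Finite.mem_toFinset] at hp hq
      obtain rfl : π p = x := hp
      exact i2 p q hq.symm m
    · have m := xm_eq.1 (xm_o (T.xm V (x.o * y)))
      obtain ⟨p, h1, h2⟩ := (im x (T.xm V (x.o * y))).2 (by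
        simpa [mul_assoc] using c.right y hy _ (inv_mem m))
      exact ⟨p, (fi x).mem_toFinset.2 h1, by simpa [h2, mul_assoc] using m⟩
  rw [R.hp h.1.2]
  simp only [mul_inv_cancel_left]

end

variable (T U U') in
/-- the curve of a correspondence -/
def PC (O : Set G) : Type := {p : T.XU U' × T.XU U // p.1.o⁻¹ * p.2.o ∈ O}

theorem mem_PC {O : Set G} (c : Cor U' O U) {x y : G} :
    (T.xm U' x).o⁻¹ * (T.xm U y).o ∈ O ↔ x⁻¹ * y ∈ O := by
  have m := xm_eq.1 (xm_o (T.xm U' x))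
  have m' := xm_eq.1 (xm_o (T.xm U y))
  refine ⟨fun h => ?_, fun h => ?_⟩
  · simpa [mul_assoc] using c.right _ (c.left _ (inv_mem m) _ h) _ m'
  · simpa [mul_assoc] using c.right _ (c.left _ m _ h) _ (inv_mem m')

/-- the action on the curve of a correspondence -/
@[reducible] def actPC {O : Set G} (c : Cor U' O U) : MulAction G0 (T.PC U U' O) where
  smul γ p := ⟨γ • p.1, by
    have := p.2
    rw [Prod.smul_fst, Prod.smul_snd, ← xm_o p.1.1, ← xm_o p.1.2, smul_xm, smul_xm, mem_PC c]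
    simpa [mul_assoc] using this⟩
  one_smul p := Subtype.ext (one_smul _ _)
  mul_smul γ δ p := Subtype.ext (mul_smul _ _ _)

theorem Ok.eU_adj (ok : T.Ok) (hU : U ∈ T.Lev) (nU : T.Neat U) (hU' : U' ∈ T.Lev) (nU' : T.Neat U')
    (hn : 0 < n) {O : Set G} (c : Cor U' O U) (c' : Cor U O⁻¹ U') (h : T.KD n U φ)
    (k : T.KD n U' ψ) : T.eU n U' (hp O U φ) ψ = T.eU n U φ (hp O⁻¹ U' ψ) := by
  let := actPC (T := T) c
  rw [← ok.eU_push hU' nU' hn hU c (P := T.PC U U' O) (π := fun p => p.1.1) (ρ := fun p => p.1.2)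
    (fun _ _ => rfl) (fun _ _ => rfl) (fun p q e e' => Subtype.ext (Prod.ext e e'))
    (fun x y => ⟨fun ⟨p, e, e'⟩ => e ▸ e' ▸ p.2, fun m => ⟨⟨(x, y), m⟩, rfl, rfl⟩⟩) h k, eX_skew,
    ok.eU_push hU nU hn hU' c' (P := T.PC U U' O) (π := fun p => p.1.2) (ρ := fun p => p.1.1)
    (fun _ _ => rfl) (fun _ _ => rfl) (fun p q e e' => Subtype.ext (Prod.ext e' e))
    (fun x y => ⟨fun ⟨p, e, e'⟩ => e ▸ e' ▸ by simpa using p.2,
      fun m => ⟨⟨(y, x), by simpa using m⟩, rfl, rfl⟩⟩) k h, ← eU_skew]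

theorem IsGal.kr {θ : (G → Mer) → G → Mer} (h : T.IsGal θ n U a a') :
    ∃ φ, T.KR n U a φ ∧ T.KR n U a' (θ φ) := by
  obtain ⟨z, z', e, e', l⟩ := h
  obtain ⟨h, h', k, k', e1⟩ := l (AddMonoidHom.id _)
  exact ⟨_, ⟨z, h, e, k, rfl⟩, z', h', e', k', e1.symm⟩

theorem Ok.weil (ok : T.Ok) : T.WEIL := fun n hn => by
  have : ∀ U, ∃ e : T.Hc (ZMod n) (ZMod n) U →ₗ[ZMod n] T.Hc (ZMod n) (ZMod n) U →ₗ[ZMod n] ZMod n,
      U ∈ T.Lev → T.Neat U → ∀ a b φ ψ, T.KR n U a φ → T.KR n U b ψ →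
        eu n (e a b) = T.eU n U φ ψ := fun U => by
    by_cases h : U ∈ T.Lev ∧ T.Neat U
    · exact (ok.ex_e h.1 h.2 hn).imp fun _ h _ _ => h
    · exact ⟨0, fun h1 h2 => (h ⟨h1, h2⟩).elim⟩
  choose e he using this
  refine ⟨e, fun U hU nU => ⟨?_, fun a => ?_⟩, fun U hU nU U' hU' nU' O c c' a b => ?_,
    fun U hU nU σ θ s k hk a a' b b' ha hb => ?_⟩
  · have := ok.fin_Hc hU nU hn
    refine bij_dual hn ((injective_iff_map_eq_zero _).2 fun a h0 => ?_)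
    obtain ⟨φ, h⟩ := ok.ex_kr hU hn a
    refine ok.eU_nondeg hU nU hn h fun ψ k => ?_
    obtain ⟨b, k⟩ := ok.ex_kr' hU hn k
    rw [← he U hU nU a b φ ψ h k, h0, LinearMap.zero_apply, eu_zero]
  · have := ok.finDC hU
    have := Fintype.ofFinite (T.DC U)
    obtain ⟨φ, h⟩ := ok.ex_kr hU hn a
    refine eu_inj hn ?_
    rw [he U hU nU a a φ φ h h, eu_zero, eU_eq]
    exact Finset.sum_eq_zero fun c _ => (ok.gd hU nU _).e_self ((h.kd hn).kd _)
  · obtain ⟨φ, h⟩ := ok.ex_kr hU hn a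
    obtain ⟨ψ, k⟩ := ok.ex_kr hU' hn b
    refine eu_inj hn ?_
    rw [he U' hU' nU' _ _ _ _ (h.hC hn c) k, he U hU nU _ _ _ _ h (k.hC hn c'),
      ok.eU_adj hU nU hU' nU' hn c c' (h.kd hn) (k.kd hn)]
  · obtain ⟨φ, h, h'⟩ := ha.kr
    obtain ⟨ψ, l, l'⟩ := hb.kr
    refine eu_inj hn ?_
    rw [he U hU nU _ _ _ _ h' l', ← aU_eu hn hk, he U hU nU _ _ _ _ h l,
      ok.eU_gal hU nU hn s (h.kd hn) (l.kd hn) (h'.kd hn) (l'.kd hn)]

end Tw

/-- **WEIL** -/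
theorem weil : All fun T => T.WEIL := fun _ _ _ _ _ ok => ok.weil

end Vale.Agent.P022K.Sh
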