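import Vale.Agent.P022K.F0.Wt

/-!
# P022K, block F0: functoriality of the weight matrices
-/

set_option autoImplicit false

open Polynomial
open scoped MatrixGroups

noncomputable section

namespace Vale.Agent.P022K.Sh.Ap

variable {R S ι : Type} [CommRing R] [CommRing S]

theorem sy_smul (w : ℕ) (c : R) (A : Matrix (Fin 2) (Fin 2) R) :
    sy w (c • A) = c ^ w • sy w A := by
  ext j k
  have e : mon w (c • A) j = C (c ^ w) * mon w A j := by
    rw [show c ^ w = c ^ (j : ℕ) * c ^ (w - j) by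
      rw [← pow_add, Nat.add_sub_cancel' (Nat.lt_succ_iff.1 j.2)]]
    simp only [mon, Matrix.smul_apply, smul_eq_mul, C_mul, C_pow, mul_assoc, ← mul_add, mul_pow]
    ring
  rw [Matrix.smul_apply, sy_apply, sy_apply, e, coeff_C_mul, smul_eq_mul]

theorem sy_mem (O : Subring R) (w : ℕ) {A : Matrix (Fin 2) (Fin 2) R} (h : ∀ i j, A i j ∈ O)
    (j k : Fin (w + 1)) : sy w A j k ∈ O := by
  have e : A = (Matrix.of fun i j => (⟨A i j, h i j⟩ : O)).map O.subtype := rfl
  rw [e, sy_map]
  exact Subtype.prop _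

theorem syd_apply (m : ℕ) (g : GL (Fin 2) R) (j k : Fin (2 * m + 1)) :
    syd m g j k = ((g.det⁻¹ ^ m : Rˣ) : R) * sy (2 * m) g.val j k := rfl

theorem syd_map (f : R →+* S) (m : ℕ) (g : GL (Fin 2) R) :
    syd m (Matrix.GeneralLinearGroup.map f g) = (syd m g).map f := by
  ext j k
  rw [Matrix.map_apply, syd_apply, syd_apply, map_mul, Matrix.GeneralLinearGroup.map_det,
    ← map_inv, ← map_pow]
  exact congrArg _ (congrFun (congrFun (sy_map f (2 * m) g.val) j) k)

theorem syd_scalar (m : ℕ) {g : GL (Fin 2) R} {c : R} (h : g.val = algebraMap R _ c) :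
    syd m g = 1 := by
  have e : ((g.det ^ m : Rˣ) : R) = c ^ (2 * m) := by
    rw [Units.val_pow_eq_pow_val, Matrix.GeneralLinearGroup.val_det_apply, h,
      Algebra.algebraMap_eq_smul_one, Matrix.det_smul, Matrix.det_one, mul_one, Fintype.card_fin,
      pow_mul]
  show ((g.det⁻¹ ^ m : Rˣ) : R) • sy (2 * m) g.val = 1
  rw [h, Algebra.algebraMap_eq_smul_one, sy_smul, map_one, smul_smul, ← e, ← Units.val_mul,
    ← mul_pow, inv_mul_cancel, one_pow, Units.val_one, one_smul]

variable [Fintype ι] [DecidableEq ι]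

/-- the weight matrix of a family -/
def W (m : ℕ) : (ι → GL (Fin 2) R) →* Matrix (ι → Fin (2 * m + 1)) (ι → Fin (2 * m + 1)) R :=
  wm m fun i => Pi.evalMonoidHom (fun _ => GL (Fin 2) R) i

theorem W_apply (m : ℕ) (g : ι → GL (Fin 2) R) (a b : ι → Fin (2 * m + 1)) :
    W m g a b = ∏ i, syd m (g i) (a i) (b i) := rfl

theorem wm_eq {Γ : Type} [Group Γ] (m : ℕ) (s : ι → Γ →* GL (Fin 2) R) (γ : Γ) :
    wm m s γ = W m fun i => s i γ := rfl

theorem W_map (f : R →+* S) (m : ℕ) (g : ι → GL (Fin 2) R) :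
    W m (fun i => Matrix.GeneralLinearGroup.map f (g i)) = (W m g).map f := by
  ext a b
  simp only [W_apply, Matrix.map_apply, map_prod, syd_map]

theorem W_congr (m : ℕ) {g g' : ι → GL (Fin 2) R}
    (h : ∀ i, ∃ c : R, (g i * (g' i)⁻¹).val = algebraMap R _ c) : W m g = W m g' := by
  ext a b
  refine Finset.prod_congr rfl fun i _ => ?_
  obtain ⟨c, e⟩ := h i
  show syd m (g i) _ _ = syd m (g' i) _ _
  rw [← inv_mul_cancel_right (g i) (g' i), map_mul, syd_scalar m e, one_mul]

/-- a matrix with integral entries and integral inverse -/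
theorem ex_GL (O : Subring R) {g : GL (Fin 2) R} (h : ∀ i j, g.val i j ∈ O)
    (h' : ∀ i j, (g⁻¹).val i j ∈ O) :
    ∃ k : GL (Fin 2) O, Matrix.GeneralLinearGroup.map O.subtype k = g := by
  have i : Function.Injective (O.subtype.mapMatrix (m := Fin 2)) :=
    Matrix.map_injective O.subtype_injective
  exact ⟨⟨Matrix.of fun i j => ⟨_, h i j⟩, Matrix.of fun i j => ⟨_, h' i j⟩,
    i (by rw [map_mul, map_one]; exact g.mul_inv), i (by rw [map_mul, map_one]; exact g.inv_mul)⟩,
    Units.ext rfl⟩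

theorem W_mem (O : Subring R) (m : ℕ) {g : ι → GL (Fin 2) R} (h : ∀ t i j, (g t).val i j ∈ O)
    (h' : ∀ t i j, ((g t)⁻¹).val i j ∈ O) (a b : ι → Fin (2 * m + 1)) : W m g a b ∈ O := by
  choose k hk using fun t => ex_GL O (h t) (h' t)
  rw [← funext hk, W_map]
  exact Subtype.prop _

/-- congruences -/
theorem W_cong (O : Subring R) (J : Ideal O) (m : ℕ) {g : ι → GL (Fin 2) R}
    (h : ∀ t i j, ∃ y ∈ J, ((g t).val - 1) i j = y)
    (h' : ∀ t i j, ((g t)⁻¹).val i j ∈ O) (a b : ι → Fin (2 * m + 1)) :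
    ∃ y ∈ J, (W m g - 1) a b = y := by
  have o : ∀ {n : Type} [DecidableEq n] (i j : n),
      (1 : Matrix n n R) i j = ((1 : Matrix n n O) i j : R) := fun i j => by
    simp only [Matrix.one_apply]
    split_ifs <;> rfl
  choose k hk using fun t => ex_GL O (g := g t) (fun i j => by
    obtain ⟨y, -, e⟩ := h t i j
    rw [Matrix.sub_apply, sub_eq_iff_eq_add, o] at e
    exact e ▸ add_mem y.2 (Subtype.prop _)) (h' t)
  have e : W m (fun t => Matrix.GeneralLinearGroup.map (Ideal.Quotient.mk J) (k t)) = 1 := by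
    rw [← map_one (W m)]
    refine congrArg _ (funext fun t => Units.ext (Matrix.ext fun i j => ?_))
    obtain ⟨y, hy, e⟩ := h t i j
    rw [← hk, Matrix.sub_apply, o] at e
    have : (k t).val i j - (1 : Matrix _ _ O) i j = y := Subtype.ext e
    exact (Ideal.Quotient.eq.2 (this ▸ hy)).trans
      (congrFun (congrFun (map_one (Ideal.Quotient.mk J).mapMatrix) i) j)
  rw [W_map] at e
  refine ⟨(W m k - 1) a b, ?_, by rw [← funext hk, W_map, Matrix.sub_apply, o]; rfl⟩
  exact Ideal.Quotient.eq.1 ((congrFun (congrFun e a) b).trans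
    (congrFun (congrFun (map_one (Ideal.Quotient.mk J).mapMatrix) a) b).symm)

end Vale.Agent.P022K.Sh.Ap
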