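import Vale.Agent.P022K.F0.Apx
import Vale.Agent.P022K.F0.Aut

/-!
# P022K, block F0, row EMB: `p`-adic embeddings extend to the completions
-/

set_option autoImplicit false

open NumberField IsDedekindDomain IsDedekindDomain.HeightOneSpectrum

noncomputable section

namespace Vale.Agent.P022K.Sh

namespace EmbA

variable {F C : Type} [Field F] [NumberField F] [NormedField C] [IsUltrametricDist C]
  (f : F →+* C)

omit [NumberField F] in
theorem norm_int_le (a : 𝓞 F) : ‖f a‖ ≤ 1 := by
  have h : IsIntegral ℤ (f a) := a.isIntegral_coe.map f.toIntAlgHom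
  let v : Valuation C NNReal := NormedField.valuation
  have hv := Valuation.integer.integers v
  have h1 : IsIntegral v.integer (f a) := h.tower_top
  exact hv.mem_of_integral h1

/-- the prime of an embedding -/
def prm : Ideal (𝓞 F) where
  carrier := {x | ‖f x‖ < 1}
  add_mem' {a b} ha hb := by
    change ‖f ((a : F) + b)‖ < 1
    rw [map_add]
    exact (IsUltrametricDist.norm_add_le_max _ _).trans_lt (max_lt ha hb)
  zero_mem' := by simp
  smul_mem' c x hx := by
    change ‖f ((c : F) * x)‖ < 1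
    rw [map_mul, norm_mul]
    exact mul_lt_one_of_nonneg_of_lt_one_right (norm_int_le f c) (norm_nonneg _) hx

omit [NumberField F] in
theorem mem_prm {x : 𝓞 F} : x ∈ prm f ↔ ‖f x‖ < 1 := Iff.rfl

omit [NumberField F] in
theorem prm_prime : (prm f).IsPrime := by
  refine ⟨fun h => ?_, fun {a b} h => ?_⟩
  · have h1 : (1 : 𝓞 F) ∈ prm f := h ▸ Submodule.mem_top
    simp [mem_prm] at h1
  · by_contra hc
    simp only [mem_prm, not_or, not_lt] at hc
    change ‖f ((a : F) * b)‖ < 1 at h
    rw [map_mul, norm_mul] at h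
    exact h.not_ge (one_le_mul_of_one_le_of_one_le hc.1 hc.2)

variable {f} {w : Pl F}

theorem norm_le_iff (h : prm f = w.asIdeal) (x : F) : ‖f x‖ ≤ 1 ↔ w.valuation F x ≤ 1 := by
  have key : ∀ y : F, w.valuation F y ≤ 1 → ∃ n : 𝓞 F, ‖f y‖ = ‖f n‖ ∧
      w.valuation F y = w.valuation F n := fun y hy => by
    obtain ⟨n, d, e⟩ := w.exists_primeCompl_mul_eq_of_integer y hy
    have hd : (d : 𝓞 F) ∉ w.asIdeal := d.2
    have h1 : ‖f (d : 𝓞 F)‖ = 1 :=
      le_antisymm (norm_int_le f _) (not_lt.1 fun h1 => hd (h.le ((mem_prm f).2 h1)))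
    refine ⟨n, ?_, ?_⟩
    · rw [show ((n : 𝓞 F) : F) = y * (d : 𝓞 F) from e.symm, map_mul, norm_mul, h1, mul_one]
    · rw [show ((n : 𝓞 F) : F) = y * algebraMap _ F (d : 𝓞 F) from e.symm, map_mul,
        (w.valuation_eq_one_iff_notMem (K := F)).2 hd, mul_one]
  refine ⟨fun hx => ?_, fun hx => ?_⟩
  · by_contra hc
    have h0 : x ≠ 0 := by
      rintro rfl
      simp at hc
    have h1 : w.valuation F x⁻¹ < 1 := by
      rw [map_inv₀]
      exact inv_lt_one_of_one_lt₀ (not_le.1 hc)
    obtain ⟨n, h2, h3⟩ := key _ h1.le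
    have h4 : ‖f n‖ < 1 := (mem_prm f).1 (h ▸ (w.valuation_lt_one_iff_mem (K := F) n).1 (h3 ▸ h1))
    rw [← h2, map_inv₀, norm_inv] at h4
    exact h4.not_ge ((one_le_inv₀ (norm_pos_iff.2 ((map_ne_zero f).2 h0))).2 hx)
  · obtain ⟨n, h2, -⟩ := key x hx
    exact h2 ▸ norm_int_le f n

/-- the extension to the completion -/
theorem exists_ext [CompleteSpace C] (h : prm f = w.asIdeal) : ∃ E : Fw w →+* C, Continuous E ∧
    (∀ x, E (algebraMap F _ x) = f x) ∧ ∀ c, ‖E c‖ ≤ 1 ↔ c ∈ Ow w := by
  let f' : WithVal (w.valuation F) →+* C := f.comp (WithVal.equiv _).toRingHom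
  obtain ⟨p, p0, hp⟩ := exists_nat_lt w
  rw [v_nat, intValuation_lt_one_iff_mem, ← h, mem_prm,
    show ((p : 𝓞 F) : F) = p from rfl] at hp
  have hp1 : 0 < ‖f p‖ := norm_pos_iff.2 ((map_ne_zero f).2 (Nat.cast_ne_zero.2 p0.ne'))
  rw [map_natCast] at hp hp1
  have hc : Continuous f' := by
    refine continuous_of_continuousAt_zero f' (Metric.tendsto_nhds.2 fun ε hε => ?_)
    obtain ⟨n, hn⟩ := exists_pow_lt_of_lt_one hε hp
    have ho := (Valued.isOpen_valuationSubring (WithVal (w.valuation F))).preimage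
      (continuous_mul_const ((p : WithVal (w.valuation F)) ^ n)⁻¹)
    filter_upwards [ho.mem_nhds (by simp)] with x hx
    have h1 : ‖f' (x * ((p : WithVal (w.valuation F)) ^ n)⁻¹)‖ ≤ 1 := (norm_le_iff h _).2 hx
    rw [map_mul, map_inv₀, map_pow, map_natCast, norm_mul, norm_inv, norm_pow,
      mul_inv_le_iff₀ (pow_pos hp1 n), one_mul] at h1
    rw [map_zero, dist_zero_right]
    exact h1.trans_lt hn
  let E : Fw w →+* C := (UniformSpace.Completion.extensionHom f' hc).comp
    (HeightOneSpectrum.adicCompletion.equiv F w).toRingHom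
  have hE : Continuous E := UniformSpace.Completion.continuous_extension.comp
    (HeightOneSpectrum.adicCompletion.continuous_toCompletion F w)
  have hx : ∀ x, E (algebraMap F _ x) = f x := fun x =>
    UniformSpace.Completion.extensionHom_coe f' hc (WithVal.toVal _ x)
  refine ⟨E, hE, hx, fun c => ?_⟩
  have hA : IsClopen {c : Fw w | ‖E c‖ ≤ 1} := by
    simp only [← mem_closedBall_zero_iff]
    exact (IsUltrametricDist.isClopen_closedBall (0 : C) one_ne_zero).preimage hE
  have hB : IsClopen {c : Fw w | c ∈ Ow w} := Valued.isClopen_valuationSubring (Fw w)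
  refine (w.denseRange_algebraMap F).induction_on c ?_ fun x => ?_
  · have := (hA.inter hB).union (hA.compl.inter hB.compl)
    convert this.isClosed using 1
    ext c
    simp only [Set.mem_ofPred_eq, Set.mem_union, Set.mem_inter_iff, Set.mem_compl_iff]
    tauto
  · rw [hx, norm_le_iff h, ← w.valuedAdicCompletion_eq_valuation' x]
    rfl

theorem finite_adjoin {k L : Type} [Field k] [CharZero k] [Field L] [Algebra k L]
    [Algebra.IsAlgebraic k L] (φ : F →+* L) :
    FiniteDimensional k (IntermediateField.adjoin k (Set.range φ)) := by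
  let b := Module.finBasis ℚ F
  have e : IntermediateField.adjoin k (Set.range φ) =
      IntermediateField.adjoin k (Set.range fun i => φ (b i)) := by
    refine le_antisymm (IntermediateField.adjoin_le_iff.2 ?_)
      (IntermediateField.adjoin.mono _ _ _ ?_)
    · rintro _ ⟨x, rfl⟩
      rw [← b.sum_repr x, map_sum]
      refine sum_mem fun i _ => ?_
      rw [Algebra.smul_def, map_mul, eq_ratCast, map_ratCast]
      exact mul_mem (SubfieldClass.ratCast_mem _ _) (IntermediateField.subset_adjoin _ _ ⟨i, rfl⟩)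
    · rintro _ ⟨i, rfl⟩
      exact ⟨_, rfl⟩
  rw [e]
  exact IntermediateField.finiteDimensional_adjoin fun x _ =>
    (Algebra.IsAlgebraic.isAlgebraic x).isIntegral

theorem emb (p : ℕ) [Fact p.Prime] (φ : F →+* PadicAlgCl p) :
    ∃ (v : Pl F) (e : Fw v →+* PadicAlgCl p), (p : 𝓞 F) ∈ v.asIdeal ∧
    (∀ c, e (algebraMap F _ c) = φ c) ∧ (∀ x, ‖e x‖ ≤ 1 ↔ x ∈ Ow v) ∧ Continuous e ∧
    ∀ x, e x ∈ IntermediateField.adjoin ℚ_[p] (Set.range φ) := by
  let E := IntermediateField.adjoin ℚ_[p] (Set.range φ)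
  have : FiniteDimensional ℚ_[p] E := finite_adjoin φ
  have : FiniteDimensional ℚ_[p] E.toSubmodule := this
  have : CompleteSpace E := (Submodule.complete_of_finiteDimensional E.toSubmodule).completeSpace_coe
  let f : F →+* E := φ.codRestrict E fun x => IntermediateField.subset_adjoin _ _ ⟨x, rfl⟩
  have hp : (p : 𝓞 F) ∈ prm f := by
    rw [mem_prm]
    change ‖φ p‖ < 1
    rw [map_natCast, ← map_natCast (algebraMap ℚ_[p] (PadicAlgCl p)), PadicAlgCl.norm_extends]
    exact Padic.norm_p_lt_one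
  have h0 : prm f ≠ ⊥ := fun h => (Fact.out : p.Prime).ne_zero (by
    rw [h, Ideal.mem_bot] at hp
    exact_mod_cast hp)
  obtain ⟨e, h1, h2, h3⟩ := exists_ext (f := f) (w := ⟨prm f, prm_prime f, h0⟩) rfl
  exact ⟨⟨prm f, prm_prime f, h0⟩, E.val.toRingHom.comp e, hp, fun c => congrArg Subtype.val (h2 c),
    h3, continuous_subtype_val.comp h1, fun x => (e x).2⟩

end EmbA

/-- **EMB** -/
theorem emb : EMB := fun _ _ _ p _ φ => EmbA.emb p φ

end Vale.Agent.P022K.Sh
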