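import Vale.Agent.P022K.F0.Apx
import Vale.Agent.P011.H519.HenselAdic

/-!
# P022K, block F0, row OK: the tower of a quaternion algebra satisfies the axioms
-/

set_option autoImplicit false

open NumberField IsDedekindDomain IsDedekindDomain.HeightOneSpectrum UpperHalfPlane
open scoped Quaternion Nat MatrixGroups

noncomputable section

namespace Vale.Agent.P022K.Sh

open F0
open Vale.Agent.P022K.F0.Fuj (OF Lat Um Over jG)

variable {F : Type} [Field F] [NumberField F]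

/-! ## groups -/

section grp

variable {G : Type} [Group G]

theorem relIndex_ne_of_finite {α : Type} {H K : Subgroup G} {R : Set α} (hR : R.Finite)
    (P : G → α → Prop) (h1 : ∀ x ∈ K, ∃ r ∈ R, P x r)
    (h2 : ∀ x y r, P x r → P y r → x⁻¹ * y ∈ H) : H.relIndex K ≠ 0 := by
  have := hR.to_subtype
  choose r hr hP using fun q : K ⧸ H.subgroupOf K => h1 q.out q.out.2
  have : Finite (K ⧸ H.subgroupOf K) := by
    refine Finite.of_injective (fun q => (⟨r q, hr q⟩ : R)) fun q q' e => ?_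
    have e' : r q = r q' := congrArg Subtype.val e
    rw [← q.out_eq', ← q'.out_eq']
    exact QuotientGroup.eq.2 (h2 _ _ _ (hP q) (e' ▸ hP q'))
  exact Subgroup.index_ne_zero_of_finite

theorem relIndex_cj (x : G) (H K : Subgroup G) : (cj x H).relIndex (cj x K) = H.relIndex K := by
  rw [cj, Subgroup.relIndex_comap, cj, Subgroup.map_comap_eq_self_of_surjective]
  exact (MulAut.conj x⁻¹).surjective

theorem cj_mono (x : G) {H K : Subgroup G} (h : H ≤ K) : cj x H ≤ cj x K :=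
  Subgroup.comap_mono h

theorem cj_le_iff {x : G} {H K : Subgroup G} : cj x H ≤ K ↔ H ≤ cj x⁻¹ K := by
  constructor
  · intro h y hy
    exact mem_cj.2 (h (mem_cj.2 (by simpa [mul_assoc] using hy)))
  · intro h y hy
    simpa [mul_assoc] using mem_cj.1 (h (mem_cj.1 hy))

theorem telescope {u : ℕ → Subgroup G} (hu : Antitone u) {c : ℕ → G}
    (h : ∀ n, (c n)⁻¹ * c (n + 1) ∈ u n) {m n : ℕ} (hmn : m ≤ n) : (c m)⁻¹ * c n ∈ u m := by
  induction n, hmn using Nat.le_induction with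
  | base => simp
  | succ n hn ih => simpa [mul_assoc] using mul_mem ih (hu hn (h n))

end grp

/-! ## limits -/

theorem lim_w {w : Pl F} (f : ℕ → Fw w)
    (hf : ∀ m n, m ≤ n → Valued.v (f m - f n) ≤ Valued.v (((m + 1)! : ℕ) : Fw w)) :
    ∃ L, ∀ n, Valued.v (f n - L) ≤ Valued.v (((n + 1)! : ℕ) : Fw w) := by
  have h1 : ∀ m : ℕ, ∀ᶠ k in Filter.atTop,
      Valued.v (((k + 1)! : ℕ) : Fw w) ≤ WithZero.exp (-(m : ℤ)) := fun m => by
    obtain ⟨N, N0, hN⟩ := exists_nat_le w (γ := WithZero.exp (-(m : ℤ))) WithZero.exp_ne_zero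
    filter_upwards [Filter.eventually_ge_atTop N] with k hk
    obtain ⟨r, hr⟩ := Nat.dvd_factorial N0 (hk.trans (Nat.le_succ k))
    rw [Nat.succ_eq_add_one] at hr
    rw [hr, Nat.cast_mul, map_mul]
    exact (mul_le_of_le_one_right' (v_nat_le w r)).trans hN.le
  obtain ⟨s, hs, h2⟩ := Filter.extraction_forall_of_eventually h1
  obtain ⟨L, hL⟩ := P011.H519.exists_lim (fun n => f (s n)) fun m n hmn =>
    (hf _ _ (hs.monotone hmn)).trans (h2 m)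
  refine ⟨L, fun n => ?_⟩
  obtain ⟨k, hk⟩ := WithZero.exists_exp_neg_natCast_lt (v_nat_ne w (n + 1).factorial_pos)
  rw [show f n - L = (f n - f (s (k + n))) + (f (s (k + n)) - L) by ring]
  refine Valuation.map_add_le _ (hf _ _ (le_trans (Nat.le_add_left n k) hs.le_apply))
    ((hL _).trans (le_trans ?_ hk.le))
  rw [WithZero.exp_le_exp]
  push_cast
  omega

theorem lim_AF (t : ℕ → AF F)
    (h : ∀ m n, m ≤ n → ∃ y ∈ OA F, t m - t n = (((m + 1)! : ℕ) : AF F) * y) :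
    ∃ L, ∀ m, ∃ y ∈ OA F, t m - L = (((m + 1)! : ℕ) : AF F) * y := by
  choose L hL using fun w : Pl F => lim_w (fun n => ev w (t n)) fun m n hmn => by
    obtain ⟨y, hy, e⟩ := h m n hmn
    simpa only [map_sub] using le_of_mul hy e w
  refine ⟨AF.mk L ?_, fun m => exists_mul (m + 1).factorial_pos fun w => ?_⟩
  · filter_upwards [AF.int (t 0)] with w hw
    rw [show L w = ev w (t 0) - (ev w (t 0) - L w) by ring]
    exact Valuation.map_sub_le _ hw ((hL w 0).trans (v_nat_le w _))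
  · rw [map_sub]
    exact hL w m

instance : Nonempty (Pl F) := by
  obtain ⟨M, hM⟩ := Ideal.exists_maximal (𝓞 F)
  exact ⟨⟨M, hM.isPrime, Ring.ne_bot_of_isMaximal_of_not_isField hM (RingOfIntegers.not_isField F)⟩⟩

instance : Nontrivial (AF F) :=
  (ev (Classical.arbitrary (Pl F))).toRingHom.domain_nontrivial

theorem countable_F : Countable F :=
  (Module.finBasis ℚ F).equivFun.injective.countable

namespace QD

variable (X : QD F)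

theorem lt : Lat X.jD X.O0 X.OD := X.apx.lat

theorem dvd_iff {N : ℕ} {x : X.DA} : (∃ y ∈ X.OD, x = N * y) ↔ (∃ y ∈ OA F, x.re = N * y) ∧
    (∃ y ∈ OA F, x.imI = N * y) ∧ (∃ y ∈ OA F, x.imJ = N * y) ∧ ∃ y ∈ OA F, x.imK = N * y := by
  constructor
  · rintro ⟨y, hy, rfl⟩
    obtain ⟨h1, h2, h3, h4⟩ := mem_qint.1 hy
    rw [nat_mul_eq]
    exact ⟨⟨_, h1, rfl⟩, ⟨_, h2, rfl⟩, ⟨_, h3, rfl⟩, ⟨_, h4, rfl⟩⟩
  · rintro ⟨⟨y1, h1, e1⟩, ⟨y2, h2, e2⟩, ⟨y3, h3, e3⟩, ⟨y4, h4, e4⟩⟩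
    refine ⟨⟨y1, y2, y3, y4⟩, mem_qint.2 ⟨h1, h2, h3, h4⟩, ?_⟩
    rw [nat_mul_eq]
    exact QuaternionAlgebra.ext e1 e2 e3 e4

theorem lim_DA (t : ℕ → X.DA)
    (h : ∀ m n, m ≤ n → ∃ y ∈ X.OD, t m - t n = (((m + 1)! : ℕ) : X.DA) * y) :
    ∃ L, ∀ m, ∃ y ∈ X.OD, t m - L = (((m + 1)! : ℕ) : X.DA) * y := by
  obtain ⟨L1, h1⟩ := lim_AF (fun n => (t n).re) fun m n hmn => (X.dvd_iff.1 (h m n hmn)).1
  obtain ⟨L2, h2⟩ := lim_AF (fun n => (t n).imI) fun m n hmn => (X.dvd_iff.1 (h m n hmn)).2.1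
  obtain ⟨L3, h3⟩ := lim_AF (fun n => (t n).imJ) fun m n hmn => (X.dvd_iff.1 (h m n hmn)).2.2.1
  obtain ⟨L4, h4⟩ := lim_AF (fun n => (t n).imK) fun m n hmn => (X.dvd_iff.1 (h m n hmn)).2.2.2
  exact ⟨⟨L1, L2, L3, L4⟩, fun m => X.dvd_iff.2 ⟨h1 m, h2 m, h3 m, h4 m⟩⟩

theorem dvd_mono {M N : ℕ} (h : M ∣ N) {x : X.DA} (hx : ∃ y ∈ X.OD, x = N * y) :
    ∃ y ∈ X.OD, x = M * y := by
  obtain ⟨k, rfl⟩ := h
  obtain ⟨y, hy, rfl⟩ := hx
  exact ⟨k * y, mul_mem (natCast_mem _ k) hy, by rw [Nat.cast_mul, mul_assoc]⟩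

theorem eq_zero_DA {x : X.DA} (h : ∀ m, ∃ y ∈ X.OD, x = (((m + 1)! : ℕ) : X.DA) * y) : x = 0 := by
  have h' : ∀ N : ℕ, 0 < N → ∃ y ∈ X.OD, x = N * y := fun N N0 =>
    X.dvd_mono (Nat.dvd_factorial N0 (Nat.le_succ N)) (h N)
  exact QuaternionAlgebra.ext (eq_zero_of_dvd fun N N0 => (X.dvd_iff.1 (h' N N0)).1)
    (eq_zero_of_dvd fun N N0 => (X.dvd_iff.1 (h' N N0)).2.1)
    (eq_zero_of_dvd fun N N0 => (X.dvd_iff.1 (h' N N0)).2.2.1)
    (eq_zero_of_dvd fun N N0 => (X.dvd_iff.1 (h' N N0)).2.2.2)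

theorem One.mem {N : ℕ} {x : X.DA} (h : X.One N x) : x ∈ X.OD := by
  obtain ⟨y, hy, rfl⟩ := h
  exact add_mem (one_mem _) (mul_mem (natCast_mem _ N) hy)

theorem One.mono {M N : ℕ} (h : M ∣ N) {x : X.DA} (hx : X.One N x) : X.One M x := by
  obtain ⟨y, hy, rfl⟩ := hx
  obtain ⟨z, hz, e⟩ := X.dvd_mono h ⟨y, hy, rfl⟩
  exact ⟨z, hz, by rw [e]⟩

theorem mem_Um {N : ℕ} {x : X.G} :
    x ∈ Um X.OD N ↔ X.One N x ∧ X.One N ((x⁻¹ : X.G) : X.DA) := Iff.rfl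

theorem nat_comm (N : ℕ) (x y : X.DA) : x * (N * y) = N * (x * y) := by
  rw [← mul_assoc, ← (Nat.cast_commute N x).eq, mul_assoc]

/-- the congruence subgroups are complete -/
theorem Um_cpl (p : ℕ → X.G) (h0 : p 0 = 1)
    (h : ∀ m n, m ≤ n → (p m)⁻¹ * p n ∈ Um X.OD (m + 1)!) :
    ∃ x, ∀ m, (p m)⁻¹ * x ∈ Um X.OD (m + 1)! := by
  have hp : ∀ m, (p m : X.DA) ∈ X.OD ∧ ((p m)⁻¹ : X.G).1 ∈ X.OD := fun m => by
    have := h 0 m (Nat.zero_le m)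
    rw [h0, inv_one, one_mul] at this
    exact ⟨One.mem X this.1, One.mem X this.2⟩
  obtain ⟨P, hP⟩ := X.lim_DA (fun n => p n) fun m n hmn => by
    obtain ⟨y, hy, e⟩ := (h m n hmn).1
    refine ⟨-(p m * y), neg_mem (mul_mem (hp m).1 hy), ?_⟩
    rw [Units.val_mul, Units.inv_mul_eq_iff_eq_mul] at e
    rw [e, mul_add, nat_comm, mul_neg, mul_one]
    abel
  obtain ⟨Q, hQ⟩ := X.lim_DA (fun n => ((p n)⁻¹ : X.G)) fun m n hmn => by
    obtain ⟨y, hy, e⟩ := (h m n hmn).2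
    refine ⟨-(y * ((p m)⁻¹ : X.G)), neg_mem (mul_mem hy (hp m).2), ?_⟩
    rw [mul_inv_rev, inv_inv, Units.val_mul, ← Units.eq_mul_inv_iff_mul_eq] at e
    rw [e, add_mul, mul_assoc, mul_neg, one_mul]
    abel
  have P0 : P ∈ X.OD := by
    obtain ⟨y, hy, e⟩ := hP 0
    rw [show P = p 0 - (p 0 - P) by abel, e]
    exact sub_mem (hp 0).1 (mul_mem (natCast_mem _ _) hy)
  have Q0 : Q ∈ X.OD := by
    obtain ⟨y, hy, e⟩ := hQ 0
    rw [show Q = ((p 0)⁻¹ : X.G) - (((p 0)⁻¹ : X.G) - Q) by abel, e]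
    exact sub_mem (hp 0).2 (mul_mem (natCast_mem _ _) hy)
  have key : ∀ (A B : X.DA) (u : X.G) (N : ℕ), B ∈ X.OD → u.1 ∈ X.OD →
      (∃ y ∈ X.OD, u.1 - A = N * y) → (∃ y ∈ X.OD, (u⁻¹ : X.G).1 - B = N * y) →
      ∃ y ∈ X.OD, 1 - A * B = N * y := by
    rintro A B u N hB hu ⟨y, hy, e⟩ ⟨z, hz, e'⟩
    refine ⟨y * B + u * z, add_mem (mul_mem hy hB) (mul_mem hu hz), ?_⟩
    rw [mul_add, ← mul_assoc, ← e, ← nat_comm, ← e', mul_sub, sub_mul, Units.mul_inv]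
    abel
  have e1 : P * Q = 1 := (sub_eq_zero.1 (X.eq_zero_DA fun m =>
    key P Q (p m) _ Q0 (hp m).1 (hP m) (hQ m))).symm
  have e2 : Q * P = 1 := (sub_eq_zero.1 (X.eq_zero_DA fun m =>
    key Q P (p m)⁻¹ _ P0 (hp m).2 (hQ m) (by rw [inv_inv]; exact hP m))).symm
  refine ⟨⟨P, Q, e1, e2⟩, fun m => ⟨?_, ?_⟩⟩
  · obtain ⟨y, hy, e⟩ := hP m
    refine ⟨-(((p m)⁻¹ : X.G) * y), neg_mem (mul_mem (hp m).2 hy), ?_⟩
    rw [mul_neg, ← nat_comm, ← e, mul_sub, Units.inv_mul, Units.val_mul]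
    abel
  · obtain ⟨y, hy, e⟩ := hQ m
    refine ⟨-(y * p m), neg_mem (mul_mem hy (hp m).1), ?_⟩
    rw [mul_neg, ← mul_assoc, ← e, sub_mul, Units.inv_mul, mul_inv_rev, inv_inv, Units.val_mul]
    show Q * _ = _
    abel

/-! ## levels -/

/-- scalar adeles -/
def sc : (AF F)ˣ →* X.G := Units.map (algebraMap (AF F) X.DA).toMonoidHom

theorem coe_sc (c : (AF F)ˣ) : (X.sc c : X.DA) = algebraMap _ _ (c : AF F) := rfl

theorem sc_mem_Z (c : (AF F)ˣ) : X.sc c ∈ X.tw.Z := X.mem_Z.2 ⟨c, rfl⟩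

theorem mem_Z_sc {x : X.G} : x ∈ X.tw.Z ↔ ∃ c, x = X.sc c := by
  refine ⟨fun h => ?_, fun ⟨c, e⟩ => e ▸ X.sc_mem_Z c⟩
  obtain ⟨c, hc⟩ := X.mem_Z.1 h
  obtain ⟨u, rfl⟩ : IsUnit c := by
    have := (Fuj.isUnit_iff_nrd _).1 x.isUnit
    rw [hc, Fuj.nrd_algebraMap] at this
    exact (isUnit_pow_iff two_ne_zero).1 this
  exact ⟨u, Units.ext hc⟩

theorem Z_le_center : X.tw.Z ≤ Subgroup.center X.G := fun x hx => by
  obtain ⟨c, hc⟩ := X.mem_Z.1 hx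
  refine Subgroup.mem_center_iff.2 fun g => Units.ext ?_
  rw [Units.val_mul, Units.val_mul, hc, Algebra.commutes]

theorem sc_comm (c : (AF F)ˣ) (x : X.G) : x * X.sc c = X.sc c * x :=
  Subgroup.mem_center_iff.1 (X.Z_le_center (X.sc_mem_Z c)) x

theorem mem_UN_iff {N : ℕ} {x : X.G} : x ∈ X.UN N ↔ ∃ c, X.sc c * x ∈ Um X.OD N := by
  refine exists_congr fun c => and_congr ?_ ?_
  · rw [Algebra.smul_def]; rfl
  · rw [Algebra.smul_def, mul_inv_rev, ← map_inv, sc_comm]; rfl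

theorem Z_le_UN (N : ℕ) : X.tw.Z ≤ X.UN N := fun _ hx =>
  (X.mem_Z.1 hx).elim fun _ hc => X.scal_mem_UN hc N

theorem Z_le {U : Subgroup X.G} (hU : U ∈ X.tw.Lev) : X.tw.Z ≤ U := sInf_le hU

theorem UN_mono {M N : ℕ} (h : M ∣ N) : X.UN N ≤ X.UN M := by
  rintro x ⟨c, h1, h2⟩
  exact ⟨c, One.mono X h h1, One.mono X h h2⟩

theorem relIndex_Um {N M : ℕ} (hM : 0 < M) : (Um X.OD (N * M)).relIndex (Um X.OD N) ≠ 0 := by
  obtain ⟨e⟩ := Fuj.exists_basis X.a_mem X.b_mem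
  obtain ⟨R, hR, h1⟩ := X.lt.reps e hM.ne'
  refine relIndex_ne_of_finite hR (fun x r => ((x⁻¹ : X.G) : X.DA) ∈ X.OD ∧
    ∃ z ∈ X.OD, (x : X.DA) = 1 + N * r + (N * M : ℕ) * z) ?_ ?_
  · rintro x ⟨⟨y, hy, e⟩, h2⟩
    obtain ⟨r, hr, z, hz, rfl⟩ := h1 y hy
    exact ⟨r, hr, One.mem X h2, z, hz, by rw [e, Nat.cast_mul, mul_add, mul_assoc, add_assoc]⟩
  · have key : ∀ (x y : X.G) (r : X.DA), ((x⁻¹ : X.G) : X.DA) ∈ X.OD →
        (∃ z ∈ X.OD, (x : X.DA) = 1 + N * r + (N * M : ℕ) * z) →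
        (∃ z ∈ X.OD, (y : X.DA) = 1 + N * r + (N * M : ℕ) * z) →
        X.One (N * M) ((x⁻¹ * y : X.G) : X.DA) := by
      rintro x y r hx ⟨z, hz, e⟩ ⟨z', hz', e'⟩
      refine ⟨(x⁻¹ : X.G) * (z' - z), mul_mem hx (sub_mem hz' hz), ?_⟩
      have : (y : X.DA) = x + (N * M : ℕ) * (z' - z) := by rw [e, e', mul_sub]; abel
      rw [Units.val_mul, this, mul_add, Units.inv_mul, nat_comm]
    rintro x y r ⟨h1, h2⟩ ⟨h3, h4⟩
    exact ⟨key x y r h1 h2 h4, by rw [mul_inv_rev, inv_inv]; exact key y x r h3 h4 h2⟩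

theorem relIndex_UN {N M : ℕ} (hM : 0 < M) : (X.UN (N * M)).relIndex (X.UN N) ≠ 0 := by
  have h := X.relIndex_Um (N := N) hM
  have : ((Um X.OD (N * M)).subgroupOf (Um X.OD N)).FiniteIndex := ⟨h⟩
  refine relIndex_ne_of_finite (Set.finite_univ (α := Um X.OD N ⧸ (Um X.OD (N * M)).subgroupOf _))
    (fun x r => ∃ c, ∃ h : X.sc c * x ∈ Um X.OD N, ((⟨_, h⟩ : Um X.OD N) : _ ⧸ _) = r) ?_ ?_
  · intro x hx
    obtain ⟨c, hc⟩ := X.mem_UN_iff.1 hx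
    exact ⟨_, trivial, c, hc, rfl⟩
  · rintro x y r ⟨c, hc, rfl⟩ ⟨d, hd, e⟩
    have e0 := QuotientGroup.eq.1 e.symm
    have e' : (X.sc c * x)⁻¹ * (X.sc d * y) ∈ Um X.OD (N * M) := e0
    refine X.mem_UN_iff.2 ⟨c⁻¹ * d, ?_⟩
    convert e' using 1
    rw [mul_inv_rev, ← map_inv, sc_comm, map_mul, mul_assoc, mul_assoc, ← mul_assoc x⁻¹, sc_comm,
      mul_assoc]

theorem mem_Lev' {U : Subgroup X.G} :
    U ∈ X.tw.Lev ↔ (∃ N, 0 < N ∧ X.UN N ≤ U) ∧ (X.UN 1).relIndex U ≠ 0 := by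
  constructor
  · rintro ⟨N, N0, h1, h2⟩
    exact ⟨⟨N, N0, h1⟩, fun h =>
      h2 (Subgroup.relIndex_eq_zero_of_le_left (X.UN_mono (one_dvd N)) h)⟩
  · rintro ⟨⟨N, N0, h1⟩, h2⟩
    refine ⟨N, N0, h1, Subgroup.relIndex_ne_zero_trans ?_ h2⟩
    simpa using X.relIndex_UN (N := 1) N0

theorem UN_relIndex {U : Subgroup X.G} (hU : U ∈ X.tw.Lev) {N : ℕ} (h : 0 < N) :
    (X.UN N).relIndex U ≠ 0 :=
  Subgroup.relIndex_ne_zero_trans (by simpa using X.relIndex_UN (N := 1) h) (X.mem_Lev'.1 hU).2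

theorem ok_fi : ∀ U ∈ X.tw.Lev, ∀ U' ∈ X.tw.Lev, U.relIndex U' ≠ 0 := by
  rintro U ⟨N, N0, h1, -⟩ U' hU' h
  exact X.UN_relIndex hU' N0 (Subgroup.relIndex_eq_zero_of_le_left h1 h)

theorem ok_inf : ∀ U ∈ X.tw.Lev, ∀ U' ∈ X.tw.Lev, U ⊓ U' ∈ X.tw.Lev := by
  intro U hU U' hU'
  obtain ⟨⟨N, N0, h1⟩, h2⟩ := X.mem_Lev'.1 hU
  obtain ⟨N', N0', h1', -⟩ := hU'
  exact X.mem_Lev'.2 ⟨⟨N * N', mul_pos N0 N0', le_inf ((X.UN_mono (dvd_mul_right _ _)).trans h1)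
    ((X.UN_mono (dvd_mul_left _ _)).trans h1')⟩, fun h =>
      h2 (Subgroup.relIndex_eq_zero_of_le_right inf_le_left h)⟩

theorem ok_up : ∀ U ∈ X.tw.Lev, ∀ U', U ≤ U' → U.relIndex U' ≠ 0 → U' ∈ X.tw.Lev := by
  rintro U ⟨N, N0, h1, h2⟩ U' h h'
  exact ⟨N, N0, h1.trans h, Subgroup.relIndex_ne_zero_trans h2 h'⟩

theorem exists_UN_le_cj (x : X.G) : ∃ k, 0 < k ∧ ∀ N, X.UN (N * k) ≤ cj x (X.UN N) := by
  obtain ⟨k, k0, hk⟩ := X.lt.conj x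
  refine ⟨k, Nat.pos_of_ne_zero k0, fun N y hy => mem_cj.2 ?_⟩
  have key : ∀ q : X.DA, X.One (N * k) q → X.One N (((x⁻¹ : X.G) : X.DA) * q * x) := by
    rintro _ ⟨z, hz, rfl⟩
    refine ⟨_, hk z hz, ?_⟩
    simp only [← nsmul_eq_mul, mul_add, add_mul, smul_mul_assoc, mul_smul_comm, smul_smul, mul_one,
      Units.inv_mul, mul_comm k N]
  obtain ⟨c, h1, h2⟩ := hy
  refine ⟨c, ?_, ?_⟩
  · simpa using key _ h1
  · simpa [mul_assoc] using key _ h2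

theorem ok_conj : ∀ U ∈ X.tw.Lev, ∀ x, cj x U ∈ X.tw.Lev := by
  intro U hU x
  obtain ⟨k, k0, hk⟩ := X.exists_UN_le_cj x
  obtain ⟨l, l0, hl⟩ := X.exists_UN_le_cj x⁻¹
  obtain ⟨N, N0, h1, -⟩ := id hU
  refine X.mem_Lev'.2 ⟨⟨N * k, mul_pos N0 k0, (hk N).trans (cj_mono x h1)⟩, fun h => ?_⟩
  have := Subgroup.relIndex_eq_zero_of_le_left (cj_le_iff.2 (hl 1)) h
  rw [relIndex_cj] at this
  exact X.UN_relIndex hU (by simpa using l0) this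

theorem ok_seq : ∃ u : ℕ → Subgroup X.G, Antitone u ∧ (∀ n, u n ∈ X.tw.Lev) ∧
    ∀ U ∈ X.tw.Lev, ∃ n, u n ≤ U :=
  ⟨fun n => X.UN (n + 1)!, fun _ _ h => X.UN_mono (Nat.factorial_dvd_factorial (Nat.succ_le_succ h)),
    fun n => X.UN_mem (n + 1).factorial_pos, fun _ ⟨N, N0, h, _⟩ =>
      ⟨N, (X.UN_mono (Nat.dvd_factorial N0 (Nat.le_succ N))).trans h⟩⟩

theorem ok_cpl (u : ℕ → Subgroup X.G) (hu : Antitone u) (h1 : ∀ n, u n ∈ X.tw.Lev)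
    (h2 : ∀ U ∈ X.tw.Lev, ∃ n, u n ≤ U) (c : ℕ → X.G) (hc : ∀ n, (c n)⁻¹ * c (n + 1) ∈ u n) :
    ∃ x, ∀ n, (c n)⁻¹ * x ∈ u n := by
  have h3 : ∀ k : ℕ, ∀ᶠ n in Filter.atTop, u n ≤ X.UN (k + 1)! := fun k => by
    obtain ⟨n, hn⟩ := h2 _ (X.UN_mem (k + 1).factorial_pos)
    filter_upwards [Filter.eventually_ge_atTop n] with m hm using (hu hm).trans hn
  obtain ⟨s, hs, h4⟩ := Filter.extraction_forall_of_eventually h3
  choose z hz using fun k => X.mem_UN_iff.1 (h4 k (telescope hu hc (hs.monotone (Nat.le_succ k))))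
  let p : ℕ → X.G := fun k => X.sc (∏ i ∈ Finset.range k, z i) * ((c (s 0))⁻¹ * c (s k))
  have hp : ∀ k, (p k)⁻¹ * p (k + 1) ∈ Um X.OD (k + 1)! := fun k => by
    convert hz k using 1
    simp only [p, Finset.prod_range_succ, map_mul, mul_inv_rev, inv_inv, mul_assoc,
      inv_mul_cancel_left]
    rw [← mul_assoc (c (s 0)), sc_comm, mul_assoc, mul_inv_cancel_left, ← mul_assoc, sc_comm,
      mul_assoc]
  obtain ⟨x, hx⟩ := X.Um_cpl p (by simp [p]) fun m n hmn => telescope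
    (u := fun k => Um X.OD (k + 1)!)
    (fun _ _ h => Fuj.Um_mono _ (Nat.factorial_dvd_factorial (Nat.succ_le_succ h))) hp hmn
  refine ⟨c (s 0) * x, fun n => ?_⟩
  obtain ⟨N, N0, hN, -⟩ := h1 n
  have e1 : (c n)⁻¹ * c (s (n + N)) ∈ u n :=
    telescope hu hc (le_trans (Nat.le_add_right n N) hs.le_apply)
  have e2 : (c (s (n + N)))⁻¹ * (c (s 0) * x) ∈ X.UN (n + N + 1)! := by
    refine X.mem_UN_iff.2 ⟨(∏ i ∈ Finset.range (n + N), z i)⁻¹, ?_⟩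
    convert hx (n + N) using 1
    simp only [p, mul_inv_rev, inv_inv, ← map_inv]
    rw [sc_comm, mul_assoc, mul_assoc]
  simpa [mul_assoc] using mul_mem e1 (hN (X.UN_mono (Nat.dvd_factorial N0 (by omega)) e2))

theorem ok_cnt : Countable X.G0 := by
  have := countable_F (F := F)
  have : Countable X.D := (QuaternionAlgebra.equivTuple _ _ _).injective.countable
  have : Countable X.Dˣ := Units.val_injective.countable
  infer_instance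

theorem jD_injective : Function.Injective X.jD := fun x y h => by
  have i := (algebraMap F (AF F)).injective
  exact QuaternionAlgebra.ext (i (congrArg QuaternionAlgebra.re h))
    (i (congrArg QuaternionAlgebra.imI h)) (i (congrArg QuaternionAlgebra.imJ h))
    (i (congrArg QuaternionAlgebra.imK h))

theorem ok_z0 (γ : X.G0) : γ ∈ X.tw.Z0 ↔ X.tw.j γ ∈ X.tw.Z := by
  rw [mem_Z0_iff, mem_Z, coe_j]
  constructor
  · rintro ⟨c, hc⟩
    exact ⟨_, by rw [hc, jD_algebraMap]⟩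
  · rintro ⟨c, hc⟩
    refine ⟨((γ : X.Dˣ) : X.D).re, X.jD_injective ?_⟩
    rw [jD_algebraMap, hc]
    congr 1
    rw [QuaternionAlgebra.algebraMap_eq] at hc
    exact (congrArg QuaternionAlgebra.re hc).symm

/-! ## neat levels -/

theorem nrd_jD (q : X.D) : Fuj.nrd (X.jD q) = algebraMap F (AF F) (Fuj.nrd q) := nrd_map _ q

theorem trd_jD (q : X.D) : Fuj.trd (X.jD q) = algebraMap F (AF F) (Fuj.trd q) := trd_map _ q

/-- **INT**: the discriminant of an element of level `N` is divisible by `N ^ 2` -/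
theorem disc_int {N : ℕ} (N0 : 0 < N) {g : X.Dˣ} {x : X.G}
    (h : x⁻¹ * Units.map X.jD.toMonoidHom g * x ∈ X.UN N) :
    IsIntegral ℤ ((Fuj.trd g.1 ^ 2 - 4 * Fuj.nrd g.1) / (N ^ 2 * Fuj.nrd g.1)) := by
  obtain ⟨c, ⟨y, hy, e⟩, h2⟩ := h
  have n0 := X.div _ g.ne_zero
  obtain ⟨u, hu⟩ : ∃ u, u = x⁻¹ * Units.map X.jD.toMonoidHom g * x := ⟨_, rfl⟩
  rw [← hu] at e h2
  have t1 : Fuj.trd u.1 = algebraMap F _ (Fuj.trd g.1) := by
    rw [← trd_jD, ← Fuj.trd_conj x⁻¹ (X.jD g), hu]; rfl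
  have t2 : Fuj.nrd u.1 = algebraMap F _ (Fuj.nrd g.1) := by
    rw [← nrd_jD, ← Fuj.nrd_conj x⁻¹ (X.jD g), hu]; rfl
  have t3 := nrd_mem_qint (One.mem X h2)
  have t4 : (c : AF F) ^ 2 * (Fuj.trd u.1 ^ 2 - 4 * Fuj.nrd u.1) =
      N ^ 2 * (Fuj.trd y ^ 2 - 4 * Fuj.nrd y) := by
    have a1 := congrArg Fuj.trd e
    have a2 := congrArg Fuj.nrd e
    rw [nat_mul_eq] at a1 a2
    rw [Fuj.trd_smul] at a1
    rw [Fuj.nrd_smul] at a2
    rw [mul_sub, ← mul_pow, a1, mul_left_comm, a2]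
    simp [Fuj.trd, Fuj.nrd]
    ring
  have t5 : Fuj.trd y ^ 2 - 4 * Fuj.nrd y ∈ OA F :=
    sub_mem (pow_mem (mul_mem (ofNat_mem _ 2) (mem_qint.1 hy).1) 2)
      (mul_mem (ofNat_mem _ 4) (nrd_mem_qint hy))
  rw [← alg_mem_OA]
  convert mul_mem t5 t3 using 1
  have hu' : IsUnit (algebraMap F (AF F) (N ^ 2 * Fuj.nrd g.1)) :=
    isUnit_alg (mul_ne_zero (pow_ne_zero 2 (Nat.cast_ne_zero.2 N0.ne')) n0)
  refine hu'.mul_left_cancel ?_
  rw [← map_mul, mul_div_cancel₀ _ (mul_ne_zero (pow_ne_zero 2 (Nat.cast_ne_zero.2 N0.ne')) n0)]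
  simp only [map_sub, map_mul, map_pow, map_natCast, map_ofNat, ← t1, ← t2, Fuj.nrd_smul]
  have k1 := Fuj.nrd_units_inv u
  have k2 : (c : AF F) * (c⁻¹ : (AF F)ˣ) = 1 := c.mul_inv
  generalize ((c⁻¹ : (AF F)ˣ) : AF F) = d at *
  linear_combination (d ^ 2 * Fuj.nrd u.1 * Fuj.nrd (u⁻¹ : X.G).1) * t4 -
    (Fuj.trd u.1 ^ 2 - 4 * Fuj.nrd u.1) * ((c * d) ^ 2 * k1 + (c * d + 1) * k2)

theorem disc_le {g : GL (Fin 2) ℝ} (h : 0 < g.val.det) {z : UpperHalfPlane} (hz : g • z = z) :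
    g.val.trace ^ 2 - 4 * g.val.det ≤ 0 := by
  rw [gl_smul_eq_self_iff_quadratic h, Complex.ext_iff] at hz
  obtain ⟨h1, h2⟩ := hz
  simp at h1 h2
  have h3 : g 1 0 * (2 * z.re) + (g 1 1 - g 0 0) = 0 :=
    mul_right_cancel₀ z.im_ne_zero (by linear_combination h2)
  rw [Matrix.trace_fin_two, Matrix.det_fin_two]
  have h4 : (g.val 0 0 + g.val 1 1) ^ 2 - 4 * (g.val 0 0 * g.val 1 1 - g.val 0 1 * g.val 1 0) =
      -4 * (g 1 0 * z.im) ^ 2 := by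
    linear_combination (-4 * g 1 0) * h1 + (g 1 1 - g 0 0 + 2 * g 1 0 * z.re) * h3
  rw [h4]
  nlinarith [sq_nonneg (g 1 0 * z.im)]

include X in
theorem eq_zero_of_small {β : F} (hi : IsIntegral ℤ β) (h : ∀ t : F →+* ℝ, |t β| < 1) :
    β = 0 := by
  by_contra h0
  obtain ⟨σ, hσ⟩ := NumberField.exists_conjugate_one_le_norm (K := F) (α := ⟨β, hi⟩)
    (fun h => h0 (congrArg Subtype.val h))
  have := X.isTotallyReal
  obtain ⟨t, ht⟩ := Fuj.exists_real σ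
  have h1 : 1 ≤ ‖σ β‖ := hσ
  rw [ht, Complex.norm_real, Real.norm_eq_abs] at h1
  exact absurd (h t) (not_lt.2 h1)

theorem small_of {T n N : ℝ} (hN : 3 ≤ N) (n0 : n ≠ 0) (h : T ^ 2 - 4 * n ≤ 0) :
    |(T ^ 2 - 4 * n) / (N ^ 2 * n)| < 1 := by
  have h5 : 0 < n := lt_of_le_of_ne (by nlinarith [sq_nonneg T]) n0.symm
  have h6 : 0 < N ^ 2 * n := by positivity
  rw [abs_div, abs_of_nonpos h, abs_of_pos h6, div_lt_one h6]
  nlinarith [sq_nonneg T, mul_le_mul_of_nonneg_right (show (9 : ℝ) ≤ N ^ 2 by nlinarith) h5.le]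

theorem disc_defi (q : X.D) {t : F →+* ℝ} (ht : t ≠ X.t1) :
    t (Fuj.trd q) ^ 2 - 4 * t (Fuj.nrd q) ≤ 0 := by
  obtain ⟨ha, hb⟩ := X.defi t ht
  have p2 := mul_nonneg (neg_nonneg.2 ha.le) (sq_nonneg (t q.imI))
  have p3 := mul_nonneg (neg_nonneg.2 hb.le) (sq_nonneg (t q.imJ))
  have p4 := mul_nonneg (mul_pos_of_neg_of_neg ha hb).le (sq_nonneg (t q.imK))
  simp only [Fuj.nrd, Fuj.trd, map_add, map_sub, map_mul, map_pow, map_ofNat]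
  linarith

theorem disc_fix (γ : X.G0) {τ : UpperHalfPlane} (h : X.tw.r γ • τ = τ) (t : F →+* ℝ) :
    t (Fuj.trd (γ : X.Dˣ).1) ^ 2 - 4 * t (Fuj.nrd (γ : X.Dˣ).1) ≤ 0 := by
  by_cases ht : t = X.t1
  · rw [r_smul] at h
    have h0 : 0 < (jG X.s γ).val.det := by
      rw [Fuj.coe_jG, X.ovr.det X.a_ne X.b_ne]
      exact X.mem_G0.1 γ.2
    have := disc_le h0 h
    rwa [Fuj.coe_jG, X.ovr.trace X.a_ne X.b_ne, X.ovr.det X.a_ne X.b_ne, ← ht] at this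
  · exact X.disc_defi _ ht

theorem scalar_of_disc {q : X.D} (h : Fuj.trd q ^ 2 - 4 * Fuj.nrd q = 0) :
    q = algebraMap F _ q.re := by
  refine sub_eq_zero.1 ?_
  by_contra h0
  refine X.div _ h0 ?_
  rw [QuaternionAlgebra.algebraMap_eq]
  simp only [Fuj.nrd, Fuj.trd] at h
  simp [Fuj.nrd]
  linear_combination (-1 / 4 : F) * h

/-- **NEAT**: the principal levels `N ≥ 3` are neat -/
theorem neat_UN {N : ℕ} (hN : 3 ≤ N) : X.tw.Neat (X.UN N) := by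
  intro x γ hγ τ hτ
  have N0 : 0 < N := by omega
  have hi := X.disc_int (g := γ) N0 (X.tw.mem_Gam.1 hγ)
  have n0 := X.div _ (γ : X.Dˣ).ne_zero
  have h2 := X.eq_zero_of_small hi fun t => by
    simp only [map_div₀, map_sub, map_mul, map_pow, map_ofNat, map_natCast]
    exact small_of (by exact_mod_cast hN) ((map_ne_zero t).2 n0) (X.disc_fix γ hτ t)
  rw [div_eq_zero_iff, or_iff_left (mul_ne_zero (pow_ne_zero 2 (Nat.cast_ne_zero.2 N0.ne')) n0)]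
    at h2
  exact (X.mem_Z0_iff _).2 ⟨_, X.scalar_of_disc h2⟩

theorem ok : X.tw.Ok where
  inf := X.ok_inf
  conj := X.ok_conj
  up := X.ok_up
  fi := X.ok_fi
  neat := ⟨_, X.UN_mem three_pos, X.neat_UN le_rfl⟩
  fin := fin_of X.apx
  fu := fu_of X.apx
  z0 := X.ok_z0
  zc := X.Z_le_center
  seq := X.ok_seq
  cpl := X.ok_cpl
  cnt := X.ok_cnt

end QD

/-- **OK** -/
theorem ok : AllQ fun X => X.OK := fun _ _ _ X => X.ok

end Vale.Agent.P022K.Sh
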