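import Vale.Agent.P022K.F0.ApeA
import Vale.Agent.P022K.F0.ApeW
import Vale.Agent.P022K.F0.Emb
import Vale.Agent.P022K.F0.OkA

/-!
# P022K, block F0, row BNDK: rationality of cocycles
-/

set_option autoImplicit false

open NumberField
open scoped MatrixGroups

noncomputable section

namespace Vale.Agent.P022K.Sh.Ap

open Vale.Agent.P022 Tw
open Vale.Agent.P022K.F0.Fuj (qi qj qk)

variable {F : Type} [Field F] [NumberField F] {Y : QD F} {s : Y.Sp Qb}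

omit [NumberField F] in
theorem sp_eq (hs : Y.IsSp s) (τ : F →+* Qb) (d : Y.D) : s τ d = τ d.re • 1 +
    τ d.imI • s τ (qi _ _) + τ d.imJ • s τ (qj _ _) + τ d.imK • (s τ (qi _ _) * s τ (qj _ _)) := by
  conv_lhs => rw [F0.Fuj.eq_sum d]
  simp only [map_add, map_mul, hs τ, ← F0.Fuj.qi_qj, Algebra.smul_def, mul_one]

variable (s) in
/-- `K` contains all matrix coefficients -/
structure Rt (K : IntermediateField ℚ Qb) : Prop where
  fin : FiniteDimensional ℚ K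
  tau : ∀ (τ : F →+* Qb) c, τ c ∈ K
  ent : ∀ τ d a b, s τ d a b ∈ K

theorem exK (hs : Y.IsSp s) (K0 : IntermediateField ℚ Qb) [FiniteDimensional ℚ K0] {A : Set Qb}
    (hA : A.Finite) : ∃ K, Rt s K ∧ K0 ≤ K ∧ A ⊆ K := by
  let A' : Set Qb := A ∪ ((Set.range fun t : (F →+* Qb) × Fin 2 × Fin 2 =>
    s t.1 (qi _ _) t.2.1 t.2.2) ∪ Set.range fun t : (F →+* Qb) × Fin 2 × Fin 2 =>
    s t.1 (qj _ _) t.2.1 t.2.2)
  have : Finite A' := hA.union ((Set.finite_range _).union (Set.finite_range _))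
  have : FiniteDimensional ℚ (IntermediateField.adjoin ℚ A') :=
    IntermediateField.finiteDimensional_adjoin fun x _ => Algebra.IsIntegral.isIntegral x
  have := fun τ : F →+* Qb => EmbA.finite_adjoin (k := ℚ) τ
  let K := (K0 ⊔ IntermediateField.adjoin ℚ A') ⊔ ⨆ τ : F →+* Qb,
    IntermediateField.adjoin ℚ (Set.range τ)
  have h1 : ∀ (τ : F →+* Qb) c, τ c ∈ K := fun τ c => (le_sup_of_le_right (le_iSup
    (fun τ : F →+* Qb => IntermediateField.adjoin ℚ (Set.range τ)) τ) : _ ≤ K)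
    (IntermediateField.subset_adjoin _ _ ⟨c, rfl⟩)
  have h2 : ∀ x ∈ A', x ∈ K := fun x hx => (le_sup_of_le_left le_sup_right : _ ≤ K)
    (IntermediateField.subset_adjoin _ _ hx)
  have h3 : ∀ τ a b, s τ (qi _ _) a b ∈ K := fun τ a b => h2 _ (.inr (.inl ⟨⟨τ, a, b⟩, rfl⟩))
  have h4 : ∀ τ a b, s τ (qj _ _) a b ∈ K := fun τ a b => h2 _ (.inr (.inr ⟨⟨τ, a, b⟩, rfl⟩))
  refine ⟨K, ⟨inferInstance, h1, fun τ d a b => ?_⟩, le_sup_of_le_left le_sup_left,
    fun x hx => h2 x (.inl hx)⟩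
  rw [sp_eq hs]
  simp only [Matrix.add_apply, Matrix.smul_apply, smul_eq_mul, Matrix.mul_apply, Matrix.one_apply]
  refine add_mem (add_mem (add_mem (mul_mem (h1 _ _) ?_) (mul_mem (h1 _ _) (h3 _ _ _)))
    (mul_mem (h1 _ _) (h4 _ _ _))) (mul_mem (h1 _ _) (sum_mem fun k _ =>
      mul_mem (h3 _ _ _) (h4 _ _ _)))
  split_ifs
  exacts [one_mem _, zero_mem _]

open Classical in
variable (s) in
/-- the matrix of `γ` -/
def rm (m : ℕ) (γ : Y.G0) :
    Matrix ((F →+* Qb) → Fin (2 * m + 1)) ((F →+* Qb) → Fin (2 * m + 1)) Qb :=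
  W m fun τ => Units.map (s τ).toMonoidHom γ.1

open Classical in
theorem rw_apply (m : ℕ) (γ : Y.G0) (v : Vw Qb (F →+* Qb) m) (a : (F →+* Qb) → Fin (2 * m + 1)) :
    Y.rw m s γ v a = ∑ b, rm s m γ a b * v b := rfl

variable {K : IntermediateField ℚ Qb} {m : ℕ} {U : Subgroup Y.G}

theorem Rt.rm (h : Rt s K) (γ : Y.G0) (a b : (F →+* Qb) → Fin (2 * m + 1)) : rm s m γ a b ∈ K := by
  classical
  exact W_mem K.toSubfield.toSubring m (fun τ => h.ent τ _) (fun τ => h.ent τ _) a b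

/-- every class is defined over a number field -/
theorem ex_rat (hs : Y.IsSp s) (hU : U ∈ Y.tw.Lev) {z : Y.G0 → Y.G → Vw Qb (F →+* Qb) m}
    (hz : z ∈ Y.tw.Z1 (Y.rw m s) U) (K0 : IntermediateField ℚ Qb) [FiniteDimensional ℚ K0] :
    ∃ K, Rt s K ∧ K0 ≤ K ∧ ∀ γ x a, nz Y.tw U (Y.rw m s) z γ x a ∈ K := by
  obtain ⟨I, _, g, c, hg⟩ := exGen Y.ok hU
  obtain ⟨K, h1, h2, h3⟩ := exK hs K0 (Set.finite_range
    fun t : I × ((F →+* Qb) → Fin (2 * m + 1)) => z (g t.1) (rq (c t.1)) t.2)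
  exact ⟨K, h1, h2, fun γ x a => hg.repr
    (M := fun _ => AddSubgroup.pi Set.univ fun _ => K.toSubfield.toAddSubgroup)
    ⟨fun γ _ v hv a _ => by
      rw [rw_apply]
      exact sum_mem fun b _ => mul_mem (h1.rm γ a b) (hv b trivial), fun _ _ _ => rfl⟩ hz
    (fun i a _ => h3 ⟨(i, a), rfl⟩) γ x a trivial⟩

/-- **BNDK** -/
theorem bndk : BNDK := by
  intro F _ _ Y m s hs U hU z hz hn
  obtain ⟨K, h1, -, h3⟩ := ex_rat hs hU hz ⊥
  refine ⟨K, h1.fin, fun O hO c hc => by_contra fun h => hn ?_⟩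
  obtain ⟨π, p1, p2⟩ := Submodule.exists_le_ker_of_notMem (K := K) (p := 1) (v := c) (by
    rintro h'
    obtain ⟨y, rfl⟩ := Submodule.mem_one.1 h'
    exact h y.2)
  have k : ∀ a ∈ K, ∀ b, (π (a * b) : Qb) = a * π b := fun a ha b =>
    congrArg Subtype.val (π.map_smul ⟨a, ha⟩ b)
  have k0 : ∀ a ∈ K, π a = 0 := fun a ha => p2 (Submodule.mem_one.2 ⟨⟨a, ha⟩, rfl⟩)
  have e := co_B1 (ρ' := Y.rw m s)
    (AddMonoidHom.compLeft (K.val.toRingHom.toAddMonoidHom.comp π.toAddMonoidHom) _)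
    (fun γ v => funext fun a => by
      show (π (Y.rw m s γ v a) : Qb) = _
      rw [rw_apply, rw_apply, map_sum, AddSubmonoidClass.coe_finsetSum]
      exact Finset.sum_congr rfl fun b _ => k _ (h1.rm γ a b) _)
    ((good_hk hO).eig (nz_sub hz) hc)
  have e' := sub_mem (Submodule.smul_mem _ (-(π c : Qb))⁻¹ e) (nz_sub hz)
  refine (congrArg (· ∈ Y.tw.B1 (Y.rw m s) U) (funext fun γ => funext fun x =>
    funext fun a => ?_)).mp e'
  show (-(π c : Qb))⁻¹ * (π (hk O U (nz Y.tw U (Y.rw m s) z γ) x a - c * _) : Qb) - (_ - _) = _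
  rw [map_sub, k0 (hk O U (nz Y.tw U (Y.rw m s) z γ) x a), zero_sub, mul_comm c,
    NegMemClass.coe_neg, k _ (h3 γ x a), mul_comm _ (π c : Qb),
    ← neg_mul, inv_mul_cancel_left₀ (neg_ne_zero.2 (ZeroMemClass.coe_eq_zero.not.2 p1)),
    sub_sub_cancel]
  rw [hk_eq hO, Finset.sum_apply]
  exact sum_mem fun _ _ => h3 _ _ _

end Vale.Agent.P022K.Sh.Ap
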