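import Vale.Agent.P022K.F0.St

/-! P022K, F0, row VOL: cocompact discontinuous groups are finitely generated. -/

set_option autoImplicit false

open UpperHalfPlane

namespace Vale.Agent.P022K.Sh

variable {G0 G : Type} [Group G0] [Group G] (T : Tw G0 G)

theorem Tw.continuous_r (γ : G0) : Continuous fun τ : ℍ => T.r γ • τ :=
  continuous_const_smul (T.r γ : GL (Fin 2) ℝ)

theorem Tw.vol_of : T.VOL := by
  classical
  intro Γ hΓ
  obtain ⟨K, hK, hc⟩ := hΓ.cc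
  obtain ⟨K', hK', hKK⟩ := exists_compact_superset hK
  obtain ⟨S, hS⟩ := hΓ.pd K' hK'
  refine ⟨S.filter (· ∈ Γ), ?_⟩
  set H := Subgroup.closure ((S.filter (· ∈ Γ) : Finset G0) : Set G0) ⊔ T.Z0 with hH
  have hle : H ≤ Γ := sup_le ((Subgroup.closure_le _).mpr fun s hs => (Finset.mem_filter.mp hs).2)
    hΓ.z0
  have key : ∀ γ ∈ Γ, ∀ τ ∈ interior K', T.r γ • τ ∈ interior K' → γ ∈ H := by
    intro γ hγ τ h1 h2
    obtain ⟨s, hs, h⟩ := hS γ hγ ⟨τ, interior_subset h1, interior_subset h2⟩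
    have hs' : s ∈ Γ := by
      simpa using Γ.mul_mem hγ (Γ.inv_mem (hΓ.z0 h))
    have : s * (s⁻¹ * γ) ∈ H := H.mul_mem
      (Subgroup.mem_sup_left (Subgroup.subset_closure (by simp [hs, hs'])))
      (Subgroup.mem_sup_right h)
    simpa using this
  have hop : ∀ P : G0 → Prop, IsOpen {τ : ℍ | ∃ γ, P γ ∧ T.r γ • τ ∈ interior K'} := fun P => by
    have : {τ : ℍ | ∃ γ, P γ ∧ T.r γ • τ ∈ interior K'} =
        ⋃ γ, ⋃ _ : P γ, (fun τ : ℍ => T.r γ • τ) ⁻¹' interior K' := by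
      ext; simp
    rw [this]
    exact isOpen_iUnion fun γ => isOpen_iUnion fun _ => isOpen_interior.preimage (T.continuous_r γ)
  obtain ⟨γ0, -, h0⟩ := hc I
  refine le_antisymm (fun γ hγ => ?_) hle
  by_contra hn
  obtain ⟨τ, -, ⟨δ, h1, h2⟩, ε, ⟨h3, h4⟩, h5⟩ := isPreconnected_univ _ _ (hop (· ∈ H))
    (hop fun γ => γ ∈ Γ ∧ γ ∉ H) (fun τ _ => by
      obtain ⟨δ, h1, h2⟩ := hc τ
      by_cases h : δ ∈ H
      · exact Or.inl ⟨δ, h, hKK h2⟩
      · exact Or.inr ⟨δ, ⟨h1, h⟩, hKK h2⟩)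
    ⟨T.r γ0 • I, trivial, 1, H.one_mem, by simpa using hKK h0⟩
    ⟨T.r γ⁻¹ • T.r γ0 • I, trivial, γ, ⟨hγ, hn⟩, by simpa using hKK h0⟩
  have := key (ε * δ⁻¹) (Γ.mul_mem h3 (Γ.inv_mem (hle h1))) _ h2 (by simpa [mul_smul] using h5)
  exact h4 (by simpa using H.mul_mem this h1)

theorem vol : All Tw.VOL := fun _ _ _ _ T _ => T.vol_of

end Vale.Agent.P022K.Sh
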