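import Vale.Agent.P022K.F0.BndiA
import Vale.Agent.P022K.F0.Emb
import Vale.Agent.P022K.F0.OkA
import Vale.Agent.P022K.F0.Vol

/-!
# P022K, block F0, row BNDI: the denominators of the eigenvalues
-/

set_option autoImplicit false

open NumberField IsDedekindDomain IsDedekindDomain.HeightOneSpectrum Polynomial
open scoped MatrixGroups Matrix

noncomputable section

namespace Vale.Agent.P022K.Sh

open Vale.Agent.P022 CH

namespace Bi

section alg

variable {K C : Type} [Field K] [Field C]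

theorem syd_val (m : ℕ) (g : GL (Fin 2) C) :
    syd m g = (g.val.det⁻¹ ^ m) • sy (2 * m) g.val := by
  change ((g.det⁻¹ ^ m : Cˣ) : C) • sy (2 * m) g.val = _
  rw [Units.val_pow_eq_pow_val, Units.val_inv_eq_inv_val, Matrix.GeneralLinearGroup.val_det_apply]

theorem syd_map (f : K →+* C) (m : ℕ) {g : GL (Fin 2) K} {g' : GL (Fin 2) C}
    (h : g'.val = g.val.map f) : syd m g' = (syd m g).map f := by
  rw [syd_val, syd_val, h, sy_map, ← RingHom.mapMatrix_apply f g.val, ← RingHom.map_det]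
  ext i j
  simp

theorem syd_sc (m : ℕ) {g : GL (Fin 2) C} {c : C} (h : g.val = algebraMap C _ c) : syd m g = 1 := by
  have h1 := g.det_ne_zero
  rw [h, Algebra.algebraMap_eq_smul_one, Matrix.det_smul, Matrix.det_one, mul_one,
    Fintype.card_fin] at h1
  have h2 : sy (2 * m) (c • (1 : Matrix (Fin 2) (Fin 2) C)) = c ^ (2 * m) • 1 := by
    ext j k
    have : mon (2 * m) (c • (1 : Matrix (Fin 2) (Fin 2) C)) j =
        Polynomial.C (c ^ (2 * m)) * X ^ (j : ℕ) := by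
      rw [← pow_mul_pow_sub c (Nat.lt_succ_iff.1 j.2)]
      simp [mon, mul_pow, mul_right_comm]
    rw [sy_apply, this, coeff_C_mul, coeff_X_pow]
    simp [Matrix.one_apply, Fin.ext_iff, eq_comm]
  rw [syd_val, h, Algebra.algebraMap_eq_smul_one, Matrix.det_smul, Matrix.det_one, mul_one,
    Fintype.card_fin, h2, smul_smul, pow_mul, ← mul_pow, inv_mul_cancel₀ h1, one_pow, one_smul]

variable {φ : Matrix (Fin 2) (Fin 2) K →+* Matrix (Fin 2) (Fin 2) C} {e : K →+* C}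

theorem hom_eq (hφ : ∀ c, φ (algebraMap K _ c) = algebraMap C _ (e c))
    (h : Matrix (Fin 2) (Fin 2) K) : φ h = e (h 0 0) • φ !![1, 0; 0, 0] + e (h 0 1) • φ !![0, 1; 0, 0]
      + e (h 1 0) • φ !![0, 0; 1, 0] + e (h 1 1) • φ !![0, 0; 0, 1] := by
  simp only [Algebra.smul_def, ← hφ, ← map_mul, ← map_add]
  simp only [← Algebra.smul_def]
  congr 1
  ext i j
  fin_cases i <;> fin_cases j <;> simp

theorem hom_det [CharZero C] (hφ : ∀ c, φ (algebraMap K _ c) = algebraMap C _ (e c))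
    (h : Matrix (Fin 2) (Fin 2) K) : (φ h).det = e h.det := by
  have k : ∀ a b : Matrix (Fin 2) (Fin 2) K, (φ (a * b)).trace = (φ (b * a)).trace := fun a b => by
    rw [map_mul, map_mul, Matrix.trace_mul_comm]
  have k1 := k !![1, 0; 0, 0] !![0, 1; 0, 0]
  have k2 := k !![0, 0; 0, 1] !![0, 0; 1, 0]
  have k3 := k !![0, 1; 0, 0] !![0, 0; 1, 0]
  have k4 := congrArg Matrix.trace (hom_eq hφ 1)
  have z : (!![0, 0; 0, 0] : Matrix (Fin 2) (Fin 2) K) = 0 := by
    ext i j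
    fin_cases i <;> fin_cases j <;> rfl
  simp only [Matrix.mul_fin_two, mul_one, mul_zero, add_zero, zero_add, z, map_zero,
    Matrix.trace_zero] at k1 k2 k3
  simp only [map_one, Matrix.trace_one, Fintype.card_fin, Matrix.one_apply_eq, one_smul,
    Matrix.one_apply_ne (show (0 : Fin 2) ≠ 1 by decide), map_zero, zero_smul, add_zero,
    Matrix.one_apply_ne (show (1 : Fin 2) ≠ 0 by decide), Matrix.trace_add, Nat.cast_ofNat] at k4
  have k5 : (φ !![0, 0; 0, 1]).trace = 1 := by linear_combination (-1 / 2) * k4 - (1 / 2) * k3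
  have t : ∀ a, (φ a).trace = e a.trace := fun a => by
    rw [hom_eq hφ a]
    simp only [Matrix.trace_add, Matrix.trace_smul, k1, k2, k3, k5, smul_eq_mul,
      Matrix.trace_fin_two a, map_add]
    ring
  have t1 := t h
  have t2 := t (h * h)
  rw [map_mul] at t2
  simp only [Matrix.trace_fin_two, Matrix.mul_apply, Fin.sum_univ_two, map_add, map_mul] at t1 t2
  simp only [Matrix.det_fin_two, map_sub, map_mul]
  linear_combination (1 / 2) * (φ h 0 0 + φ h 1 1 + e (h 0 0) + e (h 1 1)) * t1 - (1 / 2) * t2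

end alg

variable {F : Type} [Field F] [NumberField F] {X : QD F} {C : Type} [NormedField C]
  [IsUltrametricDist C]

theorem bd4 {A B D E : Matrix (Fin 2) (Fin 2) C} : ∃ a, ∀ x y z t : C, ‖x‖ ≤ 1 → ‖y‖ ≤ 1 →
    ‖z‖ ≤ 1 → ‖t‖ ≤ 1 → Bd a (x • A + y • B + z • D + t • E) := by
  obtain ⟨a, -, ha⟩ := ex_bd ![A, B, D, E]
  exact ⟨1 * a, fun x y z t hx hy hz ht => (((Bd.smul hx (ha 0)).add (Bd.smul hy (ha 1))).add
    (Bd.smul hz (ha 2))).add (Bd.smul ht (ha 3))⟩

/-- a splitting extends to the completion -/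
theorem ex_sw {f : F →+* C} (t : X.D →+* Matrix (Fin 2) (Fin 2) C)
    (ht : ∀ c, t (algebraMap F _ c) = algebraMap C _ (f c)) {v : Pl F} (e : Fw v →+* C)
    (he : ∀ c, e (algebraMap F _ c) = f c) (hn : ∀ x ∈ Ow v, ‖e x‖ ≤ 1) :
    ∃ u : X.Dw v →+* Matrix (Fin 2) (Fin 2) C,
      (∀ c, u (algebraMap _ _ c) = algebraMap C _ (e c)) ∧ (∀ d, u (X.cw v (X.jD d)) = t d) ∧
        ∃ a, ∀ y ∈ X.ODw v, Bd a (u y) := by
  have key : ∃ u : X.Dw v →+* Matrix (Fin 2) (Fin 2) C, ∀ y, u y = e y.re • 1 +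
      e y.imI • t ⟨0, 1, 0, 0⟩ + e y.imJ • t ⟨0, 0, 1, 0⟩ + e y.imK • t ⟨0, 0, 0, 1⟩ := by
    let _ : Algebra (Fw v) C := e.toAlgebra
    have sm : ∀ (c : Fw v) (A : Matrix (Fin 2) (Fin 2) C), c • A = e c • A := fun _ _ => rfl
    have sc : ∀ c : 𝓞 F, algebraMap (𝓞 F) (Fw v) c • (1 : Matrix (Fin 2) (Fin 2) C) =
        t (algebraMap F _ (algebraMap _ F c)) := fun c => by
      rw [sm, ht, ← he, Algebra.algebraMap_eq_smul_one (A := Matrix _ _ C)]
      rfl
    let q : QuaternionAlgebra.Basis (Matrix (Fin 2) (Fin 2) C) (algebraMap (𝓞 F) (Fw v) X.a) 0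
        (algebraMap (𝓞 F) (Fw v) X.b) :=
      { i := t ⟨0, 1, 0, 0⟩
        j := t ⟨0, 0, 1, 0⟩
        k := t ⟨0, 0, 0, 1⟩
        i_mul_i := by
          rw [zero_smul, add_zero, sc, ← map_mul, QuaternionAlgebra.algebraMap_eq]
          congr 1
          ext <;> simp
        j_mul_j := by
          rw [sc, ← map_mul, QuaternionAlgebra.algebraMap_eq]
          congr 1
          ext <;> simp
        i_mul_j := by
          rw [← map_mul]
          congr 1
          ext <;> simp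
        j_mul_i := by
          rw [zero_smul, zero_sub, ← map_mul, ← map_neg]
          congr 1
          ext <;> simp }
    refine ⟨q.liftHom.toRingHom, fun y => ?_⟩
    change q.lift y = _
    rw [QuaternionAlgebra.Basis.lift, Algebra.algebraMap_eq_smul_one]
    rfl
  obtain ⟨u, hu⟩ := key
  refine ⟨u, fun c => ?_, fun d => ?_, ?_⟩
  · rw [hu, QuaternionAlgebra.algebraMap_eq, Algebra.algebraMap_eq_smul_one (A := Matrix _ _ C)]
    simp
  · rw [hu]
    change e (algebraMap F _ d.re) • _ + e (algebraMap F _ d.imI) • _ +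
      e (algebraMap F _ d.imJ) • _ + e (algebraMap F _ d.imK) • _ = _
    rw [← map_one t]
    simp only [he, Algebra.smul_def, ← ht, ← map_mul, ← map_add]
    simp only [← Algebra.smul_def]
    congr 1
    ext <;> simp
  · obtain ⟨a, ha⟩ := bd4 (C := C)
    refine ⟨a, fun y hy => ?_⟩
    obtain ⟨h1, h2, h3, h4⟩ := mem_qint.1 hy
    rw [hu]
    exact ha _ _ _ _ (hn _ h1) (hn _ h2) (hn _ h3) (hn _ h4)

variable {O K : Type} [CommRing O] [IsDomain O] [IsDiscreteValuationRing O] [Field K] [Algebra O K]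

/-- the words of length `n` -/
def Wd (L : X.tw.Lc O K) (n : ℕ) : Set X.G := {t | ∃ g : GL (Fin 2) K, t = L.ι g ∧
  (∀ i j, g.val i j ∈ (algebraMap O K).range) ∧ g.det = L.ϖ ^ n}

theorem wd_zero (L : X.tw.Lc O K) : 1 ∈ Wd L 0 := ⟨1, (map_one _).symm, fun i j => by
  rw [Units.val_one, Matrix.one_apply]
  split_ifs
  exacts [one_mem _, zero_mem _], by simp⟩

theorem wd_succ (L : X.tw.Lc O K) (n : ℕ) (i : Option (IsLocalRing.ResidueField O)) :
    ∀ t ∈ Wd L n, L.ι (L.tr i) * t ∈ Wd L (n + 1) := by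
  rintro _ ⟨g, rfl, h1, h2⟩
  obtain ⟨p, -, hp⟩ := L.irr
  refine ⟨L.tr i * g, (map_mul _ _ _).symm, fun a b => ?_, by rw [map_mul, L.det_tr, h2, pow_succ']⟩
  rw [Units.val_mul, Matrix.mul_apply]
  refine sum_mem fun c _ => mul_mem ?_ (h1 _ _)
  rw [Tw.Lc.tr, Units.val_mul, Matrix.mul_apply]
  refine sum_mem fun d _ => mul_mem ⟨_, rfl⟩ ?_
  rw [dg_val, ← hp]
  fin_cases d <;> fin_cases c
  exacts [⟨p, rfl⟩, zero_mem _, zero_mem _, one_mem _]

/-- the local component of the representation of `G` -/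
abbrev gu {v : Pl F} (u : X.Dw v →+* Matrix (Fin 2) (Fin 2) C) : X.G →* GL (Fin 2) C :=
  Units.map (u.comp (X.cw v)).toMonoidHom

theorem loc [CharZero C] {f : F →+* C} {v : Pl F} {e : Fw v →+* C}
    (he : ∀ c, e (algebraMap F _ c) = f c) (hn : ∀ x ∈ Ow v, ‖e x‖ ≤ 1)
    {u : X.Dw v →+* Matrix (Fin 2) (Fin 2) C} (hu : ∀ c, u (algebraMap _ _ c) = algebraMap C _ (e c))
    {L : X.tw.Lc O K} {w : Pl F} (hp : X.IsPl w L) (m : ℕ) : ∃ b r : ℝ, 0 ≤ b ∧ 0 < r ∧
      (∀ α ∈ w.asIdeal, ‖f α‖ ≤ r) ∧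
        ∀ n, ∀ t ∈ Wd L n, Bd (b * (r⁻¹ ^ m) ^ n) (syd m (gu u t)) := by
  obtain ⟨e0, s, h1, h2, h3, h4⟩ := hp
  by_cases hv : v = w
  swap
  · refine ⟨1, 1, zero_le_one, one_pos, fun α _ => EmbA.norm_int_le f α, ?_⟩
    rintro n _ ⟨g, rfl, -⟩
    have : gu u (L.ι g) = 1 := Units.ext ((congrArg u (h4 g v hv)).trans (map_one u))
    rw [this, map_one]
    exact bd_one.mono (by simp)
  subst hv
  let φ := u.comp s.symm.toRingHom
  let e' := e.comp e0.symm.toRingHom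
  have hφ : ∀ c, φ (algebraMap K _ c) = algebraMap C _ (e' c) := fun c => by
    change u (s.symm _) = algebraMap C _ (e (e0.symm c))
    rw [← hu, s.symm_apply_eq.2 ((h2 (e0.symm c)).trans (by rw [e0.apply_symm_apply])).symm]
  have hi : ∀ x ∈ (algebraMap O K).range, ‖e' x‖ ≤ 1 := fun x hx =>
    hn _ ((h1 _).2 (by rwa [show e0 (e0.symm.toRingHom x) = x from e0.apply_symm_apply x]))
  obtain ⟨a, ha⟩ := bd4 (C := C)
  have r0 : 0 < ‖e' L.ϖ‖ := norm_pos_iff.2 ((map_ne_zero e').2 L.ϖ.ne_zero)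
  have a0 := (ha 0 0 0 0 (by simp) (by simp) (by simp) (by simp)).nn
  refine ⟨a ^ (2 * m), ‖e' L.ϖ‖, pow_nonneg a0 _, r0, fun α hα => ?_, ?_⟩
  · obtain ⟨p, hp, ep⟩ := L.irr
    obtain ⟨o, ho⟩ := (h1 _).1 ((Ow v).algebraMap_mem α)
    have no : o ∈ IsLocalRing.maximalIdeal O := fun ⟨o', e1⟩ => by
      have e2 : algebraMap (𝓞 F) (Fw v) α * e0.symm (algebraMap O K (o'⁻¹ : Oˣ)) = 1 := by
        apply e0.injective
        rw [map_mul, ← ho, e0.apply_symm_apply, ← map_mul, ← e1, Units.mul_inv, map_one, map_one]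
      have e3 := mem_Ow.1 ((h1 (e0.symm (algebraMap O K (o'⁻¹ : Oˣ)))).2
        (by rw [e0.apply_symm_apply]; exact ⟨_, rfl⟩))
      have e4 : Valued.v (algebraMap (𝓞 F) (Fw v) α) < 1 := by
        rw [v_int]
        exact (intValuation_lt_one_iff_mem _ _).2 hα
      have := mul_lt_one_of_lt_of_le e4 e3
      rw [← map_mul, e2, map_one] at this
      exact this.false
    rw [hp.maximalIdeal_eq, Ideal.mem_span_singleton] at no
    obtain ⟨o', rfl⟩ := no
    have e5 : f α = e' L.ϖ * e' (algebraMap O K o') := by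
      rw [← map_mul, ← ep, ← map_mul, ho, ← he]
      exact congrArg e (e0.symm_apply_apply _).symm
    rw [e5, norm_mul]
    exact mul_le_of_le_one_right r0.le (hi _ ⟨_, rfl⟩)
  · rintro n _ ⟨g, rfl, g1, g2⟩
    have e1 : (gu u (L.ι g)).val = φ g.val := by
      change u (X.cw v (L.ι g : X.G)) = u (s.symm g.val)
      rw [s.symm_apply_eq.2 ((h3 (L.ι g)).symm.trans (by rw [L.πι])).symm]
    refine (Bd.syd (a := a) (d := (‖e' L.ϖ‖ ^ n)⁻¹) ?_ ?_ m).mono (le_of_eq ?_)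
    · rw [e1, hom_eq hφ]
      exact ha _ _ _ _ (hi _ (g1 _ _)) (hi _ (g1 _ _)) (hi _ (g1 _ _)) (hi _ (g1 _ _))
    · rw [Units.val_inv_eq_inv_val, Matrix.GeneralLinearGroup.val_det_apply, e1, hom_det hφ,
        ← Matrix.GeneralLinearGroup.val_det_apply, g2, Units.val_pow_eq_pow_val, map_pow, norm_inv,
        norm_pow]
    · rw [← inv_pow, ← pow_mul, ← pow_mul, mul_comm n, mul_comm]

omit [NumberField F] in
theorem pow_le {f : F →+* C} {I : Ideal (𝓞 F)} {r : ℝ} (h : ∀ α ∈ I, ‖f α‖ ≤ r) (n : ℕ) :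
    ∀ α ∈ I ^ n, ‖f α‖ ≤ r ^ n := by
  induction n with
  | zero => exact fun α _ => by simpa using EmbA.norm_int_le f α
  | succ n ih =>
    intro α hα
    rw [pow_succ] at hα ⊢
    refine Submodule.mul_induction_on hα (fun x hx y hy => ?_) fun x y hx hy => ?_
    · change ‖f ((x : F) * y)‖ ≤ _
      rw [map_mul, norm_mul]
      exact mul_le_mul (ih x hx) (h y hy) (norm_nonneg _) ((norm_nonneg _).trans (ih x hx))
    · change ‖f ((x : F) + y)‖ ≤ _
      rw [map_add]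
      exact (IsUltrametricDist.norm_add_le_max _ _).trans (max_le hx hy)

theorem ex_prin (w : Pl F) : ∃ (h : ℕ) (α : 𝓞 F), h ≠ 0 ∧ w.asIdeal ^ h = Ideal.span {α} := by
  have h1 : ClassGroup.mk0 (⟨w.asIdeal, mem_nonZeroDivisors_of_ne_zero w.ne_bot⟩ ^
      Fintype.card (ClassGroup (𝓞 F))) = 1 := by rw [map_pow, pow_card_eq_one]
  obtain ⟨α, hα⟩ := (ClassGroup.mk0_eq_one_iff _).1 h1
  exact ⟨_, α, Fintype.card_ne_zero, hα⟩

theorem core [CharZero C] {k I : Type} [Field k] [Fintype I] [DecidableEq I] (ι : k →+* C)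
    {τ : I → F →+* k} {s : I → X.D →+* Matrix (Fin 2) (Fin 2) k}
    (hs : ∀ i c, s i (algebraMap F _ c) = algebraMap k _ (τ i c)) {v : I → Pl F}
    (e : ∀ i, Fw (v i) →+* C) (he : ∀ i c, e i (algebraMap F _ c) = ι (τ i c))
    (hn : ∀ i, ∀ x ∈ Ow (v i), ‖e i x‖ ≤ 1)
    (hN : ∀ α : 𝓞 F, ∏ i, ‖ι (τ i α)‖ = ‖(Ideal.absNorm (Ideal.span {α}) : C)‖) {m : ℕ}
    {ρ : Representation k X.G0 (Vw k I m)}
    (hρ : ρ = wt m fun i => (Units.map (s i).toMonoidHom).comp X.G0.subtype) {U : Subgroup X.G}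
    (hU : U ∈ X.tw.Lev) {z : X.G0 → X.G → Vw k I m} (hz : z ∈ X.tw.Z1 ρ U) (h0 : z ∉ X.tw.B1 ρ U)
    {L : X.tw.Lc O K} {w : Pl F} (hp : X.IsPl w L) (hA : L.At (KK O K) U) {c : k}
    (hc : X.tw.Eig ρ U z (hk (L.To U) U) c) : ‖ι ((qw w : k) ^ m * c)‖ ≤ 1 := by
  choose u u1 u2 a ua using fun i => ex_sw (f := ι.comp (τ i)) (ι.mapMatrix.comp (s i))
    (fun c => by
      rw [RingHom.comp_apply, hs]
      ext i j
      simp [Matrix.algebraMap_matrix_apply, apply_ite ι]) (e i) (he i) (hn i)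
  choose b r b0 r0 hr hb using fun i => loc (f := ι.comp (τ i)) (he i) (hn i) (u1 i) hp m
  let σ := wm m fun i => gu (u i)
  have hσ : ∀ γ x, σ (X.tw.j γ) *ᵥ (ι ∘ x) = ι ∘ ρ γ x := fun γ x => by
    have : σ (X.tw.j γ) =
        (wm m (fun i => (Units.map (s i).toMonoidHom).comp X.G0.subtype) γ).map ι := by
      ext p q
      change ∏ i, syd m _ (p i) (q i) = ι (∏ i, syd m _ (p i) (q i))
      rw [map_prod]
      exact Finset.prod_congr rfl fun i _ => congrFun (congrFun (syd_map ι m (u2 i _)) _) _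
    funext p
    rw [this, hρ, wt_apply, Function.comp_apply, RingHom.map_mulVec]
  have hZ : ∀ x ∈ X.tw.Z, σ x = 1 := fun x hx => by
    obtain ⟨d, hd⟩ := X.mem_Z.1 hx
    refine Eq.trans (congrArg kr (funext fun i => syd_sc m (c := e i (ev _ d)) ?_)) (map_one kr)
    change u i (X.cw _ (x : X.DA)) = _
    rw [hd, ← u1, QD.cw, qmap_alg]
  obtain ⟨N, -, -, hi⟩ := id hU
  obtain ⟨g, g0, hg⟩ := bd_up σ hi (a := ∏ i, (a i ^ 2) ^ m * a i ^ (2 * m))
    (Finset.prod_nonneg fun i _ => by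
      have := (ua i 0 (zero_mem _)).nn
      positivity) fun x hx => by
    obtain ⟨d, hd⟩ := X.mem_UN_iff.1 hx
    obtain ⟨h1, h2⟩ := X.mem_Um.1 hd
    rw [← one_mul (σ x), ← hZ _ (X.sc_mem_Z d), ← map_mul]
    refine bd_kr fun i => Bd.syd (ua i _ (X.mem_OD.1 h1.mem _)) ?_ m
    rw [← map_inv, ← map_inv, Matrix.GeneralLinearGroup.val_det_apply]
    exact (ua i _ (X.mem_OD.1 h2.mem _)).det
  have := L.fin
  have := Fintype.ofFinite (IsLocalRing.ResidueField O)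
  have p0 : 0 < ∏ i, r i := Finset.prod_pos fun i _ => r0 i
  have key := le_of ι σ hσ X.ok X.tw.vol_of hU (fun γ hγ => LinearMap.ext fun x => by
      have := hσ γ x
      rw [hZ _ ((X.ok_z0 γ).1 hγ), Matrix.one_mulVec] at this
      exact funext fun p => (ι.injective (congrFun this p)).symm) g0 hg hz h0
    ((X.tw.hec_of X.ok.conj X.ok.fi).1 U hU U hU _) (hA.rep_To hU) (Wd L) (wd_zero L)
    (fun n i _ => wd_succ L n i) (Finset.prod_nonneg fun i _ => b0 i)
    (pow_pos (inv_pos.2 p0) m) (fun n t ht => (bd_kr fun i => hb i n t ht).mono (le_of_eq (by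
      rw [Finset.prod_mul_distrib, Finset.prod_pow, Finset.prod_pow, Finset.prod_inv_distrib]))) hc
  obtain ⟨h, α, h1, h2⟩ := ex_prin w
  have q1 : ‖(qw w : C)‖ ≤ ∏ i, r i := by
    refine le_of_pow_le_pow_left₀ h1 p0.le ?_
    rw [← norm_pow, ← Nat.cast_pow, qw, ← map_pow, h2, ← hN, ← Finset.prod_pow]
    exact Finset.prod_le_prod (fun _ _ => norm_nonneg _) fun i _ =>
      pow_le (hr i) h α (h2 ▸ Ideal.mem_span_singleton_self α)
  rw [map_mul, map_pow, map_natCast, norm_mul, norm_pow]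
  refine (mul_le_mul (pow_le_pow_left₀ (norm_nonneg _) q1 m) key (norm_nonneg _)
    (pow_pos p0 m).le).trans_eq ?_
  rw [← mul_pow, mul_inv_cancel₀ p0.ne', one_pow]

/-- integrality is tested on the `p`-adic embeddings -/
theorem int_of {x : Qb} (h : ∀ (p : ℕ) [Fact p.Prime] (ι : Qb →+* Cp p), ‖ι x‖ ≤ 1) :
    IsIntegral ℤ x := by
  have hi : ∀ y : Qb, IsIntegral ℚ y := fun y => (Algebra.IsAlgebraic.isAlgebraic y).isIntegral
  have hm : minpoly ℚ x ∈ lifts (algebraMap ℤ ℚ) := by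
    refine (lifts_iff_coeff_lifts _).2 fun n => ⟨((minpoly ℚ x).coeff n).num, ?_⟩
    refine (Rat.den_eq_one_iff _).1 (Nat.eq_one_iff_not_exists_prime_dvd.2 fun p hp => ?_)
    have : Fact p.Prime := ⟨hp⟩
    have h1 := (IsAlgClosed.splits ((minpoly ℚ x).map (algebraMap ℚ (Cp p))
      )).mem_lift_of_roots_mem_range ((minpoly.monic (hi x)).map _) (Op p).subtype fun y hy => by
      obtain ⟨φ, rfl⟩ := IntermediateField.exists_algHom_of_splits_of_aeval
        (fun s => ⟨hi s, IsAlgClosed.splits _⟩) (x := x) (y := y) (by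
          rw [aeval_def, ← eval_map]
          exact (mem_roots'.1 hy).2)
      exact ⟨⟨φ x, h p φ.toRingHom⟩, rfl⟩
    obtain ⟨y, hy⟩ := (lifts_iff_coeff_lifts _).1 h1 n
    have h2 : ‖((minpoly ℚ x).map (algebraMap ℚ (Cp p))).coeff n‖ ≤ 1 := hy ▸ y.2
    rw [coeff_map, eq_ratCast, ← map_ratCast (algebraMap ℚ_[p] (Cp p)),
      PadicAlgCl.norm_extends] at h2
    simpa [Nat.Prime.coprime_iff_not_dvd hp] using PadicInt.isUnit_iff.1 (PadicInt.isUnit_den _ h2)
  obtain ⟨q, h1, -, h2⟩ := lifts_and_degree_eq_and_monic hm (minpoly.monic (hi x))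
  exact ⟨q, h2, by rw [← aeval_def, ← aeval_map_algebraMap ℚ, h1, minpoly.aeval]⟩

theorem prod_emb (p : ℕ) [Fact p.Prime] (ι : Qb →+* Cp p) (α : 𝓞 F) :
    ∏ τ : F →+* Qb, ‖ι (τ α)‖ = ‖(Ideal.absNorm (Ideal.span {α}) : Cp p)‖ := by
  have h := Algebra.norm_eq_prod_embeddings ℚ Qb (α : F)
  rw [← Fintype.prod_equiv (RingHom.equivRatAlgHom F Qb) (fun τ : F →+* Qb => τ α) _ fun _ => rfl,
    ← Algebra.coe_norm_int, eq_ratCast, Rat.cast_intCast] at h
  rw [← norm_prod, ← map_prod, ← h, map_intCast, Ideal.absNorm_span_singleton]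
  rcases Int.natAbs_eq (Algebra.norm ℤ α) with e | e
  · conv_lhs => rw [e, Int.cast_natCast]
  · conv_lhs => rw [e, Int.cast_neg, Int.cast_natCast, norm_neg]

end Bi

/-- **BNDI** -/
theorem bndi : BNDI := by
  intro F _ _ Y m s hs U hU z hz h0 O K _ _ _ _ _ L w hp hA c hc
  refine Bi.int_of fun p _ ι => ?_
  choose v e _ he hn _ using fun τ : F →+* Qb => emb F p (ι.comp τ)
  exact @Bi.core F _ _ Y (Cp p) _ _ O K _ _ _ _ _ _ Qb (F →+* Qb) _ _ (_) ι (fun τ => τ) s hs v e he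
    (fun i x => (hn i x).2) (Bi.prod_emb p ι) m _ rfl U hU z hz h0 L w hp hA c hc

end Vale.Agent.P022K.Sh
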