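import Vale.Agent.P022K.F0.ApeC
import Vale.Agent.P022K.F0.ApeK
import Vale.Agent.P022K.F0.Bndi
import Vale.Agent.P022K.F0.Loc
import Vale.Agent.P022K.CH.Bas

/-!
# P022K, block F0, row APE: eigenclasses modulo `p ^ n` with constant coefficients
-/

set_option autoImplicit false

open NumberField
open scoped MatrixGroups NNReal Matrix

noncomputable section

namespace Vale.Agent.P022K.Sh

open Vale.Agent.P022 CH Tw

namespace Ap

theorem ex_proj {A B : Type} [Field A] [Field B] (φ : A →+* B) :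
    ∃ π : B →+ A, (∀ a b, π (φ a * b) = a * π b) ∧ π 1 = 1 := by
  let _ := φ.toAlgebra
  obtain ⟨π, h⟩ := (Algebra.linearMap A B).exists_leftInverse_of_injective
    (LinearMap.ker_eq_bot.2 φ.injective)
  exact ⟨π.toAddMonoidHom, fun a b => π.map_smul a b, by simpa using LinearMap.congr_fun h 1⟩

variable {C ι : Type} [NormedField C] [IsUltrametricDist C] [Fintype ι] [DecidableEq ι]

theorem W_close (m : ℕ) {ε : ℝ} (e0 : 0 ≤ ε) (e1 : ε ≤ 1) {g : ι → GL (Fin 2) C}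
    (h : ∀ t, Bi.Bd ε ((g t).val - 1)) (h' : ∀ t, Bi.Bd ε (((g t)⁻¹).val - 1)) :
    Bi.Bd ε (W m g - 1) := fun a b => by
  obtain ⟨y, hy, e⟩ := W_cong (NormedField.valuation (K := C)).integer
    { carrier := {y | ‖(y : C)‖ ≤ ε}
      add_mem' := fun h h' => (IsUltrametricDist.norm_add_le_max _ _).trans (max_le h h')
      zero_mem' := by simpa using e0
      smul_mem' := fun c y h => (norm_mul (c : C) y).trans_le
        ((mul_le_of_le_one_left (norm_nonneg _) c.2).trans h) } m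
    (fun t i j => ⟨⟨_, (h t i j).trans e1⟩, h t i j, rfl⟩) (fun t i j => by
      have := (((h' t).mono e1).add Bi.bd_one) i j
      rwa [sub_add_cancel] at this) a b
  exact e ▸ hy

theorem op_le {n : Type} [Fintype n] {a : ℝ} (a0 : 0 ≤ a) {A : Matrix n n C} (h : Bi.Bd a A)
    (v : n → C) : ‖A *ᵥ v‖ ≤ a * ‖v‖ :=
  (pi_norm_le_iff_of_nonneg (by positivity)).2
    (h.vec a0 (norm_nonneg _) (norm_le_pi_norm v))

variable {F : Type} [Field F] [NumberField F] {Y : QD F}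

section

variable {v : ι → Pl F} {e : ∀ i, Fw (v i) →+* C}
  {u : ∀ i, Y.Dw (v i) →+* Matrix (Fin 2) (Fin 2) C}
  (u1 : ∀ i c, u i (algebraMap _ _ c) = algebraMap C _ (e i c)) {a : ι → ℝ}
  (ua : ∀ i, ∀ y ∈ Y.ODw (v i), Bi.Bd (a i) (u i y)) (m : ℕ)

include u1

omit [IsUltrametricDist C] [Fintype ι] [DecidableEq ι] in
theorem gu_sc (i : ι) (d : (AF F)ˣ) :
    (Bi.gu (u i) (Y.sc d)).val = algebraMap C _ (e i (ev _ d.val)) := by
  change u i (Y.cw _ (Y.sc d : Y.DA)) = _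
  rw [Y.coe_sc, Y.cw_alg, u1]

omit [IsUltrametricDist C] in
theorem wm_cen {x : Y.G} (hx : x ∈ Y.tw.Z) : wm m (fun i => Bi.gu (u i)) x = 1 := by
  obtain ⟨d, rfl⟩ := Y.mem_Z_sc.1 hx
  exact (W_congr m (g' := 1) fun i => ⟨_, by simpa using gu_sc u1 i d⟩).trans (map_one _)

include ua

theorem std {U : Subgroup Y.G} (hU : U ∈ Y.tw.Lev) :
    ∃ D, Std Y.tw U (wt m fun i => Bi.gu (u i)) D := by
  obtain ⟨N, -, -, hi⟩ := id hU
  obtain ⟨g, g0, hg⟩ := Bi.bd_up (wm m fun i => Bi.gu (u i)) hi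
    (a := ∏ i, (a i ^ 2) ^ m * a i ^ (2 * m)) (Finset.prod_nonneg fun i _ => by
      have := (ua i 0 (zero_mem _)).nn
      positivity) fun x hx => by
    obtain ⟨d, hd⟩ := Y.mem_UN_iff.1 hx
    obtain ⟨h1, h2⟩ := Y.mem_Um.1 hd
    rw [← one_mul (wm m _ x), ← wm_cen u1 m (Y.sc_mem_Z d), ← map_mul]
    refine Bi.bd_kr fun i => Bi.Bd.syd (ua i _ (Y.mem_OD.1 h1.mem _)) ?_ m
    rw [← map_inv, ← map_inv, Matrix.GeneralLinearGroup.val_det_apply]
    exact (ua i _ (Y.mem_OD.1 h2.mem _)).det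
  refine ⟨max 1 ⟨g, g0⟩, Y.ok, hU, fun x hx => LinearMap.ext fun w => ?_, le_max_left _ _,
    fun x hx w => NNReal.coe_le_coe.1 (le_trans (op_le g0 (hg x hx) w) ?_)⟩
  · rw [wt_apply, wm_cen u1 m hx, Matrix.one_mulVec]
    rfl
  · exact NNReal.coe_le_coe.2 (mul_le_mul_left (le_max_right (1 : ℝ≥0) ⟨g, g0⟩) ‖w‖₊)

theorem close [CharZero C] {ε : ℝ} (e1 : ε ≤ 1) {N : ℕ} (hN : ∀ i, ‖(N : C)‖ * a i ≤ ε) (e0 : 0 ≤ ε)
    {x : Y.G} (hx : ∀ i, Y.cu (v i) x ∈ Y.U1 (v i) N) (w : Vw C ι m) :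
    ‖wt m (fun i => Bi.gu (u i)) x w - w‖ ≤ ε * ‖w‖ := by
  choose y hy ey using hx
  choose d hd using fun i => Y.mem_UN_iff.1 (hy i)
  have k : ∀ i (t : Y.G), Y.One N t → Bi.Bd ε ((Bi.gu (u i) t).val - 1) := by
    rintro i t ⟨r, hr, er⟩
    change Bi.Bd ε (u i (Y.cw _ (t : Y.DA)) - 1)
    rw [er, map_add, map_add, map_one, map_one, add_sub_cancel_left, map_mul, map_mul, map_natCast,
      map_natCast, ← nsmul_eq_mul, ← Nat.cast_smul_eq_nsmul C]
    exact (Bi.Bd.smul le_rfl (ua i _ (Y.mem_OD.1 hr _))).mono (hN i)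
  have := op_le e0 (W_close m e0 e1 (g := fun i => Bi.gu (u i) (Y.sc (d i) * y i))
    (fun i => k i _ (hd i).1) fun i => map_inv (Bi.gu (u i)) _ ▸ k i _ (hd i).2) w
  rw [Matrix.sub_mulVec, Matrix.one_mulVec] at this
  rw [wt_apply, wm_eq, W_congr m (g' := fun i => Bi.gu (u i) (Y.sc (d i) * y i)) fun i => ?_]
  · exact this
  · have : Bi.gu (u i) x = Bi.gu (u i) (y i) :=
      Units.ext (congrArg (fun t : (Y.Dw (v i))ˣ => u i t) (ey i).symm)
    rw [this, ← map_inv, ← map_mul, mul_inv_rev, mul_inv_cancel_left, ← map_inv]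
    exact ⟨_, gu_sc u1 i _⟩

end

theorem ex_t {A B : Type} [Ring A] [Field B] (E : Subfield B)
    (t : A →+* Matrix (Fin 2) (Fin 2) B) (h : ∀ d i j, t d i j ∈ E) :
    ∃ t' : A →+* Matrix (Fin 2) (Fin 2) E, ∀ d, E.subtype.mapMatrix (t' d) = t d := by
  have i : Function.Injective (E.subtype.mapMatrix (m := Fin 2)) :=
    Matrix.map_injective E.subtype_injective
  let f : A → Matrix (Fin 2) (Fin 2) E := fun d => Matrix.of fun i j => ⟨_, h d i j⟩
  have k : ∀ d, E.subtype.mapMatrix (f d) = t d := fun _ => rfl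
  exact ⟨⟨⟨⟨f, i (by rw [k, map_one, map_one])⟩, fun a b => i (by simp only [map_mul, k])⟩,
    i (by simp only [map_zero, k]), fun a b => i (by simp only [map_add, k])⟩, k⟩

open Classical in
/-- the level `V` made small at the places above `p` -/
def sm (V : ∀ w, Subgroup (Y.Dw w)ˣ) (p N : ℕ) (w : Pl F) : Subgroup (Y.Dw w)ˣ :=
  if (p : 𝓞 F) ∈ w.asIdeal then V w ⊓ Y.U1 w N else V w

variable {V : ∀ w, Subgroup (Y.Dw w)ˣ} {p N : ℕ}

theorem sm_le (w : Pl F) : sm V p N w ≤ V w := by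
  unfold sm
  split_ifs
  exacts [inf_le_left, le_rfl]

theorem PU_le : Y.PU (sm V p N) ≤ Y.PU V := iInf_mono fun w => Subgroup.comap_mono (sm_le w)

theorem sm_lev (hV : Y.PU V ∈ Y.tw.Lev) (N0 : 0 < N) : Y.PU (sm V p N) ∈ Y.tw.Lev := by
  have h := Y.ok.inf _ hV _ (Y.UN_mem N0)
  refine Y.ok.up _ h _ (fun x hx => Subgroup.mem_iInf.2 fun w => ?_) fun e =>
    Y.ok.fi _ h _ hV (Subgroup.relIndex_eq_zero_of_le_right PU_le e)
  have := Subgroup.mem_iInf.1 hx.1 w
  unfold sm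
  split_ifs
  exacts [⟨this, x, hx.2, rfl⟩, this]

theorem sm_at {O K : Type} [CommRing O] [IsDomain O] [IsDiscreteValuationRing O] [Field K]
    [Algebra O K] {L : Y.tw.Lc O K} {w : Pl F} (h : Y.IsPl w L) (hw : (p : 𝓞 F) ∉ w.asIdeal)
    {A : Subgroup (GL (Fin 2) K)} (a : L.At A (Y.PU V)) : L.At A (Y.PU (sm V p N)) := by
  refine ⟨fun g hg => Subgroup.mem_iInf.2 fun v => ?_, fun u hu => a.2 u (PU_le hu)⟩
  by_cases hv : v = w
  · subst hv
    rw [sm, if_neg hw]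
    exact Subgroup.mem_iInf.1 (a.1 g hg) v
  · obtain ⟨-, -, -, -, -, h2⟩ := h
    exact Subgroup.mem_comap.2 ((Units.ext (h2 g v hv) : Y.cu v (L.ι g) = 1) ▸ one_mem _)

end Ap

open Ap in
/-- **APE** -/
theorem ape : APE := by
  classical
  rintro F _ _ Y m s hs V hV z hz hn p _ ι ⟨w, L, c, pw, hw, hA, sa, hc, ei⟩ K hK
  have : FiniteDimensional ℚ (IntermediateField.adjoin ℚ {c}) :=
    IntermediateField.adjoin.finiteDimensional (Algebra.IsIntegral.isIntegral c)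
  obtain ⟨K1, r, k0, k1⟩ := ex_rat hs hV hz (K ⊔ IntermediateField.adjoin ℚ {c})
  have := r.fin
  have : NumberField K1 := {}
  let E := IntermediateField.adjoin ℚ_[p] (Set.range (ι.comp K1.val.toRingHom))
  have hE : ∀ x ∈ K1, ι x ∈ E := fun x hx => IntermediateField.subset_adjoin _ _ ⟨⟨x, hx⟩, rfl⟩
  have fE : FiniteDimensional ℚ_[p] E := EmbA.finite_adjoin _
  clear_value E
  choose v e pv he hb _ hr using fun τ : F →+* Qb => emb F p (ι.comp τ)
  have hr' : ∀ τ x, e τ x ∈ E := fun τ x => IntermediateField.adjoin_le_iff.2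
    (by rintro _ ⟨y, rfl⟩; exact hE _ (r.tau τ y)) (hr τ x)
  choose t ht using fun τ => ex_t E.toSubfield (ι.mapMatrix.comp (s τ))
    fun d i j => hE _ (r.ent τ d i j)
  choose u u1 u2 a ua using fun τ : F →+* Qb => Bi.ex_sw (C := E)
    (f := (ι.comp τ).codRestrict E fun x => hE _ (r.tau τ x)) (t τ) (fun y => by
      ext i j
      refine (congrFun (congrFun (ht τ _) i) j).trans ?_
      rw [RingHom.comp_apply, hs]
      simp [Matrix.algebraMap_matrix_apply, apply_ite ι, apply_ite ((↑) : E → Cp p)])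
    ((e τ).codRestrict E (hr' τ)) (fun y => Subtype.ext (he τ y)) fun x hx => (hb τ x).2 hx
  let σ := wt m fun τ => Bi.gu (u τ)
  obtain ⟨D, hD⟩ := std u1 ua m hV
  have en : ∀ γ i j, ((wm m (fun τ => Bi.gu (u τ)) (Y.tw.j γ) i j : E) : Cp p) =
      ι (rm s m γ i j) := fun γ i j => by
    have e1 := W_map E.val.toRingHom m fun τ => Bi.gu (u τ) (Y.tw.j γ)
    have e2 := W_map ι m fun τ : F →+* Qb => Units.map (s τ).toMonoidHom γ.1
    refine congrFun (congrFun (e1.symm.trans (Eq.trans (congrArg _ (funext fun τ =>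
      Units.ext ?_)) e2)) i) j
    exact (congrArg E.toSubfield.subtype.mapMatrix (u2 τ γ.1.1)).trans (ht τ _)
  obtain ⟨πE, p1, p2⟩ := ex_proj E.val.toRingHom
  obtain ⟨πQ, q1, q2⟩ := ex_proj ι
  let l := (πE.comp ι.toAddMonoidHom).compLeft ((F →+* Qb) → Fin (2 * m + 1))
  have ls : ∀ (b : Qb) (b' : E), (b' : Cp p) = ι b → ∀ y, l (b • y) = b' • l y :=
    fun b b' eb y => funext fun i => by
      show πE (ι (b * y i)) = b' * πE (ι (y i))
      rw [map_mul, ← eb]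
      exact p1 _ _
  have hl : ∀ γ y, l (Y.rw m s γ y) = rs Y.tw σ γ (l y) := fun γ y => funext fun i => by
    show πE (ι (Y.rw m s γ y i)) = ∑ j, wm m (fun τ => Bi.gu (u τ)) (Y.tw.j γ) i j * πE (ι (y j))
    rw [rw_apply, map_sum, map_sum]
    refine Finset.sum_congr rfl fun j _ => ?_
    rw [map_mul, ← en]
    exact p1 _ _
  have z1 := co_Z1 l hl hz
  have z2 : (fun γ x => l (z γ x)) ∉ Y.tw.B1 (rs Y.tw σ) (Y.PU V) := fun h => hn (by
    have := sub_mem (co_B1 (ρ' := Y.rw m s) ((πQ.comp E.val.toRingHom.toAddMonoidHom).compLeft _)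
      (fun γ y => funext fun i => by
        show πQ ((∑ j, wm m (fun τ => Bi.gu (u τ)) (Y.tw.j γ) i j * y j : E) : Cp p) = _
        rw [rw_apply, AddSubmonoidClass.coe_finsetSum, map_sum]
        refine Finset.sum_congr rfl fun j _ => ?_
        rw [MulMemClass.coe_mul, en]
        exact q1 _ _) (add_mem h (co_B1 l hl (nz_sub hz)))) (nz_sub hz)
    refine (congrArg (· ∈ Y.tw.B1 (Y.rw m s) (Y.PU V)) (funext fun γ => funext fun x =>
      funext fun i => ?_)).mp this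
    show πQ ((πE (ι _) + πE (ι (_ - _)) : E) : Cp p) - (_ - _) = _
    have e1 := p1 ⟨_, hE _ (k1 γ x i)⟩ 1
    have e2 := q1 (nz Y.tw (Y.PU V) (Y.rw m s) z γ x i) 1
    rw [mul_one, p2, mul_one] at e1
    rw [mul_one, q2, mul_one] at e2
    rw [← map_add, ← map_add, add_sub_cancel]
    exact (congrArg (fun y : E => πQ y - _) e1).trans (by rw [e2, sub_sub_cancel]))
  have tr : ∀ {A A'} {b : Qb} {b' : E}, (b' : Cp p) = ι b →
      (∀ (φ : Y.G → _) x, l (A φ x) = A' (fun x => l (φ x)) x) →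
      Y.tw.Eig (Y.rw m s) (Y.PU V) z A b →
      Y.tw.Eig (rs Y.tw σ) (Y.PU V) (fun γ x => l (z γ x)) A' b' := fun {A A' b b'} h1 h2 h3 =>
    (congrArg (· ∈ Y.tw.B1 (rs Y.tw σ) (Y.PU V)) (funext fun γ => funext fun x => by
      rw [Pi.sub_apply, Pi.sub_apply, map_sub, h2, Pi.smul_apply, Pi.smul_apply, ls b b' h1]
      rfl)).mp (co_B1 l hl h3)
  have s1 : ∀ g : Y.G, (∀ τ, Y.cw (v τ) g = 1) → σ g = 1 := fun g hg => by
    have : (fun τ => Bi.gu (u τ) g) = 1 := funext fun τ =>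
      Units.ext ((congrArg (u τ) (hg τ)).trans (map_one _))
    refine LinearMap.ext fun y => ?_
    rw [wt_apply, wm_eq, this, map_one, Matrix.one_mulVec]
    rfl
  let _ : Algebra (OE E) E := ((OE E).subtype.codRestrict E fun x => x.2.2).toAlgebra
  have hO : Ri E (OE E) := ⟨fun x y h => Subtype.ext (congrArg E.val h),
    fun x => mem_op.1 x.2.1, fun x hx => ⟨⟨x, mem_op.2 hx, x.2⟩, rfl⟩⟩
  have n1 : ‖(p : E)‖ < 1 := (congrArg norm (map_natCast E.val p)).trans_lt norm_p_lt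
  have p0 : (p : E) ≠ 0 := Nat.cast_ne_zero.2 (Fact.out : p.Prime).ne_zero
  have cor : Cor (Y.PU V) (L.To (Y.PU V)) (Y.PU V) :=
    cor_dc (Y.ok.fi _ (Y.ok.conj _ hV _) _ hV)
  obtain ⟨κ, hκ⟩ := hD.ape hO (p := p) (fun h => p0 (by
      rw [← map_natCast (algebraMap (OE E) E), h, map_zero])) (by
      rw [map_natCast]; exact n1) hA sa (fun g => s1 _ fun τ => by
      obtain ⟨-, -, -, -, -, h⟩ := hw
      exact h g _ fun e => pw (e ▸ pv τ))
    (c := ⟨ι c, hE c (k0 (le_sup_right (a := K) (IntermediateField.mem_adjoin_simple_self ℚ c)))⟩)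
    (fun h => hc (ι.injective (by
      have := congrArg E.val h
      simpa [hw.qq_eq] using this))) z1 z2
    (tr rfl (fun φ x => by rw [hk_eq cor, hk_eq cor, map_sum]) ei)
  refine ⟨E, fE, κ, fun x hx => hE x (k0 (le_sup_left (a := K) hx)), fun n => ?_⟩
  obtain ⟨b, b0, hb⟩ := Bi.ex_ub a
  obtain ⟨j, hj⟩ := exists_pow_lt_of_lt_one (inv_pos.2 (by positivity : 0 < b + 1)) n1
  have N0 : 0 < p ^ (n + j) := pow_pos (Fact.out : p.Prime).pos _
  obtain ⟨z', h1, h2, h3⟩ := hκ n _ (sm_lev (p := p) hV N0) PU_le (sm_at hw pw hA) fun x hx y => by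
    rw [map_pow, map_natCast]
    refine close u1 ua m (N := p ^ (n + j)) ?_ (fun τ => ?_) (norm_nonneg _) (fun τ => ?_) y
    · rw [norm_pow]
      exact pow_le_one₀ (norm_nonneg _) n1.le
    · rw [Nat.cast_pow, pow_add, norm_mul, mul_assoc, norm_pow _ j]
      refine mul_le_of_le_one_right (norm_nonneg _) ((mul_le_mul hj.le ((hb τ).trans
        (le_add_of_nonneg_right zero_le_one)) (ua τ 0 (zero_mem _)).nn (by positivity)).trans ?_)
      rw [inv_mul_cancel₀ (by positivity)]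
    · have := Subgroup.mem_iInf.1 hx (v τ)
      rw [sm, if_pos (pv τ)] at this
      exact this.2
  refine ⟨_, sm_le, fun w hw => if_neg hw, sm_lev hV N0, z', h1, h2,
    fun f₀ f c₀ c e1 e2 e3 e4 e5 => ?_⟩
  have su : f.support = f₀.support := Finset.ext fun g => by
    rw [Finsupp.mem_support_iff, Finsupp.mem_support_iff, ← (map_ne_zero ι), ← e1]
    exact ZeroMemClass.coe_eq_zero.not.symm
  refine h3 f c (fun g hg => s1 g fun τ => e3 g (su ▸ hg) _ (pv τ)) (fun φ hφ x y hy => ?_)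
    (tr e2 (fun φ x => ?_) e5)
  · refine funext fun i => sub_eq_zero.1 (by_contra fun h => one_ne_zero (α := Qb) ?_)
    have k : ∀ d : Cp p, ∀ x, op f₀ (fun x => πQ (φ x i * d)) x = πQ (op f φ x i * d) :=
      fun d x => by
        rw [op_apply, op_apply, su, Finset.sum_apply, AddSubmonoidClass.coe_finsetSum,
          Finset.sum_mul, map_sum]
        refine Finset.sum_congr rfl fun g _ => (q1 _ _).symm.trans ?_
        rw [← e1, ← mul_assoc]
        rfl
    have := e4 (fun t => πQ (φ t i * ((op f φ (x * y) i - op f φ x i : E) : Cp p)⁻¹))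
      (fun x y hy => by beta_reduce; rw [hφ x y hy]) x y hy
    rw [k, k, ← sub_eq_zero, ← map_sub, ← sub_mul, ← AddSubgroupClass.coe_sub,
      mul_inv_cancel₀ (ZeroMemClass.coe_eq_zero.not.2 h), q2] at this
    exact this
  · rw [op_apply, op_apply, su, map_sum]
    exact Finset.sum_congr rfl fun g _ => (ls _ (algebraMap _ E (f g)) (e1 g) _).trans
      (algebraMap_smul E (f g) _)

end Vale.Agent.P022K.Sh
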