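import Vale.Agent.P022K.F0.EndA

/-!
# P022K, block F0, row END: the conjugate tower (helper85)
-/

set_option autoImplicit false
set_option linter.unusedSectionVars false

open UpperHalfPlane Filter Topology
open scoped MatrixGroups

noncomputable section

namespace Vale.Agent.P022K.Sh

open Vale.Agent.P022 Vale.Agent.P022.H218.L3 Vale.Agent.P019P Vale.Agent.P022K.F0.Cf En

theorem En.rank_two {K : Type} [Field K] [Algebra ℂ K] (s : K →+* Mer) (σ : ℂ ≃+* ℂ)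
    (hs : ∀ c, s (algebraMap ℂ K c) = algebraMap ℂ Mer (σ c)) (L : Submodule ℂ K)
    [FiniteDimensional ℂ L] (W : Submodule ℂ Mer) {m : Mer} (hm : ∀ f, s f ≠ m) (h1 : ∀ f ∈ L, s f ∈ W)
    (h2 : ∀ f ∈ L, s f * m ∈ W) :
    ((Module.finrank ℂ L + Module.finrank ℂ L : ℕ) : Cardinal) ≤ Module.rank ℂ W := by
  rw [← Module.finrank_prod, Module.finrank_eq_rank]
  let j : L × L →+ W := AddMonoidHom.mk' (fun x =>
    ⟨s x.1 + s x.2 * m, add_mem (h1 _ x.1.2) (h2 _ x.2.2)⟩) fun x y => Subtype.ext (by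
      show s (x.1 + y.1) + s (x.2 + y.2) * m = s x.1 + s x.2 * m + (s y.1 + s y.2 * m)
      rw [map_add, map_add]
      ring)
  have j1 : Function.Injective j := (injective_iff_map_eq_zero j).2 fun x hx => by
    have h : s x.1 + s x.2 * m = 0 := congrArg Subtype.val hx
    have h0 : (x.2 : K) = 0 := by
      by_contra h0
      refine hm (-x.1 / x.2) ?_
      rw [map_div₀, map_neg, div_eq_iff ((map_ne_zero _).2 h0)]
      linear_combination -h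
    rw [h0, map_zero, zero_mul, add_zero, map_eq_zero] at h
    exact Prod.ext (Subtype.ext h) (Subtype.ext h0)
  have k : ∀ (c : ℂ) (f : K), s (σ.symm c • f) = algebraMap ℂ Mer c * s f := fun c f => by
    rw [Algebra.smul_def, map_mul, hs, σ.apply_symm_apply]
  exact rank_le_of_injective_injectiveₛ σ.symm j σ.symm.injective j1 fun c x => Subtype.ext (by
    show s (σ.symm c • (x.1 : K)) + s (σ.symm c • (x.2 : K)) * m = c • (s x.1 + s x.2 * m)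
    rw [k, k, Algebra.smul_def]
    ring)

variable {G0 G : Type} [Group G0] [Group G]

namespace Tw

section defs

variable (T : Tw G0 G)

/-- the group of the conjugate tower -/
def Gp (e : Mer → Mer) : Subgroup (GP × G) := Subgroup.closure {p | T.InG e p.1 p.2}

/-- the conjugate tower, with the full group -/
def ct (e : Mer → Mer) : Tw (T.Gp e) G where
  j := (MonoidHom.snd GP G).comp (T.Gp e).subtype
  r := (MonoidHom.fst GP G).comp (T.Gp e).subtype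
  Lev := T.Lev

/-- restriction to a subgroup -/
def res (H : Subgroup G0) : Tw H G where
  j := T.j.comp H.subtype
  r := T.r.comp H.subtype
  Lev := T.Lev

/-- the axioms of a tower, with countability modulo `Z0` only -/
structure OkU : Prop where
  inf : ∀ U ∈ T.Lev, ∀ U' ∈ T.Lev, U ⊓ U' ∈ T.Lev
  conj : ∀ U ∈ T.Lev, ∀ x, cj x U ∈ T.Lev
  up : ∀ U ∈ T.Lev, ∀ U', U ≤ U' → U.relIndex U' ≠ 0 → U' ∈ T.Lev
  fi : ∀ U ∈ T.Lev, ∀ U' ∈ T.Lev, U.relIndex U' ≠ 0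
  neat : ∃ U ∈ T.Lev, T.Neat U
  fin : ∀ U ∈ T.Lev, ∃ S : Finset G, ∀ x, ∃ s ∈ S, ∃ γ, ∃ u ∈ U, x = T.j γ * s * u
  fu : ∀ U ∈ T.Lev, ∀ x, T.Fu (T.Gam U x)
  z0 : ∀ γ, γ ∈ T.Z0 ↔ T.j γ ∈ T.Z
  zc : T.Z ≤ Subgroup.center G
  seq : ∃ u : ℕ → Subgroup G, Antitone u ∧ (∀ n, u n ∈ T.Lev) ∧ ∀ U ∈ T.Lev, ∃ n, u n ≤ U
  cpl : ∀ u : ℕ → Subgroup G, Antitone u → (∀ n, u n ∈ T.Lev) → (∀ U ∈ T.Lev, ∃ n, u n ≤ U) →
    ∀ c : ℕ → G, (∀ n, (c n)⁻¹ * c (n + 1) ∈ u n) → ∃ x, ∀ n, (c n)⁻¹ * x ∈ u n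
  cnt : ∃ S : Set G0, S.Countable ∧ ∀ γ, ∃ s ∈ S, s⁻¹ * γ ∈ T.Z0

end defs

variable {T : Tw G0 G} {U V W : Subgroup G} {σ : ℂ ≃+* ℂ} {e : Mer → Mer}

/-- reduction to a countable group -/
theorem OkU.red (ok : T.OkU) : ∃ H : Subgroup G0, (T.res H).Ok ∧
    ∀ U ∈ T.Lev, (T.res H).RU U = T.RU U := by
  classical
  obtain ⟨S, hS, h⟩ := ok.cnt
  have := hS.to_subtype
  obtain ⟨H, cH, h⟩ : ∃ H : Subgroup G0, Countable H ∧ ∀ γ, ∃ s : H, s.1⁻¹ * γ ∈ T.Z0 :=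
    ⟨Subgroup.closure S, by
      rw [FreeGroup.closure_eq_range]
      exact (Set.countable_range _).to_subtype, fun γ =>
      have ⟨s, h1, h2⟩ := h γ
      ⟨⟨s, Subgroup.subset_closure h1⟩, h2⟩⟩
  choose t ht using h
  have z : ∀ γ : H, γ ∈ (T.res H).Z0 ↔ γ.1 ∈ T.Z0 := fun γ => by
    rw [mem_Z0, mem_Z0]
    rfl
  have g : ∀ U x (γ : H), γ ∈ (T.res H).Gam U x ↔ γ.1 ∈ T.Gam U x := fun U x γ => by
    rw [mem_Gam, mem_Gam]
    rfl
  have c : ∀ γ x, T.j γ * x = T.j (t γ) * x * T.j ((t γ).1⁻¹ * γ) := fun γ x => by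
    rw [mul_assoc, Subgroup.mem_center_iff.1 (ok.zc ((ok.z0 _).1 (ht γ))) x, ← mul_assoc,
      ← map_mul, mul_inv_cancel_left]
  refine ⟨H, ⟨ok.inf, ok.conj, ok.up, ok.fi, ok.neat.imp fun U h => ⟨h.1, fun x γ hγ τ e =>
    (z γ).2 (h.2 x γ ((g U x γ).1 hγ) τ e)⟩, fun U hU => (ok.fin U hU).imp fun S hS x => ?_,
    fun U hU x => ⟨fun γ hγ => (g U x γ).2 ((ok.fu U hU x).z0 ((z γ).1 hγ)), fun K hK => ?_, ?_⟩,
    fun γ => (z γ).trans (ok.z0 γ), ok.zc, ok.seq, ok.cpl, cH⟩, fun U hU => ?_⟩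
  · obtain ⟨s, hs, γ, u, hu, rfl⟩ := hS x
    exact ⟨s, hs, t γ, _, mul_mem (Z_le hU ((ok.z0 _).1 (ht γ))) hu, by
      rw [c, mul_assoc]
      rfl⟩
  · obtain ⟨S, hS⟩ := (ok.fu U hU x).pd K hK
    refine ⟨S.image t, fun γ hγ k => ?_⟩
    obtain ⟨s, hs, e⟩ := hS γ ((g U x γ).1 hγ) k
    refine ⟨t s, Finset.mem_image_of_mem _ hs, (z _).2 ?_⟩
    simpa [mul_assoc] using mul_mem (ht s) e
  · obtain ⟨K, hK, h⟩ := (ok.fu U hU x).cc
    refine ⟨K, hK, fun τ => ?_⟩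
    obtain ⟨γ, h1, h2⟩ := h τ
    refine ⟨t γ, (g U x _).2 ?_, ?_⟩
    · simpa using mul_mem h1 (inv_mem ((ok.fu U hU x).z0 (ht γ)))
    · rw [← mul_inv_cancel_left (t γ).1 γ, map_mul, mul_smul, mem_Z0.1 (ht γ)] at h2
      exact h2
  · ext φ
    refine ⟨fun h => ⟨fun γ x => ?_, h.2⟩, fun h => ⟨fun γ x => h.1 γ.1 x, h.2⟩⟩
    rw [c, h.2 _ _ (Z_le hU ((ok.z0 _).1 (ht γ)))]
    refine (h.1 (t γ) x).trans ?_
    conv_rhs => rw [← mul_inv_cancel_left (t γ).1 γ, act_mul, act_Z0 (ht γ)]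
    rfl

theorem mem_Gp (hk : T.Ok) {p : GP × G} : p ∈ T.Gp e ↔ T.InG e p.1 p.2 := by
  refine ⟨fun h => ?_, fun h => Subgroup.subset_closure h⟩
  induction h using Subgroup.closure_induction with
  | mem x hx => exact hx
  | one => exact fun U _ => ⟨1, by simp, fun f _ => by simp⟩
  | mul x y _ _ hx hy =>
    intro U hU
    obtain ⟨δ, h1, h2⟩ := hy U hU
    obtain ⟨γ, h3, h4⟩ := hx _ (hk.conj U hU (T.j δ))
    refine ⟨γ * δ, ?_, fun f hf => ?_⟩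
    · have := mul_mem (mem_cj.1 h3) h1
      convert this using 1
      simp only [map_mul, Prod.snd_mul]
      group
    · rw [map_mul, AlgEquiv.mul_apply, h4 _ (act_KU hf δ), h2 f hf, Prod.fst_mul, map_mul,
        AlgEquiv.mul_apply]
  | inv x _ hx =>
    intro U hU
    obtain ⟨γ, h1, h2⟩ := hx _ (hk.conj U hU x.2⁻¹)
    have h3 : x.2 * (T.j γ)⁻¹ ∈ U := by simpa [mul_assoc] using mem_cj.1 h1
    refine ⟨γ⁻¹, by simpa using inv_mem h3, fun f hf => ?_⟩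
    have h4 : T.act γ⁻¹ f ∈ T.K1 (cj x.2⁻¹ U) := by
      refine KU_anti (fun y hy => ?_) (act_KU hf γ⁻¹)
      rw [mem_cj] at hy ⊢
      convert mul_mem (mul_mem (inv_mem h3) hy) h3 using 1
      simp only [map_inv]
      group
    have h5 := h2 _ h4
    rw [← AlgEquiv.mul_apply, ← map_mul, mul_inv_cancel, map_one, AlgEquiv.one_apply] at h5
    rw [h5, ← AlgEquiv.mul_apply, ← map_mul, Prod.fst_inv, inv_mul_cancel, map_one,
      AlgEquiv.one_apply]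

theorem Ok.inG (ok : T.Ok) (p : T.Gp e) : T.InG e ((T.ct e).r p) ((T.ct e).j p) :=
  (mem_Gp ok).1 p.2

theorem Ok.sub (ok : T.Ok) (hU : U ∈ T.Lev) : ∃ V ∈ T.Lev, T.Neat V ∧ V ≤ U :=
  have ⟨W, h1, h2⟩ := ok.neat
  ⟨_, ok.inf U hU W h1, h2.mono inf_le_right, inf_le_left⟩

variable (u : T.Unf σ e) (ok : T.Ok)

include u ok

/-- an elliptic element of infinite order excludes deck transformations -/
theorem Unf.sep (cm : ∃ τ γ, T.r γ • τ = τ ∧ ∀ n : ℕ, 0 < n → T.mu γ τ ^ n ≠ 1) {h : GP}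
    (p : T.InG e h 1) (z : ℍ) : h • z = z := by
  obtain ⟨a, γ, h1, h2⟩ := cm
  obtain ⟨U, hU, n⟩ := ok.neat
  have hW := ok.inf U hU _ (ok.conj U hU (T.j γ))
  obtain ⟨_, -, hc⟩ := u.cpt ok hW (n.mono inf_le_left)
  obtain ⟨τ, -, s⟩ := hc a
  have k : ∀ f, od a (T.act γ f) = od a f := fun f => by
    rw [← od_act (T := T) γ a f, h1]
  obtain ⟨v, hv, h0, h3, h4⟩ := u.keyI ok hU n (γ := γ) (τ := τ) (τ' := τ) fun f hf => by
    rw [s.mono inf_le_right _ (act_KU hf γ), s.mono inf_le_left f hf, k]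
  obtain ⟨f, f1, f2⟩ := (ok.fu U hU 1).unif (n 1) a
  have m1 := KU_anti (inf_le_left (b := cj (T.j γ) U)) f1
  have m2 := KU_anti (inf_le_right (a := U)) (act_KU f1 γ)
  have f0 : T.act γ f ≠ 0 := fun q => by simpa [k, q, od_zero, f2] using k f
  have d : (dr h0).1 τ = σ (T.mu γ a) := by
    have q1 := mval_mu (T.r γ) h1 (mord_iff.2 ⟨f0, (k f).trans f2⟩)
    have q2 := mval_dr h0 h3 (mord_iff.2 ⟨mt (u.eq_zero hW m2).1 f0, (s _ m2).trans
      ((k f).trans f2)⟩)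
    rw [show actM (T.r γ)⁻¹ (T.act γ f) = f from actM_inv _ _] at q1
    have q3 := (s.mval u hW (mul_mem m1 (inv_mem m2)) _).2 q1
    rw [u.mul _ hW _ m1 _ (inv_mem m2), u.inv hW m2] at q3
    nth_rewrite 1 [h4.all hU (γ := γ) (by simpa using hv) f1, actM_inv] at q2
    exact q2.unique q3
  have fx : ∀ k : ℕ, h0 ^ k • τ = τ := fun k => MulAction.mem_stabilizer_iff.1
    (pow_mem (MulAction.mem_stabilizer_iff.2 h3) k)
  have mp : ∀ k : ℕ, h0 ^ k • h • τ ∈ {x ∈ Metric.closedBall τ (dist (h • τ) τ) | T.Sp e U x a} :=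
    fun k => by
      refine ⟨by rw [Metric.mem_closedBall, ← dist_sm (h0 ^ k) (h • τ), fx], fun g hg => ?_⟩
      have q1 : (h0, T.j γ * v) ∈ T.Gp e := (mem_Gp ok).2 h4
      have q2 : (h, 1) ∈ T.Gp e := (mem_Gp ok).2 p
      have q3 := ((mem_Gp ok).1 (mul_mem (mul_mem (pow_mem q1 k) q2) (inv_mem (pow_mem q1 k)))).fix
        hU (by simp) hg
      rw [← q3, ← s.mono inf_le_left g hg, ← od_actM (h0 ^ k * h * (h0 ^ k)⁻¹) τ, mul_smul,
        mul_smul, inv_smul_eq_iff.2 (fx k).symm]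
      rfl
  have q : ∀ k l : ℕ, k < l → h0 ^ k • h • τ = h0 ^ l • h • τ → h • τ = τ := fun k l kl q => by
    obtain ⟨m, rfl⟩ := Nat.exists_eq_add_of_lt kl
    rw [add_assoc, pow_add, mul_smul, smul_left_cancel_iff] at q
    by_contra hn
    have := dr_triv (fix_two q.symm (fx _) hn) τ
    rw [dr_pow h3, d, ← map_pow, map_eq_one_iff σ σ.injective] at this
    exact h2 _ m.succ_pos this
  obtain ⟨k, -, l, -, kl, q'⟩ := Set.infinite_univ.exists_ne_map_eq_of_mapsTo (fun k _ => mp k)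
    (u.fin ok hU n a (isCompact_closedBall _ _))
  exact u.triv hU n (fun f hf => p.fix hU (one_mem U) hf)
    (kl.lt_or_gt.elim (fun c => q k l c q') fun c => q l k c q'.symm) z

theorem Unf.dense (hU : U ∈ T.Lev) (γ : G0) : ∃ p, (T.j γ)⁻¹ * (T.ct e).j p ∈ U := by
  obtain ⟨V, hV, n, le⟩ := ok.sub hU
  obtain ⟨a, ha⟩ := u.plc ok (ok.conj V hV (T.j γ)) (n.cj _) I
  obtain ⟨_, -, hc⟩ := u.cpt ok hV n
  obtain ⟨τ, -, s⟩ := hc (T.r γ⁻¹ • a)
  obtain ⟨v, hv, h, -, h2⟩ := u.keyI ok hV n (γ := γ) (τ := I) (τ' := τ) fun f hf => by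
    rw [ha _ (act_KU hf γ), od_act', s f hf]
  exact ⟨⟨(h, T.j γ * v), (mem_Gp ok).2 h2⟩, le (by
    show (T.j γ)⁻¹ * (T.j γ * v) ∈ V
    rwa [inv_mul_cancel_left])⟩

omit u in
theorem Sp.move (hU : U ∈ T.Lev) {τ a : ℍ} (s : T.Sp e U τ a) {p : T.Gp e}
    (hp : p ∈ (T.ct e).Gam U 1) : T.Sp e U ((T.ct e).r p • τ) a := fun f hf => by
  rw [← (ok.inG p).fix hU (mem_Gam1.1 hp) hf, od_actM, s f hf]

theorem Unf.orb (hU : U ∈ T.Lev) (n : T.Neat U) {τ τ' a : ℍ} (s : T.Sp e U τ a)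
    (s' : T.Sp e U τ' a) : ∃ p ∈ (T.ct e).Gam U 1, (T.ct e).r p • τ = τ' := by
  obtain ⟨v, hv, h, h1, h2⟩ := u.keyI ok hU n (γ := 1) (τ := τ') (τ' := τ) fun f hf => by
    rw [act_one, s f hf, s' f hf]
  exact ⟨⟨(h, T.j 1 * v), (mem_Gp ok).2 h2⟩, mem_Gam1.2 (by
    show T.j 1 * v ∈ U
    rwa [map_one, one_mul]), h1⟩

theorem Unf.neat (hU : U ∈ T.Lev) (n : T.Neat U) : (T.ct e).Neat U := fun x p hp _ h =>
  mem_Z0.2 (u.triv (ok.conj U hU x) (n.cj x) (fun _ hf =>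
    (ok.inG p).fix (ok.conj U hU x) hp hf) h)

variable (sep : ∀ h : GP, T.InG e h 1 → ∀ z : ℍ, h • z = z)

include sep

theorem Unf.z0 (p : T.Gp e) : p ∈ (T.ct e).Z0 ↔ (T.ct e).j p ∈ (T.ct e).Z := by
  refine ⟨fun h => Subgroup.mem_sInf.2 fun U hU => ?_, fun h => mem_Z0.2 (sep _ fun U hU =>
    ⟨1, by simp, fun f hf => by rw [act_one, (ok.inG p).fix hU (Z_le hU h) hf]⟩)⟩
  obtain ⟨γ, h1, h2⟩ := ok.inG p U hU
  have := ok.cnt
  have h3 := (ok.fu U hU 1).fai (γ := γ) fun f hf =>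
    u.inj ok (ok.conj U hU _) hU (act_KU hf γ) hf ((h2 f hf).trans (actM_triv (mem_Z0.1 h) _))
  simpa using mul_mem (mem_Gam1.1 h3) h1

theorem Unf.fu1 (hU : U ∈ T.Lev) (n : T.Neat U) : (T.ct e).Fu ((T.ct e).Gam U 1) := by
  classical
  refine ⟨fun p hp => mem_Gam1.2 (Z_le (T := T.ct e) hU ((u.z0 ok sep p).1 hp)), fun K hK => ?_, ?_⟩
  · obtain ⟨R, hR⟩ := hK.isBounded.subset_closedBall I
    obtain ⟨a, ha⟩ := u.plc ok hU n I
    have F := u.fin ok hU n a (isCompact_closedBall I (R + R))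
    choose! q q1 q2 using fun (b : ℍ) (s : T.Sp e U b a) => u.orb ok hU n ha s
    refine ⟨F.toFinset.image q, fun p hp ⟨τ, t1, t2⟩ => ?_⟩
    have s := ha.move ok hU hp
    refine ⟨_, Finset.mem_image_of_mem q (F.mem_toFinset.2 ⟨?_, s⟩), u.neat ok hU n 1 _
      (mul_mem (inv_mem (q1 _ s)) hp) I (by rw [map_mul, map_inv, mul_smul, inv_smul_eq_iff, q2 _ s])⟩
    refine (dist_triangle _ ((T.ct e).r p • τ) _).trans (add_le_add ?_ (hR t2))
    rw [dist_sm, dist_comm]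
    exact hR t1
  · obtain ⟨C, hC, hc⟩ := u.cpt ok hU n
    refine ⟨C, hC, fun τ => ?_⟩
    obtain ⟨a, ha⟩ := u.plc ok hU n τ
    obtain ⟨τ', h1, h2⟩ := hc a
    obtain ⟨p, h3, h4⟩ := u.orb ok hU n ha h2
    exact ⟨p, h3, h4 ▸ h1⟩

theorem Unf.fu (hU : U ∈ T.Lev) (x : G) : (T.ct e).Fu ((T.ct e).Gam U x) := by
  rw [Gam_one]
  obtain ⟨V, hV, n, le⟩ := ok.sub (ok.conj U hU x)
  refine (u.fu1 ok sep hV n).sup (fun p hp => mem_Gam1.2 (le (mem_Gam1.1 hp))) ?_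
  have k : ∀ W, (T.ct e).Gam W 1 = W.comap (T.ct e).j := fun W => Subgroup.ext fun _ => mem_Gam1
  rw [k, k, Subgroup.relIndex_comap]
  exact mt (Subgroup.relIndex_eq_zero_of_le_right (Subgroup.map_comap_le _ _))
    (ok.fi V hV _ (ok.conj U hU x))

theorem Unf.okU : (T.ct e).OkU := by
  refine ⟨ok.inf, ok.conj, ok.up, ok.fi, ok.neat.imp fun U h => ⟨h.1, u.neat ok h.1 h.2⟩,
    fun U hU => (ok.fin U hU).imp fun S hS x => ?_, fun U hU => u.fu ok sep hU, u.z0 ok sep,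
    ok.zc, ok.seq, ok.cpl, ?_⟩
  · obtain ⟨s, hs, γ, v, hv, rfl⟩ := hS x
    obtain ⟨p, hp⟩ := u.dense ok (ok.conj U hU s) γ
    exact ⟨s, hs, p, _, mul_mem (inv_mem (mem_cj.1 hp)) hv, by group⟩
  · obtain ⟨U, hU, n⟩ := ok.neat
    have := ok.cnt
    choose q hq using u.dense ok hU
    choose S hS using fun k : ℕ => (u.fu1 ok sep hU n).pd _ (isCompact_closedBall I k)
    refine ⟨⋃ γ, ⋃ k, (fun s => q γ * s) '' S k, Set.countable_iUnion fun γ =>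
      Set.countable_iUnion fun k => (S k).countable_toSet.image _, fun p => ?_⟩
    obtain ⟨γ, h1, -⟩ := ok.inG p U hU
    obtain ⟨k, hk⟩ := exists_nat_ge (dist ((T.ct e).r ((q γ)⁻¹ * p) • I) I)
    obtain ⟨s, h2, h3⟩ := hS k ((q γ)⁻¹ * p) (mem_Gam1.2 (by
      convert mul_mem (inv_mem (hq γ)) h1 using 1
      rw [map_mul, map_inv]
      group)) ⟨I, Metric.mem_closedBall_self k.cast_nonneg, hk⟩
    exact ⟨_, Set.mem_iUnion₂.2 ⟨γ, k, s, h2, rfl⟩, by rwa [mul_inv_rev, mul_assoc]⟩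

/-- all functions of the conjugate tower are conjugates, neat levels -/
theorem Unf.onto1 (hU : U ∈ T.Lev) (n : T.Neat U) {m : Mer} (hm : m ∈ (T.ct e).K1 U) :
    ∃ f ∈ T.K1 U, e f = m := by
  classical
  by_contra hn
  have fu := u.fu1 ok sep hU n
  obtain ⟨_, pt, -, h2⟩ := (ok.fu U hU 1).pts (n 1)
  obtain ⟨a, ha⟩ := u.plc ok hU n I
  obtain ⟨C, hC, hc⟩ := fu.cc
  obtain ⟨s, hs⟩ := ex_ps (hC.insert I) m
  obtain ⟨g, hg, -⟩ := exists_riem ℂ (T.K1 U)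
  let Γ := ((T.ct e).Gam U 1).map (T.ct e).rho
  let K : Set ℍ := {b | b = I ∨ b ∈ C ∧ ¬ T.Sp e U b a}
  have hK : ∀ τ : ℍ, ∃ γ ∈ Γ, γ • τ ∈ K := fun τ => by
    obtain ⟨p, h3, h4⟩ := hc τ
    by_cases h : T.Sp e U ((T.ct e).r p • τ) a
    · obtain ⟨q, h5, h6⟩ := u.orb ok hU n h ha
      exact ⟨_, ⟨q * p, mul_mem h5 h3, rfl⟩, Or.inl (by rw [rho_smul, map_mul, mul_smul, h6])⟩
    · exact ⟨_, ⟨p, h3, rfl⟩, Or.inr ⟨h4, h⟩⟩
  let N : ℕ := s.card + 2 * g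
  let L := LL ℂ (Finsupp.single (pt a) (N : ℤ))
  have m1 : ∀ f : T.K1 U, e f ∈ F0.Cf.KF Γ := fun f => (T.ct e).KF_eq _ ▸ (T.ct e).mem_KF.2
    fun p hp => (ok.inG p).fix hU (mem_Gam1.1 hp) f.2
  have m2 : m ∈ F0.Cf.KF Γ := (T.ct e).KF_eq _ ▸ hm
  have r : ∀ f : L, ∀ b ∈ K, Reg b (ps (N • {I}) * e f.1) := fun f b hb => by
    rcases mem_LL.1 f.2 with h | h
    · rw [(u.eq_zero hU f.1.2).2 (congrArg Subtype.val h), mul_zero]
      exact (pl b).zero_mem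
    · rcases hb with rfl | hb
      · by_cases h0 : e f.1 = 0
        · rw [h0, mul_zero]
          exact (pl _).zero_mem
        have := h (pt a)
        rw [Finsupp.single_eq_same, h2, ← ha _ f.1.2] at this
        rw [ps_nsmul, ← Multiset.cons_zero, ps_cons, ps_zero, mul_one, reg_iff,
          od_mul I (pow_ne_zero _ (jt_ne I)) h0, od_pow, od_tz]
        omega
      · obtain ⟨c, hc⟩ := u.plc ok hU n b
        have := h (pt c)
        rw [Finsupp.single_eq_of_ne fun q => hb.2 fun f hf => by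
          rw [hc f hf, ← h2 c ⟨f, hf⟩, q, h2], h2, ← hc _ f.1.2, neg_zero] at this
        exact (reg_ps b _).mul (reg_iff.2 (Or.inr this))
  have h3 := ((rank_two (u.hom hU) σ u.cst L ((Ls Γ K (N • {I} + s)).map
    (F0.Cf.KF Γ).val.toLinearMap) (m := m) (fun f q => hn ⟨f, f.2, q⟩)
    (fun f hf => ⟨⟨e f, m1 f⟩, fun b hb => by
      show Reg b (_ * e f)
      rw [ps_add, mul_right_comm]
      exact (r ⟨f, hf⟩ b hb).mul (reg_ps b s), rfl⟩)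
    fun f hf => ⟨⟨e f * m, mul_mem (m1 f) m2⟩, fun b hb => by
      show Reg b (_ * (e f * m))
      rw [ps_add, mul_mul_mul_comm]
      exact (r ⟨f, hf⟩ b hb).mul (hs b (hb.imp id fun h => h.1)), rfl⟩).trans
    (rank_map_le _ _)).trans (fu.cf.rank_Ls hK _)
  rw [Nat.cast_le, Multiset.card_add, Multiset.card_nsmul, Multiset.card_singleton] at h3
  have h4 := hg (Finsupp.single (pt a) (N : ℤ))
  rw [dg_sgl] at h4
  have h5 : N = s.card + 2 * g := rfl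
  change (N : ℤ) + 1 - g ≤ Module.finrank ℂ L at h4
  generalize Module.finrank ℂ L = l at h3 h4
  omega

theorem Unf.onto (hU : U ∈ T.Lev) {m : Mer} (hm : m ∈ (T.ct e).K1 U) :
    ∃ f ∈ T.K1 U, e f = m := by
  obtain ⟨V, hV, n, le⟩ := ok.sub hU
  obtain ⟨f, hf, rfl⟩ := u.onto1 ok sep hV n (KU_anti le hm)
  refine ⟨f, T.mem_KF.2 fun γ hγ => u.inj ok (ok.conj V hV _) hV (act_KU hf γ) hf ?_, rfl⟩
  obtain ⟨p, hp⟩ := u.dense ok hV γ
  rw [(ok.inG p).all hV hp hf]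
  exact (T.ct e).mem_KF.1 hm p (mem_Gam1.2 (by simpa using mul_mem (mem_Gam1.1 hγ) (le hp)))

theorem Unf.is : T.Is (T.ct e) σ fun φ x => e (φ x) := by
  have m : ∀ {U φ}, φ ∈ T.RU U → ∀ x, φ x ∈ T.K1 (cj x U) := fun h x => by
    have := RU_KF h x
    rwa [Gam_one] at this
  have a : ∀ U ∈ T.Lev, ∀ φ ∈ T.RU U, (fun x => e (φ x)) ∈ (T.ct e).RU U := fun U hU φ h =>
    ⟨fun p x => by
      obtain ⟨γ, h1, h2⟩ := ok.inG p _ (ok.conj U hU x)
      refine Eq.trans (congrArg e ?_) (h2 _ (m h x))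
      rw [← RU_val h γ x (mem_cj.1 h1)]
      congr 1
      group, fun x v hv => congrArg e (h.2 x v hv)⟩
  refine ⟨⟨rfl, a, fun U hU φ h ψ h' => funext fun x => u.add _ (ok.conj U hU x) _ (m h x) _ (m h' x),
    fun U hU φ h ψ h' => funext fun x => u.mul _ (ok.conj U hU x) _ (m h x) _ (m h' x),
    fun c => funext fun _ => u.cst c, fun _ _ _ _ _ => rfl⟩, fun U hU => ⟨a U hU,
    fun φ h ψ h' q => funext fun x => u.inj ok (ok.conj U hU x) (ok.conj U hU x) (m h x) (m h' x)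
      (congrFun q x), fun ψ h => ?_⟩⟩
  choose φ h1 h2 using fun x => u.onto ok sep (ok.conj U hU x) (m := ψ x) (by
    have := RU_KF h x
    rwa [Gam_one] at this)
  refine ⟨φ, ⟨fun γ x => ?_, fun x v hv => u.inj ok (ok.conj U hU _) (ok.conj U hU _) (h1 _) (h1 _)
    (by rw [h2, h2, h.2 x v hv])⟩, funext h2⟩
  obtain ⟨p, hp⟩ := u.dense ok (ok.conj U hU x) γ
  refine u.inj ok (ok.conj U hU _) (ok.conj _ (ok.conj U hU x) _) (h1 _) (act_KU (h1 x) γ) ?_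
  rw [(ok.inG p).all (ok.conj U hU x) hp (h1 x), h2, h2, ← h.2 _ _ (mem_cj.1 hp)]
  refine Eq.trans ?_ (h.1 p x)
  congr 1
  group

end Tw

/-- **END** -/
theorem end_row : All fun T => T.END := fun _ G _ _ T ok σ e u cm => by
  have sep := fun h p => u.sep ok cm (h := h) p
  obtain ⟨H, h1, h2⟩ := (u.okU ok sep).red
  obtain ⟨h3, h4⟩ := u.is ok sep
  exact ⟨H, inferInstance, _, h1, _, ⟨rfl, fun U hU φ h => (h2 U hU).symm ▸ h3.mem U hU φ h,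
    h3.add, h3.mul, h3.cst, h3.eqv⟩, fun U hU => (h2 U hU).symm ▸ h4 U hU⟩

end Vale.Agent.P022K.Sh
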