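import Vale.Agent.P022K.F0.ModaB

/-!
# P022K, block F0, row MODA: models from rigidity (helper63)
-/

set_option autoImplicit false
set_option linter.unusedSectionVars false

open UpperHalfPlane Filter Topology
open scoped MatrixGroups

noncomputable section

namespace Vale.Agent.P022K.Sh.Md

open Vale.Agent.P022.H218.L3 Vale.Agent.P019P Vale.Agent.P022K.F0.Cf Tw

variable {G0 G : Type} [Group G0] [Group G] {T : Tw G0 G}
  {U U' : Subgroup G} {p q q' : ℍ × G} {φ φ' ψ ψ' : G → Mer} {c : ℂ} {A B : Set (ℍ × G)}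

/-! ### functions with a finite orbit generate -/

variable (T) in
/-- functions with poles of order at most `n` in `Z` -/
def LZ (U : Subgroup G) (Z : Set (ℍ × G)) (n : ℕ) : Submodule ℂ (G → Mer) where
  carrier := {ψ | ψ ∈ T.RU U ∧ ∀ p : ℍ × G, (p ∉ Z → Reg p.1 (ψ p.2)) ∧
    Reg p.1 (jm (tz p.1) ^ n * ψ p.2)}
  add_mem' {a b} h h' := ⟨add_mem h.1 h'.1, fun p => ⟨fun e => ((h.2 p).1 e).add ((h'.2 p).1 e), by
    rw [Pi.add_apply, mul_add]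
    exact (h.2 p).2.add (h'.2 p).2⟩⟩
  zero_mem' := ⟨zero_mem _, fun p => ⟨fun _ => (pl _).zero_mem, by
    rw [Pi.zero_apply, mul_zero]
    exact (pl _).zero_mem⟩⟩
  smul_mem' c a h := ⟨Subalgebra.smul_mem _ h.1 c, fun p => ⟨fun e => by
    rw [Pi.smul_apply, Algebra.smul_def]
    exact (reg_const _ c).mul ((h.2 p).1 e), by
    rw [Pi.smul_apply, Algebra.smul_def, mul_left_comm]
    exact (reg_const _ c).mul (h.2 p).2⟩⟩

theorem fd_LZ (ok : T.Ok) (hU : U ∈ T.Lev) (hA : LF A) (n : ℕ) :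
    FiniteDimensional ℂ (LZ T U A n) := by
  choose W h1 h2 using fun x => fd_poles (ok.fu U hU x).cf (Z := {τ | (τ, x) ∈ A}) (hA x) n
  refine fd_pi _ (ok.fin_rp hU) W h1 (fun ψ hψ x => h2 x _ (T.KF_eq _ ▸ RU_KF hψ.1 x)
    (fun τ hτ => (hψ.2 (τ, x)).1 hτ) fun τ => reg_pow_iff.1 (hψ.2 (τ, x)).2) fun ψ hψ h => ?_
  exact RU_ext_rp hψ.1 (zero_mem _) fun x => h _ ⟨x, rfl⟩

/-- evaluation at a point -/
def evL {n : ℕ} (p : ℍ × G) (hp : p ∉ A) : LZ T U A n →ₗ[ℂ] ℂ where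
  toFun ψ := F0.Cf.ev p.1 (ψ.1 p.2)
  map_add' a b := ev_add ((a.2.2 p).1 hp) ((b.2.2 p).1 hp)
  map_smul' c a := by
    rw [Submodule.coe_smul, Pi.smul_apply, Algebra.smul_def,
      ev_mul (reg_const _ c) ((a.2.2 p).1 hp), ev_const]
    rfl

theorem V_evL {n : ℕ} (hp : p ∉ A) (ψ : LZ T U A n) : V p ψ.1 (evL p hp ψ) :=
  mval_ev ((ψ.2.2 p).1 hp)

theorem idem_R0 (ok : T.Ok) (hU : U ∈ T.Lev) (hφ : φ ∈ T.RU U) (h : φ * φ = φ) : φ ∈ R0 T U := by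
  have := (ok.fin_rp hU).to_subtype
  refine ⟨hφ, fin_range (g := fun (a : H T) (x : Set.range (T.rp U)) => a.1.2 φ x)
    ((Set.Finite.pi' fun _ => Set.toFinite {0, 1}).subset ?_) fun a b e =>
    RU_ext_rp (a.mem hU hφ) (b.mem hU hφ) fun x => congrFun e ⟨_, x, rfl⟩⟩
  rintro _ ⟨a, rfl⟩ x
  have h1 := congrFun (a.2.mul U hU φ hφ φ hφ) x
  rw [h, Pi.mul_apply] at h1
  exact IsIdempotentElem.iff_eq_zero_or_one.1 h1.symm

section

variable (ok : T.Ok) (pts : T.PTS) (inf : Inf T)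
include ok pts inf

theorem LZ_stab (hU : U ∈ T.Lev) {n : ℕ} (a : H T) (h : ψ ∈ LZ T U (Orb T U A) n) :
    a.1.2 ψ ∈ LZ T U (Orb T U A) n := by
  refine ⟨a.mem hU h.1, fun q => ?_⟩
  obtain ⟨-, p, h1, -⟩ := a.ex_pre ok pts q
  rw [reg_pow_iff, reg_iff', h1.od ok pts hU h.1, ← reg_pow_iff, ← reg_iff']
  exact ⟨fun e => (h.2 p).1 fun e' => e (orb_stab ok e' h1), (h.2 p).2⟩

theorem LZ_le (hU : U ∈ T.Lev) (hA : LF A) (hs : Sat T U A) (n : ℕ) :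
    LZ T U (Orb T U A) n ≤ Submodule.span ℂ (R0 T U) := by
  have hZ := lf_orb ok pts hU hA hs
  have := fd_LZ ok hU hZ n
  obtain ⟨ι, _, p, e, h1, h2, h3⟩ := ex_dual (P := {p : ℍ × G // p ∉ Orb T U A ∧ Sp T p.1})
    (fun p => evL (T := T) (U := U) (n := n) p.1 p.2.1) fun v hv => by
      by_contra hn
      push Not at hn
      exact hv (Subtype.ext (inf.zero hZ fun p h1 h2 => hn ⟨p, h1, h2⟩ ▸ V_evL h1 v))
  have h4 : ∀ j, (e j).1 ∈ R0 T U := fun j => by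
    choose F h5 _ h6 using fun i => fin_orb ok pts hU (p i).2.2
    choose q hq using fun (a : H T) i => a.ex_im ok pts (p i).1
    choose f hf h7 using fun (a : H T) i => h6 i a _ (hq a i)
    refine ⟨(e j).2.1, fin_range (g := f) ((Set.Finite.pi' h5).subset ?_) fun a b h8 => ?_⟩
    · rintro _ ⟨a, rfl⟩
      exact hf a
    · have h9 : ∀ (a : H T) i, V (f a i) (a.1.2 (e j).1) (evL (p i).1 (p i).2.1 (e j)) :=
        fun a i => by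
          have h10 := (hq a i).val hU (e j).2.1 (V_evL (p i).2.1 (e j))
          rw [(h7 a i).val (a.mem hU (e j).2.1)] at h10
          rcases h2 i j with h11 | h11 <;> simpa only [h11, map_zero, map_one] using h10
      obtain ⟨a', -, -, h10⟩ := a.ex_inv ok
      have m := sub_mem (LZ_stab ok pts inf hU a (e j).2) (LZ_stab ok pts inf hU b (e j).2)
      have h11 := h1 ⟨_, LZ_stab ok pts inf hU a' m⟩ fun i => by
        refine MVal.unique (V_evL (p i).2.1 _) (((hq a i).val_iff ok pts hU (a'.mem hU m.1)).1 ?_)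
        rw [h10 U hU _ m.1, map_zero, (h7 a i).val m.1]
        have h12 := h9 b i
        rw [← h8] at h12
        have h13 := MVal.sub (h9 a i) h12
        rwa [sub_self] at h13
      have h12 := h10 U hU _ m.1
      rw [show a'.1.2 _ = 0 from congrArg Subtype.val h11, a.2.em.zero] at h12
      exact sub_eq_zero.1 h12.symm
  intro φ hφ
  have h5 : φ ∈ (Submodule.span ℂ (Set.range e)).map (Submodule.subtype _) :=
    ⟨⟨φ, hφ⟩, h3 ▸ Submodule.mem_top, rfl⟩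
  rw [Submodule.map_span] at h5
  refine Submodule.span_mono ?_ h5
  rintro _ ⟨_, ⟨j, rfl⟩, rfl⟩
  exact h4 j

theorem mem_span (hU : U ∈ T.Lev) (hφ : φ ∈ T.RU U)
    (h : ∀ p : ℍ × G, ¬ Sp T p.1 → Reg p.1 (φ p.2)) : φ ∈ Submodule.span ℂ (R0 T U) := by
  obtain ⟨F, h1, -, h2⟩ := fin_rep ok hU (lf_poles φ) (sat_poles hφ)
  obtain ⟨n, hn⟩ := (h1.image fun f => (od f.1 (φ f.2)).natAbs).bddAbove
  refine LZ_le ok pts inf hU (lf_poles φ) (sat_poles hφ) n ⟨hφ, fun p => ⟨fun e => ?_, ?_⟩⟩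
  · by_contra e'
    exact e (mem_orb e' (not_not.1 (mt (h p) e')))
  · rw [reg_pow_iff]
    by_cases e : Reg p.1 (φ p.2)
    · have := reg_iff'.1 e
      omega
    · obtain ⟨f, hf, h3⟩ := h2 p e
      have : (od f.1 (φ f.2)).natAbs ≤ n := hn ⟨f, hf, rfl⟩
      rw [h3.od hφ]
      omega

theorem ex_quot (hU : U ∈ T.Lev) (hφ : φ ∈ T.RU U) : ∃ a ∈ Submodule.span ℂ (R0 T U),
    ∃ b ∈ Submodule.span ℂ (R0 T U), (∀ x, b x ≠ 0) ∧ φ = a * b⁻¹ := by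
  obtain ⟨τ0, h0, -⟩ := inf.ex (lf_poles φ) 1
  choose b h1 h2 h3 using fun x => ex_den' (ok.fu U hU x).cf τ0 (T.KF_eq _ ▸ RU_KF hφ x)
  obtain ⟨β, h4, h5⟩ := ex_RU_all (T := T) (U := U) (f := b) fun x => (T.KF_eq _).symm ▸ h1 x
  have h6 : ∀ x, β x ≠ 0 := fun x e => h2 _ (h5 x ▸ (RU_zero h4 (rel_rp x)).2 e)
  have h7 : ∀ p : ℍ × G, ¬ Sp T p.1 → Reg p.1 (β p.2) ∧ Reg p.1 ((φ * β) p.2) := fun p hp => by
    obtain ⟨γ, u, hu, e⟩ := rel_rp (T := T) (U := U) p.2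
    have h8 : E T U p (T.r γ • p.1, T.rp U p.2) := ⟨γ, u, hu, rfl, e⟩
    rw [reg_iff', reg_iff', ← h8.od h4, ← h8.od (mul_mem hφ h4), ← reg_iff', ← reg_iff',
      Pi.mul_apply, h5]
    refine h3 _ _ ?_
    rintro _ ⟨δ, -, rfl⟩ e'
    exact hp (h8.symm.sp (e' ▸ h0.smul δ))
  exact ⟨φ * β, mem_span ok pts inf hU (mul_mem hφ h4) fun p hp => (h7 p hp).2, β,
    mem_span ok pts inf hU h4 fun p hp => (h7 p hp).1, h6,
    funext fun x => (mul_inv_cancel_right₀ (h6 x) _).symm⟩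

end

/-! ### limits of automorphisms -/

section

variable {I : Type} (u : Ultrafilter I) (a : I → H T)

/-- `ψ` is the image of `φ` under the limit of the action on special points -/
def Lm (φ ψ : G → Mer) : Prop := ∃ A, LF A ∧ (∃ U ∈ T.Lev, Sat T U A) ∧ ∀ p, p ∉ A → Sp T p.1 →
  ∃ c, V p φ c ∧ ∀ᶠ i in u, ∀ q, (a i).P p q → V q ψ c

variable {u a}

theorem Lm.op (ok : T.Ok) (h : Lm u a φ ψ) (h' : Lm u a φ' ψ') : ∃ A, LF A ∧
    (∃ U ∈ T.Lev, Sat T U A) ∧ ∀ p, p ∉ A → Sp T p.1 → ∃ c c', V p φ c ∧ V p φ' c' ∧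
      ∀ᶠ i in u, ∀ q, (a i).P p q → V q ψ c ∧ V q ψ' c' := by
  obtain ⟨A, h1, ⟨U, hU, h2⟩, h3⟩ := h
  obtain ⟨B, h4, ⟨U', hU', h5⟩, h6⟩ := h'
  refine ⟨A ∪ B, h1.union h4, ⟨_, ok.inf U hU U' hU', fun p q e hp => hp.imp
    (h2 p q (e.mono inf_le_left)) (h5 p q (e.mono inf_le_right))⟩, fun p hp hs => ?_⟩
  rw [Set.mem_union, not_or] at hp
  obtain ⟨c, h7, h8⟩ := h3 p hp.1 hs
  obtain ⟨c', h9, h10⟩ := h6 p hp.2 hs
  refine ⟨c, c', h7, h9, ?_⟩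
  filter_upwards [h8, h10] with i h11 h12 q hq using ⟨h11 q hq, h12 q hq⟩

theorem Lm.add (ok : T.Ok) (h : Lm u a φ ψ) (h' : Lm u a φ' ψ') : Lm u a (φ + φ') (ψ + ψ') := by
  obtain ⟨A, h1, h2, h3⟩ := h.op ok h'
  refine ⟨A, h1, h2, fun p hp hs => ?_⟩
  obtain ⟨c, c', h4, h5, h6⟩ := h3 p hp hs
  exact ⟨_, MVal.add h4 h5, h6.mono fun i hi q hq => MVal.add (hi q hq).1 (hi q hq).2⟩

theorem Lm.mul (ok : T.Ok) (h : Lm u a φ ψ) (h' : Lm u a φ' ψ') : Lm u a (φ * φ') (ψ * ψ') := by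
  obtain ⟨A, h1, h2, h3⟩ := h.op ok h'
  refine ⟨A, h1, h2, fun p hp hs => ?_⟩
  obtain ⟨c, c', h4, h5, h6⟩ := h3 p hp hs
  exact ⟨_, MVal.mul h4 h5, h6.mono fun i hi q hq => MVal.mul (hi q hq).1 (hi q hq).2⟩

theorem Lm.const (ok : T.Ok) (c : ℂ) :
    Lm u a (algebraMap ℂ (G → Mer) c) (algebraMap ℂ (G → Mer) c) := by
  obtain ⟨U, hU, -⟩ := ok.neat
  exact ⟨∅, fun x K _ => by simp, ⟨U, hU, fun _ _ _ h => h⟩, fun p _ _ =>
    ⟨c, MVal.const _ c, Eventually.of_forall fun _ q _ => MVal.const _ c⟩⟩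

theorem Lm.inv (ok : T.Ok) (h : Lm u a φ ψ) (hU : U ∈ T.Lev) (hφ : φ ∈ T.RU U) (h0 : ∀ x, φ x ≠ 0) :
    Lm u a φ⁻¹ ψ⁻¹ := by
  obtain ⟨A, h1, ⟨U', hU', h2⟩, h3⟩ := h
  refine ⟨A ∪ _, h1.union (lf_poles φ⁻¹), ⟨_, ok.inf U' hU' U hU, fun p q e hp => hp.imp
    (h2 p q (e.mono inf_le_left)) (sat_poles (RU_inv hφ) p q (e.mono inf_le_right))⟩,
    fun p hp hs => ?_⟩
  rw [Set.mem_union, not_or] at hp
  obtain ⟨c, h4, h5⟩ := h3 p hp.1 hs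
  have c0 : c ≠ 0 := fun e => by
    have h6 := MVal.mul h4 (mval_ev (not_not.1 hp.2))
    rw [e, zero_mul, Pi.inv_apply, mul_inv_cancel₀ (h0 _)] at h6
    exact one_ne_zero ((MVal.one _).unique h6)
  exact ⟨_, MVal.inv h4 c0, h5.mono fun i hi q hq => MVal.inv (hi q hq) c0⟩

theorem Lm.rt (ok : T.Ok) (h : Lm u a φ ψ) (g : G) : Lm u a (rt g φ) (rt g ψ) := by
  obtain ⟨A, h1, ⟨U, hU, h2⟩, h3⟩ := h
  refine ⟨{p | (p.1, p.2 * g) ∈ A}, fun x K hK => h1 (x * g) K hK, ⟨_, ok.conj U hU g, ?_⟩,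
    fun p hp hs => ?_⟩
  · rintro p q ⟨γ, v, hv, h4, h5⟩ hp
    exact h2 (p.1, p.2 * g) (q.1, q.2 * g) ⟨γ, _, mem_cj.1 hv, h4, by rw [h5]; group⟩ hp
  · obtain ⟨c, h4, h5⟩ := h3 _ hp hs
    exact ⟨c, h4, h5.mono fun i hi q hq => hi _ (hq.right ok g)⟩

theorem ex_lim {X : Type} {F : Set X} (hF : F.Finite) {f : I → X} (h : ∀ i, f i ∈ F) :
    ∃ x ∈ F, ∀ᶠ i in u, f i = x := by
  obtain ⟨x, h1, h2⟩ := Ultrafilter.eq_pure_of_finite_mem (f := u.map f) hF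
    (Ultrafilter.mem_map.2 (univ_mem' h))
  refine ⟨x, h1, ?_⟩
  have : {x} ∈ u.map f := h2 ▸ Ultrafilter.mem_pure.2 rfl
  exact this

variable (ok : T.Ok) (pts : T.PTS) (inf : Inf T)
include ok pts inf

theorem Lm.uniq (h : Lm u a φ ψ) (h' : Lm u a φ ψ') (hU : U ∈ T.Lev) (hψ : ψ ∈ T.RU U)
    (hU' : U' ∈ T.Lev) (hψ' : ψ' ∈ T.RU U') : ψ = ψ' := by
  obtain ⟨A, h1, ⟨W, hW, h2⟩, h3⟩ := h.op ok h'
  have hN := ok.inf _ hW _ (ok.inf U hU U' hU')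
  have hs : Sat T (W ⊓ (U ⊓ U')) A := fun p q e => h2 p q (e.mono inf_le_left)
  refine sub_eq_zero.1 (inf.zero (lf_orb ok pts hN h1 hs) fun q hq hsp => ?_)
  obtain ⟨F, h4, h5, h6⟩ := fin_orb ok pts hN hsp
  choose b p h7 h8 using fun i => (a i).ex_pre ok pts q
  choose f h9 h10 using fun i => h6 (b i) _ (h8 i)
  obtain ⟨x, hx, h11⟩ := ex_lim (u := u) h4 h9
  by_cases e : x ∈ A
  · obtain ⟨i, rfl⟩ := h11.exists
    obtain ⟨q1, h12, h13⟩ := (h7 i).E ok (h10 i)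
    exact absurd ⟨_, e, h5 _ hx, a i, q1, h12, h13⟩ hq
  · obtain ⟨c, c', h12, h13, h14⟩ := h3 x e (h5 _ hx)
    obtain ⟨i, rfl, h15⟩ := (h11.and h14).exists
    obtain ⟨q1, h16, h17⟩ := (h7 i).E ok (h10 i)
    refine (h17.val (sub_mem (RU_mono (inf_le_right.trans inf_le_left) hψ)
      (RU_mono (inf_le_right.trans inf_le_right) hψ'))).2 ?_
    have := MVal.sub (h15 q1 h16).1 (h15 q1 h16).2
    rwa [MVal.unique h12 h13, sub_self] at this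

variable (hk : ∀ σ : ℂ ≃+* ℂ, (∀ c, IsAlgebraic ℚ c → σ c = c) → ∃ θ, T.Sl σ θ)
  (ha : ∀ c, IsAlgebraic ℚ c → ∀ᶠ i in u, (a i).1.1 c = c)
include hk ha

theorem lm_R0 (hU : U ∈ T.Lev) (hφ : φ ∈ R0 T U) :
    ∃ ψ ∈ T.RU U, Lm u a φ ψ ∧ ∀ᶠ i in u, (a i).1.2 φ = ψ := by
  obtain ⟨ψ, ⟨b, rfl⟩, h⟩ := ex_lim (u := u) hφ.2 fun i => ⟨a i, rfl⟩
  refine ⟨_, b.mem hU hφ.1, ⟨_, lf_poles φ, ⟨U, hU, sat_poles hφ.1⟩, fun p hp hs => ?_⟩, h⟩
  have hv : V p φ _ := mval_ev (not_not.1 hp)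
  refine ⟨_, hv, ?_⟩
  filter_upwards [h, ha _ (alg_val ok pts hk hU hφ hs hv)] with i h1 h2 q hq
  have := hq.val hU hφ.1 hv
  rwa [h2, h1] at this

theorem lm_span (hU : U ∈ T.Lev) (hφ : φ ∈ Submodule.span ℂ (R0 T U)) :
    φ ∈ T.RU U ∧ ∃ ψ ∈ T.RU U, Lm u a φ ψ := by
  induction hφ using Submodule.span_induction with
  | mem φ h =>
    obtain ⟨ψ, h1, h2, -⟩ := lm_R0 ok pts inf hk ha hU h
    exact ⟨h.1, ψ, h1, h2⟩
  | zero => exact ⟨zero_mem _, 0, zero_mem _, by simpa using Lm.const (u := u) (a := a) ok 0⟩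
  | add φ φ' _ _ h h' =>
    obtain ⟨h1, ψ, h2, h3⟩ := h
    obtain ⟨h4, ψ', h5, h6⟩ := h'
    exact ⟨add_mem h1 h4, _, add_mem h2 h5, h3.add ok h6⟩
  | smul c φ _ h =>
    obtain ⟨h1, ψ, h2, h3⟩ := h
    rw [Algebra.smul_def]
    exact ⟨mul_mem (algebraMap_mem _ c) h1, _, mul_mem (algebraMap_mem _ c) h2,
      (Lm.const ok c).mul ok h3⟩

theorem ex_lm (hU : U ∈ T.Lev) (hφ : φ ∈ T.RU U) : ∃ ψ ∈ T.RU U, Lm u a φ ψ := by
  obtain ⟨x, hx, y, hy, h1, rfl⟩ := ex_quot ok pts inf hU hφ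
  obtain ⟨-, ψ, h2, h3⟩ := lm_span ok pts inf hk ha hU hx
  obtain ⟨h4, ψ', h5, h6⟩ := lm_span ok pts inf hk ha hU hy
  exact ⟨_, mul_mem h2 (RU_inv h5), h3.mul ok (h6.inv ok hU h4 h1)⟩

theorem lim_eq (onto : ∀ σ θ, T.Em T σ θ → T.Sl σ θ) (rig : T.Rig) (hU : U ∈ T.Lev)
    (hφ : φ ∈ R0 T U) : ∀ᶠ i in u, (a i).1.2 φ = φ := by
  let θ : (G → Mer) → G → Mer := fun φ =>
    Classical.epsilon fun ψ => (∃ U ∈ T.Lev, ψ ∈ T.RU U) ∧ Lm u a φ ψ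
  have key : ∀ φ ψ, ∀ U ∈ T.Lev, ψ ∈ T.RU U → Lm u a φ ψ → θ φ = ψ := fun φ ψ U hU h1 h2 => by
    obtain ⟨⟨U', hU', h3⟩, h4⟩ := Classical.epsilon_spec
      (p := fun ψ => (∃ U ∈ T.Lev, ψ ∈ T.RU U) ∧ Lm u a φ ψ) ⟨ψ, ⟨U, hU, h1⟩, h2⟩
    exact h4.uniq ok pts inf h2 hU' h3 hU h1
  have k2 : ∀ U ∈ T.Lev, ∀ φ ∈ T.RU U, θ φ ∈ T.RU U ∧ Lm u a φ (θ φ) := fun U hU φ hφ => by
    obtain ⟨ψ, h1, h2⟩ := ex_lm ok pts inf hk ha hU hφ
    rw [key φ ψ U hU h1 h2]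
    exact ⟨h1, h2⟩
  have em : T.Em T (RingEquiv.refl ℂ) θ :=
    { lev := rfl
      mem := fun U hU φ hφ => (k2 U hU φ hφ).1
      add := fun U hU φ hφ ψ hψ => key _ _ U hU (add_mem (k2 U hU φ hφ).1 (k2 U hU ψ hψ).1)
        ((k2 U hU φ hφ).2.add ok (k2 U hU ψ hψ).2)
      mul := fun U hU φ hφ ψ hψ => key _ _ U hU (mul_mem (k2 U hU φ hφ).1 (k2 U hU ψ hψ).1)
        ((k2 U hU φ hφ).2.mul ok (k2 U hU ψ hψ).2)
      cst := fun c => key _ _ U hU (algebraMap_mem _ c) (Lm.const ok c)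
      eqv := fun U hU φ hφ g => key _ _ _ (ok.conj U hU g) (RU_rt (k2 U hU φ hφ).1 g)
        ((k2 U hU φ hφ).2.rt ok g) }
  obtain ⟨ψ, h1, h2, h3⟩ := lm_R0 ok pts inf hk ha hU hφ
  rwa [← key φ ψ U hU h1 h2, rig θ (onto _ _ em) U hU φ hφ.1] at h3

end

section

variable (ok : T.Ok) (pts : T.PTS) (inf : Inf T)
  (hk : ∀ σ : ℂ ≃+* ℂ, (∀ c, IsAlgebraic ℚ c → σ c = c) → ∃ θ, T.Sl σ θ)
  (onto : ∀ σ θ, T.Em T σ θ → T.Sl σ θ) (rig : T.Rig)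
include ok pts inf

include hk onto rig in
/-- functions with a finite orbit have an open stabiliser -/
theorem open_stab (hU : U ∈ T.Lev) (hφ : φ ∈ R0 T U) : ∃ S : Set ℂ, S.Finite ∧
    (∀ s ∈ S, IsAlgebraic ℚ s) ∧ ∀ a : H T, (∀ s ∈ S, a.1.1 s = s) → a.1.2 φ = φ := by
  by_contra hn
  push Not at hn
  choose a h1 h2 using fun S : Finset {c : ℂ // IsAlgebraic ℚ c} =>
    hn _ (S.finite_toSet.image Subtype.val) (by
      rintro _ ⟨c, -, rfl⟩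
      exact c.2)
  obtain ⟨i, hi⟩ := (lim_eq (u := Ultrafilter.of atTop) (a := a) ok pts inf hk (fun c hc =>
    ((eventually_ge_atTop {(⟨c, hc⟩ : {c : ℂ // IsAlgebraic ℚ c})}).filter_mono
      (Ultrafilter.of_le _)).mono fun S hS => h1 S c ⟨_, hS (Finset.mem_singleton_self _), rfl⟩)
    onto rig hU hφ).exists
  exact h2 i hi

theorem ex_fin (hU : U ∈ T.Lev) (hφ : φ ∈ T.RU U) : ∃ J : Set (G → Mer), J.Finite ∧ J ⊆ R0 T U ∧
    ∀ x, φ x ∈ IntermediateField.adjoin ℂ ((fun φ : G → Mer => φ x) '' J) := by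
  obtain ⟨a, ha, b, hb, -, rfl⟩ := ex_quot ok pts inf hU hφ
  obtain ⟨s, h1, h2⟩ := Submodule.mem_span_finite_of_mem_span ha
  obtain ⟨t, h3, h4⟩ := Submodule.mem_span_finite_of_mem_span hb
  have k : ∀ (J J' : Set (G → Mer)) (x : G), J ⊆ J' → ∀ a ∈ Submodule.span ℂ J,
      a x ∈ IntermediateField.adjoin ℂ ((fun φ : G → Mer => φ x) '' J') := fun J J' x hJ a ha => by
    induction ha using Submodule.span_induction with
    | mem φ h => exact IntermediateField.subset_adjoin _ _ ⟨φ, hJ h, rfl⟩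
    | zero => exact zero_mem _
    | add φ φ' _ _ h h' => exact add_mem h h'
    | smul c φ _ h => exact IntermediateField.smul_mem _ h
  exact ⟨s ∪ t, s.finite_toSet.union t.finite_toSet, Set.union_subset h1 h3, fun x => mul_mem
    (k _ _ x Set.subset_union_left a h2) (inv_mem (k _ _ x Set.subset_union_right b h4))⟩

theorem ex_gen (hU : U ∈ T.Lev) : ∃ J : Set (G → Mer), J.Finite ∧ J ⊆ R0 T U ∧
    ∀ x, T.KF (T.Gam U x) ≤ IntermediateField.adjoin ℂ ((fun φ : G → Mer => φ x) '' J) := by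
  have h1 : ∀ x, ∃ J : Set (G → Mer), J.Finite ∧ J ⊆ R0 T U ∧
      T.KF (T.Gam U x) ≤ IntermediateField.adjoin ℂ ((fun φ : G → Mer => φ x) '' J) := fun x => by
    obtain ⟨_, -⟩ := T.cf _ (ok.fu U hU x)
    obtain ⟨t, h1, h2⟩ := ex_gens (T.KF (T.Gam U x))
    have := h1.to_subtype
    choose φ h3 h4 _ using fun y : t => ex_RU (T := T) (U := U) x (f := y.1)
      (h2 ▸ IntermediateField.subset_adjoin _ _ y.2)
    choose J h5 h6 h7 using fun y : t => ex_fin ok pts inf hU (h3 y)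
    refine ⟨⋃ y, J y, Set.finite_iUnion h5, Set.iUnion_subset h6, ?_⟩
    rw [h2, IntermediateField.adjoin_le_iff]
    intro y hy
    have h8 := h7 ⟨y, hy⟩ x
    rw [h4] at h8
    exact IntermediateField.adjoin.mono _ _ _ (Set.image_mono (Set.subset_iUnion J ⟨y, hy⟩)) h8
  choose J h2 h3 h4 using h1
  have h5 : ⋃ x ∈ Set.range (T.rp U), J x ⊆ R0 T U := Set.iUnion₂_subset fun x _ => h3 x
  refine ⟨_, (ok.fin_rp hU).biUnion fun x _ => h2 x, h5, fun x f hf => ?_⟩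
  obtain ⟨φ, h6, rfl, -⟩ := ex_RU x hf
  obtain ⟨γ, v, hv, e⟩ := (rel_rp (T := T) (U := U) x).symm
  have h7 := IntermediateField.adjoin.mono ℂ _ _ (Set.image_mono
    (Set.subset_biUnion_of_mem (u := J) (show T.rp U x ∈ Set.range (T.rp U) from ⟨x, rfl⟩)))
    (h4 _ (RU_KF h6 (T.rp U x)))
  have h8 : T.act γ (φ (T.rp U x)) ∈ IntermediateField.map (T.act γ).toAlgHom _ :=
    ⟨_, h7, rfl⟩
  rw [IntermediateField.adjoin_map, Set.image_image, ← RU_val h6 γ _ hv, ← e] at h8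
  refine IntermediateField.adjoin.mono _ _ _ ?_ h8
  rintro _ ⟨ψ, hψ, rfl⟩
  refine ⟨ψ, hψ, ?_⟩
  show ψ x = T.act γ (ψ _)
  rw [← RU_val (h5 hψ).1 γ _ hv, ← e]

include hk onto rig in
theorem mod_of : T.Mod := fun U hU => by
  obtain ⟨J, h1, h2, h3⟩ := ex_gen ok pts inf hU
  choose e h4 h5 h6 using fun x => ex_ind (T := T) U x
  have h7 : (J ∪ e '' Set.range (T.rp U)).Finite := h1.union ((ok.fin_rp hU).image e)
  have h8 : J ∪ e '' Set.range (T.rp U) ⊆ R0 T U := Set.union_subset h2 (by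
    rintro _ ⟨x, -, rfl⟩
    refine idem_R0 ok hU (h4 x) (funext fun y => ?_)
    by_cases r : T.Rel U x y
    · rw [Pi.mul_apply, h5 x y r, mul_one]
    · rw [Pi.mul_apply, h6 x y r, mul_zero])
  have := h7.to_subtype
  choose S h9 h10 h11 using fun φ : (J ∪ e '' Set.range (T.rp U) : Set _) =>
    open_stab ok pts inf hk onto rig hU (h8 φ.2)
  refine ⟨(Set.finite_iUnion h9).toFinset, h7.toFinset, fun s hs => ?_,
    fun φ hφ => (h8 (h7.mem_toFinset.1 hφ)).1, fun σ θ h hs φ hφ => ?_, fun x => ?_, fun x y => ?_⟩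
  · obtain ⟨φ, h⟩ := Set.mem_iUnion.1 ((Set.Finite.mem_toFinset _).1 hs)
    exact h10 φ s h
  · exact h11 ⟨φ, h7.mem_toFinset.1 hφ⟩ ⟨(σ, θ), h⟩ fun s h' =>
      hs s ((Set.Finite.mem_toFinset _).2 (Set.mem_iUnion.2 ⟨_, h'⟩))
  · rw [h7.coe_toFinset]
    refine le_antisymm ((h3 x).trans (IntermediateField.adjoin.mono _ _ _
      (Set.image_mono Set.subset_union_left))) (IntermediateField.adjoin_le_iff.2 ?_)
    rintro _ ⟨φ, hφ, rfl⟩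
    exact RU_KF (h8 hφ).1 x
  · by_cases r : T.Rel U x y
    · exact Or.inl r
    · exact Or.inr ⟨e (T.rp U x), h7.mem_toFinset.2 (Or.inr ⟨_, ⟨x, rfl⟩, rfl⟩),
        h5 _ _ (rel_rp x).symm, h6 _ _ fun r' => r ((rel_rp x).trans r')⟩

end

end Vale.Agent.P022K.Sh.Md

namespace Vale.Agent.P022K.Sh

/-- **MODA** -/
theorem moda (pts : All fun T => T.PTS) (onto : All fun T => T.ONTO) : All fun T => T.MODA :=
  fun _ _ _ _ T ok _ _ h1 h2 rig h3 => Md.mod_of ok (pts _ _ T ok) (Md.inf_of ok h3)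
    (fun σ hσ => h2 σ fun c hc => hσ c (h1 c hc)) (onto _ _ T ok).1 rig

end Vale.Agent.P022K.Sh
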