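import Vale.Agent.P022K.F0.Maj
import Mathlib.Topology.Instances.AddCircle.DenseSubgroup
import Mathlib.Analysis.SpecialFunctions.Complex.Circle
import Mathlib.Topology.Algebra.Group.SubmonoidClosure
import Mathlib.Analysis.Complex.Polynomial.Basic
import Mathlib.Analysis.Normed.Module.Connected

/-!
# P022K, block F0: natural boundaries
-/

set_option autoImplicit false

open Filter Topology Metric

noncomputable section

namespace Vale.Agent.P022K.Sh.Un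

/-! ## rotations -/

theorem dense_rot {l : ℂ} (h1 : ‖l‖ = 1) (h : ∀ n : ℕ, 0 < n → l ^ n ≠ 1) {ζ ξ : ℂ}
    (e : ‖ζ‖ = ‖ξ‖) {ε : ℝ} (hε : 0 < ε) : ∃ n : ℕ, dist (l ^ n * ζ) ξ < ε := by
  rcases eq_or_ne ζ 0 with rfl | h0
  · exact ⟨0, by simpa [← e] using hε⟩
  have n0 : ‖ζ‖ ≠ 0 := norm_ne_zero_iff.2 h0
  let u : Circle := ⟨l, mem_sphere_zero_iff_norm.2 h1⟩
  let v : Circle := ⟨ξ / ζ, mem_sphere_zero_iff_norm.2 (by rw [norm_div, ← e, div_self n0])⟩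
  have : Fact (0 < (1 : ℝ)) := ⟨one_pos⟩
  obtain ⟨a, ha⟩ := (AddCircle.homeomorphCircle (T := 1) one_ne_zero).surjective u
  rw [AddCircle.homeomorphCircle_apply] at ha
  have d : DenseRange (· • a : ℤ → AddCircle (1 : ℝ)) := AddCircle.denseRange_zsmul_iff.2
    (addOrderOf_eq_zero_iff'.2 fun n hn k => h n hn (by
      have := congrArg AddCircle.toCircle k
      rw [AddCircle.toCircle_nsmul, ha, AddCircle.toCircle_zero] at this
      exact_mod_cast congrArg (fun x : Circle => (x : ℂ)) this))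
  have d' : DenseRange (u ^ · : ℤ → Circle) := by
    have := (AddCircle.homeomorphCircle (T := 1) one_ne_zero).surjective.denseRange.comp d
      (AddCircle.homeomorphCircle (T := 1) one_ne_zero).continuous
    refine (congrArg DenseRange (funext fun n => ?_)).mp this
    rw [Function.comp_apply, AddCircle.homeomorphCircle_apply, AddCircle.toCircle_zsmul, ha]
  obtain ⟨n, hn⟩ := (denseRange_zpow_iff_pow.1 d').exists_dist_lt v
    (div_pos hε (norm_pos_iff.2 h0))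
  refine ⟨n, ?_⟩
  have k : dist (ξ / ζ) (l ^ n) < ε / ‖ζ‖ := hn
  rw [dist_comm, dist_eq_norm, lt_div_iff₀ (norm_pos_iff.2 h0), ← norm_mul, sub_mul,
    div_mul_cancel₀ _ h0] at k
  rwa [dist_eq_norm]

/-! ## fractional linear maps -/

/-- the fractional linear map -/
def mob4 (a b c d y : ℂ) : ℂ := (a * y + b) / (c * y + d)

section

variable {a b c d z : ℂ}

theorem mob_analytic (h : c * z + d ≠ 0) : AnalyticAt ℂ (mob4 a b c d) z :=
  AnalyticAt.div (f := fun y => a * y + b) (g := fun y => c * y + d) (by fun_prop) (by fun_prop) h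

theorem mob_ev (h : c * z + d ≠ 0) : ∀ᶠ y in 𝓝 z, c * y + d ≠ 0 :=
  ContinuousAt.eventually_ne (g := fun y => c * y + d) (by fun_prop) h

theorem mob_den (hd : a * d - b * c ≠ 0) (h : c * z + d ≠ 0) : -c * mob4 a b c d z + a ≠ 0 := by
  rw [show -c * mob4 a b c d z + a = (a * d - b * c) / (c * z + d) by
    unfold mob4
    field_simp
    ring]
  exact div_ne_zero hd h

theorem mob_inv (hd : a * d - b * c ≠ 0) (h : c * z + d ≠ 0) :
    mob4 d (-b) (-c) a (mob4 a b c d z) = z := by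
  have e : mob4 a b c d z * (c * z + d) = a * z + b := div_mul_cancel₀ _ h
  rw [mob4, div_eq_iff (mob_den hd h)]
  linear_combination e

theorem mob_inv' (hd : a * d - b * c ≠ 0) (h : -c * z + a ≠ 0) :
    mob4 a b c d (mob4 d (-b) (-c) a z) = z := by
  simpa only [neg_neg] using mob_inv (a := d) (b := -b) (c := -c) (d := a)
    (by rwa [neg_mul_neg, mul_comm]) h

theorem mob_tendsto (hd : a * d - b * c ≠ 0) (h : c * z + d ≠ 0) :
    Tendsto (mob4 a b c d) (𝓝[≠] z) (𝓝[≠] mob4 a b c d z) := by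
  refine tendsto_nhdsWithin_iff.2
    ⟨(mob_analytic h).continuousAt.tendsto.mono_left nhdsWithin_le_nhds, ?_⟩
  filter_upwards [mem_nhdsWithin_of_mem_nhds (mob_ev h), self_mem_nhdsWithin] with y h1 h2 e
  exact h2 ((mob_inv hd h1).symm.trans ((congrArg _ e).trans (mob_inv hd h)))

end

theorem mul_tendsto {l : ℂ} (h : l ≠ 0) (z : ℂ) : Tendsto (l * ·) (𝓝[≠] z) (𝓝[≠] (l * z)) := by
  refine tendsto_nhdsWithin_iff.2
    ⟨(continuous_const_mul l).continuousAt.tendsto.mono_left nhdsWithin_le_nhds, ?_⟩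
  filter_upwards [self_mem_nhdsWithin] with y h2 e
  exact h2 (mul_left_cancel₀ h e)

variable {A : Type*}

/-- the family `f` on the disc of radius `r` extends across `ζ` -/
def Xt (f : A → ℂ → ℂ) (r : ℝ) (ζ : ℂ) : Prop := ∃ δ > 0, ∃ g : A → ℂ → ℂ,
  ∀ i, MeromorphicOn (g i) (ball ζ δ) ∧ ∀ z ∈ ball ζ δ, z ∈ ball 0 r → f i =ᶠ[𝓝[≠] z] g i

/-- one boundary point is enough -/
theorem rot_xt {f : A → ℂ → ℂ} {r : ℝ} {l : ℂ} (h1 : ‖l‖ = 1) (h : ∀ n : ℕ, 0 < n → l ^ n ≠ 1)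
    (s : ∀ i, ∃ j, ∀ z ∈ ball (0 : ℂ) r, f i =ᶠ[𝓝[≠] z] fun y => f j (l * y)) {ζ ξ : ℂ}
    (e : ‖ζ‖ = ‖ξ‖) (x : Xt f r ξ) : Xt f r ζ := by
  have l0 : l ≠ 0 := norm_ne_zero_iff.1 (h1 ▸ one_ne_zero)
  have m : ∀ (n : ℕ), ∀ z ∈ ball (0 : ℂ) r, l ^ n * z ∈ ball (0 : ℂ) r := fun n z hz => by
    rwa [mem_ball_zero_iff, norm_mul, norm_pow, h1, one_pow, one_mul, ← mem_ball_zero_iff]
  have sn : ∀ (n : ℕ) i, ∃ j, ∀ z ∈ ball (0 : ℂ) r,
      f i =ᶠ[𝓝[≠] z] fun y => f j (l ^ n * y) := fun n => by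
    induction n with
    | zero => exact fun i => ⟨i, fun z _ => by simp⟩
    | succ n ih =>
      intro i
      obtain ⟨j, hj⟩ := ih i
      obtain ⟨k, hk⟩ := s j
      refine ⟨k, fun z hz => (hj z hz).trans ?_⟩
      filter_upwards [(mul_tendsto (pow_ne_zero n l0) z).eventually (hk _ (m n z hz))] with y hy
      rw [hy, pow_succ', mul_assoc]
  obtain ⟨δ, δ0, g, hg⟩ := x
  obtain ⟨n, hn⟩ := dense_rot h1 h e (half_pos δ0)
  choose j hj using sn n
  have b : ∀ z ∈ ball ζ (δ / 2), l ^ n * z ∈ ball ξ δ := fun z hz => by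
    have : dist (l ^ n * z) (l ^ n * ζ) < δ / 2 := by
      rwa [dist_eq_norm, ← mul_sub, norm_mul, norm_pow, h1, one_pow, one_mul, ← dist_eq_norm]
    have := dist_triangle (l ^ n * z) (l ^ n * ζ) ξ
    rw [mem_ball]
    linarith
  exact ⟨δ / 2, half_pos δ0, fun i y => g (j i) (l ^ n * y), fun i => ⟨fun z hz =>
    ((hg _).1 _ (b z hz)).comp_analyticAt (g := fun y => l ^ n * y) (by fun_prop),
    fun z hz hz' => (hj i z hz').trans ((mul_tendsto (pow_ne_zero n l0) z).eventually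
      ((hg _).2 _ (b z hz) (m n z hz')))⟩⟩

/-- **extension across one boundary point gives a larger disc** -/
theorem rot_ext {f : A → ℂ → ℂ} {r : ℝ} (hr : 0 < r) (hf : ∀ i, MeromorphicOn (f i) (ball 0 r))
    {l : ℂ} (h1 : ‖l‖ = 1) (h : ∀ n : ℕ, 0 < n → l ^ n ≠ 1)
    (s : ∀ i, ∃ j, ∀ z ∈ ball (0 : ℂ) r, f i =ᶠ[𝓝[≠] z] fun y => f j (l * y)) {ξ : ℂ}
    (e : ‖ξ‖ = r) (x : Xt f r ξ) : ∃ r' > r, ∃ F : A → ℂ → ℂ, ∀ i,
      MeromorphicNFOn (F i) (ball 0 r') ∧ ∀ z ∈ ball (0 : ℂ) r, F i =ᶠ[𝓝[≠] z] f i :=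
  ext_mero hr hf fun _ hζ => rot_xt h1 h s ((mem_sphere_zero_iff_norm.1 hζ).trans e.symm) x

/-- **a natural boundary is not crossed** -/
theorem mob_in {f f' : A → ℂ → ℂ} {r : ℝ} (hf : ∀ i, MeromorphicOn (f i) (ball 0 r))
    (nx : ∀ ζ : ℂ, ‖ζ‖ = r → ¬ Xt f r ζ) {W : Set ℂ} (o : IsOpen W) (hW : IsPreconnected W)
    (hf' : ∀ i, MeromorphicOn (f' i) W) {a b c d z0 : ℂ} (hd : a * d - b * c ≠ 0) (h0 : z0 ∈ W)
    (h1 : c * z0 + d ≠ 0) (h2 : mob4 a b c d z0 ∈ ball (0 : ℂ) r)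
    (h3 : ∀ i, (fun y => f i (mob4 a b c d y)) =ᶠ[𝓝[≠] z0] f' i) :
    ∀ z ∈ W, c * z + d ≠ 0 ∧ mob4 a b c d z ∈ ball (0 : ℂ) r ∧
      ∀ i, (fun y => f i (mob4 a b c d y)) =ᶠ[𝓝[≠] z] f' i := by
  let S : Set ℂ := {z | z ∈ W ∧ c * z + d ≠ 0 ∧ mob4 a b c d z ∈ ball (0 : ℂ) r ∧
    ∀ i, (fun y => f i (mob4 a b c d y)) =ᶠ[𝓝[≠] z] f' i}
  have loc : ∀ z ∈ W, c * z + d ≠ 0 → mob4 a b c d z ∈ ball (0 : ℂ) r →
      ∃ ε > 0, ∀ x ∈ S, x ∈ ball z ε → ball z ε ⊆ S := fun z k0 k1 k2 => by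
    obtain ⟨ε, ε0, hε⟩ := Metric.eventually_nhds_iff_ball.1 ((mob_ev k1).and
      (((mob_analytic k1).continuousAt.eventually (isOpen_ball.mem_nhds k2)).and (o.mem_nhds k0)))
    exact ⟨ε, ε0, fun x hx hb y hy => ⟨(hε y hy).2.2, (hε y hy).1, (hε y hy).2.1, fun i =>
      mero_ident (convex_ball z ε).isPreconnected (fun w hw =>
        (hf i _ (hε w hw).2.1).comp_analyticAt (mob_analytic (hε w hw).1))
        (fun w hw => hf' i w (hε w hw).2.2) hb (hx.2.2.2 i) y hy⟩⟩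
  have so : IsOpen S := Metric.isOpen_iff.2 fun z hz => by
    obtain ⟨ε, ε0, k⟩ := loc z hz.1 hz.2.1 hz.2.2.1
    exact ⟨ε, ε0, k z hz (mem_ball_self ε0)⟩
  refine fun z hz => (hW.subset_of_closure_inter_subset so ⟨z0, h0, h0, h1, h2, h3⟩ ?_ hz).2
  rintro z ⟨hc, hz⟩
  have le : ‖a * z + b‖ ≤ r * ‖c * z + d‖ := closure_minimal
    (t := {z | ‖a * z + b‖ ≤ r * ‖c * z + d‖}) (fun y hy => by
      have := mem_ball_zero_iff.1 hy.2.2.1
      rw [mob4, norm_div, div_lt_iff₀ (norm_pos_iff.2 hy.2.1)] at this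
      exact this.le) (isClosed_le (by fun_prop) (by fun_prop)) hc
  have k1 : c * z + d ≠ 0 := fun k => hd (by
    rw [k, norm_zero, mul_zero, norm_le_zero_iff] at le
    linear_combination a * k - c * le)
  have k2 : ‖mob4 a b c d z‖ ≤ r := by rwa [mob4, norm_div, div_le_iff₀ (norm_pos_iff.2 k1)]
  rcases k2.lt_or_eq with k2 | k2
  · obtain ⟨ε, ε0, k⟩ := loc z hz k1 (mem_ball_zero_iff.2 k2)
    obtain ⟨x, x1, x2⟩ := mem_closure_iff.1 hc _ isOpen_ball (mem_ball_self ε0)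
    exact k x x2 x1 (mem_ball_self ε0)
  · have hd' : d * a - -b * -c ≠ 0 := by rwa [neg_mul_neg, mul_comm]
    obtain ⟨δ, δ0, hδ⟩ := Metric.eventually_nhds_iff_ball.1 ((mob_ev (mob_den hd k1)).and
      ((mob_analytic (a := d) (b := -b) (mob_den hd k1)).continuousAt.eventually
        (o.mem_nhds ((mob_inv hd k1).symm ▸ hz))))
    obtain ⟨x, x1, x2⟩ := mem_closure_iff_nhds.1 hc _
      ((mob_analytic (a := a) (b := b) k1).continuousAt.eventually (ball_mem_nhds _ δ0))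
    have g : ∀ i, MeromorphicOn (fun y => f' i (mob4 d (-b) (-c) a y)) (ball (mob4 a b c d z) δ) :=
      fun i w hw => (hf' i _ (hδ w hw).2).comp_analyticAt (mob_analytic (hδ w hw).1)
    refine (nx _ k2 ⟨δ, δ0, fun i y => f' i (mob4 d (-b) (-c) a y), fun i => ⟨g i, fun w w1 w2 =>
      mero_ident ((convex_ball _ δ).inter (convex_ball 0 r)).isPreconnected
        (fun y hy => hf i y hy.2) (fun y hy => g i y hy.1) (z := mob4 a b c d x) ⟨x1, x2.2.2.1⟩ ?_ w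
        ⟨w1, w2⟩⟩⟩).elim
    have t := mob_tendsto hd' (mob_den hd x2.2.1)
    rw [mob_inv hd x2.2.1] at t
    filter_upwards [t.eventually (x2.2.2.2 i),
      mem_nhdsWithin_of_mem_nhds (mob_ev (mob_den hd x2.2.1))] with y y1 y2
    rw [← y1, mob_inv' hd y2]

/-- **the maximal disc** -/
theorem rad {f : A → ℂ → ℂ} {l : ℂ} (h1 : ‖l‖ = 1) (h : ∀ n : ℕ, 0 < n → l ^ n ≠ 1)
    (s : ∀ i, ∃ j, f i =ᶠ[𝓝[≠] 0] fun y => f j (l * y))
    (h0 : ∃ r > 0, ∃ F : A → ℂ → ℂ, ∀ i, MeromorphicOn (F i) (ball 0 r) ∧ F i =ᶠ[𝓝[≠] 0] f i) :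
    (∃ F : A → ℂ → ℂ, ∀ i, MeromorphicNFOn (F i) Set.univ ∧ F i =ᶠ[𝓝[≠] 0] f i) ∨
    ∃ r > 0, ∃ F : A → ℂ → ℂ, (∀ i, MeromorphicNFOn (F i) (ball 0 r) ∧ F i =ᶠ[𝓝[≠] 0] f i) ∧
      ∀ ζ : ℂ, ‖ζ‖ = r → ¬ Xt F r ζ := by
  let S : Set ℝ := {r | r > 0 ∧ ∃ F : A → ℂ → ℂ, ∀ i, MeromorphicOn (F i) (ball 0 r) ∧
    F i =ᶠ[𝓝[≠] 0] f i}
  obtain ⟨r1, hr1⟩ : S.Nonempty := h0
  choose F hF using fun r : S => r.2.2
  choose H h2 h3 using fun i => glue (W := fun r : S => ball (0 : ℂ) r) (fun _ => isOpen_ball)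
    (fun r => (hF r i).1) fun r r' z a b =>
      mero_ident ((convex_ball 0 r.1).inter (convex_ball 0 r'.1)).isPreconnected
        (fun y hy => (hF r i).1 y hy.1) (fun y hy => (hF r' i).1 y hy.2)
        ⟨mem_ball_self r.2.1, mem_ball_self r'.2.1⟩ ((hF r i).2.trans (hF r' i).2.symm) z ⟨a, b⟩
  have g : ∀ i, H i =ᶠ[𝓝[≠] 0] f i := fun i =>
    (h3 i ⟨r1, hr1⟩ 0 (mem_ball_self hr1.1)).trans (hF _ i).2
  by_cases b : BddAbove S
  · have p : 0 < sSup S := hr1.1.trans_le (le_csSup b hr1)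
    have n : ∀ i, MeromorphicNFOn (H i) (ball 0 (sSup S)) := fun i z hz => by
      obtain ⟨r, hr, k⟩ := exists_lt_of_lt_csSup ⟨r1, hr1⟩ (mem_ball.1 hz)
      exact h2 i (Set.mem_iUnion.2 ⟨⟨r, hr⟩, k⟩)
    refine Or.inr ⟨_, p, H, fun i => ⟨n i, g i⟩, fun ζ e x => ?_⟩
    have l0 : l ≠ 0 := norm_ne_zero_iff.1 (h1 ▸ one_ne_zero)
    obtain ⟨r', hr', F', k⟩ := rot_ext p (fun i => (n i).meromorphicOn) h1 h (fun i => by
      obtain ⟨j, hj⟩ := s i
      have t := mul_tendsto l0 0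
      rw [mul_zero] at t
      exact ⟨j, mero_ident (convex_ball 0 _).isPreconnected (n i).meromorphicOn (fun z hz =>
        ((n j).meromorphicOn (l * z) (by
          rwa [mem_ball_zero_iff, norm_mul, h1, one_mul, ← mem_ball_zero_iff])).comp_analyticAt
          (g := fun y => l * y) (by fun_prop)) (mem_ball_self p)
        ((g i).trans (hj.trans (t.eventually (g j).symm)))⟩) e x
    exact (le_csSup b ⟨p.trans hr', F', fun i =>
      ⟨(k i).1.meromorphicOn, ((k i).2 0 (mem_ball_self p)).trans (g i)⟩⟩).not_gt hr'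
  · refine Or.inl ⟨H, fun i => ⟨fun z _ => ?_, g i⟩⟩
    obtain ⟨r, hr, k⟩ := not_bddAbove_iff.1 b ‖z‖
    exact h2 i (Set.mem_iUnion.2 ⟨⟨r, hr⟩, mem_ball_zero_iff.2 k⟩)

/-- translations or a fixed point -/
theorem mob_fix {a b c d : ℂ} (hd : a * d - b * c ≠ 0) :
    (c = 0 ∧ a = d) ∨ ∃ y, c * y + d ≠ 0 ∧ mob4 a b c d y = y := by
  have k : ∀ y, a * y + b = y * (c * y + d) → c * y + d ≠ 0 ∧ mob4 a b c d y = y := fun y e => by
    have n : c * y + d ≠ 0 := fun n => hd (by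
      rw [n, mul_zero] at e
      linear_combination a * n - c * e)
    exact ⟨n, (div_eq_iff n).2 e⟩
  rcases eq_or_ne c 0 with rfl | hc
  · rcases eq_or_ne a d with e | e
    · exact Or.inl ⟨rfl, e⟩
    · refine Or.inr ⟨b / (d - a), k _ ?_⟩
      have := sub_ne_zero.2 e.symm
      field_simp
      ring
  · obtain ⟨w, hw⟩ := IsAlgClosed.exists_pow_nat_eq ((d - a) ^ 2 + 4 * c * b) two_pos
    refine Or.inr ⟨(a - d + w) / (2 * c), k _ ?_⟩
    field_simp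
    linear_combination (-1 : ℂ) * hw

theorem mob_id {a b c d z : ℂ} (h : c * z + d ≠ 0) (e : ∀ᶠ y in 𝓝[≠] z, mob4 a b c d y = y) :
    c = 0 ∧ a = d ∧ b = 0 := by
  have k : ∀ y ∈ Set.univ, (fun y => a * y + b) y = (fun y => y * (c * y + d)) y :=
    AnalyticOnNhd.eqOn_of_preconnected_of_frequently_eq (𝕜 := ℂ) (fun _ _ => by fun_prop)
      (fun _ _ => by fun_prop) isPreconnected_univ (Set.mem_univ z) (Eventually.frequently (by
        filter_upwards [e, mem_nhdsWithin_of_mem_nhds (mob_ev h)] with y y1 y2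
        exact (div_eq_iff y2).1 y1))
  have k0 := k 0 trivial
  have k1 := k 1 trivial
  have k2 := k (-1) trivial
  simp only at k0 k1 k2
  exact ⟨by linear_combination k0 - (k1 + k2) / 2, by linear_combination (k1 - k2) / 2,
    by linear_combination k0⟩

/-- the identity theorem off the pole -/
theorem mob_univ {f f' : ℂ → ℂ} (hf : MeromorphicOn f Set.univ) (hf' : MeromorphicOn f' Set.univ)
    {a b c d z0 : ℂ} (h1 : c * z0 + d ≠ 0)
    (h3 : (fun y => f (mob4 a b c d y)) =ᶠ[𝓝[≠] z0] f') :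
    ∀ z, c * z + d ≠ 0 → (fun y => f (mob4 a b c d y)) =ᶠ[𝓝[≠] z] f' := by
  have : IsPreconnected {z | c * z + d ≠ 0} := by
    refine (Set.Countable.isConnected_compl_of_one_lt_rank (s := {z | c * z + d = 0})
      (by simp) (Set.Subsingleton.countable fun x hx y hy => ?_)).isPreconnected
    rcases eq_or_ne c 0 with rfl | hc
    · exact (h1 (by simpa using hx)).elim
    · exact mul_left_cancel₀ hc (add_right_cancel (hx.trans hy.symm))
  exact mero_ident this (fun z hz => (hf _ trivial).comp_analyticAt (mob_analytic hz))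
    (fun z _ => hf' z trivial) h1 h3

end Vale.Agent.P022K.Sh.Un
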