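import Vale.Agent.P022K.F0.StC
import Vale.Agent.P025.R2.H492.Genus
import Vale.Agent.P025.R2.H816.J05

/-!
# P022K, block F0, row ONTO: homomorphisms of a tower to itself are isomorphisms
-/

set_option autoImplicit false

open UpperHalfPlane
open scoped MatrixGroups

noncomputable section

namespace Vale.Agent.P022K.Sh

open Vale.Agent.P022 Vale.Agent.P022.H218.L3 Vale.Agent.P019P

namespace On

/-- semilinear embeddings of function fields and the genus -/
theorem gen_le_of {K L : Type} [Field K] [Field L] [Algebra ℂ K] [Algebra ℂ L] [CFF ℂ K] [CFF ℂ L]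
    (σ : ℂ ≃+* ℂ) (τ : K →+* L) (h : ∀ c, τ (algebraMap ℂ K c) = algebraMap ℂ L (σ c)) :
    gen ℂ K ≤ gen ℂ L ∧ (2 ≤ gen ℂ K → gen ℂ L ≤ gen ℂ K → Function.Surjective τ) := by
  let K' : IntermediateField ℂ L := τ.fieldRange.toIntermediateField fun c =>
    ⟨algebraMap ℂ K (σ.symm c), by rw [h, σ.apply_symm_apply]⟩
  let e : K ≃+* K' := τ.rangeRestrictFieldEquiv
  obtain ⟨x, hx, -⟩ := CFF.ex (k := ℂ) (F := K)
  have h1 : ∀ a : ℂ, τ x ≠ algebraMap ℂ L a := fun a ha => by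
    rw [← σ.apply_symm_apply a, ← h] at ha
    exact hx (τ.injective ha ▸ isAlgebraic_algebraMap _)
  have hx' : Transcendental ℂ (e x) :=
    (transcendental_algebraMap_iff (algebraMap K' L).injective).1 (finite_of_notMem h1).1
  have := P025H492.cff_down (L := L) hx'
  have := P025H492.finite_of_transcendental (L := L) hx'
  have eg : gen ℂ K = gen ℂ K' := gen_eq e σ fun a => Subtype.ext (h a)
  refine ⟨eg ▸ P025H492.gen_le ℂ K' L, fun h2 h3 y => ?_⟩
  have h4 := P025H492.riemann_hurwitz ℂ K' L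
  have h5 := dg_mono (P025H492.ramDiv_nonneg (k := ℂ) (K := K') (L := L))
  rw [map_zero] at h5
  rw [← eg] at h4
  have h6 : 0 < Module.finrank K' L := Module.finrank_pos
  have h7 : Module.finrank K' L = 1 := by
    by_contra hn
    have : (2 : ℤ) ≤ Module.finrank K' L := by omega
    have : (2 : ℤ) ≤ gen ℂ K := by omega
    have : (gen ℂ L : ℤ) ≤ gen ℂ K := by omega
    nlinarith
  have h8 : y ∈ K' := by
    rw [IntermediateField.finrank_eq_one_iff_eq_top.1 h7]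
    trivial
  exact h8

variable {G0 G0' G : Type} [Group G0] [Group G0'] [Group G] {T : Tw G0 G} {T' : Tw G0' G}
  {U U' : Subgroup G} {φ ψ : G → Mer} {x y : G} {f : Mer}

theorem RU_anti (h : U' ≤ U) (hφ : φ ∈ T.RU U) : φ ∈ T.RU U' :=
  ⟨hφ.1, fun x u hu => hφ.2 x u (h hu)⟩

theorem rt_mem (hφ : φ ∈ T.RU U) (g : G) : rt g φ ∈ T.RU (cj g U) :=
  ⟨fun γ x => by simp only [rt, mul_assoc, hφ.1], fun x u hu => by
    have := hφ.2 (x * g) _ (mem_cj.1 hu)
    simp only [rt]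
    rw [← this]
    congr 1
    group⟩

theorem app (hφ : φ ∈ T.RU U) (γ : G0) (x : G) {u : G} (hu : u ∈ U) :
    φ (T.j γ * x * u) = T.act γ (φ x) := (hφ.2 _ u hu).trans (hφ.1 γ x)

theorem val_mem (hφ : φ ∈ T.RU U) (x : G) : φ x ∈ T.KF (T.Gam U x) := T.mem_KF.2 fun γ hγ => by
  rw [← app hφ γ x (inv_mem (T.mem_Gam.1 hγ))]
  congr 1
  group

variable (T U) in
/-- the components of level `U` -/
def cs : Setoid G where
  r x y := ∃ γ, ∃ u ∈ U, y = T.j γ * x * u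
  iseqv := ⟨fun x => ⟨1, 1, one_mem _, by simp⟩, by
    rintro x _ ⟨γ, u, hu, rfl⟩
    exact ⟨γ⁻¹, u⁻¹, inv_mem hu, by rw [map_inv]; group⟩, by
    rintro x _ _ ⟨γ, u, hu, rfl⟩ ⟨δ, v, hv, rfl⟩
    exact ⟨δ * γ, u * v, mul_mem hu hv, by rw [map_mul]; group⟩⟩

theorem fin_cs (h : T.Ok) (hU : U ∈ T.Lev) : Finite (Quotient (cs T U)) := by
  obtain ⟨S, hS⟩ := h.fin U hU
  refine Finite.of_surjective (fun s : S => Quotient.mk (cs T U) s.1) fun c => ?_
  obtain ⟨x, rfl⟩ := c.exists_rep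
  obtain ⟨s, hs, e⟩ := hS x
  exact ⟨⟨s, hs⟩, Quotient.sound e⟩

theorem ext_out (hφ : φ ∈ T.RU U) (hψ : ψ ∈ T.RU U)
    (h : ∀ c : Quotient (cs T U), φ c.out = ψ c.out) : φ = ψ := by
  funext y
  obtain ⟨γ, u, hu, e⟩ := Quotient.mk_out (s := cs T U) y
  rw [e, app hφ γ _ hu, app hψ γ _ hu, h]

open Classical in
variable (T U) in
/-- extension by zero -/
def xt (x : G) (f : Mer) : G → Mer := fun y => if h : cs T U x y then T.act h.choose f else 0

theorem xt_ne (h : ¬ cs T U x y) : xt T U x f y = 0 := dif_neg h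

theorem xt_eq (hf : f ∈ T.KF (T.Gam U x)) (γ : G0) {u : G} (hu : u ∈ U) :
    xt T U x f (T.j γ * x * u) = T.act γ f := by
  have h : cs T U x (T.j γ * x * u) := ⟨γ, u, hu, rfl⟩
  rw [xt, dif_pos h]
  obtain ⟨v, hv, e⟩ := h.choose_spec
  generalize h.choose = δ at e
  have : γ⁻¹ * δ ∈ T.Gam U x := T.mem_Gam.2 (by
    have : T.j γ = T.j δ * x * v * u⁻¹ * x⁻¹ := by rw [← e]; group
    rw [map_mul, map_inv, this]
    convert mul_mem hu (inv_mem hv) using 1
    group)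
  rw [← mul_inv_cancel_left γ δ, map_mul, AlgEquiv.mul_apply, T.mem_KF.1 hf _ this]

theorem xt_self (hf : f ∈ T.KF (T.Gam U x)) : xt T U x f x = f := by
  simpa using xt_eq hf 1 (one_mem U)

theorem xt_mem (hf : f ∈ T.KF (T.Gam U x)) : xt T U x f ∈ T.RU U := by
  refine ⟨fun γ y => ?_, fun y u hu => ?_⟩
  · by_cases h : cs T U x y
    · obtain ⟨δ, v, hv, rfl⟩ := h
      rw [xt_eq hf δ hv, ← mul_assoc, ← mul_assoc, ← map_mul, xt_eq hf _ hv, map_mul,
        AlgEquiv.mul_apply]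
    · rw [xt_ne h, map_zero, xt_ne fun h' => h ((cs T U).trans h'
        ((cs T U).symm ⟨γ, 1, one_mem _, (mul_one _).symm⟩))]
  · by_cases h : cs T U x y
    · obtain ⟨δ, v, hv, rfl⟩ := h
      rw [xt_eq hf δ hv, mul_assoc, xt_eq hf δ (mul_mem hv hu)]
    · rw [xt_ne h, xt_ne fun h' => h ((cs T U).trans h' ((cs T U).symm ⟨1, u, hu, by simp⟩))]

theorem xt_mul (f g : Mer) : xt T U x (f * g) = xt T U x f * xt T U x g := by
  funext y
  simp only [xt, Pi.mul_apply]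
  split_ifs <;> simp

theorem xt_add (f g : Mer) : xt T U x (f + g) = xt T U x f + xt T U x g := by
  funext y
  simp only [xt, Pi.add_apply]
  split_ifs <;> simp

theorem xt_one (h : cs T U x y) : xt T U x 1 y = 1 := by
  rw [xt, dif_pos h, map_one]

theorem xt_val (hφ : φ ∈ T.RU U) (x : G) : xt T U x (φ x) = xt T U x 1 * φ := by
  funext y
  by_cases h : cs T U x y
  · rw [Pi.mul_apply, xt_one h, one_mul]
    obtain ⟨δ, v, hv, rfl⟩ := h
    rw [xt_eq (val_mem hφ x) δ hv, app hφ δ x hv]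
  · rw [Pi.mul_apply, xt_ne h, xt_ne h, zero_mul]

theorem xt_orth (h : ¬ cs T U x y) (f g : Mer) : xt T U x f * xt T U y g = 0 := by
  funext z
  by_cases h' : cs T U x z
  · rw [Pi.mul_apply, xt_ne (x := y) fun h'' => h ((cs T U).trans h' ((cs T U).symm h'')),
      mul_zero, Pi.zero_apply]
  · rw [Pi.mul_apply, xt_ne h', zero_mul, Pi.zero_apply]

theorem xt_sum [Fintype (Quotient (cs T U))] :
    ∑ c : Quotient (cs T U), xt T U c.out 1 = 1 := by
  funext y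
  rw [Finset.sum_apply, Finset.sum_eq_single (Quotient.mk _ y) (fun c _ hc => xt_ne fun h =>
    hc (by rw [← Quotient.sound h, Quotient.out_eq])) fun h => absurd (Finset.mem_univ _) h]
  exact xt_one (Quotient.mk_out (s := cs T U) y)

/-- all functions on the tower -/
def RR (h : T.Ok) : Subalgebra ℂ (G → Mer) where
  carrier := {φ | ∃ U ∈ T.Lev, φ ∈ T.RU U}
  mul_mem' := fun ⟨U, hU, a⟩ ⟨V, hV, b⟩ => ⟨_, h.inf U hU V hV,
    mul_mem (RU_anti inf_le_left a) (RU_anti inf_le_right b)⟩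
  add_mem' := fun ⟨U, hU, a⟩ ⟨V, hV, b⟩ => ⟨_, h.inf U hU V hV,
    add_mem (RU_anti inf_le_left a) (RU_anti inf_le_right b)⟩
  algebraMap_mem' c := ⟨_, h.neat.choose_spec.1, (T.RU _).algebraMap_mem c⟩

theorem RR_rt {h : T.Ok} (hφ : φ ∈ RR h) (g : G) : rt g φ ∈ RR h :=
  let ⟨U, hU, a⟩ := hφ
  ⟨_, h.conj U hU g, rt_mem a g⟩

variable {σ : ℂ ≃+* ℂ} {θ : (G → Mer) → G → Mer}

/-- a homomorphism of towers as a ring homomorphism -/
def hom (h : T.Ok) (e : T.Em T' σ θ) : RR h →+* (G → Mer) where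
  toFun φ := θ φ.1
  map_one' := by simpa using e.cst 1
  map_zero' := by simpa using e.cst 0
  map_mul' := fun ⟨_, U, hU, a⟩ ⟨_, V, hV, b⟩ => e.mul _ (h.inf U hU V hV) _
    (RU_anti inf_le_left a) _ (RU_anti inf_le_right b)
  map_add' := fun ⟨_, U, hU, a⟩ ⟨_, V, hV, b⟩ => e.add _ (h.inf U hU V hV) _
    (RU_anti inf_le_left a) _ (RU_anti inf_le_right b)

theorem cover (h : T.Ok) (hU : U ∈ T.Lev) (hU' : U' ∈ T.Lev) :
    ∃ W : Finset G, ∀ u ∈ U, ∃ w ∈ W, w ∈ U ∧ u * w ∈ U' := by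
  classical
  have : (U'.subgroupOf U).FiniteIndex := ⟨h.fi U' hU' U hU⟩
  have := Fintype.ofFinite (U ⧸ U'.subgroupOf U)
  refine ⟨Finset.univ.image fun c : U ⧸ U'.subgroupOf U => (c.out : G), fun u hu => ?_⟩
  have := QuotientGroup.eq.1 (QuotientGroup.out_eq' (s := U'.subgroupOf U) ↑(⟨u, hu⟩⁻¹ : U)).symm
  exact ⟨_, Finset.mem_image_of_mem _ (Finset.mem_univ _), Subtype.mem _,
    by simpa [Subgroup.mem_subgroupOf] using this⟩

/-- finitely many translates of a component cover the tower -/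
theorem cover' (h : T.Ok) (hU : U ∈ T.Lev) (x : G) :
    ∃ A : Finset G, ∀ y, ∃ g ∈ A, cs T U x (y * g) := by
  classical
  obtain ⟨S, hS⟩ := h.fin U hU
  choose W hW using fun s : G => cover h hU (h.conj U hU (s⁻¹ * x))
  refine ⟨S.biUnion fun s => (W s).image fun w => w * (s⁻¹ * x), fun y => ?_⟩
  obtain ⟨s, hs, γ, u, hu, rfl⟩ := hS y
  obtain ⟨w, hw, -, e⟩ := hW s u hu
  exact ⟨_, Finset.mem_biUnion.2 ⟨s, hs, Finset.mem_image_of_mem _ hw⟩, γ, _, mem_cj.1 e, by group⟩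

theorem inj (h : T.Ok) (e : T.Em T' σ θ) : Function.Injective (hom h e) := by
  refine (injective_iff_map_eq_zero _).2 fun ⟨φ, U, hU, a⟩ h0 => Subtype.ext (funext fun x => ?_)
  by_contra hx
  have m1 := xt_mem (U := U) (x := x) (one_mem (T.KF _))
  have m2 := xt_mem (inv_mem (val_mem a x))
  have e1 : xt T U x 1 = xt T U x (φ x)⁻¹ * φ := by
    rw [← mul_inv_cancel₀ hx, xt_mul, xt_val a, mul_right_comm, ← xt_mul, one_mul]
  have e2 : θ (xt T U x 1) = 0 := by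
    rw [e1, e.mul U hU _ m2 _ a, show θ φ = 0 from h0, mul_zero]
  obtain ⟨A, hA⟩ := cover' h hU x
  have e3 : ∏ g ∈ A, (1 - ⟨_, RR_rt ⟨U, hU, m1⟩ g⟩ : RR h) = 0 := by
    refine Subtype.ext (funext fun y => ?_)
    obtain ⟨g, hg, c⟩ := hA y
    rw [SubmonoidClass.coe_finsetProd, Finset.prod_apply]
    exact Finset.prod_eq_zero hg (sub_eq_zero.2 (xt_one c).symm)
  have e4 := congrArg (hom h e) e3
  rw [map_zero, map_prod, Finset.prod_eq_one fun g _ => by
    rw [map_sub, map_one, sub_eq_self]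
    exact (e.eqv U hU _ m1 g).trans (by rw [e2]; rfl)] at e4
  exact one_ne_zero (congrFun e4 x)

theorem injOn (h : T.Ok) (e : T.Em T' σ θ) (hφ : φ ∈ RR h) (hψ : ψ ∈ RR h) (eq : θ φ = θ ψ) :
    φ = ψ := congrArg Subtype.val (inj h e (a₁ := ⟨φ, hφ⟩) (a₂ := ⟨ψ, hψ⟩) eq)

/-- the embedding of the function field of the component of `x` in that of `y` -/
def emb (e : T.Em T' σ θ) (hU : U ∈ T.Lev) (h1 : θ (xt T U x 1) y = 1) :
    T.KF (T.Gam U x) →+* T'.KF (T'.Gam U y) where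
  toFun f := ⟨θ (xt T U x f) y, val_mem (e.mem U hU _ (xt_mem f.2)) y⟩
  map_one' := Subtype.ext h1
  map_zero' := Subtype.ext (by
    have : xt T U x 0 = algebraMap ℂ (G → Mer) 0 := by
      funext y
      simp [xt]
    show θ (xt T U x 0) y = 0
    rw [this, e.cst]
    simp)
  map_mul' f g := Subtype.ext (by
    show θ (xt T U x (f * g)) y = _
    rw [xt_mul, e.mul U hU _ (xt_mem f.2) _ (xt_mem g.2)]
    rfl)
  map_add' f g := Subtype.ext (by
    show θ (xt T U x (f + g)) y = _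
    rw [xt_add, e.add U hU _ (xt_mem f.2) _ (xt_mem g.2)]
    rfl)

theorem emb_cst (e : T.Em T' σ θ) (hU : U ∈ T.Lev) (h1 : θ (xt T U x 1) y = 1) (c : ℂ) :
    emb e hU h1 (algebraMap ℂ _ c) = algebraMap ℂ _ (σ c) := Subtype.ext (by
  have m := (T.RU U).algebraMap_mem c
  show θ (xt T U x (algebraMap ℂ (G → Mer) c x)) y = algebraMap ℂ Mer (σ c)
  rw [xt_val m, e.mul U hU _ (xt_mem (one_mem _)) _ m, e.cst, Pi.mul_apply, h1, one_mul]
  rfl)

/-- the component from which the component of `y` comes -/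
theorem ex_cmp (h : T.Ok) (e : T.Em T' σ θ) (hU : U ∈ T.Lev) (y : G) :
    ∃ c : Quotient (cs T U), θ (xt T U c.out 1) y = 1 := by
  have := fin_cs h hU
  have := Fintype.ofFinite (Quotient (cs T U))
  have m : ∀ x, xt T U x 1 ∈ T.RU U := fun x => xt_mem (one_mem _)
  by_contra hn
  have h0 : ∀ c : Quotient (cs T U), θ (xt T U c.out 1) y = 0 := fun c => by
    have := congrFun (e.mul U hU _ (m c.out) _ (m c.out)) y
    rw [← xt_mul, one_mul, Pi.mul_apply] at this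
    by_contra h1
    exact hn ⟨c, mul_left_cancel₀ h1 (this.symm.trans (mul_one _).symm)⟩
  have e1 : ∑ c : Quotient (cs T U), (⟨_, U, hU, m c.out⟩ : RR h) = 1 :=
    Subtype.ext (by rw [AddSubmonoidClass.coe_finsetSum]; exact xt_sum)
  have e2 := congrFun (congrArg (hom h e) e1) y
  rw [map_sum, map_one, Finset.sum_apply] at e2
  exact zero_ne_one ((Finset.sum_eq_zero fun c _ => h0 c).symm.trans e2)

theorem cmp_zero (e : T.Em T' σ θ) (hU : U ∈ T.Lev) {z : G} (h1 : θ (xt T U x 1) y = 1)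
    (hz : ¬ cs T U x z) (hf : f ∈ T.KF (T.Gam U z)) : θ (xt T U z f) y = 0 := by
  have := congrFun (e.mul U hU _ (xt_mem (x := x) (one_mem _)) _ (xt_mem hf)) y
  rw [xt_orth hz, Pi.mul_apply, h1, one_mul] at this
  rw [← this, ← map_zero (algebraMap ℂ (G → Mer)), e.cst]
  simp

theorem surj_neat (h : T.Ok) (cf : T.CF) (gn : T.GEN) (e : T.Em T σ θ) (hU : U ∈ T.Lev)
    (hn : T.Neat U) (hψ : ψ ∈ T.RU U) : ∃ φ ∈ T.RU U, θ φ = ψ := by
  classical
  have := fin_cs h hU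
  have := Fintype.ofFinite (Quotient (cs T U))
  have : ∀ x, CFF ℂ (T.KF (T.Gam U x)) := fun x => (cf _ (h.fu U hU x)).1
  choose p hp using fun c : Quotient (cs T U) => ex_cmp h e hU c.out
  have ne : ∀ {c d : Quotient (cs T U)}, c ≠ d → ¬ cs T U c.out d.out := fun hc r =>
    hc (Quotient.out_equiv_out.1 r)
  have ps : Function.Surjective p := fun d => by
    by_contra hd
    have m := xt_mem (U := U) (x := d.out) (one_mem (T.KF _))
    have e0 : θ (xt T U d.out 1) = θ 0 := by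
      rw [← map_zero (algebraMap ℂ (G → Mer)), e.cst, map_zero, map_zero]
      exact ext_out (e.mem U hU _ m) (zero_mem _) fun c =>
        cmp_zero e hU (hp c) (ne fun r => hd ⟨c, r⟩) (one_mem _)
    have := congrFun (injOn h e ⟨U, hU, m⟩ (zero_mem _) e0) d.out
    rw [xt_one ((cs T U).refl _)] at this
    exact one_ne_zero this
  have pb : Function.Bijective p := Finite.surjective_iff_bijective.1 ps
  have key := fun c => gen_le_of σ (emb e hU (hp c)) (emb_cst e hU (hp c))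
  have eq := (Finset.sum_eq_sum_iff_of_le fun c (_ : c ∈ Finset.univ) => (key c).1).1
    (pb.sum_comp fun c => gen ℂ (T.KF (T.Gam U c.out)))
  choose f hf using fun c => (key c).2 (gn _ (h.fu U hU _) (hn _)) (eq c (Finset.mem_univ _)).ge
    ⟨_, val_mem hψ c.out⟩
  have m : ∀ c, xt T U (p c).out (f c) ∈ T.RU U := fun c => xt_mem (f c).2
  have ms := sum_mem fun c (_ : c ∈ Finset.univ) => m c
  refine ⟨_, ms, ext_out (e.mem U hU _ ms) hψ fun c => ?_⟩
  have e1 := congrFun (map_sum (hom h e) (fun c => ⟨_, U, hU, m c⟩) Finset.univ) c.out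
  rw [Finset.sum_apply] at e1
  refine Eq.trans ?_ (e1.trans ((Finset.sum_eq_single c (fun d _ hd => cmp_zero e hU (hp c)
    (ne fun r => hd (pb.1 r).symm) (f d).2) fun h => absurd (Finset.mem_univ _) h).trans
    (congrArg Subtype.val (hf c))))
  exact congrArg (θ · c.out) (AddSubmonoidClass.coe_finsetSum
    (fun c => (⟨_, U, hU, m c⟩ : RR h)) Finset.univ).symm

theorem sl_of_em (h : T.Ok) (cf : T.CF) (gn : T.GEN) (e : T.Em T σ θ) : T.Sl σ θ := by
  refine ⟨e.mem, fun U hU => ⟨e.mem U hU, fun φ a ψ b => injOn h e ⟨U, hU, a⟩ ⟨U, hU, b⟩,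
    fun ψ b => ?_⟩, e.add, e.mul, e.cst, e.eqv⟩
  obtain ⟨V, hV, hn⟩ := h.neat
  have hW := h.inf U hU V hV
  obtain ⟨φ, a, rfl⟩ := surj_neat h cf gn e hW
    (fun x γ hγ => hn x γ (T.mem_Gam.2 (T.mem_Gam.1 hγ).2)) (RU_anti inf_le_left b)
  refine ⟨φ, ⟨a.1, fun x u hu => congrFun (injOn h e (RR_rt ⟨_, hW, a⟩ u) ⟨_, hW, a⟩ ?_) x⟩, rfl⟩
  rw [e.eqv _ hW φ a]
  exact funext fun y => b.2 y u hu

theorem actM_congr {g g' : GP} (h : ∀ τ : ℍ, g • τ = g' • τ) : actM g = actM g' := by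
  have : actH g = actH g' := by
    ext f τ
    rw [actH_apply, actH_apply, show g⁻¹ • τ = g'⁻¹ • τ by rw [inv_smul_eq_iff, h, smul_inv_smul]]
  simp only [actM, MonoidHom.comp_apply, this]

theorem em_of_cj (h : T.Ok) (hl : T'.Lev = T.Lev) (c : T.Cj T') :
    ∃ θ, T.Em T' (RingEquiv.refl ℂ) θ := by
  obtain ⟨x, g, c⟩ := c
  refine ⟨fun φ y => actM g (φ (x⁻¹ * y)), hl, fun U hU φ a => ⟨fun γ' y => ?_, fun y u hu => ?_⟩,
    fun _ _ φ _ ψ _ => funext fun y => map_add _ _ _,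
    fun _ _ φ _ ψ _ => funext fun y => map_mul _ _ _,
    fun c => funext fun y => (actM g).commutes c,
    fun _ _ φ _ g' => funext fun y => by simp only [rt, mul_assoc]⟩
  · obtain ⟨γ, z, hz, e1, e2⟩ := c γ'
    have e3 : x⁻¹ * (T'.j γ' * y) = T.j γ * (x⁻¹ * y) * z := by
      rw [e1, mul_assoc _ z, ← Subgroup.mem_center_iff.1 (h.zc hz) y]
      group
    have e4 : actM (g * T.r γ) = actM (T'.r γ' * g) := actM_congr fun τ => by
      rw [mul_smul, mul_smul, e2]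
    beta_reduce
    rw [e3, app a γ _ ((sInf_le hU : T.Z ≤ U) hz)]
    simp only [map_mul] at e4
    exact DFunLike.congr_fun e4 _
  · simp only [← mul_assoc, a.2 _ u hu]

theorem em_comp {σ' : ℂ ≃+* ℂ} {θ' : (G → Mer) → G → Mer} {G0'' : Type} [Group G0'']
    {T'' : Tw G0'' G} (e : T.Em T' σ θ) (e' : T'.Em T'' σ' θ') :
    T.Em T'' (σ.trans σ') (θ' ∘ θ) where
  lev := e'.lev.trans e.lev
  mem U hU φ a := e'.mem U (e.lev ▸ hU) _ (e.mem U hU φ a)
  add U hU φ a ψ b := (congrArg θ' (e.add U hU φ a ψ b)).trans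
    (e'.add U (e.lev ▸ hU) _ (e.mem U hU φ a) _ (e.mem U hU ψ b))
  mul U hU φ a ψ b := (congrArg θ' (e.mul U hU φ a ψ b)).trans
    (e'.mul U (e.lev ▸ hU) _ (e.mem U hU φ a) _ (e.mem U hU ψ b))
  cst c := (congrArg θ' (e.cst c)).trans (e'.cst _)
  eqv U hU φ a g := (congrArg θ' (e.eqv U hU φ a g)).trans
    (e'.eqv U (e.lev ▸ hU) _ (e.mem U hU φ a) g)

end On

/-- **ONTO** -/
theorem onto (cf : All fun T => T.CF) (gn : All fun T => T.GEN) : All fun T => T.ONTO :=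
  fun _ _ _ _ T h => ⟨fun _ _ e => On.sl_of_em h (cf _ _ T h) (gn _ _ T h) e,
    fun _ _ _ _ hl => ⟨On.em_of_cj h hl, fun _ _ _ _ e e' => On.em_comp e e'⟩⟩

end Vale.Agent.P022K.Sh
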