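import Vale.Agent.P022K.F0.Twb

/-!
# P022K, block F0: rows PTS and STB (isomorphisms of towers act on points) (helper10)
-/

set_option autoImplicit false

open UpperHalfPlane
open scoped MatrixGroups

noncomputable section

namespace Vale.Agent.P022K.Sh

open Vale.Agent.P022 Vale.Agent.P022.H218.L3 Vale.Agent.P019P P025H816 P027M.K

variable {G0 G0' G : Type} [Group G0] [Group G0'] [Group G]

namespace Tw

variable {T : Tw G0 G} {T' : Tw G0' G} {U U' : Subgroup G} {x x' x₁ x₂ : G} {τ τ' τ₁ τ₂ : ℍ}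
  {σ : ℂ ≃+* ℂ} {θ : (G → Mer) → G → Mer}

variable (T) in
/-- `θ` maps the point `(τ, x)` to the point `(τ', x')` in level `U` -/
def PtU (U : Subgroup G) (σ : ℂ ≃+* ℂ) (θ : (G → Mer) → G → Mer) (τ : ℍ) (x : G) (τ' : ℍ)
    (x' : G) : Prop := ∀ φ ∈ T.RU U, ∀ c, MVal τ (φ x) c → MVal τ' (θ φ x') (σ c)

theorem PtU.mono (h : T.PtU U σ θ τ x τ' x') (le : U ≤ U') : T.PtU U' σ θ τ x τ' x' :=
  fun φ hφ => h φ (RU_mono le hφ)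

theorem Same.refl (τ : ℍ) (x : G) : T.Same τ x τ x := ⟨1, 1, one_mem _, by simp, by simp⟩

theorem Same.symm (h : T.Same τ x τ' x') : T.Same τ' x' τ x := by
  obtain ⟨γ, z, hz, rfl, rfl⟩ := h
  exact ⟨γ⁻¹, z⁻¹, inv_mem hz, by rw [map_inv, inv_smul_smul], by rw [map_inv]; group⟩

theorem Same.trans (h : T.Same τ x τ₁ x₁) (h' : T.Same τ₁ x₁ τ₂ x₂) : T.Same τ x τ₂ x₂ := by
  obtain ⟨γ, z, hz, rfl, rfl⟩ := h
  obtain ⟨δ, w, hw, rfl, rfl⟩ := h'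
  exact ⟨δ * γ, z * w, mul_mem hz hw, by rw [map_mul, mul_smul], by rw [map_mul]; group⟩

theorem Same.mval (h : T.Same τ x τ' x') (hU : U ∈ T.Lev) {φ : G → Mer} (hφ : φ ∈ T.RU U)
    {c : ℂ} : MVal τ' (φ x') c ↔ MVal τ (φ x) c := by
  obtain ⟨γ, z, hz, rfl, rfl⟩ := h
  rw [RU_val hφ γ x (Z_le hU hz), mval_act]

theorem PtU.move (h : T.Em T' σ θ) (hU : U ∈ T.Lev) (p : T.PtU U σ θ τ x τ' x') (γ : G0') {u : G}
    (hu : u ∈ U) : T.PtU U σ θ τ x (T'.r γ • τ') (T'.j γ * x' * u) := fun φ hφ c v => by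
  rw [RU_val (h.mem U hU φ hφ) γ x' hu, mval_act]
  exact p φ hφ c v

/-- the component of the image point -/
theorem PtU.ker (h : T.Em T' σ θ) (hU : U ∈ T.Lev) (p : T.PtU U σ θ τ x τ' x') :
    ∀ φ ∈ T.RU U, φ x = 0 → θ φ x' = 0 := by
  obtain ⟨e, h1, h2, h3⟩ := ex_ind (T := T) U x
  refine h.ker_of_ind hU h1 h3 fun e0 => ?_
  have := p e h1 1 (by rw [h2 x (Rel.refl x)]; exact MVal.one τ)
  rw [e0, map_one] at this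
  exact one_ne_zero (this.unique (MVal.zero τ'))

section pl

variable [CFF ℂ (T.KF (T.Gam U x))] [CFF ℂ (T'.KF (T'.Gam U x'))]
  {pt : ℍ → Plk ℂ (T.KF (T.Gam U x))} {pt' : ℍ → Plk ℂ (T'.KF (T'.Gam U x'))}
  (hp : T.Pts (T.Gam U x) pt) (hp' : T'.Pts (T'.Gam U x') pt')
  {s : T.KF (T.Gam U x) ≃+* T'.KF (T'.Gam U x')}
  (hs : ∀ c, s (algebraMap ℂ _ c) = algebraMap ℂ _ (σ c))
  (hθ : ∀ φ (hφ : φ ∈ T.RU U), (s ⟨φ x, RU_KF hφ x⟩ : Mer) = θ φ x')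

include hp hp' hθ

/-- points and places -/
theorem ptU_iff : T.PtU U σ θ τ x τ' x' ↔ plEquiv s σ hs (pt τ) = pt' τ' := by
  constructor
  · intro p
    refine Plk.eq_of_le fun z hz => ?_
    obtain ⟨f, rfl⟩ := s.surjective z
    rw [AuxFAct.mem_plEquiv, s.symm_apply_apply, mem_iff_ord] at hz
    obtain ⟨c, hc⟩ := exists_val (mem_Mge.2 hz)
    obtain ⟨φ, rfl⟩ := evK_surj U x f
    have := p φ φ.2 c ((hp.val τ _ c).1 hc)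
    rw [← hθ φ φ.2] at this
    exact (mem_iff_ord _ _).2 (mem_Mge.1 ((hp'.val τ' _ _).2 this).mem)
  · intro e φ hφ c v
    have := ((hp.val τ ⟨φ x, RU_KF hφ x⟩ c).2 v).semi hs
    rw [e, hp'.val] at this
    rwa [← hθ φ hφ]

end pl

variable (ok : T.Ok) (ok' : T'.Ok) (cf : T.CF) (cf' : T'.CF) (h : T.Is T' σ θ)

include ok ok' cf cf' h

theorem Is.ex_ptU (hU : U ∈ T.Lev) (τ : ℍ) (x : G) : ∃ τ' x', T.PtU U σ θ τ x τ' x' := by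
  obtain ⟨x', hx⟩ := h.ex_comp hU x
  obtain ⟨s, hs, hθ⟩ := h.ex_equiv hU hx
  obtain ⟨_, pt, hp⟩ := cf _ (ok.fu U hU x)
  obtain ⟨_, pt', hp'⟩ := cf' _ (ok'.fu U (h.1.lev ▸ hU) x')
  obtain ⟨τ', e⟩ := hp'.onto (plEquiv s σ hs (pt τ))
  exact ⟨τ', x', (ptU_iff hp hp' hs hθ).2 e.symm⟩

/-- the image point is unique in level `U` -/
theorem Is.sep (hU : U ∈ T.Lev) (p : T.PtU U σ θ τ x τ' x') (q : T.PtU U σ θ τ x τ₂ x₂) :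
    ∃ γ, ∃ u ∈ U, τ₂ = T'.r γ • τ' ∧ x₂ = T'.j γ * x' * u := by
  obtain ⟨s, hs, hθ⟩ := h.ex_equiv hU (p.ker h.1 hU)
  have r : T'.Rel U x' x₂ := by
    obtain ⟨e, h1, h2, h3⟩ := ex_ind (T := T') U x'
    obtain ⟨φ, hφ, rfl⟩ := (h.2 U hU).surjOn h1
    have e1 : (⟨φ x, RU_KF hφ x⟩ : T.KF (T.Gam U x)) = 1 := s.injective (by
      rw [map_one]
      exact Subtype.ext ((hθ φ hφ).trans (h2 x' (Rel.refl x'))))
    have := q φ hφ 1 (by rw [show φ x = 1 from congrArg Subtype.val e1]; exact MVal.one τ)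
    by_contra r
    rw [h3 x₂ r, map_one] at this
    exact one_ne_zero (this.unique (MVal.zero τ₂))
  obtain ⟨γ, u, hu, rfl⟩ := r
  have q' := q.move h.1 hU γ⁻¹ (inv_mem hu)
  rw [show T'.j γ⁻¹ * (T'.j γ * x' * u) * u⁻¹ = x' by rw [map_inv]; group] at q'
  obtain ⟨_, pt, hp⟩ := cf _ (ok.fu U hU x)
  obtain ⟨_, pt', hp'⟩ := cf' _ (ok'.fu U (h.1.lev ▸ hU) x')
  obtain ⟨δ, hδ, e⟩ := (hp'.eq _ _).1 (((ptU_iff hp hp' hs hθ).1 p).symm.trans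
    ((ptU_iff hp hp' hs hθ).1 q'))
  refine ⟨γ * δ, (x'⁻¹ * T'.j δ * x')⁻¹ * u, mul_mem (inv_mem (T'.mem_Gam.1 hδ)) hu, ?_, ?_⟩
  · rw [map_mul, mul_smul, e, map_inv, smul_inv_smul]
  · rw [map_mul]
    group

/-- orders are preserved -/
theorem Is.mord (hU : U ∈ T.Lev) (n : T.Neat U) (n' : T'.Neat U) (p : T.PtU U σ θ τ x τ' x')
    {φ : G → Mer} (hφ : φ ∈ T.RU U) {k : ℤ} (o : MOrd τ (φ x) k) : MOrd τ' (θ φ x') k := by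
  obtain ⟨s, hs, hθ⟩ := h.ex_equiv hU (p.ker h.1 hU)
  obtain ⟨_, pt, hp⟩ := cf _ (ok.fu U hU x)
  obtain ⟨_, pt', hp'⟩ := cf' _ (ok'.fu U (h.1.lev ▸ hU) x')
  have f0 : (⟨φ x, RU_KF hφ x⟩ : T.KF (T.Gam U x)) ≠ 0 := fun e => o.ne (congrArg Subtype.val e)
  have h1 := hp'.ord (n' x') τ' _ ((map_ne_zero s).2 f0)
  rwa [← (ptU_iff hp hp' hs hθ).1 p, ord_plEquiv, (hp.ord (n x) τ _ f0).unique o, hθ φ hφ] at h1

/-- every point has an image -/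
theorem Is.ex_pt (τ : ℍ) (x : G) : ∃ τ' x', T.Pt σ θ τ x τ' x' := by
  obtain ⟨u, u1, u2, u3⟩ := ok.seq
  obtain ⟨τ', x0, p0⟩ := h.ex_ptU ok ok' cf cf' (u2 0) τ x
  have step : ∀ n (y : {y // T.PtU (u n) σ θ τ x τ' y}),
      ∃ y' : {y // T.PtU (u (n + 1)) σ θ τ x τ' y}, y.1⁻¹ * y'.1 ∈ u n := fun n y => by
    obtain ⟨τ₂, x₂, q⟩ := h.ex_ptU ok ok' cf cf' (u2 (n + 1)) τ x
    obtain ⟨γ, v, hv, rfl, rfl⟩ := h.sep ok ok' cf cf' (u2 n) y.2 (q.mono (u1 n.le_succ))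
    have q' := q.move h.1 (u2 (n + 1)) γ⁻¹ (one_mem _)
    rw [map_inv, inv_smul_smul] at q'
    refine ⟨⟨_, q'⟩, ?_⟩
    rwa [show y.1⁻¹ * (T'.j γ⁻¹ * (T'.j γ * y.1 * v) * 1) = v by rw [map_inv]; group]
  choose nx hn using step
  let c : ∀ n, {y // T.PtU (u n) σ θ τ x τ' y} := fun n => Nat.rec ⟨x0, p0⟩ nx n
  obtain ⟨y, hy⟩ := ok.cpl u u1 u2 u3 (fun n => (c n).1) fun n => hn n (c n)
  refine ⟨τ', y, fun U hU => ?_⟩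
  obtain ⟨n, le⟩ := u3 U hU
  have := (c n).2.move h.1 (u2 n) 1 (hy n)
  rw [map_one, map_one, one_smul, one_mul, mul_inv_cancel_left] at this
  exact this.mono le

/-- the image point is unique -/
theorem Is.same (p : T.Pt σ θ τ x τ' x') (q : T.Pt σ θ τ x τ₂ x₂) : T'.Same τ' x' τ₂ x₂ := by
  obtain ⟨V, hV, n⟩ := ok'.neat
  have hl : ∀ {U}, U ∈ T'.Lev → U ∈ T.Lev := fun hU => h.1.lev ▸ hU
  obtain ⟨γ, v, hv, e1, e2⟩ := h.sep ok ok' cf cf' (hl hV) (p V (hl hV)) (q V (hl hV))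
  refine ⟨γ, v, Subgroup.mem_sInf.2 fun U hU => ?_, e1, e2⟩
  have hW := hl (ok'.inf U hU V hV)
  obtain ⟨δ, w, hw, e3, e4⟩ := h.sep ok ok' cf cf' hW (p _ hW) (q _ hW)
  have e5 : x'⁻¹ * T'.j (γ⁻¹ * δ) * x' = v * w⁻¹ := by
    rw [map_mul, map_inv, eq_mul_inv_iff_mul_eq, ← mul_left_cancel_iff (a := T'.j γ * x'), ← e2, e4]
    group
  have z : γ⁻¹ * δ ∈ T'.Z0 := n x' _ (T'.mem_Gam.2 (e5 ▸ mul_mem hv (inv_mem hw.2))) τ' (by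
    rw [map_mul, mul_smul, ← e3, e1, map_inv, inv_smul_smul])
  have z' := (ok'.z0 _).1 z
  rw [mul_assoc, ← ok'.com z', inv_mul_cancel_left] at e5
  have := mul_mem (Z_le hU z') hw.1
  rwa [e5, inv_mul_cancel_right] at this

omit ok' cf cf' h in
theorem Em.pt_mul (h : T.Em T' σ θ) (p : T.Pt σ θ τ x τ' x') (g : G) :
    T.Pt σ θ τ (x * g) τ' (x' * g) := fun U hU φ hφ c v => by
  have := p _ (ok.conj U hU g) _ (RU_rt hφ g) c v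
  rwa [h.eqv U hU φ hφ] at this

omit ok ok' cf cf' h in
theorem Pt.left (p : T.Pt σ θ τ x τ' x') (s : T.Same τ x τ₁ x₁) : T.Pt σ θ τ₁ x₁ τ' x' :=
  fun U hU φ hφ c v => p U hU φ hφ c ((s.mval hU hφ).1 v)

omit ok ok' cf cf' h in
theorem Pt.right (h : T.Em T' σ θ) (p : T.Pt σ θ τ x τ' x') (s : T'.Same τ' x' τ₂ x₂) :
    T.Pt σ θ τ x τ₂ x₂ := fun U hU φ hφ c v =>
  (s.mval (h.lev ▸ hU) (h.mem U hU φ hφ)).2 (p U hU φ hφ c v)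

omit ok ok' cf cf' h in
theorem Pt.comp {σ' : ℂ ≃+* ℂ} {θ' : (G → Mer) → G → Mer} (h : T.Em T' σ θ)
    (p : T.Pt σ θ τ x τ₁ x₁) (q : T'.Pt σ' θ' τ₁ x₁ τ₂ x₂) :
    T.Pt (σ.trans σ') (θ' ∘ θ) τ x τ₂ x₂ := fun U hU φ hφ c v =>
  q U (h.lev ▸ hU) _ (h.mem U hU φ hφ) _ (p U hU φ hφ c v)

omit ok' cf' h in
/-- points are separated by functions -/
theorem same_of_mval (e : ∀ U ∈ T.Lev, ∀ φ ∈ T.RU U, ∀ c, MVal τ (φ x) c → MVal τ' (φ x') c) :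
    T.Same τ x τ' x' :=
  sl_id.is.same ok ok cf cf (fun _ _ _ _ _ v => v) e

/-- the inverse on points -/
theorem Is.pt_inv {θ' : (G → Mer) → G → Mer} (h' : T'.Is T σ.symm θ')
    (li : ∀ U ∈ T.Lev, ∀ φ ∈ T.RU U, θ' (θ φ) = φ) (p : T'.Pt σ.symm θ' τ' x' τ x) :
    T.Pt σ θ τ x τ' x' := by
  obtain ⟨τ₂, x₂, q⟩ := h.ex_pt ok ok' cf cf' τ x
  refine q.right h.1 (Same.symm (same_of_mval ok' cf' fun U hU ψ hψ c v => ?_))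
  have hU' : U ∈ T.Lev := h.1.lev ▸ hU
  obtain ⟨φ, hφ, rfl⟩ := (h.2 U hU').surjOn hψ
  have := q U hU' _ (h'.1.mem U hU _ hψ) _ (p U hU _ hψ c v)
  rwa [li U hU' φ hφ, σ.apply_symm_apply] at this

/-- every point is an image -/
theorem Is.pt_onto (τ' : ℍ) (x' : G) : ∃ τ x, T.Pt σ θ τ x τ' x' := by
  obtain ⟨θ', h', li, -⟩ := h.ex_inv ok
  obtain ⟨τ, x, p⟩ := h'.ex_pt ok' ok cf' cf τ' x'
  exact ⟨τ, x, h.pt_inv ok ok' cf cf' h' li p⟩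

/-- the action on points is injective -/
theorem Is.pt_inj (p : T.Pt σ θ τ x τ' x') (q : T.Pt σ θ τ₁ x₁ τ' x') : T.Same τ x τ₁ x₁ := by
  obtain ⟨θ', h', li, ri⟩ := h.ex_inv ok
  have k : ∀ {τ x}, T.Pt σ θ τ x τ' x' → T'.Pt σ.symm θ' τ' x' τ x := fun p =>
    h'.pt_inv ok' ok cf' cf (σ := σ.symm) h (fun U hU => ri U (h.1.lev ▸ hU)) p
  exact h'.same ok' ok cf' cf (k p) (k q)

omit ok' cf' h in
/-- uniformisers -/
theorem ex_unif (hU : U ∈ T.Lev) (n : T.Neat U) (τ : ℍ) (x : G) :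
    ∃ φ ∈ T.RU U, MOrd τ (φ x) 1 := by
  obtain ⟨_, pt, hp⟩ := cf _ (ok.fu U hU x)
  obtain ⟨π, π0, π1⟩ := exists_unif (pt τ)
  obtain ⟨φ, rfl⟩ := evK_surj U x π
  exact ⟨φ, φ.2, π1 ▸ hp.ord (n x) τ _ π0⟩

/-- multipliers -/
theorem Is.mu_eq (p : T.Pt σ θ τ x τ' x') {γ : G0} {γ' : G0'} (f : T.r γ • τ = τ)
    (f' : T'.r γ' • τ' = τ') {z : G} (hz : z ∈ T.Z)
    (e : x'⁻¹ * T'.j γ' * x' = x⁻¹ * T.j γ * x * z) : T'.mu γ' τ' = σ (T.mu γ τ) := by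
  obtain ⟨V, hV, n⟩ := ok.neat
  obtain ⟨V', hV', n'⟩ := ok'.neat
  have hU := ok.inf V hV V' (h.1.lev ▸ hV')
  replace n := n.mono (inf_le_left (b := V'))
  replace n' := n'.mono (inf_le_right (a := V))
  generalize V ⊓ V' = U at hU n n'
  obtain ⟨φ, hφ, o⟩ := ex_unif ok cf hU n τ x
  have o' := h.mord ok ok' cf cf' hU n n' (p U hU) hφ o
  obtain ⟨g, hg⟩ : ∃ g, g = (x⁻¹ * T.j γ * x)⁻¹ := ⟨_, rfl⟩
  have hW := ok.inf U hU _ (ok.conj U hU g)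
  have m1 : rt g φ ∈ T.RU (U ⊓ cj g U) := RU_mono inf_le_right (RU_rt hφ g)
  have m2 : φ ∈ T.RU (U ⊓ cj g U) := RU_mono inf_le_left hφ
  have e1 : rt g φ x = actM (T.r γ)⁻¹ (φ x) := by
    rw [← map_inv]
    refine Eq.trans (congrArg φ ?_) (hφ.1 γ⁻¹ x)
    rw [hg, map_inv]
    group
  have e2 : θ (rt g φ) x' = actM (T'.r γ')⁻¹ (θ φ x') := by
    rw [← map_inv, h.1.eqv U hU φ hφ]
    refine Eq.trans (congrArg (θ φ) ?_) (RU_val (h.1.mem U hU φ hφ) γ'⁻¹ x' (Z_le hU hz))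
    have : g = (x'⁻¹ * T'.j γ' * x')⁻¹ * z := by
      rw [e, ok.com hz, mul_inv_rev, mul_inv_cancel_left, hg]
    rw [this, map_inv]
    group
  have e3 : θ φ⁻¹ x' = (θ φ x')⁻¹ := by
    obtain ⟨s, -, hθ⟩ := h.1.ex_hom hU (PtU.ker h.1 hU (p U hU))
    rw [← hθ _ hφ, ← hθ _ (RU_inv hφ)]
    exact congrArg Subtype.val (map_inv₀ s ⟨φ x, RU_KF hφ x⟩)
  have v := p _ hW _ (mul_mem m1 (RU_inv m2)) (T.mu γ τ) (by
    rw [Pi.mul_apply, Pi.inv_apply, e1]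
    exact mval_mu _ f o)
  rw [h.1.mul _ hW _ m1 _ (RU_inv m2), Pi.mul_apply, e2, e3] at v
  exact (mval_mu _ f' o').unique v

/-- stabilisers -/
theorem Is.stab (p : T.Pt σ θ τ 1 τ' x) :
    (∀ γ, T.r γ • τ = τ → ∃ γ', ∃ z ∈ T.Z, T'.r γ' • τ' = τ' ∧ T'.j γ' = x * T.j γ * x⁻¹ * z ∧
      T'.mu γ' τ' = σ (T.mu γ τ)) ∧
    ∀ γ', T'.r γ' • τ' = τ' → ∃ γ, ∃ z ∈ T.Z, T.r γ • τ = τ ∧ T'.j γ' = x * T.j γ * x⁻¹ * z ∧
      T'.mu γ' τ' = σ (T.mu γ τ) := by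
  have mu : ∀ γ γ' z, z ∈ T.Z → T.r γ • τ = τ → T'.r γ' • τ' = τ' →
      T'.j γ' = x * T.j γ * x⁻¹ * z → T'.mu γ' τ' = σ (T.mu γ τ) := fun γ γ' z hz f f' e =>
    h.mu_eq ok ok' cf cf' p f f' hz (by rw [e, mul_assoc, mul_assoc, ← ok.com hz]; group)
  refine ⟨fun γ f => ?_, fun γ' f' => ?_⟩
  · have q := h.1.pt_mul ok p (T.j γ)
    obtain ⟨γ', z, hz, e1, e2⟩ := h.same ok ok' cf cf'
      (p.left ⟨γ, 1, one_mem _, f.symm, by simp⟩) q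
    rw [h.1.Z_eq] at hz
    have e : T'.j γ' = x * T.j γ * x⁻¹ * z⁻¹ := by
      rw [e2, mul_assoc _ z, ← ok.com hz]
      group
    exact ⟨γ', z⁻¹, inv_mem hz, e1.symm, e, mu γ γ' _ (inv_mem hz) f e1.symm e⟩
  · have q := h.1.pt_mul ok p (x⁻¹ * T'.j γ' * x)
    obtain ⟨γ, z, hz, e1, e2⟩ := h.pt_inj ok ok' cf cf'
      (p.right h.1 ⟨γ', 1, one_mem _, f'.symm, by group⟩) q
    have e : T'.j γ' = x * T.j γ * x⁻¹ * z := by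
      rw [mul_assoc, ok.com hz, ← mul_assoc, mul_assoc x, ← mul_one (T.j γ), ← e2]
      group
    exact ⟨γ, z, hz, e1.symm, e, mu γ γ' _ hz e1.symm f' e⟩

theorem Is.stb : T.Stb T' σ := by
  refine ⟨fun τ => ?_, fun τ' => ?_⟩
  · obtain ⟨τ', x, p⟩ := h.ex_pt ok ok' cf cf' τ 1
    exact ⟨τ', x, (h.stab ok ok' cf cf' p).1⟩
  · obtain ⟨τ, x, p⟩ := h.pt_onto ok ok' cf cf' τ' 1
    have q := h.1.pt_mul ok p x⁻¹
    rw [mul_inv_cancel] at q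
    exact ⟨τ, _, h.stab ok ok' cf cf' q⟩

omit ok' cf' h in
theorem pts_of : T.PTS := by
  refine ⟨fun σ θ h τ x => ⟨h.is.ex_pt ok ok cf cf τ x, fun τ' x' p => ⟨h.em.pt_mul ok p,
    fun τ₁ x₁ τ₂ x₂ s => ⟨fun q => h.is.same ok ok cf cf (p.left s) q,
      fun s' => (p.left s).right h.em s'⟩,
    fun U hU n φ hφ k o => h.is.mord ok ok cf cf hU n n (p U hU) hφ o⟩⟩,
    fun σ θ σ' θ' h h' => h.comp h', fun σ θ h => ?_⟩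
  obtain ⟨θ', h', li, -⟩ := h.is.ex_inv ok
  exact ⟨θ', is_iff.1 h', li⟩

end Tw

/-- **PTS** -/
theorem pts (cf : All fun T => T.CF) : All fun T => T.PTS :=
  fun _ _ _ _ T ok => Tw.pts_of ok (cf _ _ T ok)

/-- **STB** -/
theorem stb (cf : All fun T => T.CF) : All fun T => T.STB :=
  fun _ _ _ _ T ok _ _ T' ok' _ _ h => ⟨h.stb ok ok' (cf _ _ T ok) (cf _ _ T' ok'),
    (h.ex_inv ok).imp fun _ e => e.1⟩

end Vale.Agent.P022K.Sh
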