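import Vale.Agent.P022K.F0.RigA
import Vale.Agent.P022K.F0.OkA
import Vale.Agent.P022K.F0.Cf.Rows

/-!
# P022K, block F0: row RIG
-/

set_option autoImplicit false

open UpperHalfPlane NumberField
open scoped MatrixGroups

noncomputable section

namespace Vale.Agent.P022K.Sh

open Vale.Agent.P022 Vale.Agent.P022.H218.L3 Vale.Agent.P022K.F0.Cf Rg Vale.Agent.P019P P025H816
  P027M.K

theorem actM_congr {g g' : GP} (h : ∀ σ : ℍ, g • σ = g' • σ) (f : Mer) : actM g f = actM g' f := by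
  have key : ∀ a : Hol, actM g (jm a) = actM g' (jm a) := fun a => by
    rw [actM_algebraMap, actM_algebraMap]
    refine congrArg jm (Subtype.ext (funext fun σ => ?_))
    rw [actH_apply, actH_apply, inv_smul_eq_iff.2 ((h _).trans (smul_inv_smul g' σ)).symm]
  obtain ⟨a, b, b0, e⟩ := ex_frac f
  rw [(eq_div_iff (jm_ne b0)).2 e, map_div₀, map_div₀, key, key]

theorem MOrd.lead {τ : ℍ} {f : Mer} (h : MOrd τ f 1) : ∃ a, a ≠ 0 ∧ MVal τ (f / zz τ) a := by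
  obtain ⟨f0, h1⟩ := mord_iff.1 h
  have h2 : od τ (f / zz τ) = 0 := by rw [od_div τ f0 (zz_ne τ), h1, od_zz, sub_self]
  have h3 := div_ne_zero f0 (zz_ne τ)
  have h4 : Reg τ (f / zz τ) := reg_iff.2 (Or.inr h2.ge)
  exact ⟨_, fun e => h2.not_gt ((ev_eq_zero h3 h4).1 e), mval_iff.2 ⟨h4, rfl⟩⟩

namespace Tw

variable {G0 G : Type} [Group G0] [Group G] {T : Tw G0 G} (ok : T.Ok) (cf : T.CF)
  {θ : (G → Mer) → G → Mer}

include ok

theorem Ok.ex_lev {U : Subgroup G} (hU : U ∈ T.Lev) (S : Finset G0) :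
    ∃ V ∈ T.Lev, V ≤ U ∧ ∀ s ∈ S, T.j s ∈ V → s ∈ T.Z0 := by
  classical
  induction S using Finset.induction_on with
  | empty => exact ⟨U, hU, le_rfl, by simp⟩
  | insert s S _ ih =>
    obtain ⟨V, hV, h1, h2⟩ := ih
    by_cases hs : s ∈ T.Z0
    · exact ⟨V, hV, h1, (Finset.forall_mem_insert _ _ _).2 ⟨fun _ => hs, h2⟩⟩
    · have := mt (ok.z0 s).2 hs
      rw [Z, Subgroup.mem_sInf] at this
      push Not at this
      obtain ⟨W, hW, h3⟩ := this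
      exact ⟨V ⊓ W, ok.inf V hV W hW, inf_le_left.trans h1, (Finset.forall_mem_insert _ _ _).2
        ⟨fun h => absurd h.2 h3, fun t ht h => h2 t ht h.1⟩⟩

include cf

/-- an automorphism of the tower is a Moebius transformation -/
theorem Sl.moeb (h : T.Sl (RingEquiv.refl ℂ) θ) {τ τ' : ℍ} {x : G}
    (p : T.Pt (RingEquiv.refl ℂ) θ τ 1 τ' x) {γ : G0} (f : T.r γ • τ = τ)
    (inf : ∀ n : ℕ, 0 < n → T.mu γ τ ^ n ≠ 1) {U : Subgroup G} (hU : U ∈ T.Lev) {u : G → Mer}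
    (hu : u ∈ T.RU U) {a a' : ℂ} (a0 : a ≠ 0) (a0' : a' ≠ 0) (ha : MVal τ (u 1 / zz τ) a)
    (ha' : MVal τ' (θ u x / zz τ') a') (le : ‖a'‖ ≤ ‖a‖) :
    ∃ g : GP, ∀ V ∈ T.Lev, ∀ φ ∈ T.RU V, θ φ x = actM g (φ 1) := by
  obtain ⟨γ', z, hz, f', e, m⟩ := (h.is.stab ok ok cf cf p).1 γ f
  have hc : ‖a' / a‖ ≤ 1 := by
    rw [norm_div]
    exact div_le_one_of_le₀ le (norm_nonneg _)
  have c0 := div_ne_zero a0' a0
  have two : ∀ {V W φ ψ}, V ∈ T.Lev → W ∈ T.Lev → φ ∈ T.RU V → ψ ∈ T.RU W →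
      ∃ V ∈ T.Lev, φ ∈ T.RU V ∧ ψ ∈ T.RU V := fun hV hW hφ hψ =>
    ⟨_, ok.inf _ hV _ hW, RU_mono inf_le_left hφ, RU_mono inf_le_right hψ⟩
  have fix : ∀ {g : GP} {τ : ℍ}, g • τ = τ → ∀ f c, MVal τ f c → MVal τ (actM g⁻¹ f) c :=
    fun {g τ} hg f c v => by
      have := v.act g⁻¹
      rwa [inv_smul_eq_iff.2 hg.symm] at this
  have key : ∀ V ∈ T.Lev, ∀ φ ∈ T.RU V,
      θ φ x = pM (mm_hol τ τ' hc) (mm_inj τ τ' hc c0) (φ 1) := fun V hV φ hφ => by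
    refine graph (τ := τ) (τ' := τ')
      (fun f g => ∃ V ∈ T.Lev, ∃ φ ∈ T.RU V, φ 1 = f ∧ θ φ x = g) ?_ ?_ ?_ ?_ ?_
      (actM (T.r γ)⁻¹) (actM (T.r γ')⁻¹) (fix f) (fix f') ?_ (ν := T.mu γ τ) (act_zz _ f)
      (by rw [act_zz _ f']; exact congrArg (fun c => algebraMap ℂ Mer c * zz τ') m)
      (div_ne_zero (Complex.ofReal_ne_zero.2 (T.r γ).2.ne') (pow_ne_zero _ (denom_ne_zero _ _)))
      inf ⟨U, hU, u, hu, rfl, rfl⟩ a0 ha ha' _ (fun v => pM_val _ _ (by rwa [mm_self])) a0' ?_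
      ⟨V, hV, φ, hφ, rfl, rfl⟩
    · rintro _ _ _ _ ⟨V, hV, φ, hφ, rfl, rfl⟩ ⟨W, hW, ψ, hψ, rfl, rfl⟩
      obtain ⟨V, hV, hφ, hψ⟩ := two hV hW hφ hψ
      exact ⟨V, hV, φ + ψ, add_mem hφ hψ, rfl, congrFun (h.add V hV φ hφ ψ hψ) x⟩
    · rintro _ _ _ _ ⟨V, hV, φ, hφ, rfl, rfl⟩ ⟨W, hW, ψ, hψ, rfl, rfl⟩
      obtain ⟨V, hV, hφ, hψ⟩ := two hV hW hφ hψ
      exact ⟨V, hV, φ * ψ, mul_mem hφ hψ, rfl, congrFun (h.mul V hV φ hφ ψ hψ) x⟩
    · rintro _ _ ⟨V, hV, φ, hφ, rfl, rfl⟩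
      refine ⟨V, hV, φ⁻¹, RU_inv hφ, rfl, ?_⟩
      obtain ⟨s, -, hθ⟩ := h.em.ex_hom hV (PtU.ker h.em hV (p V hV))
      rw [← hθ _ hφ, ← hθ _ (RU_inv hφ)]
      exact congrArg Subtype.val (map_inv₀ s ⟨φ 1, RU_KF hφ 1⟩)
    · exact fun c => ⟨U, hU, _, algebraMap_mem _ c, rfl, congrFun (h.cst c) x⟩
    · rintro _ _ c ⟨V, hV, φ, hφ, rfl, rfl⟩ v
      exact p V hV φ hφ c v
    · rintro _ _ ⟨V, hV, φ, hφ, rfl, rfl⟩
      refine ⟨_, ok.conj V hV (T.j γ⁻¹), _, RU_rt hφ _, ?_, ?_⟩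
      · rw [← map_inv]
        exact (congrArg φ (by simp)).trans (hφ.1 γ⁻¹ 1)
      · rw [← map_inv, h.eqv V hV φ hφ]
        refine Eq.trans (congrArg (θ φ) ?_) (RU_val (h.mem V hV φ hφ) γ'⁻¹ x (Z_le hV hz))
        rw [map_inv, map_inv, e, mul_assoc _ x, ok.com hz x, ok.com hz (x * _ * _)]
        group
    · rw [zz, pM_jm, zz, ← jm_const, ← map_mul]
      exact congrArg jm (Subtype.ext (funext fun σ => zH_mm τ τ' hc σ))
  have c1 : ‖a' / a‖ = 1 := by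
    by_contra hne
    have lt := lt_of_le_of_ne hc hne
    have n1 : ‖(((1 + ‖a' / a‖) / 2 : ℝ) : ℂ)‖ = (1 + ‖a' / a‖) / 2 := by
      rw [Complex.norm_real, Real.norm_of_nonneg (by positivity)]
    obtain ⟨σ1, h1⟩ : ∃ σ1 : ℍ, ‖(zH τ).1 σ1‖ = (1 + ‖a' / a‖) / 2 :=
      ⟨zi τ _ (by rw [n1]; linarith), by rw [zH_zi, n1]⟩
    have h2 : ∀ σ, ‖(zH τ).1 (mm τ τ' hc σ)‖ < ‖(zH τ).1 σ1‖ := fun σ => by
      rw [zH_mm, norm_mul, h1]
      have := mul_le_of_le_one_right (norm_nonneg (a' / a)) (zH_lt τ' σ).le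
      linarith
    obtain ⟨S, hS⟩ := (ok.fu U hU 1).pd _ (isCompact_closedBall τ (dist σ1 τ))
    obtain ⟨V, hV, le, h3⟩ := ok.ex_lev hU S
    obtain ⟨s, hs, hθ⟩ := h.is.ex_equiv hV (PtU.ker h.em hV (p V hV))
    obtain ⟨_, pt, hp⟩ := cf _ (ok.fu V hV 1)
    obtain ⟨_, pt', hp'⟩ := cf _ (ok.fu V hV x)
    obtain ⟨σ, e1⟩ := hp'.onto (plEquiv s _ hs (pt σ1))
    have e2 := (ptU_iff hp hp' hs hθ (τ := mm τ τ' hc σ) (τ' := σ)).1 fun φ hφ c v => by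
      rw [key V hV φ hφ]
      exact pM_val _ _ v
    obtain ⟨δ, hδ, e3⟩ := (hp.eq _ _).1 ((plEquiv s _ hs).injective (e1.symm.trans e2.symm))
    have hδ' : T.j δ ∈ V := by simpa using T.mem_Gam.1 hδ
    obtain ⟨t, ht, h4⟩ := hS δ (T.mem_Gam.2 (le (T.mem_Gam.1 hδ)))
      ⟨σ1, Metric.mem_closedBall.2 le_rfl, Metric.mem_closedBall.2 (e3 ▸ dist_le (h2 σ).le)⟩
    have h5 := mul_mem hδ' (inv_mem (Z_le hV ((ok.z0 _).1 h4)))
    rw [← map_inv, ← map_mul, mul_inv_rev, inv_inv, mul_inv_cancel_left] at h5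
    have h6 := mul_mem (h3 t ht h5) h4
    rw [mul_inv_cancel_left] at h6
    exact (h2 σ).ne (by rw [← e3, mem_Z0.1 h6])
  obtain ⟨g, hg⟩ := mm_GP τ τ' hc c1
  exact ⟨g, fun V hV φ hφ => (key V hV φ hφ).trans (pM_eq _ _ hg _)⟩

omit ok cf in
variable (T) in
/-- the normaliser of `G0` in `G × GP` is `G0` times the centre -/
def Nor : Prop := ∀ (x : G) (g : GP), (∀ γ, ∃ γ', ∃ z ∈ T.Z, x * T.j γ = T.j γ' * x * z ∧
    ∀ σ : ℍ, (g * T.r γ * g⁻¹) • σ = T.r γ' • σ) →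
  ∃ δ, ∃ z ∈ T.Z, x = T.j δ * z ∧ ∀ σ : ℍ, g • σ = T.r δ • σ

theorem Sl.eq_of_moeb (nor : T.Nor) (h : T.Sl (RingEquiv.refl ℂ) θ) {x : G} {g : GP}
    (e : ∀ V ∈ T.Lev, ∀ φ ∈ T.RU V, θ φ x = actM g (φ 1)) :
    ∀ U ∈ T.Lev, ∀ φ ∈ T.RU U, θ φ = φ := by
  obtain ⟨δ, z, hz, e1, e2⟩ := nor x g fun γ => by
    have key : ∀ σ : ℍ, T.Same σ x ((g * T.r γ * g⁻¹) • σ) (x * T.j γ) := fun σ =>
      same_of_mval ok cf fun V hV ψ hψ c v => by
        obtain ⟨φ, hφ, rfl⟩ := (h.bij V hV).surjOn hψ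
        have e3 : θ φ (x * T.j γ) = actM (g * T.r γ * g⁻¹) (θ φ x) := by
          rw [e V hV φ hφ, ← actM_mul, inv_mul_cancel_right, actM_mul]
          refine (congrFun (h.eqv V hV φ hφ (T.j γ)) x).symm.trans
            ((e _ (ok.conj V hV _) _ (RU_rt hφ _)).trans (congrArg _ ?_))
          exact (congrArg φ (by simp)).trans (hφ.1 γ 1)
        rw [e3]
        exact v.act _
    obtain ⟨γ', z, hz, -, e1⟩ := key I
    refine ⟨γ', z, hz, e1, fun σ => ?_⟩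
    obtain ⟨γ'', z', hz', e2, e3⟩ := key σ
    have : T.j (γ'⁻¹ * γ'') = z * z'⁻¹ := by
      rw [e1, mul_assoc, mul_assoc, ok.com hz, ok.com hz', ← mul_assoc, ← mul_assoc,
        mul_left_inj] at e3
      rw [map_mul, map_inv, eq_mul_inv_iff_mul_eq, mul_assoc, ← e3, inv_mul_cancel_left]
    have h1 := mem_Z0.1 ((ok.z0 _).2 (this ▸ mul_mem hz (inv_mem hz'))) σ
    rw [map_mul, mul_smul, map_inv, inv_smul_eq_iff] at h1
    rw [e2, h1]
  have one : ∀ U ∈ T.Lev, ∀ φ ∈ T.RU U, θ φ 1 = φ 1 := fun U hU φ hφ => by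
    have h1 := RU_val (h.mem U hU φ hφ) δ 1 (Z_le hU hz)
    rw [mul_one, ← e1, e U hU φ hφ, actM_congr e2] at h1
    exact ((T.act δ).injective h1).symm
  intro U hU φ hφ
  funext y
  have := one _ (ok.conj U hU y) _ (RU_rt hφ y)
  rw [h.eqv U hU φ hφ] at this
  simpa [rt] using this

/-- **rigidity** of a tower with an elliptic element of infinite order -/
theorem rig_of (nor : T.Nor)
    (cm : ∃ τ γ, T.r γ • τ = τ ∧ ∀ n : ℕ, 0 < n → T.mu γ τ ^ n ≠ 1) : T.Rig := by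
  intro θ h
  obtain ⟨τ, γ, f, inf⟩ := cm
  obtain ⟨τ', x, p⟩ := h.is.ex_pt ok ok cf cf τ 1
  obtain ⟨U, hU, n⟩ := ok.neat
  obtain ⟨u, hu, o⟩ := ex_unif ok cf hU n τ 1
  obtain ⟨a, a0, ha⟩ := o.lead
  obtain ⟨a', a0', ha'⟩ := (h.is.mord ok ok cf cf hU n n (p U hU) hu o).lead
  rcases le_total ‖a'‖ ‖a‖ with le | le
  · obtain ⟨g, e⟩ := h.moeb ok cf p f inf hU hu a0 a0' ha ha' le
    exact h.eq_of_moeb ok cf nor e
  · obtain ⟨θ', h', li, ri⟩ := h.is.ex_inv ok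
    have h1 : T.Sl (RingEquiv.refl ℂ) θ' := is_iff.1 h'
    have p' := h1.em.pt_mul ok (h1.is.pt_inv ok ok cf cf h.is ri p) x⁻¹
    rw [mul_inv_cancel, one_mul] at p'
    obtain ⟨γ', -, -, f', -, m⟩ := (h.is.stab ok ok cf cf p).1 γ f
    have hu' := h.mem U hU u hu
    obtain ⟨g, e⟩ := h1.moeb ok cf p' f' (fun n hn => m ▸ inf n hn) (ok.conj U hU x)
      (RU_rt hu' x) a0' a0 (by simpa [rt] using ha')
      (by rw [h1.eqv U hU _ hu', li U hU u hu]; simpa [rt] using ha) le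
    intro V hV φ hφ
    rw [← h1.eq_of_moeb ok cf nor e V hV _ (h.mem V hV φ hφ), li V hV φ hφ]

end Tw

open F0 F0.Fuj

theorem central' {R : Type} [CommRing R] {a b : R} (h2 : IsUnit (2 : R)) (ha : IsUnit a)
    (q : QuaternionAlgebra R a 0 b) (hi : q * qi a b = qi a b * q) (hj : q * qj a b = qj a b * q) :
    q = algebraMap R _ q.re := by
  have h1 := congrArg QuaternionAlgebra.imK hi
  have h3 := congrArg QuaternionAlgebra.imJ hi
  have h4 := congrArg QuaternionAlgebra.imK hj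
  simp [qi, qj] at h1 h3 h4
  have e1 : q.imJ = 0 := h2.mul_right_eq_zero.1 (by linear_combination -h1)
  have e2 : q.imK = 0 := (h2.mul ha).mul_right_eq_zero.1 (by linear_combination -h3)
  have e3 : q.imI = 0 := h2.mul_right_eq_zero.1 (by linear_combination h4)
  rw [QuaternionAlgebra.algebraMap_eq]
  ext <;> simp [e1, e2, e3]

namespace QD

variable {F : Type} [Field F] [NumberField F] (X : QD F)

/-- every element is an element of `G0` of non-zero trace, up to an integer -/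
theorem exists_shift (d : X.D) : ∃ (N : ℕ) (γ : X.G0), ((γ : X.Dˣ) : X.D) = d + N ∧
    trd ((γ : X.Dˣ) : X.D) ≠ 0 := by
  obtain ⟨N, hN⟩ := exists_nat_gt (|X.t1 (trd d)| + |X.t1 (Fuj.nrd d)| + 1)
  have h1 := neg_abs_le (X.t1 (trd d))
  have h2 := neg_abs_le (X.t1 (Fuj.nrd d))
  have h3 := abs_nonneg (X.t1 (trd d))
  have h4 := abs_nonneg (X.t1 (Fuj.nrd d))
  have e0 : (N : X.D) = algebraMap F _ N := (map_natCast _ N).symm
  have e1 : Fuj.nrd (d + (N : X.D)) = Fuj.nrd d + N * (trd d + N) := by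
    rw [e0, QuaternionAlgebra.algebraMap_eq]
    simp [Fuj.nrd, trd]
    ring
  have e2 : trd (d + (N : X.D)) = trd d + 2 * N := by rw [e0, trd_add, trd_algebraMap]
  have h5 : 0 < X.t1 (Fuj.nrd (d + (N : X.D))) := by
    rw [e1, map_add, map_mul, map_add, map_natCast]
    nlinarith
  obtain ⟨u, hu⟩ := (isUnit_iff_nrd (d + (N : X.D))).2 (IsUnit.mk0 _ fun h => by simp [h] at h5)
  refine ⟨N, ⟨u, X.mem_G0.2 (hu ▸ h5)⟩, hu, fun h => ?_⟩
  have h6 := congrArg X.t1 (e2.symm.trans (hu ▸ h))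
  rw [map_add, map_mul, map_ofNat, map_natCast, map_zero] at h6
  linarith

/-- the centraliser of `D` in the real matrices -/
theorem scalar_of_comm {K : Matrix (Fin 2) (Fin 2) ℝ} (h : ∀ d, K * X.s d = X.s d * K) :
    ∀ M, K * M = M * K := by
  let v : Fin 4 → Matrix (Fin 2) (Fin 2) ℝ := ![1, X.s (qi _ _), X.s (qj _ _), X.s (qk _ _)]
  have hv : LinearIndependent ℝ v := Fintype.linearIndependent_iff.2 fun c hc i => by
    obtain ⟨h0, h1, h2, h3⟩ := X.ovr.indep X.a_ne X.b_ne (c 0) (c 1) (c 2) (c 3)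
      (by simpa [Fin.sum_univ_four, v] using hc)
    fin_cases i <;> assumption
  have hs := hv.span_eq_top_of_card_eq_finrank' (by simp [Module.finrank_matrix])
  intro M
  have hM : M ∈ Submodule.span ℝ (Set.range v) := hs ▸ Submodule.mem_top
  induction hM using Submodule.span_induction with
  | mem _ hx =>
    obtain ⟨i, rfl⟩ := hx
    fin_cases i
    · simp [v]
    all_goals exact h _
  | zero => simp
  | add _ _ _ _ h1 h2 => rw [mul_add, add_mul, h1, h2]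
  | smul c _ _ h1 => rw [mul_smul_comm, smul_mul_assoc, h1]

theorem nor : X.tw.Nor := by
  intro x g H
  have inj : Function.Injective (algebraMap F (AF F)) := (algebraMap F (AF F)).injective
  have tj : ∀ d, trd (X.jD d) = algebraMap F (AF F) (trd d) := fun d => trd_map _ d
  have s1 : ∀ γ : X.G0, trd ((γ : X.Dˣ) : X.D) ≠ 0 → ∃ (γ' : X.G0) (c : F),
      x * X.jD (γ : X.Dˣ) = X.jD (algebraMap F _ c * (γ' : X.Dˣ)) * x ∧
      ∀ σ : ℍ, (g * X.tw.r γ * g⁻¹) • σ = X.tw.r γ' • σ := fun γ t0 => by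
    obtain ⟨γ', z, hz, e, e'⟩ := H γ
    obtain ⟨c, hc⟩ := X.mem_Z.1 hz
    have e1 : (x : X.DA) * X.jD (γ : X.Dˣ) = c • X.jD (γ' : X.Dˣ) * x := by
      have := congrArg Units.val e
      simp only [Units.val_mul, coe_j, hc] at this
      rw [this, ← Algebra.commutes, ← Algebra.smul_def, smul_mul_assoc]
    have e2 := trd_conj x (X.jD (γ : X.Dˣ))
    rw [e1, Units.mul_inv_cancel_right, trd_smul, tj, tj] at e2
    have t1 : trd ((γ' : X.Dˣ) : X.D) ≠ 0 := fun h0 => t0 (inj (by rw [← e2, h0]; simp))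
    refine ⟨γ', trd ((γ : X.Dˣ) : X.D) / trd ((γ' : X.Dˣ) : X.D), ?_, e'⟩
    rw [e1, map_mul, jD_algebraMap, ← Algebra.smul_def]
    congr 2
    refine (isUnit_alg t1).mul_right_cancel ?_
    rw [e2, ← map_mul, div_mul_cancel₀ _ t1]
  have s2 : ∀ y : X.D, ∃ d, x * X.jD y = X.jD d * x := fun y => by
    obtain ⟨N, γ, e, t0⟩ := X.exists_shift y
    obtain ⟨γ', c, e1, -⟩ := s1 γ t0
    refine ⟨algebraMap F _ c * (γ' : X.Dˣ) - N, ?_⟩
    rw [map_sub, sub_mul, ← e1, e, map_add, map_natCast, mul_add, (Nat.cast_commute N _).eq,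
      add_sub_cancel_right]
  choose f hf using s2
  have key : ∀ y d, x * X.jD y = X.jD d * x → f y = d := fun y d e =>
    X.jD_injective (x.mul_left_inj.1 ((hf y).symm.trans e))
  let φ : X.D →ₐ[F] X.D :=
    { toFun := f
      map_one' := key _ _ (by simp)
      map_zero' := key _ _ (by simp)
      map_mul' := fun y y' => key _ _ (by
        rw [map_mul, map_mul, ← mul_assoc, hf, mul_assoc, hf, mul_assoc])
      map_add' := fun y y' => key _ _ (by rw [map_add, map_add, mul_add, add_mul, hf, hf])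
      commutes' := fun c => key _ _ (by rw [jD_algebraMap, Algebra.commutes]) }
  obtain ⟨δ, hδ⟩ := sn_field X.a_ne X.b_ne φ
  replace hδ : ∀ y, f y * δ = δ * y := hδ
  let j : X.Dˣ →* X.G := Units.map X.jD.toMonoidHom
  have hz : x⁻¹ * j δ ∈ X.tw.Z := by
    have c1 : ∀ y, ((x⁻¹ * j δ : X.G) : X.DA) * X.jD y = X.jD y * (x⁻¹ * j δ : X.G) := fun y => by
      show ((x⁻¹ : X.G) : X.DA) * X.jD δ * X.jD y = X.jD y * (((x⁻¹ : X.G) : X.DA) * X.jD δ)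
      rw [mul_assoc, ← map_mul, ← hδ, map_mul, Units.inv_mul_eq_iff_eq_mul, ← mul_assoc, hf,
        mul_assoc, Units.mul_inv_cancel_left]
    have i1 : X.jD (qi _ _) = qi _ _ := by ext <;> simp [jD, qi]
    have i2 : X.jD (qj _ _) = qj _ _ := by ext <;> simp [jD, qj]
    exact X.mem_Z.2 ⟨_, central' (by simpa using isUnit_nat (F := F) two_pos) (isUnit_int X.a0) _
      (i1 ▸ c1 _) (i2 ▸ c1 _)⟩
  obtain ⟨K, hK⟩ : ∃ K : GL (Fin 2) ℝ, K = (X.sU δ)⁻¹ * g := ⟨_, rfl⟩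
  have s3 : ∀ γ : X.G0, trd ((γ : X.Dˣ) : X.D) ≠ 0 → K * X.sU γ = X.sU γ * K := fun γ t0 => by
    obtain ⟨γ', c, e1, e2⟩ := s1 γ t0
    have e3 : (δ : X.D) * (γ : X.Dˣ) * (δ⁻¹ : X.Dˣ) = algebraMap F _ c * (γ' : X.Dˣ) := by
      rw [← hδ, key _ _ e1, Units.mul_inv_cancel_right]
    obtain ⟨l, hl⟩ := Matrix.GeneralLinearGroup.mem_center_iff_val_mem_range_scalar.1
      ((forall_smul_eq_self_iff_mem_center (g := (g.1 * X.sU γ * g.1⁻¹) * (X.sU γ')⁻¹)).1 fun σ => by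
        rw [mul_smul]
        exact (e2 _).trans (smul_inv_smul (X.sU γ') σ))
    have e4 : ((g.1 * X.sU γ * g.1⁻¹ : GL (Fin 2) ℝ) : Matrix (Fin 2) (Fin 2) ℝ) =
        l • X.s (γ' : X.Dˣ) := by
      rw [← inv_mul_cancel_right (g.1 * X.sU γ * g.1⁻¹) (X.sU γ'), Units.val_mul, ← hl,
        Matrix.scalar_apply, ← Matrix.smul_eq_diagonal_mul]
      rfl
    have e5 : ((X.sU δ * X.sU γ * (X.sU δ)⁻¹ : GL (Fin 2) ℝ) : Matrix (Fin 2) (Fin 2) ℝ) =
        X.t1 c • X.s (γ' : X.Dˣ) := by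
      rw [← map_inv, ← map_mul, ← map_mul, Algebra.smul_def, ← X.hs, ← map_mul, ← e3]
      rfl
    have t4 := congrArg Matrix.trace e4
    have t5 := congrArg Matrix.trace e5
    simp only [Units.val_mul, Matrix.trace_units_conj, Matrix.trace_smul, smul_eq_mul] at t4 t5
    have t6 : ((X.sU γ : GL (Fin 2) ℝ) : Matrix (Fin 2) (Fin 2) ℝ).trace ≠ 0 := by
      show (X.s _).trace ≠ 0
      rw [X.ovr.trace X.a_ne X.b_ne]
      exact (map_ne_zero _).2 t0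
    have t7 : l = X.t1 c := mul_right_cancel₀ (right_ne_zero_of_mul (t4 ▸ t6)) (t4.symm.trans t5)
    have e6 : g.1 * X.sU γ * g.1⁻¹ = X.sU δ * X.sU γ * (X.sU δ)⁻¹ :=
      Units.ext (by rw [e4, e5, t7])
    rw [hK, mul_assoc, mul_inv_eq_iff_eq_mul.1 e6]
    group
  have hc : K ∈ Subgroup.center (GL (Fin 2) ℝ) := Subgroup.mem_center_iff.2 fun M =>
    Units.ext (X.scalar_of_comm (fun d => by
      obtain ⟨N, γ, e, t0⟩ := X.exists_shift d
      have e1 : K.val * X.s (γ : X.Dˣ) = X.s (γ : X.Dˣ) * K.val := congrArg Units.val (s3 γ t0)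
      rwa [e, map_add, map_natCast, mul_add, add_mul, (Nat.cast_commute N _).eq,
        add_left_inj] at e1) M).symm
  have e7 : (g : GL (Fin 2) ℝ) = X.sU δ * K := by rw [hK, mul_inv_cancel_left]
  have hδ0 : δ ∈ X.G0 := by
    obtain ⟨l, hl⟩ := Matrix.GeneralLinearGroup.mem_center_iff_val_mem_range_scalar.1 hc
    have h1 : 0 < (g : GL (Fin 2) ℝ).det.val := g.2
    rw [e7, map_mul, Units.val_mul] at h1
    refine (pos_iff_pos_of_mul_pos h1).2 (lt_of_le_of_ne ?_ K.det.ne_zero.symm)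
    rw [Matrix.GeneralLinearGroup.val_det_apply, ← hl, Matrix.scalar_apply, Matrix.det_diagonal]
    simp [sq_nonneg]
  refine ⟨⟨δ, hδ0⟩, _, inv_mem hz, ?_, fun σ => ?_⟩
  · show x = j δ * _
    group
  · show (g : GL (Fin 2) ℝ) • σ = X.sU δ • σ
    rw [e7, mul_smul, forall_smul_eq_self_iff_mem_center.2 hc]

end QD

/-- **RIG** -/
theorem rig (cmp : AllQ fun X => X.CMP) : AllQ fun X => X.RIG := fun F _ _ X =>
  Tw.rig_of X.ok X.tw.cf X.nor (cmp F X).2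

end Vale.Agent.P022K.Sh
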