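import Vale.Agent.P022K.F0.UnG

/-!
# P022K, block F0, row UNIF: the row ENA
-/

set_option autoImplicit false

open UpperHalfPlane Filter Topology
open scoped MatrixGroups

noncomputable section

namespace Vale.Agent.P022K.Sh.Gz

open Vale.Agent.P022 Vale.Agent.P022.H218.L3 Vale.Agent.P019P Un
open Vale.Agent.P022K.F0.Cf (jm)

section

variable {Ω : Type} [Field Ω] [Algebra ℂ Ω] {σ : ℂ ≃+* ℂ} {R : Ω → Ω}
  {K L : IntermediateField ℂ Ω} [CFF ℂ K] {z z' : ℂ} {E E' : Ω → ℂ → ℂ} {y y' : Plk ℂ K}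

theorem vl_of_pl (h : LR σ R K z E) (h' : LR σ R K z' E') (p : Un.Pl K z E y) (p' : Un.Pl K z' E' y)
    (f : K) (c : ℂ) : Vl (h.hom f) c ↔ Vl (h'.hom f) c := by
  obtain ⟨c, rfl⟩ := σ.surjective c
  rw [Vl, Vl, ← h.hom_cst, ← h'.hom_cst, ← map_sub, ← map_sub]
  rcases eq_or_ne (f - algebraMap ℂ K c) 0 with e | e
  · rw [e, map_zero, map_zero, od_zero, od_zero]
  · rw [h.od, h'.od, p _ e, p' _ e]

theorem pl_mem (h : LR σ R K z E) (p : Un.Pl K z E y) (f : K) : f ∈ y.1 ↔ ∃ c, Vl (h.hom f) c := by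
  rw [← mem_Oz_iff_vl, mem_Oz, mem_iff_ord]
  rcases eq_or_ne f 0 with rfl | e
  · simp [od_zero]
  · rw [h.od, p _ e]
    simp [e]

theorem pl_of_vl (h : LR σ R K z E) (h' : LR σ R K z' E') (p : Un.Pl K z E y) (p' : Un.Pl K z' E' y')
    (e : ∀ (f : K) c, Vl (h.hom f) c ↔ Vl (h'.hom f) c) : y = y' :=
  Subtype.ext (ValuationSubring.ext _ _ fun f => by
    rw [pl_mem h p, pl_mem h' p']
    exact exists_congr (e f))

/-- the realisation takes its values in `Mer` -/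
theorem ex_mer (lv : Lv σ R K L) (h : Rl σ R L Hs E) {f : Ω} (hf : f ∈ K) : ∃ y, Rep y (E f) := by
  obtain ⟨s, hs, s0, h1⟩ := lv.rat
  obtain ⟨k, -, a, ha, b, hb, b0, e, fa, fb⟩ := h1 f hf
  have hK := h.sub lv.le lv.mem
  have m : ∀ a ∈ K, MeromorphicOn (E a * deriv (E s) ^ k) Hs := fun a ha z hz =>
    ((hK z hz).mero a ha).mul (((hK z hz).mero s hs).deriv.pow k)
  obtain ⟨A, hA⟩ := ex_hol (m a ha) fun z hz => fa z E (hK z hz)
  obtain ⟨B, hB⟩ := ex_hol (m b hb) fun z hz => fb z E (hK z hz)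
  refine ⟨jm A / jm B, fun τ => ?_⟩
  have l := hK τ (mem_Hs τ)
  have d0 := l.D_ne (s := ⟨s, hs⟩) fun c e => s0 c (congrArg Subtype.val e)
  have e' : (⟨a, ha⟩ : K) = ⟨f, hf⟩ * ⟨b, hb⟩ := Subtype.ext e.symm
  have b' : l.hom ⟨b, hb⟩ ≠ 0 := (map_ne_zero _).2 fun e => b0 (congrArg Subtype.val e)
  rw [map_div₀, (hA τ).eq ((l.rp' ha).mul ((l.rp' hs).D.pow k)),
    (hB τ).eq ((l.rp' hb).mul ((l.rp' hs).D.pow k)), mul_div_mul_right _ _ (pow_ne_zero k d0), e',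
    map_mul, mul_div_cancel_right₀ _ b']
  exact l.rp' hf

end

variable {G0 G : Type} [Group G0] [Group G] {T : Tw G0 G}

theorem rl_act (hk : T.Ok) {σ : ℂ ≃+* ℂ} {E : Mer → ℂ → ℂ} {W : Set ℂ} (h : Rl σ Rs T.LU W E)
    (γ : G0) : Rl σ Rs T.LU W fun f => E (T.act γ f) := fun z hz =>
  { mero := fun _ hf => (h z hz).mero _ (Tw.act_LU hk hf γ)
    add := fun f hf g hg => by
      simpa only [map_add] using (h z hz).add _ (Tw.act_LU hk hf γ) _ (Tw.act_LU hk hg γ)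
    mul := fun f hf g hg => by
      simpa only [map_mul] using (h z hz).mul _ (Tw.act_LU hk hf γ) _ (Tw.act_LU hk hg γ)
    cst := fun c => by simpa only [AlgEquiv.commutes] using (h z hz).cst c
    mem := (h z hz).mem
    sw := fun s hs => by
      have := (h z hz).sw _ (Tw.act_LU hk hs γ)
      rwa [show Rs (T.act γ s) = T.act γ (Rs s) from Rs_act (T.r γ) s] at this }

theorem mx_act (hk : T.Ok) {E : Mer → ℂ → ℂ} {D : Set ℂ} (h : Mx T.LU D E) (γ : G0) :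
    Mx T.LU D fun f => E (T.act γ f) := fun W hW hc M w hw d m x =>
  h W hW hc M w hw d m fun f hf => by
    have := x _ (Tw.act_LU hk hf γ⁻¹)
    beta_reduce at this
    rwa [← AlgEquiv.mul_apply, ← map_mul, mul_inv_cancel, map_one, AlgEquiv.one_apply] at this

/-- **ENA** -/
theorem ena_row (cf : All fun T => T.CF) (lv : All fun T => T.LV) (plc : PLC) (key : KEY)
    (glob : GLOB) (aut : AUT) : All fun T => T.ENA := by
  intro G0 G _ _ T hk σ E hE hM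
  have lev : ∀ U ∈ T.Lev, T.Neat U → ∃ _ : CFF ℂ (T.K1 U), Lv σ Rs (T.K1 U) T.LU := fun U hU hn => by
    obtain ⟨_, pt, hp⟩ := cf G0 G T hk _ (hk.fu U hU 1)
    exact ⟨_, lv G0 G T hk σ U hU hn pt hp⟩
  have ex : ∀ f ∈ T.LU, ∃ y, Rep y (E f) := fun f hf => by
    obtain ⟨U, hU, h⟩ := (Tw.mem_LU hk).1 hf
    obtain ⟨U0, h0, n0⟩ := hk.neat
    obtain ⟨_, l⟩ := lev _ (hk.inf U hU U0 h0) (n0.mono inf_le_right)
    exact ex_mer l hE (Tw.KU_anti inf_le_left h)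
  choose! ι hι using ex
  have eq : ∀ f (hf : f ∈ T.LU) (τ : ℍ), gz τ (ι f) = gm τ (E f) :=
    fun f hf τ => (hι f hf τ).gm_eq.symm
  have l0 := hE _ (mem_Hs I)
  refine ⟨ι, fun U hU f hf g hg => (gz I).injective ?_, fun U hU f hf g hg => (gz I).injective ?_,
    fun c => (gz I).injective ?_, fun U hU hn z => ?_, fun U hU hn γ z z' h => ?_,
    fun U hU hn => ?_⟩
  · have hf' := Tw.KU_le hU hf
    have hg' := Tw.KU_le hU hg
    rw [map_add, eq _ hf', eq _ hg', eq _ (add_mem hf' hg')]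
    exact l0.hom.map_add ⟨f, hf'⟩ ⟨g, hg'⟩
  · have hf' := Tw.KU_le hU hf
    have hg' := Tw.KU_le hU hg
    rw [map_mul, eq _ hf', eq _ hg', eq _ (mul_mem hf' hg')]
    exact l0.hom.map_mul ⟨f, hf'⟩ ⟨g, hg'⟩
  · rw [eq _ (T.LU.algebraMap_mem c), gz_cst]
    exact l0.hom_cst c
  · obtain ⟨_, l⟩ := lev U hU hn
    have a := (hE _ (mem_Hs z)).mono l.le l.mem
    obtain ⟨y, hy⟩ := plc Mer σ Rs _ _ l.toLv0 z E a
    obtain ⟨π, π0, π1⟩ := exists_unif y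
    refine ⟨π, π.2, mord_gz.2 ?_⟩
    rw [(hι _ (l.le π.2) z).od, hy π π0, π1]
  · obtain ⟨_, l⟩ := lev U hU hn
    have hE1 := rl_act hk hE γ
    have a := (hE _ (mem_Hs z)).mono l.le l.mem
    have a' := (hE1 _ (mem_Hs z')).mono l.le l.mem
    obtain ⟨y, hy⟩ := plc Mer σ Rs _ _ l.toLv0 z E a
    obtain ⟨y', hy'⟩ := plc Mer σ Rs _ _ l.toLv0 z' _ a'
    obtain rfl : y = y' := pl_of_vl a a' hy hy' fun f c => by
      have := h f f.2 c
      rwa [mval_gz, mval_gz, eq _ (l.le f.2), eq _ (Tw.act_LU hk (l.le f.2) γ)] at this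
    obtain ⟨M, m1, m2⟩ := key Mer σ Rs _ _ l.toLv0 Hs E Hs _ Hs_open hE hM Hs_open Hs_conn hE1
      z' (mem_Hs z') z (mem_Hs z) y hy' hy
    have d0 := (m2 _ (mem_Hs z')).1
    have d1 : den M⁻¹ z ≠ 0 := m1 ▸ den_inv d0
    have m3 : mob M⁻¹ z = z' := m1 ▸ mob_inv_mob d0
    have inv := mx_act hk hM γ Hs Hs_open Hs_conn M⁻¹ z (mem_Hs z) d1 (m3 ▸ mem_Hs z')
      fun f hf => by
        obtain ⟨f', hf', e⟩ := root_row Mer σ Rs _ _ l.toLv0 z _ E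
          (lrm_row Mer σ Rs _ M⁻¹ z _ d1 (m3 ▸ hE1 _ (mem_Hs z'))) (hE _ (mem_Hs z))
          (fun g hg => m1 ▸ ev_mob_inv d0 ((m2 _ (mem_Hs z')).2.2 g hg)) f hf
        exact ⟨_, hE.on hf', e.symm⟩
    obtain ⟨k, k0, hk'⟩ := aut M (fun w hw => ⟨(m2 w hw).1, (m2 w hw).2.1⟩) inv
    refine ⟨(⟨k, k0⟩ : GP)⁻¹, ?_, fun f hf => (gz z').injective ?_⟩
    · rw [inv_smul_eq_iff]
      exact UpperHalfPlane.ext ((hk' z').trans m1).symm
    · have r := (hι f (l.le hf)).act (⟨k, k0⟩ : GP)⁻¹ (F' := E f ∘ mob M) fun τ => by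
        rw [inv_inv, Function.comp_apply, ← hk']
        rfl
      exact ((hι _ (Tw.act_LU hk (l.le hf) γ) z').eq_iff (r z')).2 ((m2 _ (mem_Hs z')).2.2 f hf)
  · obtain ⟨_, l⟩ := lev U hU hn
    obtain ⟨C, c1, c2, c3⟩ := glob Mer σ Rs _ _ l.toLv0 Hs E Hs_open hE hM
    refine ⟨UpperHalfPlane.coe ⁻¹' C, isOpenEmbedding_coe.isInducing.isCompact_preimage' c2
      fun w hw => ⟨⟨w, c1 hw⟩, rfl⟩, fun z => ?_⟩
    have a := (hE _ (mem_Hs z)).mono l.le l.mem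
    obtain ⟨y, hy⟩ := plc Mer σ Rs _ _ l.toLv0 z E a
    obtain ⟨w, hw, hy'⟩ := c3 _ (mem_Hs z) y hy
    refine ⟨⟨w, c1 hw⟩, hw, fun f hf c => ?_⟩
    rw [mval_gz, mval_gz, eq _ (l.le hf), eq _ (l.le hf)]
    exact vl_of_pl a ((hE _ (c1 hw)).mono l.le l.mem) hy hy' ⟨f, hf⟩ c

end Vale.Agent.P022K.Sh.Gz
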