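import Vale.Agent.P022K.F0.UnMob

/-!
# P022K, block F0, row UNIF: the rows EXT, SUP, KEY, UNR, TRP, AUT
-/

set_option autoImplicit false

open Filter Topology Metric Polynomial
open scoped MatrixGroups

noncomputable section

namespace Vale.Agent.P022K.Sh.Un

open Vale.Agent.P019P

/-- **EXT** -/
theorem ext_row : EXT := by
  intro z r ε hr hε
  obtain ⟨r', h, F, k⟩ := ext_mero (a := z) hr
    (A := {F : ℂ → ℂ // MeromorphicOn F (ball z r) ∧
      ∀ ζ ∈ sphere z r, ∃ w ∈ ball ζ (ε ζ) ∩ ball z r, Ext (ball ζ (ε ζ)) w F})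
    (f := fun i => i.1) (fun i => i.2.1) fun ζ hζ => by
      choose w hw g g1 g2 using fun i : {F : ℂ → ℂ // MeromorphicOn F (ball z r) ∧
        ∀ ζ ∈ sphere z r, ∃ w ∈ ball ζ (ε ζ) ∩ ball z r, Ext (ball ζ (ε ζ)) w F} => i.2.2 ζ hζ
      exact ⟨ε ζ, hε ζ hζ, g, fun i => ⟨g1 i, fun y h1 h2 =>
        mero_ident ((convex_ball ζ (ε ζ)).inter (convex_ball z r)).isPreconnected
          (i.2.1.mono_set Set.inter_subset_right) ((g1 i).mono_set Set.inter_subset_left) (hw i)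
          (g2 i).symm y ⟨h1, h2⟩⟩⟩
  exact ⟨r', h, fun G h1 h2 => ⟨F ⟨G, h1, h2⟩, (k _).1.meromorphicOn, (k _).2 z (mem_ball_self hr)⟩⟩

theorem Ky.sup {z : ℂ} {F : ℂ → ℂ} {S : Set ℝ} (h : ∀ ρ ∈ S, 0 < ρ ∧ Ext (ball z ρ) z F)
    (hS : S.Nonempty) : Ext (⋃ ρ : S, ball z ρ) z F := by
  choose G g1 g2 using fun ρ : S => (h ρ ρ.2).2
  obtain ⟨H, h1, h2⟩ := glue (W := fun ρ : S => ball z ρ) (fun _ => isOpen_ball) g1
    fun i j y hi hj => mero_ident ((convex_ball z i).inter (convex_ball z j)).isPreconnected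
      ((g1 i).mono_set Set.inter_subset_left) ((g1 j).mono_set Set.inter_subset_right)
      ⟨mem_ball_self (h i i.2).1, mem_ball_self (h j j.2).1⟩ ((g2 i).trans (g2 j).symm) y ⟨hi, hj⟩
  obtain ⟨ρ, hρ⟩ := hS
  exact ⟨H, h1.meromorphicOn, (h2 ⟨ρ, hρ⟩ z (mem_ball_self (h ρ hρ).1)).trans (g2 _)⟩

theorem Ky.mono {W W' : Set ℂ} {z : ℂ} {F : ℂ → ℂ} (h : Ext W z F) (s : W' ⊆ W) : Ext W' z F :=
  h.imp fun _ k => ⟨k.1.mono_set s, k.2⟩

/-- **SUP** -/
theorem sup_row : SUP := by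
  refine fun z F => ⟨fun r hr h => ?_, fun h => ?_⟩
  · refine Ky.mono (Ky.sup (S := Set.Ioo 0 r) (fun ρ k => ⟨k.1, h ρ k.1 k.2⟩)
      ⟨r / 2, by constructor <;> linarith⟩) fun y hy => ?_
    obtain ⟨ρ, h1, h2⟩ := exists_between (mem_ball.1 hy)
    exact Set.mem_iUnion.2 ⟨⟨ρ, dist_nonneg.trans_lt h1, h2⟩, h1⟩
  · refine Ky.mono (Ky.sup (S := Set.Ioi 0) (fun ρ k => ⟨k, h ρ k⟩) ⟨1, by simp⟩) fun y _ => ?_
    exact Set.mem_iUnion.2 ⟨⟨dist y z + 1, by
      have := dist_nonneg (x := y) (y := z)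
      simp only [Set.mem_Ioi]
      linarith⟩, by simp⟩

section

variable {Ω : Type} [Field Ω] [Algebra ℂ Ω] {σ : ℂ ≃+* ℂ} {R : Ω → Ω}
  {K L : IntermediateField ℂ Ω} {z w : ℂ} {E E' : Ω → ℂ → ℂ} {W : Set ℂ}

/-- two realisations over the same place -/
theorem Ky.same [CFF ℂ K] {y : Plk ℂ K} (h : LR σ R K w E') (h' : LR σ R K z E) (p : Pl K w E' y)
    (p' : Pl K z E y) :
    ∃ M, den M w ≠ 0 ∧ mob M w = z ∧ ∀ f ∈ K, E' f =ᶠ[𝓝[≠] w] E f ∘ mob M := by
  obtain ⟨π, π0, π1⟩ := exists_unif y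
  refine mob_row Ω σ R K w E' z E h h' (fun f hf => ?_) ⟨π, π.2, by rw [p' π π0, π1]; rfl⟩
  rcases eq_or_ne (⟨f, hf⟩ : K) 0 with e | e
  · rw [← (h.rp' hf).od, ← (h'.rp' hf).od, e, map_zero, map_zero, od_zero, od_zero]
  · rw [p _ e, p' _ e]

theorem Ky.spread (h : LR σ R K z E) (hW : IsPreconnected W) (hz : z ∈ W)
    (m : ∀ f ∈ K, MeromorphicOn (E' f) W) (e : ∀ f ∈ K, E' f =ᶠ[𝓝[≠] z] E f) : Rl σ R K W E' := by
  have h' := h.congr fun f hf => (e f hf).symm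
  exact fun w hw => ⟨fun f hf => m f hf w hw,
    fun f hf g hg => mero_ident hW (m _ (add_mem hf hg)) ((m f hf).add (m g hg)) hz
      (h'.add f hf g hg) w hw,
    fun f hf g hg => mero_ident hW (m _ (mul_mem hf hg)) ((m f hf).mul (m g hg)) hz
      (h'.mul f hf g hg) w hw,
    fun c => mero_ident hW (m _ (K.algebraMap_mem c)) (fun x _ => .const _ x) hz (h'.cst c) w hw,
    h.mem,
    fun s hs => mero_ident hW (fun x hx => (rp_gm (m s hs x hx)).Sf.mero)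
      ((m _ (h.mem s hs)).mul ((m s hs).deriv.pow 2)) hz (h'.sw s hs) w hw⟩

/-- the elements whose germ extends to `W` -/
def Ky.exF (h : LR σ R L z E) (W : Set ℂ) : IntermediateField ℂ Ω where
  carrier := {f | f ∈ L ∧ Ext W z (E f)}
  mul_mem' := fun {f g} ⟨hf, F, a, b⟩ ⟨hg, G, c, d⟩ =>
    ⟨mul_mem hf hg, F * G, a.mul c, (b.mul d).trans (h.mul f hf g hg).symm⟩
  add_mem' := fun {f g} ⟨hf, F, a, b⟩ ⟨hg, G, c, d⟩ =>
    ⟨add_mem hf hg, F + G, a.add c, (b.add d).trans (h.add f hf g hg).symm⟩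
  algebraMap_mem' c := ⟨L.algebraMap_mem c, fun _ => σ c, fun x _ => .const _ x, (h.cst c).symm⟩
  inv_mem' := fun f ⟨hf, F, a, b⟩ => ⟨inv_mem hf, F⁻¹, a.inv, b.inv.trans
    ((h.rp' hf).inv.unique (map_inv₀ h.hom ⟨f, hf⟩ ▸ h.rp' (inv_mem hf)))⟩

/-- analytic continuation from `z` to `w` along `W` -/
theorem Ky.cont (h : LR σ R L z E) (hW : IsPreconnected W) (hz : z ∈ W) (hw : w ∈ W) :
    ∃ e : Ky.exF h W →+* Mz w, ∀ (f : Ky.exF h W) (F : ℂ → ℂ), MeromorphicOn F W →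
      F =ᶠ[𝓝[≠] z] E f → Rp (e f) F := by
  choose G g1 g2 using fun f : Ky.exF h W => f.2.2
  have k : ∀ (f : Ky.exF h W) (F : ℂ → ℂ), MeromorphicOn F W → F =ᶠ[𝓝[≠] z] E f →
      Rp (gm w (G f)) F := fun f F a b =>
    (rp_gm (g1 f w hw)).congr (mero_ident hW (g1 f) a hz ((g2 f).trans b.symm) w hw)
  have c : ∀ c, gm w (G (algebraMap ℂ _ c)) = algebraMap ℂ _ (σ c) := fun c =>
    (k _ _ (fun x _ => .const _ x) (h.cst c).symm).eq (rp_cst _)
  refine ⟨{ toFun := fun f => gm w (G f)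
            map_one' := by simpa using c 1
            map_zero' := by simpa using c 0
            map_add' := fun f g => ?_
            map_mul' := fun f g => ?_ }, k⟩
  · exact (k _ _ ((g1 f).mul (g1 g)) (((g2 f).mul (g2 g)).trans (h.mul f f.2.1 g g.2.1).symm)).eq
      ((rp_gm (g1 f w hw)).mul (rp_gm (g1 g w hw)))
  · exact (k _ _ ((g1 f).add (g1 g)) (((g2 f).add (g2 g)).trans (h.add f f.2.1 g g.2.1).symm)).eq
      ((rp_gm (g1 f w hw)).add (rp_gm (g1 g w hw)))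

/-- the value of a split polynomial under a homomorphism -/
theorem Ky.eval {A : Type*} [Field A] (le : K ≤ L) {P : K[X]} {s : Multiset Ω}
    (hs : ∀ a ∈ s, a ∈ L) (e : P.map (algebraMap K Ω) = (s.map fun a => X - C a).prod)
    (e₂ : L →+* A) {x : A}
    (hx : P.eval₂ (e₂.comp (IntermediateField.inclusion le).toRingHom) x = 0) :
    ∃ a : L, a.1 ∈ s ∧ x = e₂ a := by
  obtain ⟨t, rfl, ht⟩ := split_in le hs e
  rw [← Polynomial.eval_map, ← Polynomial.map_map, ht, Polynomial.map_multiset_prod,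
    Polynomial.eval_multiset_prod, Multiset.map_map, Multiset.map_map,
    Multiset.prod_eq_zero_iff] at hx
  obtain ⟨a, ha, e0⟩ := Multiset.mem_map.1 hx
  exact ⟨a, Multiset.mem_map_of_mem _ ha, by simpa [sub_eq_zero] using e0⟩

theorem Ky.eval0 {A : Type*} [Field A] (le : K ≤ L) {P : K[X]} {s : Multiset Ω}
    (e : P.map (algebraMap K Ω) = (s.map fun a => X - C a).prod) (e₁ : L →+* A) {f : L}
    (hf : f.1 ∈ s) :
    P.eval₂ (e₁.comp (IntermediateField.inclusion le).toRingHom) (e₁ f) = 0 := by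
  rw [← Polynomial.hom_eval₂, map_eq_zero]
  apply (algebraMap L Ω).injective
  rw [Polynomial.hom_eval₂, map_zero, ← Polynomial.eval_map]
  refine (congrArg (Polynomial.eval _) e).trans ?_
  rw [Polynomial.eval_multiset_prod, Multiset.map_map, Multiset.prod_eq_zero_iff]
  exact Multiset.mem_map.2 ⟨f, hf, by simp⟩

theorem Ky.small {F : ℂ → ℂ} (h : MeromorphicAt F z) :
    ∀ᶠ r in 𝓝[>] (0 : ℝ), Ext (ball z r) z F := by
  have h1 : ∀ᶠ w in 𝓝 z, MeromorphicAt F w := by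
    rw [← nhdsNE_sup_pure, eventually_sup, eventually_pure]
    exact ⟨h.eventually_analyticAt.mono fun _ k => k.meromorphicAt, h⟩
  obtain ⟨ε, h2, h3⟩ := Metric.eventually_nhds_iff_ball.1 h1
  filter_upwards [Ioo_mem_nhdsGT h2] with r hr
  exact ⟨F, fun w hw => h3 w (ball_subset_ball hr.2.le hw), EventuallyEq.rfl⟩

/-- transport of a maximal realisation -/
theorem Ky.trans {D D' : Set ℂ} (N : GL (Fin 2) ℂ) (h1 : ∀ x ∈ D', den N x ≠ 0 ∧ mob N x ∈ D)
    (h2 : ∀ x ∈ D, ∃ x' ∈ D', mob N x' = x) (h : Rl σ R L D E) (m : Mx L D E) :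
    Rl σ R L D' (fun f => E f ∘ mob N) ∧ Mx L D' fun f => E f ∘ mob N := by
  refine ⟨fun x hx => lrm_row Ω σ R L N x E (h1 x hx).1 (h _ (h1 x hx).2),
    fun W o c M w hw d hd e w' hw' => ?_⟩
  obtain ⟨a, b⟩ := m W o c (N * M) w hw
    (by rw [den_mul _ _ d]; exact mul_ne_zero (h1 _ hd).1 d)
    (by rw [mob_mul _ _ d]; exact (h1 _ hd).2) (fun f hf => by
      obtain ⟨F, k1, k2⟩ := e f hf
      refine ⟨F, k1, k2.trans ?_⟩
      filter_upwards [mem_nhdsWithin_of_mem_nhds (den_ev d)] with x hx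
      simp only [Function.comp_apply, mob_mul _ _ hx]) w' hw'
  obtain ⟨x, hx, e⟩ := h2 _ b
  have k : M = N⁻¹ * (N * M) := by group
  constructor
  · rw [k, den_mul _ _ a, ← e]
    exact mul_ne_zero (den_inv (h1 x hx).1) a
  · rwa [k, mob_mul _ _ a, ← e, mob_inv_mob (h1 x hx).1]

end

/-- **KEY** -/
theorem key_row : KEY := by
  intro Ω _ _ σ R K L _ lv D E W E₁ _ hE mx oW cW h₁ w hw z hz y p₁ p
  obtain ⟨M, d, rfl, e⟩ := Ky.same ((h₁ w hw).mono lv.le lv.mem) ((hE z hz).mono lv.le lv.mem) p₁ p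
  have k := mx W oW cW M w hw d hz fun f hf => by
    obtain ⟨f', hf', e'⟩ := root_row Ω σ R K L lv w _ E₁ (lrm_row Ω σ R L M w E d (hE _ hz))
      (h₁ w hw) (fun g hg => (e g hg).symm) f hf
    exact ⟨E₁ f', fun x hx => (h₁ x hx).mero f' hf', e'.symm⟩
  exact ⟨M, rfl, fun w' hw' => ⟨(k w' hw').1, (k w' hw').2, fun f hf =>
    mero_ident cW (fun x hx => (h₁ x hx).mero f (lv.le hf))
      (fun x hx => (lo_mob (k x hx).1).mero ((hE _ (k x hx).2).mero f (lv.le hf))) hw (e f hf) w' hw'⟩⟩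

/-- **UNR** -/
theorem unr_row (plc : PLC) : UNR := by
  intro Ω _ _ σ R K L _ lv z E r hr h hK f hf
  classical
  choose! F F1 F2 using hK
  have hF : Rl σ R K (ball z r) F := Ky.spread (h.mono lv.le lv.mem)
    (convex_ball z r).isPreconnected (mem_ball_self hr) F1 F2
  obtain ⟨P, s, hs, fs, hP⟩ := lv.nm f hf
  -- charts at the points of the disc
  have ch : ∀ ζ ∈ ball z r, ∃ ε > 0, ball ζ ε ⊆ ball z r ∧ ∃ G, ∃ _ : LR σ R L ζ G,
      (∀ g ∈ K, F g =ᶠ[𝓝[≠] ζ] G g) ∧ ∀ a ∈ s, Ext (ball ζ ε) ζ (G a) := fun ζ hζ => by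
    obtain ⟨y, hy⟩ := plc Ω σ R K L lv ζ F (hF ζ hζ)
    obtain ⟨G, hG, pG⟩ := lv.ch y
    obtain ⟨M, d, e0, e⟩ := Ky.same (hF ζ hζ) (hG.mono lv.le lv.mem) hy pG
    have hG' := lrm_row Ω σ R L M ζ G d (e0 ▸ hG)
    have a1 : ∀ᶠ ε in 𝓝[>] (0 : ℝ), ∀ a ∈ s.toFinset, Ext (ball ζ ε) ζ (G a ∘ mob M) :=
      (eventually_all_finset _).2 fun a ha =>
        Ky.small (hG'.mero a (hs a (Multiset.mem_toFinset.1 ha)))
    obtain ⟨δ, δ0, hδ⟩ := Metric.isOpen_iff.1 isOpen_ball ζ hζ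
    obtain ⟨ε, h1, h2⟩ := (a1.and (Ioo_mem_nhdsGT δ0)).exists
    exact ⟨ε, h2.1, (ball_subset_ball h2.2.le).trans hδ, _, hG', e,
      fun a ha => h1 a (Multiset.mem_toFinset.2 ha)⟩
  -- one step
  have step : ∀ ρ, 0 < ρ → ρ < r → Ext (ball z ρ) z (E f) → ∃ ρ' > ρ, Ext (ball z ρ') z (E f) := by
    intro ρ ρ0 ρr ⟨Φ, Φ1, Φ2⟩
    have sub : sphere z ρ ⊆ ball z r := fun ζ k => by rwa [mem_ball, mem_sphere.1 k]
    choose! ε ε0 εs G hG g1 g2 using ch
    obtain ⟨ρ', h1, h2⟩ := ext_row z ρ ε ρ0 fun ζ k => ε0 ζ (sub k)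
    obtain ⟨Ψ, h3, h4⟩ := h2 Φ Φ1 fun ζ k => by
      have k' := sub k
      obtain ⟨w, w1, w2⟩ : (ball ζ (ε ζ) ∩ ball z ρ).Nonempty :=
        mem_closure_iff.1 (by rw [closure_ball z ρ0.ne']; exact sphere_subset_closedBall k) _
          isOpen_ball (mem_ball_self (ε0 ζ k'))
      refine ⟨w, ⟨w1, w2⟩, ?_⟩
      obtain ⟨e₁, r₁⟩ := Ky.cont h (convex_ball z ρ).isPreconnected (mem_ball_self ρ0) w2
      obtain ⟨e₂, r₂⟩ := Ky.cont (hG ζ k') (convex_ball ζ (ε ζ)).isPreconnected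
        (mem_ball_self (ε0 ζ k')) w1
      have m₁ : ∀ g ∈ K, MeromorphicOn (F g) (ball z ρ) := fun g hg =>
        (F1 g hg).mono_set (ball_subset_ball ρr.le)
      have m₂ : ∀ g ∈ K, MeromorphicOn (F g) (ball ζ (ε ζ)) := fun g hg =>
        (F1 g hg).mono_set (εs ζ k')
      have l₁ : K ≤ Ky.exF h (ball z ρ) := fun g hg => ⟨lv.le hg, F g, m₁ g hg, F2 g hg⟩
      have l₂ : K ≤ Ky.exF (hG ζ k') (ball ζ (ε ζ)) := fun g hg =>
        ⟨lv.le hg, F g, m₂ g hg, g1 ζ k' g hg⟩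
      have c : e₁.comp (IntermediateField.inclusion l₁).toRingHom =
          e₂.comp (IntermediateField.inclusion l₂).toRingHom := RingHom.ext fun g =>
        (r₁ _ _ (m₁ g g.2) (F2 g g.2)).eq (r₂ _ _ (m₂ g g.2) (g1 ζ k' g g.2))
      have z0 := Ky.eval0 l₁ hP e₁ (f := ⟨f, hf, Φ, Φ1, Φ2⟩) fs
      rw [c] at z0
      obtain ⟨a, -, ea⟩ := Ky.eval l₂ (fun a ha => ⟨hs a ha, g2 ζ k' a ha⟩) hP e₂ z0
      obtain ⟨A, a1, a2⟩ := a.2.2
      exact ⟨A, a1, (((r₁ _ _ Φ1 Φ2).eq_iff (r₂ a A a1 a2)).1 ea).symm⟩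
    exact ⟨ρ', h1, Ψ, h3, h4.trans Φ2⟩
  by_contra hc
  set S := {ρ | 0 < ρ ∧ Ext (ball z ρ) z (E f)}
  have bd : ∀ ρ ∈ S, ρ ≤ r := fun ρ k => by
    by_contra hlt
    exact hc (Ky.mono k.2 (ball_subset_ball (not_le.1 hlt).le))
  obtain ⟨ρ₀, k⟩ : S.Nonempty := by
    obtain ⟨ρ, h1, h2⟩ := ((Ky.small (h.mero f hf)).and self_mem_nhdsWithin).exists
    exact ⟨ρ, h2, h1⟩
  have p : 0 < sSup S := k.1.trans_le (le_csSup ⟨r, bd⟩ k)
  have q : Ext (ball z (sSup S)) z (E f) := (sup_row z (E f)).1 _ p fun ρ _ h2 => by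
    obtain ⟨ρ', h3, h4⟩ := exists_lt_of_lt_csSup ⟨ρ₀, k⟩ h2
    exact Ky.mono h3.2 (ball_subset_ball h4.le)
  rcases (csSup_le ⟨ρ₀, k⟩ bd).lt_or_eq with l | l
  · obtain ⟨ρ', h1, h2⟩ := step _ p l q
    exact absurd (le_csSup ⟨r, bd⟩ (show ρ' ∈ S from ⟨p.trans h1, h2⟩)) (not_le.2 h1)
  · exact hc (l ▸ q)

/-- **TRP** -/
theorem trp_row : TRP := by
  intro Ω _ _ σ R L E r hr h m
  have r0 : (r : ℂ) ≠ 0 := by exact_mod_cast hr.ne'
  have d : (r : ℂ) * Complex.I - -(r * Complex.I) * 1 ≠ 0 := by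
    rw [show (r : ℂ) * Complex.I - -(r * Complex.I) * 1 = 2 * r * Complex.I by ring]
    exact mul_ne_zero (mul_ne_zero two_ne_zero r0) Complex.I_ne_zero
  refine ⟨_, Ky.trans (mat d) (fun x hx => ?_) (fun u hu => ?_) h m⟩
  · have hx : 0 < x.im := hx
    have n : 1 * x + Complex.I ≠ 0 := fun e => by
      have := congrArg Complex.im e
      simp at this
      linarith
    refine ⟨n, ?_⟩
    rw [mob_mat, mb, mem_ball_zero_iff, norm_div, div_lt_iff₀ (norm_pos_iff.2 n),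
      show (r : ℂ) * x + -(r * Complex.I) = r * (x - Complex.I) by ring, norm_mul,
      Complex.norm_real, Real.norm_of_nonneg hr.le, mul_lt_mul_iff_right₀ hr,
      ← sq_lt_sq₀ (norm_nonneg _) (norm_nonneg _), Complex.sq_norm, Complex.sq_norm,
      Complex.normSq_apply, Complex.normSq_apply]
    simp
    linarith
  · rw [mem_ball_zero_iff] at hu
    have n : (r : ℂ) - u ≠ 0 := fun e => by
      rw [← sub_eq_zero.1 e, Complex.norm_real, Real.norm_of_nonneg hr.le] at hu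
      exact lt_irrefl _ hu
    refine ⟨Complex.I * ((r + u) / (r - u)), ?_, ?_⟩
    · show 0 < Complex.im _
      have h1 : 0 < Complex.normSq (r - u) := Complex.normSq_pos.2 n
      have h2 : Complex.normSq u < r ^ 2 := by
        rw [← Complex.sq_norm]
        exact (sq_lt_sq₀ (norm_nonneg _) hr.le).2 hu
      rw [Complex.I_mul_im, Complex.div_re, ← add_div]
      refine div_pos ?_ h1
      rw [Complex.normSq_apply] at h2
      simp
      linarith
    · have : 1 * (Complex.I * ((r + u) / (r - u))) + Complex.I = 2 * r * Complex.I / (r - u) := by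
        field_simp
        ring
      rw [mob_mat, mb, this]
      have := Complex.I_ne_zero
      field_simp
      ring

theorem Ky.im_mb (a b c d z : ℂ) :
    (mb a b c d z).im = ((a * z + b) * (starRingEnd ℂ) (c * z + d)).im / Complex.normSq (c * z + d) := by
  rw [mb, Complex.div_im, ← sub_div]
  simp only [Complex.mul_im, Complex.conj_re, Complex.conj_im]
  ring

theorem Ky.real {a b c d : ℂ} (hd : a * d - b * c ≠ 0)
    (e0 : b * (starRingEnd ℂ) d = (starRingEnd ℂ) b * d)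
    (e1 : (a + b) * ((starRingEnd ℂ) c + (starRingEnd ℂ) d) =
      ((starRingEnd ℂ) a + (starRingEnd ℂ) b) * (c + d))
    (e2 : (-a + b) * (-(starRingEnd ℂ) c + (starRingEnd ℂ) d) =
      (-(starRingEnd ℂ) a + (starRingEnd ℂ) b) * (-c + d)) :
    ∃ A B C D : ℝ, A * D - B * C ≠ 0 ∧ mb a b c d = mb A B C D := by
  have hd' : (starRingEnd ℂ) a * (starRingEnd ℂ) d - (starRingEnd ℂ) b * (starRingEnd ℂ) c ≠ 0 := by
    rw [← map_mul, ← map_mul, ← map_sub]
    exact (_root_.map_ne_zero _).2 hd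
  have f1 : a * (starRingEnd ℂ) c = (starRingEnd ℂ) a * c := by
    linear_combination (e1 + e2) / 2 - e0
  have f2 : a * (starRingEnd ℂ) d + b * (starRingEnd ℂ) c =
      (starRingEnd ℂ) a * d + (starRingEnd ℂ) b * c := by linear_combination (e1 - e2) / 2
  have q : ∀ x ∈ ({a, b, c, d} : Set ℂ),
      ((starRingEnd ℂ) a * (starRingEnd ℂ) d - (starRingEnd ℂ) b * (starRingEnd ℂ) c) * x =
        (a * (starRingEnd ℂ) d - (starRingEnd ℂ) b * c) * (starRingEnd ℂ) x := by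
    intro x hx
    simp only [Set.mem_insert_iff, Set.mem_singleton_iff] at hx
    rcases hx with h | h | h | h <;> rw [h]
    · linear_combination -(starRingEnd ℂ) b * f1
    · linear_combination (starRingEnd ℂ) a * e0 - (starRingEnd ℂ) b * f2
    · linear_combination -(starRingEnd ℂ) d * f1
    · linear_combination (starRingEnd ℂ) c * e0 - (starRingEnd ℂ) d * f2
  obtain ⟨e, he, e0⟩ : ∃ e ∈ ({a, b, c, d} : Set ℂ), e ≠ 0 := by
    by_contra! k
    exact hd (by rw [k c (by simp), k d (by simp)]; ring)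
  have e0' : (starRingEnd ℂ) e ≠ 0 := (_root_.map_ne_zero _).2 e0
  have r : ∀ x ∈ ({a, b, c, d} : Set ℂ), ∃ t : ℝ, (starRingEnd ℂ) e * x = t := fun x hx => by
    rw [← Complex.conj_eq_iff_real, map_mul, Complex.conj_conj]
    apply mul_left_cancel₀ hd'
    linear_combination (starRingEnd ℂ) x * q e he - (starRingEnd ℂ) e * q x hx
  obtain ⟨A, hA⟩ := r a (by simp)
  obtain ⟨B, hB⟩ := r b (by simp)
  obtain ⟨C, hC⟩ := r c (by simp)
  obtain ⟨D, hD⟩ := r d (by simp)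
  refine ⟨A, B, C, D, fun k => ?_, funext fun z => ?_⟩
  · have : ((A * D - B * C : ℝ) : ℂ) = (starRingEnd ℂ) e ^ 2 * (a * d - b * c) := by
      push_cast
      rw [← hA, ← hB, ← hC, ← hD]
      ring
    exact mul_ne_zero (pow_ne_zero 2 e0') hd (by rw [← this, k, Complex.ofReal_zero])
  · rw [mb, mb, ← hA, ← hB, ← hC, ← hD, ← mul_div_mul_left _ _ e0']
    congr 1 <;> ring

/-- **AUT** -/
theorem aut_row : AUT := by
  intro M h h'
  have re : ∀ x : ℝ, ((M 0 0 * x + M 0 1) * (starRingEnd ℂ) (M 1 0 * x + M 1 1)).im = 0 := by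
    intro x
    rcases eq_or_ne (den M x) 0 with e | e
    · rw [show M 1 0 * x + M 1 1 = 0 from e]
      simp
    have a : 0 ≤ (mob M x).im := by
      have t : Tendsto (fun y : ℝ => (x : ℂ) + y * Complex.I) (𝓝[>] 0) (𝓝 x) := by
        refine Tendsto.mono_left ?_ nhdsWithin_le_nhds
        have : Continuous fun y : ℝ => (x : ℂ) + y * Complex.I := by fun_prop
        simpa using this.tendsto 0
      refine ge_of_tendsto (Complex.continuous_im.continuousAt.tendsto.comp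
        ((lo_mob e).tendsto'.comp t)) ?_
      filter_upwards [self_mem_nhdsWithin] with y hy
      exact le_of_lt (h _ (by simpa [Hs] using hy)).2
    have b : (mob M x).im = 0 := by
      refine a.antisymm' (not_lt.1 fun k => ?_)
      have := (h' _ k).2
      rw [mob_inv_mob e] at this
      simp [Hs] at this
    rw [mob_eq, Ky.im_mb, div_eq_zero_iff] at b
    exact b.resolve_right fun k => e (Complex.normSq_eq_zero.1 k)
  have cj : ∀ x : ℝ, (M 0 0 * x + M 0 1) * ((starRingEnd ℂ) (M 1 0) * x + (starRingEnd ℂ) (M 1 1)) =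
      ((starRingEnd ℂ) (M 0 0) * x + (starRingEnd ℂ) (M 0 1)) * (M 1 0 * x + M 1 1) := fun x => by
    have := Complex.conj_eq_iff_im.2 (re x)
    simpa using this.symm
  obtain ⟨A, B, C, D, hd, e⟩ := Ky.real (det_ne M) (by simpa using cj 0) (by simpa using cj 1)
    (by simpa using cj (-1))
  have hi := (h Complex.I (by simp [Hs])).2
  have p : 0 < A * D - B * C := by
    rw [mob_eq, e] at hi
    replace hi : 0 < Complex.im _ := hi
    rw [Ky.im_mb] at hi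
    have := (div_pos_iff_of_pos_right ((Complex.normSq_nonneg _).lt_of_ne' fun k => by
      rw [k, div_zero] at hi
      exact lt_irrefl _ hi)).1 hi
    simp at this
    linarith
  have p' : 0 < (Matrix.GeneralLinearGroup.mkOfDetNeZero !![A, B; C, D]
      (by rwa [Matrix.det_fin_two_of])).det.val := by
    simpa [Matrix.det_fin_two] using p
  refine ⟨_, p', fun τ => ?_⟩
  rw [UpperHalfPlane.coe_smul_of_det_pos p', mob_eq, e]
  rfl

end Vale.Agent.P022K.Sh.Un
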