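import Vale.Agent.P022K.F0.UnSig
import Vale.Agent.P022K.F0.UnKey

/-!
# P022K, block F0, row UNIF: there is no realisation on the plane
-/

set_option autoImplicit false

open Filter Topology Metric
open scoped MatrixGroups

noncomputable section

namespace Vale.Agent.P022K.Sh.Un

open Vale.Agent.P019P

theorem unr_all : UNR := unr_row plc_row

theorem ball_all : BALL := ball_row unr_all

theorem glob_all : GLOB := glob_row ball_all key_row

/-- a Moebius map without pole that fixes a function with simple zeros is a translation -/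
theorem der_eq_one {M : GL (Fin 2) ℂ} (hd : ∀ w, den M w ≠ 0)
    (h : ∀ w, ∃ F : ℂ → ℂ, MeromorphicAt F w ∧ meromorphicOrderAt F w = 1 ∧
      F =ᶠ[𝓝[≠] w] F ∘ mob M) (w : ℂ) :
    (M 0 0 * M 1 1 - M 0 1 * M 1 0) / den M w ^ 2 = 1 := by
  have c0 : M 1 0 = 0 := by
    by_contra hc
    refine hd (-(M 1 1) / M 1 0) ?_
    rw [den]
    field_simp
    ring
  have d0 : ∀ v, den M v = M 1 1 := fun v => by rw [den, c0, zero_mul, zero_add]
  have d1 : M 1 1 ≠ 0 := d0 0 ▸ hd 0
  by_contra hne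
  have a1 : M 1 1 - M 0 0 ≠ 0 := fun e => hne (by
    rw [d0, c0, ← sub_eq_zero.1 e]
    field_simp
    ring)
  have fx : mob M (M 0 1 / (M 1 1 - M 0 0)) = M 0 1 / (M 1 1 - M 0 0) := by
    rw [mob, d0]
    field_simp
    ring
  generalize M 0 1 / (M 1 1 - M 0 0) = v at fx
  obtain ⟨F, f1, f2, f3⟩ := h v
  obtain ⟨G, g1, g2, -, g3⟩ := od_eq_one.1 ((rp_gm f1).od.trans f2)
  have e1 : F =ᶠ[𝓝[≠] v] G := (rp_gm f1).unique g2
  have e2 : G =ᶠ[𝓝[≠] v] G ∘ mob M := e1.symm.trans (f3.trans (ev_mob (hd v) (by rwa [fx])))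
  have g4 : AnalyticAt ℂ G (mob M v) := by rwa [fx]
  have e3 := EventuallyEq.deriv_eq ((g1.frequently_eq_iff_eventually_eq
    (g4.comp (mob_an (hd v)))).1 e2.frequently)
  rw [show deriv (G ∘ mob M) v = _ from
    (g4.differentiableAt.hasDerivAt.comp v (mob_der (hd v))).deriv, fx, d0] at e3
  rw [d0] at hne
  exact hne (mul_left_cancel₀ g3 (e3.symm.trans (mul_one _).symm))

theorem inf_row (mxu : MXU) : INF := by
  intro Ω _ _ σ R K L _ lv0 lv E hE
  have hM := mxu Ω σ R K L lv0 lv E hE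
  have hK : ∀ z, LR σ R K z E := fun z => (hE z trivial).mono lv0.le lv0.mem
  obtain ⟨C, -, cC, hC⟩ := glob_all Ω σ R K L lv0 _ E isOpen_univ hE hM
  have cst : ∀ k, ∀ a ∈ K, ∀ s ∈ K, Fo σ R K k a s →
      ∃ c, E a * deriv (E s) ^ k =ᶠ[𝓝[≠] 0] fun _ => c := fun k a ha s hs fo => by
    have m : MeromorphicOn (E a * deriv (E s) ^ k) Set.univ := fun z _ =>
      ((hK z).mero a ha).mul (((hK z).mero s hs).deriv.pow k)
    have e : ∀ z, toMeromorphicNFOn (E a * deriv (E s) ^ k) Set.univ =ᶠ[𝓝[≠] z]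
        E a * deriv (E s) ^ k := fun z => m.toMeromorphicNFOn_eq_self_on_nhdsNE trivial
    have nf := meromorphicNFOn_toMeromorphicNFOn (E a * deriv (E s) ^ k) Set.univ
    generalize toMeromorphicNFOn (E a * deriv (E s) ^ k) Set.univ = Ψ at e nf
    have an : ∀ z, AnalyticAt ℂ Ψ z := fun z =>
      (nf (Set.mem_univ z)).meromorphicOrderAt_nonneg_iff_analyticAt.1
        (by rw [meromorphicOrderAt_congr (e z)]; exact fo z E (hK z))
    have bd : Set.range Ψ ⊆ Ψ '' C := by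
      rintro _ ⟨z, rfl⟩
      obtain ⟨y, p⟩ := plc_row Ω σ R K L lv0 z E (hK z)
      obtain ⟨z', c1, p'⟩ := hC z trivial y p
      obtain ⟨M, m1, m2⟩ := key_row Ω σ R K L lv0 _ E _ E isOpen_univ hE hM isOpen_univ
        isPreconnected_univ hE z trivial z' trivial y p p'
      have d1 := der_eq_one (fun w => (m2 w trivial).1) fun w => by
        obtain ⟨y', q⟩ := plc_row Ω σ R K L lv0 w E (hK w)
        obtain ⟨π, π0, π1⟩ := exists_unif y'
        exact ⟨E π, (hK w).mero _ π.2, by rw [q π π0, π1]; rfl, (m2 w trivial).2.2 _ π.2⟩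
      obtain ⟨n1, -, n2⟩ := m2 z trivial
      have e1 : E a * deriv (E s) ^ k =ᶠ[𝓝[≠] z] (E a * deriv (E s) ^ k) ∘ mob M := by
        filter_upwards [n2 a ha, (n2 s hs).nhdsNE_deriv, deriv_mob n1 ((hK _).mero s hs)] with
          w h1 h2 h3
        simp only [Pi.mul_apply, Pi.pow_apply, Function.comp_apply, h1, h2, h3, d1, mul_one]
      have e2 := (((an z).frequently_eq_iff_eventually_eq ((an _).comp (mob_an n1))).1
        ((e z).trans (e1.trans (ev_mob n1 (e _)).symm)).frequently).self_of_nhds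
      exact ⟨z', c1, m1 ▸ e2.symm⟩
    have df : Differentiable ℂ Ψ := fun z => (an z).differentiableAt
    refine ⟨Ψ 0, (e 0).symm.trans (Eventually.of_forall fun w => ?_)⟩
    exact df.apply_eq_apply_of_bounded ((cC.image df.continuous).isBounded.subset bd) w 0
  obtain ⟨s, hs, nc, hr⟩ := lv.rat
  obtain ⟨k, -, a, ha, b, hb, b0, e, fa, fb⟩ := hr s hs
  obtain ⟨c, hc⟩ := cst k a ha s hs fa
  obtain ⟨d, hd⟩ := cst k b hb s hs fb
  refine nc _ ((hK 0).of_cst hs (c := c / d) ?_)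
  have e1 := (hK 0).mul s hs b hb
  rw [e] at e1
  filter_upwards [hc, hd, e1, (hK 0).ne' hb b0, (hK 0).deriv_ne hs nc] with w h1 h2 h3 h4 h5
  rw [← h1, ← h2]
  simp only [Pi.mul_apply, Pi.pow_apply, h3]
  field_simp

end Vale.Agent.P022K.Sh.Un
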