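import Vale.Agent.P022K.F0.Cf.Rows

/-!
# P022K, block F0, row MODA: general lemmas (helper63)
-/

set_option autoImplicit false
set_option linter.unusedSectionVars false

open UpperHalfPlane Filter Topology Cardinal
open scoped MatrixGroups

noncomputable section

namespace Vale.Agent.P022K.Sh.Md

open Vale.Agent.P022.H218.L3 Vale.Agent.P019P Vale.Agent.P022K.F0.Cf

/-! ### automorphisms of `ℂ` -/

theorem ext_alg (R K L : Type) [CommRing R] [Nontrivial R] [Countable R] [Field K] [Field L]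
    [IsAlgClosed K] [IsAlgClosed L] [Algebra R K] [Algebra R L] [FaithfulSMul R K]
    [FaithfulSMul R L] (hK : ℵ₀ < #K) (h : #K = #L) :
    ∃ φ : K ≃+* L, ∀ r, φ (algebraMap R K r) = algebraMap R L r := by
  obtain ⟨s, hs⟩ := exists_isTranscendenceBasis R K
  obtain ⟨t, ht⟩ := exists_isTranscendenceBasis R L
  have h1 := IsAlgClosed.cardinal_eq_cardinal_transcendence_basis_of_aleph0_lt' _ hs
    mk_le_aleph0 hK
  have h2 := IsAlgClosed.cardinal_eq_cardinal_transcendence_basis_of_aleph0_lt' _ ht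
    mk_le_aleph0 (h ▸ hK)
  obtain ⟨e⟩ := Cardinal.eq.1 (h1.symm.trans (h.trans h2))
  have := IsAlgClosed.isAlgClosure_of_transcendence_basis _ hs
  have := IsAlgClosed.isAlgClosure_of_transcendence_basis _ ht
  let ψ := hs.1.aevalEquiv.symm.trans ((MvPolynomial.renameEquiv R e).trans ht.1.aevalEquiv)
  refine ⟨IsAlgClosure.equivOfEquiv K L ψ.toRingEquiv, fun r => ?_⟩
  rw [IsScalarTower.algebraMap_apply R (Algebra.adjoin R (Set.range ((↑) : s → K))) K,
    IsAlgClosure.equivOfEquiv_algebraMap,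
    IsScalarTower.algebraMap_apply R (Algebra.adjoin R (Set.range ((↑) : t → L))) L]
  exact congrArg _ (ψ.commutes r)

theorem ext_inj (A : Type) [CommRing A] [Countable A] (f g : A →+* ℂ)
    (hf : Function.Injective f) (hg : Function.Injective g) :
    ∃ φ : ℂ ≃+* ℂ, ∀ a, φ (f a) = g a := by
  have : Nontrivial A := f.domain_nontrivial
  exact @ext_alg A ℂ ℂ _ _ _ _ _ _ _ f.toAlgebra g.toAlgebra
    (letI := f.toAlgebra; (faithfulSMul_iff_algebraMap_injective _ ℂ).2 hf)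
    (letI := g.toAlgebra; (faithfulSMul_iff_algebraMap_injective _ ℂ).2 hg)
    (by rw [mk_complex]; exact aleph0_lt_continuum) rfl

/-- numbers with a finite orbit are algebraic -/
theorem alg_of_fin {c : ℂ} {A : Set ℂ} (hA : A.Finite)
    (h : ∀ σ : ℂ ≃+* ℂ, (∀ a, IsAlgebraic ℚ a → σ a = a) → σ c ∈ A) : IsAlgebraic ℚ c := by
  by_contra hc
  let k := algebraicClosure ℚ ℂ
  have : Algebra.IsAlgebraic ℚ k := algebraicClosure.isAlgebraic ℚ ℂ
  have : Countable k := by
    rw [← mk_le_aleph0_iff]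
    exact (Algebra.IsAlgebraic.cardinalMk_le_max ℚ k).trans (max_le mk_le_aleph0 le_rfl)
  have : Countable (Polynomial k) := by
    rw [← mk_le_aleph0_iff]
    exact Polynomial.cardinalMk_le_max.trans (max_le mk_le_aleph0 le_rfl)
  have ht : ∀ n : ℕ, Transcendental k (c + n) := fun n e => hc (by
    have h1 : IsAlgebraic ℚ (c + n) := e.restrictScalars ℚ
    simpa using (h1.isIntegral.sub (isIntegral_algebraMap (x := (n : ℚ)))).isAlgebraic)
  refine Set.infinite_of_injective_forall_mem (f := fun n : ℕ => c + n)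
    (fun m n e => by simpa using e) (fun n => ?_) hA
  obtain ⟨φ, hφ⟩ := ext_inj (Polynomial k) (Polynomial.aeval c).toRingHom
    (Polynomial.aeval (c + n)).toRingHom
    (transcendental_iff_injective.1 (by simpa using ht 0)) (transcendental_iff_injective.1 (ht n))
  have h1 : φ c = c + n := by simpa using hφ Polynomial.X
  exact h1 ▸ h φ fun a ha => by
    simpa using hφ (Polynomial.C ⟨a, mem_algebraicClosure_iff.2 ha⟩)

/-! ### linear algebra -/

theorem ex_dual {K V P : Type} [Field K] [AddCommGroup V] [Module K V] [FiniteDimensional K V]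
    (Φ : P → V →ₗ[K] K) (h : ∀ v ≠ 0, ∃ p, Φ p v ≠ 0) :
    ∃ (ι : Type) (_ : Finite ι) (p : ι → P) (e : ι → V), (∀ v, (∀ i, Φ (p i) v = 0) → v = 0) ∧
      (∀ i j, Φ (p i) (e j) = 0 ∨ Φ (p i) (e j) = 1) ∧ Submodule.span K (Set.range e) = ⊤ := by
  classical
  have h1 : Submodule.span K (Set.range Φ) = ⊤ := Submodule.span_eq_top_of_ne_zero fun v hv => by
    obtain ⟨p, hp⟩ := h v hv
    exact ⟨_, ⟨p, rfl⟩, hp⟩
  obtain ⟨b, h2, h3, h4⟩ := exists_linearIndependent K (Set.range Φ)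
  have : Finite b := h4.finite
  let B : Module.Basis b K (Module.Dual K V) := Module.Basis.mk h4 (by
    rw [Subtype.range_coe, h3, h1])
  choose p hp using fun i : b => h2 i.2
  let e := B.dualBasis.map (Module.evalEquiv K V).symm
  have h5 : ∀ i j, Φ (p i) (e j) = if i = j then 1 else 0 := fun i j => by
    rw [hp, Module.Basis.map_apply, Module.apply_evalEquiv_symm_apply,
      ← Module.Basis.dualBasis_apply_self B j i, Module.Basis.mk_apply]
  refine ⟨b, this, p, e, fun v hv => ?_, fun i j => ?_, e.span_eq⟩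
  · refine (Module.evalEquiv K V).map_eq_zero_iff.1 (B.ext fun i => ?_)
    rw [Module.Basis.mk_apply, ← hp]
    exact hv i
  · rw [h5]
    split_ifs
    exacts [Or.inr rfl, Or.inl rfl]

theorem fd_of_rank {K V : Type} [Field K] [AddCommGroup V] [Module K V] (W : Submodule K V) {n : ℕ}
    (h : Module.rank K W ≤ n) : FiniteDimensional K W :=
  Module.rank_lt_aleph0_iff.1 (h.trans_lt natCast_lt_aleph0)

theorem fin_range {A B C : Type*} {g : A → B} {f : A → C} (hg : (Set.range g).Finite)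
    (h : ∀ a a', g a = g a' → f a = f a') : (Set.range f).Finite := by
  rcases isEmpty_or_nonempty A with hA | hA
  · simp [Set.range_eq_empty]
  · refine (hg.image (f ∘ Function.invFun g)).subset ?_
    rintro _ ⟨a, rfl⟩
    exact ⟨_, ⟨a, rfl⟩, h _ _ (Function.invFun_eq ⟨a, rfl⟩)⟩

/-! ### function fields -/

theorem ex_den {k F : Type*} [Field k] [Field F] [Algebra k F] [CFF k F] (P : Plk k F) (f : F) :
    ∃ b : F, b ≠ 0 ∧ ∀ Q : Plk k F, Q ≠ P → b ∈ Q.1 ∧ f * b ∈ Q.1 := by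
  obtain ⟨g, hg, -⟩ := exists_riem k F
  have h1 := hg (Finsupp.single P (g + P019P.dg (pol k f)) - pol k f)
  rw [map_sub, dg_sgl] at h1
  obtain ⟨b, b0, h2⟩ := exists_ne_zero_of_l
    (D := Finsupp.single P (g + P019P.dg (pol k f)) - pol k f) (by omega)
  refine ⟨b, b0, fun Q hQ => ?_⟩
  have h3 := h2 Q
  rw [Finsupp.add_apply, Finsupp.sub_apply, Finsupp.single_eq_of_ne hQ, pol_apply, dv_apply,
    Finsupp.zero_apply] at h3
  refine ⟨(mem_iff_ord Q b).2 (Or.inr (by omega)), (mem_iff_ord Q _).2 ?_⟩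
  by_cases f0 : f = 0
  · exact Or.inl (by rw [f0, zero_mul])
  · rw [ord_mul Q f0 b0]
    exact Or.inr (by omega)

theorem ex_gens {k E : Type*} [Field k] [Field E] [Algebra k E] (K : IntermediateField k E)
    [CFF k K] : ∃ t : Set E, t.Finite ∧ K = IntermediateField.adjoin k t := by
  obtain ⟨x, -, hx⟩ := CFF.ex (k := k) (F := K)
  obtain ⟨t, ht⟩ := IntermediateField.essFiniteType_iff.1 (CFld_essFin hx)
  exact ⟨t, t.finite_toSet, ht.symm⟩

/-! ### discrete groups -/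

section

variable {G : Type*} [Group G] [MulAction G ℍ] [Mo G] {Γ : Subgroup G}

/-- a transformation with two fixed points is trivial -/
theorem triv_of_two {g : G} {a b : ℍ} (ha : g • a = a) (hb : g • b = b) (h : a ≠ b) (τ : ℍ) :
    g • τ = τ := by
  obtain ⟨s, hs⟩ := Mo.ex g
  rw [hs] at ha hb ⊢
  have k : ∀ z : ℍ, s • z = z ↔
      (s 0 0 : ℂ) * z + (s 0 1 : ℝ) = z * ((s 1 0 : ℝ) * z + (s 1 1 : ℝ)) := fun z => by
    rw [UpperHalfPlane.ext_iff, coe_specialLinearGroup_apply]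
    exact div_eq_iff (denom_ne_zero (s : GL (Fin 2) ℝ) z)
  rw [k] at ha hb ⊢
  have h1 : (s 1 0 : ℝ) * ((a : ℂ) + b) + (s 1 1 : ℝ) - (s 0 0 : ℝ) = 0 :=
    mul_left_cancel₀ (sub_ne h) (by linear_combination hb - ha)
  have hc : s 1 0 = 0 := by
    have h2 : s 1 0 * (a.im + b.im) = 0 := by simpa using congrArg Complex.im h1
    exact (mul_eq_zero.1 h2).resolve_right (add_pos a.im_pos b.im_pos).ne'
  rw [hc, Complex.ofReal_zero] at h1 ha ⊢
  linear_combination ha + ((a : ℂ) - τ) * h1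

theorem ex_move (h : Fu Γ) (a : ℍ) : ∃ γ ∈ Γ, γ • a ≠ a := by
  by_contra hn
  push Not at hn
  obtain ⟨r, hr⟩ := h.cpt
  refine noncompact_univ ℍ ((isCompact_closedBall a (r + dist I a)).of_isClosed_subset
    isClosed_univ fun τ _ => ?_)
  obtain ⟨γ, hγ, h1⟩ := hr τ
  have h2 := dist_triangle (γ • τ) I (γ • a)
  rw [dist_sm, hn γ hγ] at h2
  exact Metric.mem_closedBall.2 (by linarith)

theorem ex_den' (h : Fu Γ) (a : ℍ) {f : Mer} (hf : f ∈ KF Γ) : ∃ b ∈ KF Γ, b ≠ 0 ∧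
    ∀ τ, (∀ γ ∈ Γ, γ • a ≠ τ) → Reg τ b ∧ Reg τ (f * b) := by
  have := h.cff
  obtain ⟨b, b0, hb⟩ := ex_den (h.pt a) ⟨f, hf⟩
  refine ⟨b, b.2, fun e => b0 (Subtype.ext e), fun τ hτ => hb (h.pt τ) fun e => ?_⟩
  obtain ⟨γ, hγ, e'⟩ := h.pt_eq.1 e.symm
  exact hτ γ hγ e'

theorem fin_poles {K : Set ℍ} (hK : IsCompact K) (y : Mer) : {a ∈ K | ¬ Reg a y}.Finite := by
  classical
  obtain ⟨s, hs⟩ := ex_ps hK y
  refine s.toFinset.finite_toSet.subset fun a ha => ?_
  by_contra hn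
  have h1 := hs a ha.1
  refine ha.2 ?_
  clear hs
  induction s using Multiset.induction_on with
  | empty => rwa [ps_zero, one_mul] at h1
  | cons b s ih =>
    rw [ps_cons, mul_assoc] at h1
    simp only [Finset.mem_coe, Multiset.mem_toFinset, Multiset.mem_cons, not_or] at hn ih
    exact ih hn.2 (reg_tz_mul hn.1 h1)

theorem ps_ne (s : Multiset ℍ) : ps s ≠ 0 :=
  Multiset.prod_ne_zero fun h => by
    obtain ⟨a, -, e⟩ := Multiset.mem_map.1 h
    exact jt_ne a e

/-- functions with poles of bounded order in a locally finite set -/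
theorem fd_poles (h : Fu Γ) {Z : Set ℍ} (hZ : ∀ K, IsCompact K → {τ ∈ K | τ ∈ Z}.Finite) (n : ℕ) :
    ∃ W : Submodule ℂ Mer, FiniteDimensional ℂ W ∧ ∀ y ∈ KF Γ, (∀ τ, τ ∉ Z → Reg τ y) →
      (∀ τ, -(n : ℤ) ≤ od τ y) → y ∈ W := by
  classical
  obtain ⟨K, hK, hc⟩ := h.ex_K
  have h1 := h.rank_Ls hc (n • (hZ K hK).toFinset.1)
  have : FiniteDimensional ℂ (Ls Γ K (n • (hZ K hK).toFinset.1)) :=
    fd_of_rank _ h1
  refine ⟨(Ls Γ K (n • (hZ K hK).toFinset.1)).map (KF Γ).val.toLinearMap, inferInstance,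
    fun y hy h2 h3 => ⟨⟨y, hy⟩, fun a ha => ?_, rfl⟩⟩
  by_cases e : a ∈ Z
  · obtain ⟨t, ht⟩ := Multiset.exists_cons_of_mem
      (show a ∈ (hZ K hK).toFinset.1 from (hZ K hK).mem_toFinset.2 ⟨ha, e⟩)
    rw [ht, ps_nsmul, ps_cons, mul_pow, mul_comm (jm (tz a) ^ n), mul_assoc]
    refine ((reg_ps a t).pow n).mul ?_
    by_cases y0 : y = 0
    · exact reg_iff.2 (Or.inl (mul_eq_zero_of_right _ y0))
    · refine reg_iff.2 (Or.inr ?_)
      have := h3 a
      rw [od_mul a (pow_ne_zero _ (jt_ne a)) y0, od_pow, od_tz]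
      omega
  · exact (reg_ps a _).mul (h2 a e)

end

end Vale.Agent.P022K.Sh.Md
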