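import Vale.Agent.P022K.F0.Germ
import Vale.Agent.P022K.F0.Maj

/-!
# P022K, block F0: Laurent series, the Schwarzian derivative, Moebius maps
-/

set_option autoImplicit false

open Filter Topology
open scoped LaurentSeries PowerSeries

noncomputable section

namespace Vale.Agent.P022K.Sh.Un

variable {z z₁ z₂ z₃ : ℂ}

/-! ## Laurent series -/

theorem der_single_mul (n : ℤ) (x : ℂ⸨X⸩) :
    LaurentSeries.derivative ℂ (HahnSeries.single n 1 * x) =
      HahnSeries.single n 1 * LaurentSeries.derivative ℂ x +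
        (n : ℂ) • (HahnSeries.single (n - 1) 1 * x) := by
  ext k
  simp only [LaurentSeries.derivative_apply, LaurentSeries.hasseDeriv_coeff,
    HahnSeries.coeff_add, HahnSeries.coeff_single_mul, HahnSeries.coeff_smul,
    Ring.choose_one_right, one_mul]
  rw [show k - n + (1 : ℕ) = k + (1 : ℕ) - n by ring, show k - (n - 1) = k + (1 : ℕ) - n by
    push_cast; ring, Int.cast_smul_eq_zsmul, ← add_smul]
  congr 1
  ring

/-- derivations of a field -/
abbrev Dv (k Ω : Type*) [CommRing k] [Field Ω] [Algebra k Ω] : Type _ := Derivation k Ω Ω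

/-- a derivation from an additive map -/
def mkD {k Ω : Type*} [CommRing k] [Field Ω] [Algebra k Ω] (D : Ω →+ Ω)
    (hc : ∀ c, D (algebraMap k Ω c) = 0) (hl : ∀ x y, D (x * y) = x * D y + y * D x) : Dv k Ω :=
  Derivation.mk'
    { toFun := D
      map_add' := D.map_add
      map_smul' := fun c x => by simp [Algebra.smul_def, hl, hc] } hl

theorem der_mul (x y : ℂ⸨X⸩) : LaurentSeries.derivative ℂ (x * y) =
    x * LaurentSeries.derivative ℂ y + y * LaurentSeries.derivative ℂ x := by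
  rw [← x.single_order_mul_powerSeriesPart, ← y.single_order_mul_powerSeriesPart]
  generalize x.order = n
  generalize y.order = m
  generalize x.powerSeriesPart = p
  generalize y.powerSeriesPart = q
  have s : ∀ a b : ℤ, (HahnSeries.single (a + b) 1 : ℂ⸨X⸩) =
      HahnSeries.single a 1 * HahnSeries.single b 1 := fun a b => by
    rw [HahnSeries.single_mul_single, one_mul]
  rw [mul_mul_mul_comm, ← s, ← map_mul, der_single_mul, der_single_mul, der_single_mul,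
    ← coe_derivative, ← coe_derivative, ← coe_derivative, Derivation.leibniz, sub_eq_add_neg,
    sub_eq_add_neg, sub_eq_add_neg, s, s, s, s]
  simp only [smul_eq_mul, map_add, map_mul, ← HahnSeries.C_mul_eq_smul, Int.cast_add]
  rw [s]
  ring

theorem ser_cst' (c : ℂ) : ser z (algebraMap ℂ _ c) = algebraMap ℂ ℂ⸨X⸩ c := by
  rw [ser_cst, HahnSeries.algebraMap_apply', PowerSeries.algebraMap_apply,
    HahnSeries.ofPowerSeries_C]
  rfl

/-- the derivative of Laurent series as a derivation -/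
def DL : Dv ℂ ℂ⸨X⸩ :=
  mkD (LaurentSeries.derivative ℂ).toAddMonoidHom (fun c => by
    show LaurentSeries.derivative ℂ _ = _
    rw [← ser_cst' (z := 0), ← ser_D, Derivation.map_algebraMap, map_zero]) der_mul

theorem DL_apply (x : ℂ⸨X⸩) : DL x = LaurentSeries.derivative ℂ x := rfl

theorem DL_mul (x y : ℂ⸨X⸩) : DL (x * y) = x * DL y + y * DL x := der_mul x y

theorem DL_coe (p : ℂ⟦X⟧) : DL (p : ℂ⸨X⸩) = ((PowerSeries.derivative ℂ p : ℂ⟦X⟧) : ℂ⸨X⸩) :=
  (coe_derivative p).symm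

theorem DL_coeff (x : ℂ⸨X⸩) (k : ℤ) : (DL x).coeff k = ((k : ℂ) + 1) * x.coeff (k + 1) := by
  simp [DL_apply, LaurentSeries.derivative_apply]

theorem ser_DL (x : Mz z) : ser z (Mz.D z x) = DL (ser z x) := ser_D x

/-- the expansion as a homomorphism of algebras -/
def serA (z : ℂ) : Mz z →ₐ[ℂ] ℂ⸨X⸩ := { ser z with commutes' := ser_cst' }

/-- a homomorphism applied to the coefficients -/
def mapL (σ : ℂ →+* ℂ) : ℂ⸨X⸩ →+* ℂ⸨X⸩ where
  toFun x := x.map σ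
  map_one' := HahnSeries.map_one σ.toMonoidWithZeroHom
  map_zero' := HahnSeries.map_zero σ.toAddMonoidHom.toZeroHom
  map_add' _ _ := HahnSeries.map_add σ.toAddMonoidHom
  map_mul' _ _ := HahnSeries.map_mul σ.toNonUnitalRingHom

theorem mapL_coeff (σ : ℂ →+* ℂ) (x : ℂ⸨X⸩) (k : ℤ) : (mapL σ x).coeff k = σ (x.coeff k) := rfl

theorem mapL_DL (σ : ℂ →+* ℂ) (x : ℂ⸨X⸩) : mapL σ (DL x) = DL (mapL σ x) := by
  ext k
  simp [mapL_coeff, DL_coeff]

theorem mapL_C (σ : ℂ →+* ℂ) (c : ℂ) : mapL σ (HahnSeries.C c) = HahnSeries.C (σ c) :=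
  HahnSeries.map_C c σ

theorem mapL_cst (σ : ℂ →+* ℂ) (c : ℂ) :
    mapL σ (algebraMap ℂ ℂ⸨X⸩ c) = algebraMap ℂ ℂ⸨X⸩ (σ c) := by
  rw [← ser_cst' (z := 0), ← ser_cst' (z := 0), ser_cst, ser_cst, mapL_C]

theorem mapL_coe (σ : ℂ →+* ℂ) (p : ℂ⟦X⟧) :
    mapL σ (p : ℂ⸨X⸩) = ((PowerSeries.map σ p : ℂ⟦X⟧) : ℂ⸨X⸩) := by
  ext k
  rw [mapL_coeff, PowerSeries.coeff_coe, PowerSeries.coeff_coe]
  split_ifs <;> simp

theorem mapL_orderTop (σ : ℂ →+* ℂ) (x : ℂ⸨X⸩) : (mapL σ x).orderTop = x.orderTop := by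
  rcases eq_or_ne x 0 with rfl | hx
  · simp
  have e : (mapL σ x).support = x.support := by
    ext k
    simp [mapL_coeff]
  rw [← HahnSeries.order_eq_orderTop_of_ne_zero hx]
  refine HahnSeries.orderTop_eq_of_le ?_ fun k hk => ?_
  · rw [e]
    exact mt HahnSeries.coeff_order_eq_zero.1 hx
  · rw [e] at hk
    exact HahnSeries.order_le_of_coeff_ne_zero hk

theorem tay_of_has {f : ℂ → ℂ} {a : ℂ⟦X⟧} (h : HasFPowerSeriesAt f (fms a) z) : tay z f = a := by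
  obtain ⟨r, h⟩ := h
  ext n
  have e := h.factorial_smul 1 n
  rw [← iteratedDeriv_eq_iteratedFDeriv] at e
  have : (n.factorial : ℂ) ≠ 0 := by exact_mod_cast n.factorial_ne_zero
  rw [tay, PowerSeries.coeff_mk, ← e, ← fms_coeff a n, nsmul_eq_mul, inv_mul_cancel_left₀ this]
  rfl

theorem has_tay {f : ℂ → ℂ} (h : AnalyticAt ℂ f z) : HasFPowerSeriesAt f (fms (tay z f)) z := by
  obtain ⟨p, hp⟩ := h
  have e : p = fms (PowerSeries.mk fun n => p.coeff n) := by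
    funext n
    rw [← FormalMultilinearSeries.mkPiRing_coeff_eq p n,
      ← FormalMultilinearSeries.mkPiRing_coeff_eq (fms _) n, fms_coeff, PowerSeries.coeff_mk]
  rw [e] at hp
  rwa [tay_of_has hp]

theorem has_psum {a : ℂ⟦X⟧} {r : ℝ} (hr : 0 < r)
    (h : Summable fun n => ‖PowerSeries.coeff n a‖ * r ^ n) (z : ℂ) :
    HasFPowerSeriesAt (fun w => psum a (w - z)) (fms a) z := by
  have := (tn_ball hr (f := a) (M := ∑' n, ‖PowerSeries.coeff n a‖ * r ^ n) fun n =>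
    h.sum_le_tsum _ fun _ _ => by positivity).1.comp_sub z
  rw [zero_add] at this
  exact this.hasFPowerSeriesAt

/-- convergent series are expansions -/
theorem ser_conv {a : ℂ⟦X⟧} {r : ℝ} (hr : 0 < r)
    (h : Summable fun n => ‖PowerSeries.coeff n a‖ * r ^ n) (z : ℂ) :
    ∃ x : Mz z, ser z x = (a : ℂ⸨X⸩) := by
  have e := has_psum hr h z
  exact ⟨_, by rw [(rp_gm e.analyticAt.meromorphicAt).ser e.analyticAt, tay_of_has e]⟩

theorem ser_of_has {f : ℂ → ℂ} {a : ℂ⟦X⟧} (h : HasFPowerSeriesAt f (fms a) z) :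
    ser z (gm z f) = (a : ℂ⸨X⸩) := by
  rw [(rp_gm h.analyticAt.meromorphicAt).ser h.analyticAt, tay_of_has h]

/-- expansions converge -/
theorem conv_tay {f : ℂ → ℂ} (h : AnalyticAt ℂ f z) :
    ∃ r : ℝ, 0 < r ∧ Summable fun n => ‖PowerSeries.coeff n (tay z f)‖ * r ^ n := by
  obtain ⟨r, hr⟩ := has_tay h
  obtain ⟨s, s0, hs⟩ := ENNReal.lt_iff_exists_nnreal_btwn.1 (hr.r_pos.trans_le hr.r_le)
  refine ⟨s, by exact_mod_cast s0, ?_⟩
  simpa only [fms, FormalMultilinearSeries.ofScalars_norm] using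
    (fms (tay z f)).summable_norm_mul_pow hs

/-! ## the Schwarzian derivative -/

section

variable {k Ω : Type*} [CommRing k] [Field Ω] [Algebra k Ω]

/-- the Schwarzian derivative -/
def Sw (D : Derivation k Ω Ω) (x : Ω) : Ω := D (D (D x)) / D x - 3 / 2 * (D (D x) / D x) ^ 2

/-- the chain rule for the Schwarzian derivative -/
theorem Sw_chain {k' Ω' : Type*} [CommRing k'] [Field Ω'] [Algebra k' Ω'] [CharZero Ω']
    (D : Derivation k Ω Ω) (D' : Derivation k' Ω' Ω') (φ : Ω →+* Ω') {h : Ω'} (h0 : D' h ≠ 0)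
    (c : ∀ x, D' (φ x) = φ (D x) * D' h) {x : Ω} (hx : D x ≠ 0) :
    Sw D' (φ x) = φ (Sw D x) * D' h ^ 2 + Sw D' h := by
  have : φ (D x) ≠ 0 := (map_ne_zero φ).2 hx
  simp only [Sw, c, Derivation.leibniz, map_add, smul_eq_mul, map_sub, map_mul, map_div₀, map_pow,
    map_ofNat]
  field_simp
  ring

theorem Sw_map {k' Ω' : Type*} [CommRing k'] [Field Ω'] [Algebra k' Ω']
    (D : Derivation k Ω Ω) (D' : Derivation k' Ω' Ω') (φ : Ω →+* Ω')
    (c : ∀ x, D' (φ x) = φ (D x)) (x : Ω) : Sw D' (φ x) = φ (Sw D x) := by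
  simp only [Sw, c, map_sub, map_mul, map_div₀, map_pow, map_ofNat]

/-- the Schwarzian derivative of a Moebius function of `t` with `D t = 1` vanishes -/
theorem Sw_mob [CharZero Ω] (D : Derivation k Ω Ω) {t a b c d : Ω} (ht : D t = 1) (ha : D a = 0)
    (hb : D b = 0) (hc : D c = 0) (hd : D d = 0) (h0 : c * t + d ≠ 0) :
    D ((a * t + b) / (c * t + d)) = (a * d - b * c) / (c * t + d) ^ 2 ∧
      Sw D ((a * t + b) / (c * t + d)) = 0 := by
  have e0 : D (c * t + d) = c := by simp [ht, hc, hd]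
  have e : D (a * d - b * c) = 0 := by simp [ha, hb, hc, hd]
  have e1 : D ((a * t + b) / (c * t + d)) = (a * d - b * c) / (c * t + d) ^ 2 := by
    rw [Derivation.leibniz_div, e0]
    simp only [map_add, Derivation.leibniz, ht, ha, hb, smul_eq_mul]
    field_simp
    ring
  refine ⟨e1, ?_⟩
  rw [Sw, e1]
  generalize a * d - b * c = m at e
  generalize c * t + d = p at e0 h0
  have e2 : D (m / p ^ 2) = -2 * m * c / p ^ 3 := by
    rw [Derivation.leibniz_div, Derivation.leibniz_pow, e0, e]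
    simp only [smul_eq_mul, nsmul_eq_mul]
    field_simp
    ring
  have e3 : D (-2 * m * c / p ^ 3) = 6 * m * c ^ 2 / p ^ 4 := by
    have : D (-2 * m * c) = 0 := by
      have : D 2 = 0 := D.map_natCast 2
      simp [e, hc, this]
    rw [Derivation.leibniz_div, Derivation.leibniz_pow, e0, this]
    simp only [smul_eq_mul, nsmul_eq_mul]
    field_simp
    ring
  rw [e2, e3]
  rcases eq_or_ne m 0 with rfl | hm
  · simp
  · field_simp
    ring

end

/-! ## composition with a non constant map -/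

/-- `h` is analytic, not constant, and maps `z₁` to `z₂` -/
structure Nc (h : ℂ → ℂ) (z₁ z₂ : ℂ) : Prop where
  an : AnalyticAt ℂ h z₁
  nc : ¬EventuallyConst h (𝓝 z₁)
  eq : h z₁ = z₂

variable {h k : ℂ → ℂ}

theorem Lo.nc (H : Lo h z₁ z₂) : Nc h z₁ z₂ :=
  ⟨H.an, by simp [eventuallyConst_iff_analyticOrderAt_sub_eq_top,
    H.an.analyticOrderAt_sub_eq_one_of_deriv_ne_zero H.dv], H.eq⟩

theorem Nc.tendsto (H : Nc h z₁ z₂) : Tendsto h (𝓝[≠] z₁) (𝓝[≠] z₂) :=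
  H.eq ▸ H.an.map_nhdsNE H.nc

theorem Nc.mero (H : Nc h z₁ z₂) {f : ℂ → ℂ} (hf : MeromorphicAt f z₂) :
    MeromorphicAt (f ∘ h) z₁ := (H.eq ▸ hf).comp_analyticAt H.an

theorem rp_ncmp0 (H : Nc h z₁ z₂) {x : Mz z₂} {f : ℂ → ℂ} (e : Rp x f) :
    Rp (gm z₁ (x.out ∘ h)) (f ∘ h) :=
  (rp_gm (H.mero (rp_out x).mero)).congr (((rp_out x).unique e).comp_tendsto H.tendsto)

/-- composition with `h` -/
def Nc.cmp (H : Nc h z₁ z₂) : Mz z₂ →ₐ[ℂ] Mz z₁ where
  toFun x := gm z₁ (x.out ∘ h)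
  map_one' := (rp_ncmp0 H rp_one).eq rp_one
  map_zero' := (rp_ncmp0 H rp_zero).eq rp_zero
  map_add' x y := (rp_ncmp0 H ((rp_out x).add (rp_out y))).eq
    ((rp_ncmp0 H (rp_out x)).add (rp_ncmp0 H (rp_out y)))
  map_mul' x y := (rp_ncmp0 H ((rp_out x).mul (rp_out y))).eq
    ((rp_ncmp0 H (rp_out x)).mul (rp_ncmp0 H (rp_out y)))
  commutes' c := (rp_ncmp0 H (rp_cst c)).eq (rp_cst c)

theorem Rp.ncmp (H : Nc h z₁ z₂) {x : Mz z₂} {f : ℂ → ℂ} (e : Rp x f) : Rp (H.cmp x) (f ∘ h) :=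
  rp_ncmp0 H e

theorem Lo.cmp_nc (H : Lo h z₁ z₂) (x : Mz z₂) : H.nc.cmp x = H.cmp x := rfl

theorem Nc.rp (H : Nc h z₁ z₂) : Rp (gm z₁ h) h := rp_gm H.an.meromorphicAt

theorem Nc.D_cmp (H : Nc h z₁ z₂) (x : Mz z₂) :
    Mz.D z₁ (H.cmp x) = H.cmp (Mz.D z₂ x) * Mz.D z₁ (gm z₁ h) := by
  refine (((rp_out x).ncmp H).D.eq_iff (((rp_out x).D.ncmp H).mul H.rp.D)).2 ?_
  filter_upwards [H.tendsto.eventually (rp_out x).ev, H.rp.ev] with w h1 h2
  exact deriv_comp w h1 h2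

theorem Nc.D_ne (H : Nc h z₁ z₂) : Mz.D z₁ (gm z₁ h) ≠ 0 := fun e => by
  obtain ⟨c, hc⟩ := D_eq_zero.1 e
  exact H.nc (eventuallyConst_iff_exists_eventuallyEq.2
    ⟨c, H.rp.unique_an (hc ▸ rp_cst c) H.an analyticAt_const⟩)

theorem Nc.mem_cmp (H : Nc h z₁ z₂) {x : Mz z₂} (hx : x ∈ Oz z₂) : H.cmp x ∈ Oz z₁ := by
  obtain ⟨f, hf, e⟩ := mem_Oz_iff.1 hx
  exact (e.ncmp H).mem_Oz ((H.eq ▸ hf).comp H.an)

theorem Nc.Sw_cmp (H : Nc h z₁ z₂) {x : Mz z₂} (hx : Mz.D z₂ x ≠ 0) :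
    Sw (Mz.D z₁) (H.cmp x) =
      H.cmp (Sw (Mz.D z₂) x) * Mz.D z₁ (gm z₁ h) ^ 2 + Sw (Mz.D z₁) (gm z₁ h) :=
  Sw_chain (Mz.D z₂) (Mz.D z₁) H.cmp.toRingHom H.D_ne H.D_cmp hx

theorem Lo.Sw_cmp (H : Lo h z₁ z₂) {x : Mz z₂} (hx : Mz.D z₂ x ≠ 0) :
    Sw (Mz.D z₁) (H.cmp x) =
      H.cmp (Sw (Mz.D z₂) x) * Mz.D z₁ (gm z₁ h) ^ 2 + Sw (Mz.D z₁) (gm z₁ h) := H.nc.Sw_cmp hx

theorem Rp.Sw {x : Mz z} {f : ℂ → ℂ} (e : Rp x f) : Rp (Sw (Mz.D z) x) fun w =>
    deriv (deriv (deriv f)) w / deriv f w - 3 / 2 * (deriv (deriv f) w / deriv f w) ^ 2 := by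
  have c : (3 / 2 : Mz z) = algebraMap ℂ _ (3 / 2) := by simp [map_ofNat]
  rw [Un.Sw, c]
  exact (e.D.D.D.div e.D).sub ((rp_cst _).mul ((e.D.D.div e.D).pow 2))

/-! ## Moebius maps -/

/-- the Moebius map -/
def mb (a b c d : ℂ) (w : ℂ) : ℂ := (a * w + b) / (c * w + d)

theorem mb_an {a b c d : ℂ} (h0 : c * z + d ≠ 0) : AnalyticAt ℂ (mb a b c d) z :=
  AnalyticAt.div (by fun_prop) (by fun_prop) h0

theorem mb_hasDerivAt {a b c d : ℂ} (h0 : c * z + d ≠ 0) :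
    HasDerivAt (mb a b c d) ((a * d - b * c) / (c * z + d) ^ 2) z := by
  have := (((hasDerivAt_id z).const_mul a).add_const b).div
    (((hasDerivAt_id z).const_mul c).add_const d) h0
  simp only [id] at this
  refine HasDerivAt.congr_deriv this ?_
  congr 1
  ring

theorem mb_lo {a b c d : ℂ} (hd : a * d - b * c ≠ 0) (h0 : c * z + d ≠ 0) :
    Lo (mb a b c d) z (mb a b c d z) :=
  ⟨mb_an h0, by
    rw [(mb_hasDerivAt h0).deriv]
    exact div_ne_zero hd (pow_ne_zero _ h0), rfl⟩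

theorem D_id : Mz.D z (gm z id) = 1 := by
  refine ((Lo.id z).rp.D.eq_iff rp_one).2 (Eventually.of_forall fun w => ?_)
  simp

theorem rp_mb (a b c d : ℂ) : Rp ((algebraMap ℂ _ a * gm z id + algebraMap ℂ _ b) /
    (algebraMap ℂ _ c * gm z id + algebraMap ℂ _ d)) (mb a b c d) :=
  (((rp_cst a).mul (Lo.id z).rp).add (rp_cst b)).div
    (((rp_cst c).mul (Lo.id z).rp).add (rp_cst d))

/-- the Schwarzian derivative of a Moebius map vanishes -/
theorem Sw_mb (a b c d : ℂ) : Sw (Mz.D z) (gm z (mb a b c d)) = 0 := by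
  rw [(rp_mb a b c d).gm_eq]
  rcases eq_or_ne (algebraMap ℂ (Mz z) c * gm z id + algebraMap ℂ _ d) 0 with e | e
  · simp [e, Sw]
  exact (Sw_mob (Mz.D z) D_id (Derivation.map_algebraMap _ _) (Derivation.map_algebraMap _ _)
    (Derivation.map_algebraMap _ _) (Derivation.map_algebraMap _ _) e).2

/-- a holomorphic germ whose Schwarzian derivative vanishes is a Moebius map -/
theorem mb_of_Sw {x : Mz z} (hx : x ∈ Oz z) (h0 : Mz.D z x ≠ 0) (hS : Sw (Mz.D z) x = 0) :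
    ∃ a b c d : ℂ, a * d - b * c ≠ 0 ∧ c * z + d ≠ 0 ∧ Rp x (mb a b c d) := by
  set D := Mz.D z with hD
  have ht : D (gm z id) = 1 := D_id
  have hc : ∀ c : ℂ, D (algebraMap ℂ (Mz z) c) = 0 := fun c => Derivation.map_algebraMap _ _
  set t := gm z id
  have key : ∃ a b c d : ℂ, a * d - b * c ≠ 0 ∧ algebraMap ℂ _ c * t + algebraMap ℂ _ d ≠ 0 ∧
      x = (algebraMap ℂ _ a * t + algebraMap ℂ _ b) / (algebraMap ℂ _ c * t + algebraMap ℂ _ d) := by
    rcases eq_or_ne (D (D x)) 0 with e | e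
    · obtain ⟨a, ha⟩ := D_eq_zero.1 e
      have : D (x - algebraMap ℂ _ a * t) = 0 := by
        rw [map_sub, Derivation.leibniz, ht, hc, ha]
        simp
      obtain ⟨b, hb⟩ := D_eq_zero.1 this
      refine ⟨a, b, 0, 1, ?_, by simp, ?_⟩
      · rintro h
        exact h0 (by rw [ha, show a = 0 by simpa using h, map_zero])
      · simp [← hb]
    · have e1 : D (D x / D (D x) + algebraMap ℂ _ (1 / 2) * t) = 0 := by
        have e3 : D (D (D x)) = 3 / 2 * D (D x) ^ 2 / D x := by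
          rw [Sw, sub_eq_zero, div_eq_iff h0] at hS
          rw [hS]
          field_simp
        rw [map_add, Derivation.leibniz, ht, hc, Derivation.leibniz_div, e3]
        simp only [smul_eq_mul, map_div₀, map_one, map_ofNat]
        field_simp
        ring
      obtain ⟨c, hc1⟩ := D_eq_zero.1 e1
      obtain ⟨p, hp⟩ : ∃ p, p = D x / D (D x) := ⟨_, rfl⟩
      have p0 : p ≠ 0 := hp ▸ div_ne_zero h0 e
      have ep : p = algebraMap ℂ _ (-(1 / 2)) * t + algebraMap ℂ _ c := by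
        rw [← hc1, ← hp, map_neg]
        ring
      have dp : D p = -(1 / 2) := by
        rw [ep, map_add, Derivation.leibniz, ht, hc, hc]
        simp [map_ofNat]
      have e2 : D (D x * p ^ 2) = 0 := by
        have : D (D x) = D x / p := by
          rw [hp]
          field_simp
        rw [Derivation.leibniz, Derivation.leibniz_pow, dp, this]
        simp only [smul_eq_mul, nsmul_eq_mul]
        field_simp
        ring
      obtain ⟨m, hm⟩ := D_eq_zero.1 e2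
      have m0 : m ≠ 0 := by
        rintro rfl
        exact mul_ne_zero h0 (pow_ne_zero 2 p0) (by rw [hm, map_zero])
      have e4 : D (x - algebraMap ℂ _ (2 * m) / p) = 0 := by
        rw [map_sub, Derivation.leibniz_div, hc, dp, map_mul, ← hm]
        simp only [smul_eq_mul, map_ofNat]
        field_simp
        ring
      obtain ⟨b, hb⟩ := D_eq_zero.1 e4
      refine ⟨b * -(1 / 2), b * c + 2 * m, -(1 / 2), c, ?_, ep ▸ p0, ?_⟩
      · rwa [show b * -(1 / 2) * c - (b * c + 2 * m) * -(1 / 2) = m by ring]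
      · rw [← ep, eq_div_iff p0, eq_add_of_sub_eq hb, add_mul, div_mul_cancel₀ _ p0, ep, map_add,
          map_mul _ b c, map_mul _ b]
        ring
  obtain ⟨a, b, c, d, h1, h2, h3⟩ := key
  refine ⟨a, b, c, d, h1, fun h4 => ?_, h3 ▸ rp_mb a b c d⟩
  have h5 : Vl (algebraMap ℂ _ c * t + algebraMap ℂ _ d) 0 := by
    have := (((rp_cst c).mul (Lo.id z).rp).add (rp_cst d)).vl (by fun_prop)
    simpa [h4] using this
  have h6 : Vl (algebraMap ℂ _ a * t + algebraMap ℂ _ b) (a * z + b) := by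
    have := (((rp_cst a).mul (Lo.id z).rp).add (rp_cst b)).vl (by fun_prop)
    simpa using this
  rw [eq_div_iff h2] at h3
  have h7 : Vl (algebraMap ℂ _ a * t + algebraMap ℂ _ b) 0 := by
    rw [← h3, vl_zero, od_mul]
    exact (vl_zero.1 h5).trans_le (le_add_of_nonneg_left hx)
  have h8 := h6.unique h7
  exact h1 (by linear_combination a * h4 - c * h8)

/-! ## two realisations with the same valuation ring -/

section

variable {K : Type*} [Field K]

theorem od_pos_of {e₁ : K →+* Mz z₁} {e₂ : K →+* Mz z₂}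
    (hO : ∀ f, e₁ f ∈ Oz z₁ ↔ e₂ f ∈ Oz z₂) {f : K} (h : 0 < od (e₂ f)) : 0 < od (e₁ f) := by
  rcases eq_or_ne f 0 with rfl | hf
  · simp [od_zero]
  obtain ⟨n, hn⟩ := exists_od ((map_ne_zero e₁).2 hf)
  obtain ⟨m, hm⟩ := exists_od ((map_ne_zero e₂).2 hf)
  have := hO f⁻¹
  rw [map_inv₀, map_inv₀, mem_Oz, mem_Oz, od_inv, od_inv, hn, hm,
    ← WithTop.LinearOrderedAddCommGroup.coe_neg, ← WithTop.LinearOrderedAddCommGroup.coe_neg]
    at this
  rw [hm] at h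
  rw [hn]
  norm_cast at this h ⊢
  omega

/-- two homomorphisms that agree on the constants and on a uniformiser -/
theorem hom_ext_of {e₁ e : K →+* Mz z₁} {e₂ : K →+* Mz z₂} {C : Set K}
    (hO : ∀ f, e₁ f ∈ Oz z₁ ↔ e₂ f ∈ Oz z₂) (hO' : ∀ f, e₂ f ∈ Oz z₂ → e f ∈ Oz z₁)
    (hC : ∀ c ∈ C, e₁ c = e c) (hs : ∀ c : ℂ, ∃ f ∈ C, e₂ f = algebraMap ℂ _ c) {π : K}
    (hπ : od (e₂ π) = 1) (hπ' : e₁ π = e π) : e₁ = e := by
  have π0 : π ≠ 0 := fun h => by simp [h, od_zero] at hπ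
  have p1 : 0 < od (e₁ π) := od_pos_of hO (by rw [hπ]; exact zero_lt_one)
  have key : ∀ n : ℕ, ∀ f, e₂ f ∈ Oz z₂ → (n : WithTop ℤ) ≤ od (e₁ f - e f) := by
    intro n
    induction n with
    | zero => exact fun f hf => sub_mem ((hO f).2 hf) (hO' f hf)
    | succ n ih =>
      intro f hf
      obtain ⟨c, hc⟩ := mem_Oz_iff_vl.1 hf
      obtain ⟨g, hg, e2⟩ := hs c
      have h1 : e₂ ((f - g) / π) ∈ Oz z₂ := by
        rw [map_div₀, map_sub, e2, div_eq_mul_inv, mem_Oz, od_mul, od_inv, hπ]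
        rw [Vl] at hc
        generalize od (e₂ f - algebraMap ℂ _ c) = k at hc
        induction k with
        | top => simp
        | coe k =>
          rw [← WithTop.coe_one, ← WithTop.LinearOrderedAddCommGroup.coe_neg]
          norm_cast at hc ⊢
          omega
      have h2 := ih _ h1
      have h3 : e₁ f - e f = e₁ π * (e₁ ((f - g) / π) - e ((f - g) / π)) := by
        have : e π ≠ 0 := (map_ne_zero e).2 π0
        simp only [map_div₀, map_sub, hπ', hC g hg]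
        field_simp
        ring
      rw [h3, od_mul, Nat.cast_succ, add_comm]
      refine add_le_add ?_ h2
      generalize od (e₁ π) = k at p1
      induction k with
      | top => simp
      | coe k =>
        norm_cast at p1 ⊢
  have key2 : ∀ f, e₂ f ∈ Oz z₂ → e₁ f = e f := fun f hf =>
    sub_eq_zero.1 (eq_zero_of_od fun n => key n f hf)
  ext f
  rcases (Oz z₂).mem_or_inv_mem (e₂ f) with h | h
  · exact key2 f h
  · have := key2 f⁻¹ (by rwa [map_inv₀])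
    rwa [map_inv₀, map_inv₀, inv_inj] at this

/-- **MOB**, first part: the two realisations differ by a change of coordinate -/
theorem exists_nc {e₁ : K →+* Mz z₁} {e₂ : K →+* Mz z₂} {ι : ℂ → K} {σ : ℂ → ℂ}
    (hσ : Function.Surjective σ) (c₁ : ∀ c, e₁ (ι c) = algebraMap ℂ _ (σ c))
    (c₂ : ∀ c, e₂ (ι c) = algebraMap ℂ _ (σ c)) (hO : ∀ f, e₁ f ∈ Oz z₁ ↔ e₂ f ∈ Oz z₂) {π : K}
    (hπ : od (e₂ π) = 1) : ∃ (h : ℂ → ℂ) (H : Nc h z₁ z₂), ∀ f, e₁ f = H.cmp (e₂ f) := by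
  have π0 : π ≠ 0 := fun h => by simp [h, od_zero] at hπ
  obtain ⟨u, hu, ru, u0⟩ := vl_iff.1 (vl_zero.2 (od_pos_of hO (by rw [hπ]; exact zero_lt_one)))
  obtain ⟨v, hv, rv, v0, dv⟩ := od_eq_one.1 hπ
  obtain ⟨k, K', e1, -⟩ := Lo.exists_inv (⟨hv, dv, v0⟩ : Lo v z₂ 0)
  have tu : Tendsto u (𝓝 z₁) (𝓝 0) := u0 ▸ hu.continuousAt.tendsto
  have e2 : v ∘ (k ∘ u) =ᶠ[𝓝 z₁] u := e1.comp_tendsto tu
  have H : Nc (k ∘ u) z₁ z₂ := by
    refine ⟨(u0 ▸ K'.an).comp hu, fun hc => ?_, by rw [Function.comp_apply, u0, K'.eq]⟩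
    obtain ⟨c, hc⟩ := eventuallyConst_iff_exists_eventuallyEq.1 ((hc.comp v).congr e2)
    have : c = 0 := by rw [← u0, hc.eq_of_nhds]
    exact (map_ne_zero e₁).2 π0 (ru.eq_zero_iff.2 ((this ▸ hc).filter_mono nhdsWithin_le_nhds))
  refine ⟨_, H, fun f => ?_⟩
  have := hom_ext_of (e := H.cmp.toRingHom.comp e₂) (C := Set.range ι) hO
    (fun f hf => H.mem_cmp hf) (by
      rintro _ ⟨c, rfl⟩
      rw [c₁, RingHom.comp_apply, c₂]
      exact (H.cmp.commutes _).symm) (fun c => by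
      obtain ⟨c, rfl⟩ := hσ c
      exact ⟨_, ⟨c, rfl⟩, c₂ c⟩) hπ
    ((ru.eq_iff (rv.ncmp H)).2 (e2.symm.filter_mono nhdsWithin_le_nhds))
  exact DFunLike.congr_fun this f

/-- **MOB**: two realisations with the same valuation ring and the same Schwarzian equation differ
by a Moebius map -/
theorem mob_hom {e₁ : K →+* Mz z₁} {e₂ : K →+* Mz z₂} {ι : ℂ → K} {σ : ℂ → ℂ}
    (hσ : Function.Surjective σ) (c₁ : ∀ c, e₁ (ι c) = algebraMap ℂ _ (σ c))
    (c₂ : ∀ c, e₂ (ι c) = algebraMap ℂ _ (σ c)) (hO : ∀ f, e₁ f ∈ Oz z₁ ↔ e₂ f ∈ Oz z₂) {π : K}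
    (hπ : od (e₂ π) = 1) {s R : K} (hs : Mz.D z₂ (e₂ s) ≠ 0)
    (S₁ : Sw (Mz.D z₁) (e₁ s) = e₁ R * Mz.D z₁ (e₁ s) ^ 2)
    (S₂ : Sw (Mz.D z₂) (e₂ s) = e₂ R * Mz.D z₂ (e₂ s) ^ 2) :
    ∃ a b c d : ℂ, a * d - b * c ≠ 0 ∧ c * z₁ + d ≠ 0 ∧ ∃ H : Lo (mb a b c d) z₁ z₂,
      ∀ f, e₁ f = H.cmp (e₂ f) := by
  obtain ⟨h, H, e⟩ := exists_nc hσ c₁ c₂ hO hπ
  have S : Sw (Mz.D z₁) (gm z₁ h) = 0 := by
    rw [e, e, H.Sw_cmp hs, S₂, H.D_cmp, map_mul, map_pow] at S₁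
    linear_combination S₁
  obtain ⟨a, b, c, d, h1, h2, h3⟩ := mb_of_Sw (H.rp.mem_Oz H.an) H.D_ne S
  have h4 := H.rp.unique_an h3 H.an (mb_an h2)
  have L : Lo (mb a b c d) z₁ z₂ := by
    rw [← H.eq, h4.eq_of_nhds]
    exact mb_lo h1 h2
  refine ⟨a, b, c, d, h1, h2, L, fun f => ?_⟩
  rw [e]
  exact (((rp_out _).ncmp H).eq_iff ((rp_out _).cmp L)).2
    ((h4.filter_mono nhdsWithin_le_nhds).fun_comp _)

end

end Vale.Agent.P022K.Sh.Un
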