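import Vale.Agent.P022K.F0.UnA
import Vale.Agent.P022K.F0.Mob

/-!
# P022K, block F0, row UNIF: realisations as homomorphisms; the rows LRM, MOB, ROOT
-/

set_option autoImplicit false

open Filter Topology Metric Polynomial
open scoped MatrixGroups

noncomputable section

namespace Vale.Agent.P022K.Sh.Un

open Vale.Agent.P019P

section

variable {Ω : Type} [Field Ω] [Algebra ℂ Ω] {σ : ℂ ≃+* ℂ} {R : Ω → Ω}
  {K L : IntermediateField ℂ Ω} {z z₁ z₂ : ℂ} {E E' : Ω → ℂ → ℂ}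

theorem Rp.Sf {x : Mz z} {f : ℂ → ℂ} (e : Rp x f) : Rp (Un.Sw (Mz.D z) x) (Sf f) := e.Sw

theorem LR.rp_cst (h : LR σ R K z E) (c : ℂ) :
    Rp (algebraMap ℂ (Mz z) (σ c)) (E (algebraMap ℂ Ω c)) := (Un.rp_cst _).congr (h.cst c).symm

/-- the homomorphism of a local realisation -/
def LR.hom (h : LR σ R K z E) : K →+* Mz z where
  toFun f := gm z (E f)
  map_one' := by
    have := (h.rp_cst 1).gm_eq
    rwa [map_one, map_one, map_one] at this
  map_zero' := by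
    have := (h.rp_cst 0).gm_eq
    rwa [map_zero, map_zero, map_zero] at this
  map_add' f g := (((rp_gm (h.mero f f.2)).add (rp_gm (h.mero g g.2))).congr
    (h.add f f.2 g g.2).symm).gm_eq
  map_mul' f g := (((rp_gm (h.mero f f.2)).mul (rp_gm (h.mero g g.2))).congr
    (h.mul f f.2 g g.2).symm).gm_eq

theorem LR.rp (h : LR σ R K z E) (f : K) : Rp (h.hom f) (E f) := rp_gm (h.mero f f.2)

theorem LR.rp' (h : LR σ R K z E) {f : Ω} (hf : f ∈ K) : Rp (h.hom ⟨f, hf⟩) (E f) := h.rp ⟨f, hf⟩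

theorem LR.od (h : LR σ R K z E) (f : K) : od (h.hom f) = meromorphicOrderAt (E f) z := (h.rp f).od

theorem LR.hom_cst (h : LR σ R K z E) (c : ℂ) :
    h.hom (algebraMap ℂ K c) = algebraMap ℂ (Mz z) (σ c) := (h.rp _).eq (h.rp_cst c)

theorem LR.hom_sw (h : LR σ R K z E) (s : K) : Sw (Mz.D z) (h.hom s) =
    h.hom ⟨R s, h.mem s s.2⟩ * Mz.D z (h.hom s) ^ 2 :=
  ((h.rp s).Sf.eq_iff ((h.rp' (h.mem s s.2)).mul ((h.rp s).D.pow 2))).2 (h.sw s s.2)

/-- a local realisation from a homomorphism -/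
theorem LR.of_hom (e : K →+* Mz z) (hc : ∀ c, e (algebraMap ℂ K c) = algebraMap ℂ _ (σ c))
    (hR : ∀ s ∈ K, R s ∈ K)
    (hs : ∀ s : K, Sw (Mz.D z) (e s) = e ⟨R s, hR s s.2⟩ * Mz.D z (e s) ^ 2)
    (hE : ∀ f : K, Rp (e f) (E f)) : LR σ R K z E where
  mero f hf := (hE ⟨f, hf⟩).mero
  add f hf g hg := (hE (⟨f, hf⟩ + ⟨g, hg⟩)).unique (map_add e _ _ ▸ (hE ⟨f, hf⟩).add (hE ⟨g, hg⟩))
  mul f hf g hg := (hE (⟨f, hf⟩ * ⟨g, hg⟩)).unique (map_mul e _ _ ▸ (hE ⟨f, hf⟩).mul (hE ⟨g, hg⟩))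
  cst c := (hE (algebraMap ℂ K c)).unique (hc c ▸ Un.rp_cst _)
  mem := hR
  sw s h := (hE ⟨s, h⟩).Sf.unique (hs ⟨s, h⟩ ▸ (hE ⟨R s, hR s h⟩).mul ((hE ⟨s, h⟩).D.pow 2))

open Classical in
/-- representatives of the values of a homomorphism -/
def outE (e : K →+* Mz z) : Ω → ℂ → ℂ := fun f => if h : f ∈ K then (e ⟨f, h⟩).out else 0

theorem rp_outE (e : K →+* Mz z) (f : K) : Rp (e f) (outE e f) := by
  rw [outE, dif_pos f.2]
  exact rp_out _

theorem LR.congr (h : LR σ R K z E) (e : ∀ f ∈ K, E f =ᶠ[𝓝[≠] z] E' f) : LR σ R K z E' :=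
  LR.of_hom h.hom h.hom_cst h.mem h.hom_sw fun f => (h.rp f).congr (e f f.2)

theorem LR.mono (h : LR σ R L z E) (le : K ≤ L) (hR : ∀ s ∈ K, R s ∈ K) : LR σ R K z E :=
  ⟨fun f hf => h.mero f (le hf), fun f hf g hg => h.add f (le hf) g (le hg),
    fun f hf g hg => h.mul f (le hf) g (le hg), h.cst, hR, fun s hs => h.sw s (le hs)⟩

/-- a non constant element has a non zero derivative -/
theorem LR.D_ne (h : LR σ R K z E) {s : K} (hs : ∀ c, s ≠ algebraMap ℂ K c) :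
    Mz.D z (h.hom s) ≠ 0 := fun e => by
  obtain ⟨c, hc⟩ := D_eq_zero.1 e
  obtain ⟨c, rfl⟩ := σ.surjective c
  exact hs c (h.hom.injective (hc.trans (h.hom_cst c).symm))

theorem LR.inj (h : LR σ R K z E) {f g : Ω} (hf : f ∈ K) (hg : g ∈ K)
    (e : E f =ᶠ[𝓝[≠] z] E g) : f = g :=
  congrArg Subtype.val (h.hom.injective (((h.rp' hf).eq_iff (h.rp' hg)).2 e))

/-- change of coordinate by a local isomorphism with vanishing Schwarzian derivative -/
theorem LR.cmp {m : ℂ → ℂ} (h : LR σ R K z₂ E) (H : Lo m z₁ z₂)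
    (hS : Sw (Mz.D z₁) (gm z₁ m) = 0) : LR σ R K z₁ fun f => E f ∘ m := by
  refine LR.of_hom (H.cmp.toRingHom.comp h.hom) (fun c => ?_) h.mem (fun s => ?_)
    fun f => (h.rp f).cmp H
  · rw [RingHom.comp_apply, h.hom_cst]
    exact H.cmp.commutes _
  · show Sw _ (H.cmp (h.hom s)) = H.cmp (h.hom _) * Mz.D z₁ (H.cmp (h.hom s)) ^ 2
    rcases eq_or_ne (Mz.D z₂ (h.hom s)) 0 with e | e
    · simp [Sw, H.D_cmp, e]
    · rw [H.Sw_cmp e, hS, h.hom_sw, H.D_cmp, map_mul, map_pow]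
      ring

end

theorem mob_eq (M : GL (Fin 2) ℂ) : mob M = mb (M 0 0) (M 0 1) (M 1 0) (M 1 1) := rfl

theorem det_ne (M : GL (Fin 2) ℂ) : M 0 0 * M 1 1 - M 0 1 * M 1 0 ≠ 0 := by
  have := M.det.ne_zero
  rwa [Matrix.GeneralLinearGroup.val_det_apply, Matrix.det_fin_two] at this

/-- the matrix with given entries -/
def mat {a b c d : ℂ} (h : a * d - b * c ≠ 0) : GL (Fin 2) ℂ :=
  Matrix.GeneralLinearGroup.mkOfDetNeZero !![a, b; c, d] (by rwa [Matrix.det_fin_two_of])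

theorem mob_mat {a b c d : ℂ} (h : a * d - b * c ≠ 0) : mob (mat h) = mb a b c d := rfl

theorem den_mat {a b c d : ℂ} (h : a * d - b * c ≠ 0) (z : ℂ) : den (mat h) z = c * z + d := rfl

theorem lo_mob {M : GL (Fin 2) ℂ} {z : ℂ} (h : den M z ≠ 0) : Lo (mob M) z (mob M z) :=
  mb_lo (det_ne M) h

theorem Sw_gmob (M : GL (Fin 2) ℂ) (z : ℂ) : Sw (Mz.D z) (gm z (mob M)) = 0 := Sw_mb _ _ _ _

theorem den_ev {M : GL (Fin 2) ℂ} {z : ℂ} (h : den M z ≠ 0) : ∀ᶠ w in 𝓝 z, den M w ≠ 0 :=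
  (show ContinuousAt (den M) z by unfold den; fun_prop).eventually_ne h

theorem den_mul (M N : GL (Fin 2) ℂ) {z : ℂ} (h : den N z ≠ 0) :
    den (M * N) z = den M (mob N z) * den N z := by
  simp only [mob, den, Units.val_mul, Matrix.mul_apply, Fin.sum_univ_two] at h ⊢
  field_simp
  ring

theorem mob_mul (M N : GL (Fin 2) ℂ) {z : ℂ} (h : den N z ≠ 0) :
    mob (M * N) z = mob M (mob N z) := by
  have e : (M * N) 0 0 * z + (M * N) 0 1 = (M 0 0 * mob N z + M 0 1) * den N z := by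
    simp only [mob, den, Units.val_mul, Matrix.mul_apply, Fin.sum_univ_two] at h ⊢
    field_simp
    ring
  rw [mob, e, den_mul M N h, mul_div_mul_right _ _ h]
  rfl

theorem den_one (z : ℂ) : den 1 z = 1 := by simp [den]

theorem mob_one (z : ℂ) : mob 1 z = z := by simp [mob, den]

theorem den_inv {M : GL (Fin 2) ℂ} {z : ℂ} (h : den M z ≠ 0) : den M⁻¹ (mob M z) ≠ 0 := by
  have := den_mul M⁻¹ M h
  rw [inv_mul_cancel, den_one] at this
  exact left_ne_zero_of_mul (this ▸ one_ne_zero)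

theorem mob_inv_mob {M : GL (Fin 2) ℂ} {z : ℂ} (h : den M z ≠ 0) : mob M⁻¹ (mob M z) = z := by
  rw [← mob_mul _ _ h, inv_mul_cancel, mob_one]

theorem mob_mob_inv {M : GL (Fin 2) ℂ} {z : ℂ} (h : den M⁻¹ z ≠ 0) : mob M (mob M⁻¹ z) = z := by
  rw [← mob_mul _ _ h, mul_inv_cancel, mob_one]

theorem den_inv' {M : GL (Fin 2) ℂ} {z : ℂ} (h : den M⁻¹ z ≠ 0) : den M (mob M⁻¹ z) ≠ 0 := by
  simpa using den_inv h

/-- **LRM** -/
theorem lrm_row : LRM := fun _ _ _ _ _ _ M z _ hd h => h.cmp (lo_mob hd) (Sw_gmob M z)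

/-- **MOB** -/
theorem mob_row : MOB := by
  rintro Ω _ _ σ R K z₁ E₁ z₂ E₂ h₁ h₂ hO ⟨p, hp, o⟩
  have o' : od (h₂.hom ⟨p, hp⟩) = 1 := (h₂.od _).trans o
  obtain ⟨a, b, c, d, hd, h0, H, e⟩ := mob_hom (e₁ := h₁.hom) (e₂ := h₂.hom)
    (ι := algebraMap ℂ K) σ.surjective h₁.hom_cst h₂.hom_cst
    (fun f => by rw [mem_Oz, mem_Oz, h₁.od, h₂.od]; exact hO f f.2) o' (s := ⟨p, hp⟩)
    (fun e => by simpa [e, od_zero] using od_D (n := 1) one_ne_zero o') (h₁.hom_sw _) (h₂.hom_sw _)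
  exact ⟨mat hd, h0, H.eq, fun f hf => ((h₁.rp' hf).eq_iff ((h₂.rp' hf).cmp H)).1 (e _)⟩

section

variable {Ω : Type} [Field Ω] [Algebra ℂ Ω] {K L : IntermediateField ℂ Ω}

/-- a split polynomial, read in `L` -/
theorem split_in (le : K ≤ L) {P : K[X]} {s : Multiset Ω} (hs : ∀ a ∈ s, a ∈ L)
    (e : P.map (algebraMap K Ω) = (s.map fun a => X - C a).prod) :
    ∃ t : Multiset L, t.map Subtype.val = s ∧
      P.map (IntermediateField.inclusion le).toRingHom = (t.map fun a => X - C a).prod := by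
  refine ⟨s.pmap Subtype.mk hs, by simp [Multiset.map_pmap, Multiset.pmap_eq_map], ?_⟩
  apply Polynomial.map_injective (algebraMap L Ω) (algebraMap L Ω).injective
  rw [Polynomial.map_map, Polynomial.map_multiset_prod, Multiset.map_map]
  refine (show _ = _ from e).trans ?_
  congr 1
  simp [Multiset.map_pmap, Multiset.pmap_eq_map]

/-- two homomorphisms that agree on `K` have the same image -/
theorem root_hom {A : Type*} [Field A] (le : K ≤ L) {P : K[X]} {s : Multiset Ω}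
    (hs : ∀ a ∈ s, a ∈ L) (e : P.map (algebraMap K Ω) = (s.map fun a => X - C a).prod)
    (e₁ e₂ : L →+* A) (h : ∀ f : K, e₁ ⟨f, le f.2⟩ = e₂ ⟨f, le f.2⟩) {f : L} (hf : f.1 ∈ s) :
    ∃ f' : L, f'.1 ∈ s ∧ e₁ f = e₂ f' := by
  obtain ⟨t, rfl, ht⟩ := split_in le hs e
  have c : e₁.comp (IntermediateField.inclusion le).toRingHom =
      e₂.comp (IntermediateField.inclusion le).toRingHom := RingHom.ext h
  have k : ∀ e : L →+* A, (P.map (e.comp (IntermediateField.inclusion le).toRingHom)).eval (e₁ f)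
      = (t.map fun a => e₁ f - e a).prod := fun e => by
    rw [← Polynomial.map_map, ht, Polynomial.map_multiset_prod, Polynomial.eval_multiset_prod,
      Multiset.map_map, Multiset.map_map]
    simp
  have ft : f ∈ t := (Multiset.mem_map_of_injective Subtype.val_injective).1 hf
  have z : (t.map fun a => e₁ f - e₂ a).prod = 0 := by
    rw [← k, ← c, k, Multiset.prod_eq_zero_iff]
    exact Multiset.mem_map.2 ⟨f, ft, sub_self _⟩
  obtain ⟨a, ha, e0⟩ := Multiset.mem_map.1 (Multiset.prod_eq_zero_iff.1 z)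
  exact ⟨a, Multiset.mem_map_of_mem _ ha, sub_eq_zero.1 e0⟩

end

/-- **ROOT** -/
theorem root_row : ROOT := by
  intro Ω _ _ σ R K L _ lv z E₁ E₂ h₁ h₂ e f hf
  obtain ⟨P, s, hs, fs, hP⟩ := lv.nm f hf
  obtain ⟨f', -, e'⟩ := root_hom lv.le hs hP h₁.hom h₂.hom
    (fun g => ((h₁.rp _).eq_iff (h₂.rp _)).2 (e g g.2)) (f := ⟨f, hf⟩) fs
  exact ⟨f', f'.2, ((h₁.rp _).eq_iff (h₂.rp _)).1 e'⟩

end Vale.Agent.P022K.Sh.Un
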