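import Vale.Agent.P022K.F0.UnD
import Vale.Agent.P022K.F0.UnMob
import Vale.Agent.P022K.F0.ModaA

/-!
# P022K, block F0, row UNIF: the tautological realisation; the rows NRM, LV, ROT (helper63)
-/

set_option autoImplicit false
set_option linter.unusedSectionVars false

open UpperHalfPlane Filter Topology Polynomial
open scoped MatrixGroups ComplexConjugate

noncomputable section

namespace Vale.Agent.P022K.Sh.Ut

open Vale.Agent.P022.H218.L3 Vale.Agent.P019P Vale.Agent.P022K.F0.Cf Tw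
open Un (Mz Rp gm Lo Sw LR mob den mat)

/-- the function on `ℂ` of a meromorphic function on `ℍ` -/
def tE (f : Mer) : ℂ → ℂ := fun z => F0.Cf.ev (ofComplex z) f

theorem tE_coe (f : Mer) (τ : ℍ) : tE f τ = F0.Cf.ev τ f := by rw [tE, ofComplex_apply]

theorem evn {τ : ℍ} {p : ℂ → Prop} (h : ∀ᶠ σ : ℍ in 𝓝 τ, σ ≠ τ → p σ) :
    ∀ᶠ z in 𝓝[≠] (τ : ℂ), p z :=
  eventually_nhdsWithin_iff.2 (ev_coe.2 (h.mono fun _ hσ e => hσ fun e' => e (by rw [e']; rfl)))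

theorem ev_ne (τ : ℍ) {h : Hol} (h0 : h ≠ 0) : ∀ᶠ σ : ℍ in 𝓝 τ, σ ≠ τ → h.1 σ ≠ 0 := by
  obtain ⟨m, u, hu, rfl⟩ := ex_fac τ h0
  filter_upwards [(cont u).continuousAt.eventually_ne hu] with σ h1 h2
  exact mul_ne_zero (pow_ne_zero m (tz_ne h2)) h1

theorem ev_reg (τ : ℍ) (f : Mer) : ∀ᶠ σ : ℍ in 𝓝 τ, σ ≠ τ → Reg σ f := by
  obtain ⟨g, h, h0, e⟩ := ex_frac f
  filter_upwards [ev_ne τ h0] with σ h1 h2 using ⟨g, h, h1 h2, e⟩

theorem mero_tE (τ : ℍ) (f : Mer) : MeromorphicAt (tE f) τ := by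
  obtain ⟨g, h, h0, e⟩ := ex_frac f
  refine ((an g τ).meromorphicAt.div (an h τ).meromorphicAt).congr (evn ?_)
  filter_upwards [ev_ne τ h0] with σ h1 h2
  simp only [Pi.div_apply, Function.comp_apply, ofComplex_apply, tE_coe, ev_eq (h1 h2) e]

theorem tE_loc {τ : ℍ} {f : Mer} {g h : Hol} (h0 : h.1 τ ≠ 0) (e : f * jm h = jm g) :
    tE f =ᶠ[𝓝 (τ : ℂ)] (g.1 ∘ ofComplex) / (h.1 ∘ ofComplex) := ev_coe.2 (by
  filter_upwards [(cont h).continuousAt.eventually_ne h0] with σ h1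
  simp only [Pi.div_apply, Function.comp_apply, ofComplex_apply, tE_coe, ev_eq h1 e])

theorem an_tE {τ : ℍ} {f : Mer} (h : Reg τ f) : AnalyticAt ℂ (tE f) τ := by
  obtain ⟨g, h, h0, e⟩ := h
  exact ((an g τ).div (an h τ) (by simpa using h0)).congr (tE_loc h0 e).symm

theorem deriv_tE {τ : ℍ} {f : Mer} (h : Reg τ f) : deriv (tE f) τ = F0.Cf.ev τ (DM f) := by
  obtain ⟨g, h, h0, e⟩ := h
  rw [(tE_loc h0 e).deriv_eq, ((hasD g τ).div (hasD h τ) (by simpa using h0)).deriv,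
    ev_eq (h := h * h) (mul_ne_zero h0 h0) (DM_frac e)]
  simp only [Function.comp_apply, ofComplex_apply]
  show _ = (h.1 τ * (dH g).1 τ - g.1 τ * (dH h).1 τ) / (h.1 τ * h.1 τ)
  ring

/-- the germ at `τ` -/
def ofM (τ : ℍ) : Mer →ₐ[ℂ] Mz τ where
  toFun f := gm τ (tE f)
  map_one' := (Un.rp_one.congr (evn (Eventually.of_forall fun σ _ => by
    simpa [tE_coe] using (ev_const σ 1).symm))).gm_eq
  map_zero' := (Un.rp_zero.congr (evn (Eventually.of_forall fun σ _ => by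
    simp [tE_coe, ev_zero]))).gm_eq
  map_mul' f g := (((Un.rp_gm (mero_tE τ f)).mul (Un.rp_gm (mero_tE τ g))).congr (evn (by
    filter_upwards [ev_reg τ f, ev_reg τ g] with σ h1 h2 e
    rw [Pi.mul_apply, tE_coe, tE_coe, tE_coe, ev_mul (h1 e) (h2 e)]))).gm_eq
  map_add' f g := (((Un.rp_gm (mero_tE τ f)).add (Un.rp_gm (mero_tE τ g))).congr (evn (by
    filter_upwards [ev_reg τ f, ev_reg τ g] with σ h1 h2 e
    rw [Pi.add_apply, tE_coe, tE_coe, tE_coe, ev_add (h1 e) (h2 e)]))).gm_eq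
  commutes' c := ((Un.rp_cst c).congr (evn (Eventually.of_forall fun σ _ => by
    rw [tE_coe, ev_const]))).gm_eq

theorem rp_ofM (τ : ℍ) (f : Mer) : Rp (ofM τ f) (tE f) := Un.rp_gm (mero_tE τ f)

theorem D_ofM (τ : ℍ) (f : Mer) : Mz.D τ (ofM τ f) = ofM τ (DM f) :=
  ((rp_ofM τ f).D.eq_iff (rp_ofM τ _)).2 (evn (by
    filter_upwards [ev_reg τ f] with σ h e
    rw [deriv_tE (h e), tE_coe]))

theorem od_ofM (τ : ℍ) {f : Mer} (hf : f ≠ 0) : Un.od (ofM τ f) = (od τ f : ℤ) := by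
  obtain ⟨g, h, g0, h0, e⟩ := isOd τ hf
  have k : ∀ u : Hol, u.1 τ ≠ 0 → Un.od (ofM τ (jm u)) = 0 := fun u hu => by
    rw [(rp_ofM τ _).od, (an_tE (reg_jm τ u)).meromorphicOrderAt_eq,
      analyticOrderAt_eq_zero.2 (.inr (by rwa [tE_coe, ev_jm]))]
    rfl
  have h1 : ofM τ (jm (tz τ)) = Un.tz τ := ((rp_ofM τ _).eq_iff Un.rp_tz).2
    (evn (Eventually.of_forall fun σ _ => by rw [tE_coe, ev_jm, tz_val]))
  have h2 := congrArg (fun y => Un.od (ofM τ y)) e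
  simp only [map_mul, map_zpow₀, Un.od_mul, k g g0, k h h0, h1, Un.od_zpow, Un.od_tz, add_zero,
    mul_one] at h2
  exact h2

theorem ord_tE (τ : ℍ) {f : Mer} (hf : f ≠ 0) : meromorphicOrderAt (tE f) τ = (od τ f : ℤ) :=
  (rp_ofM τ f).od.symm.trans (od_ofM τ hf)

theorem od_ofM_nonneg {τ : ℍ} {f : Mer} (h : Reg τ f) : 0 ≤ Un.od (ofM τ f) :=
  (rp_ofM τ f).mem_Oz (an_tE h)

/-! ### the Schwarzian invariant -/

theorem cz : CharZero Mer := charZero_of_injective_algebraMap (algebraMap ℂ Mer).injective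

theorem Sw_eq (s : Mer) : Sw DM s = Rs s * DM s ^ 2 := by
  by_cases h : DM s = 0
  · simp [Sw, h]
  · exact (div_mul_cancel₀ _ (pow_ne_zero 2 h)).symm

section

variable {G : Type*} [Group G] [MulAction G ℍ] [Mo G]

theorem Sw_mv (g : G) : Sw DM (jm (mv g)) = 0 := by
  have := cz
  obtain ⟨s, hs⟩ := Mo.ex g
  obtain ⟨t, ht⟩ : ∃ t : Hol, ∀ τ : ℍ, t.1 τ = τ := ⟨⟨_, mdifferentiable_coe⟩, fun _ => rfl⟩
  have h1 : DM (jm t) = 1 := by
    rw [DM_jm, show dH t = 1 from Subtype.ext (funext fun τ =>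
      dH_eq (hasDerivAt_id (τ : ℂ)) (Eventually.of_forall ht)), jm, map_one]
  have k : ∀ a b : ℂ, algebraMap ℂ Mer a * jm t + algebraMap ℂ Mer b =
      jm (algebraMap ℂ Hol a * t + algebraMap ℂ Hol b) := fun a b => by
    rw [jm, jm, map_add, map_mul]
    exact congrArg₂ (· + ·) (congrArg (· * _) (jm_const a).symm) (jm_const b).symm
  have h2 : ∀ τ : ℍ, (algebraMap ℂ Hol (s 1 0 : ℝ) * t + algebraMap ℂ Hol (s 1 1 : ℝ)).1 τ ≠ 0 :=
    fun τ => by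
      show ((s 1 0 : ℝ) : ℂ) * t.1 τ + (s 1 1 : ℝ) ≠ 0
      rw [ht]
      exact denom_ne_zero (s : GL (Fin 2) ℝ) τ
  have h3 := (Un.Sw_mob DM h1 (DM.map_algebraMap (s 0 0 : ℝ)) (DM.map_algebraMap (s 0 1 : ℝ))
    (DM.map_algebraMap (s 1 0 : ℝ)) (DM.map_algebraMap (s 1 1 : ℝ))
    (by rw [k]; exact jm_ne' (h2 I))).2
  rw [k, k] at h3
  rw [← h3]
  congr 1
  rw [eq_div_iff (jm_ne' (h2 I)), ← map_mul]
  congr 1
  refine Subtype.ext (funext fun τ => ?_)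
  show ((g • τ : ℍ) : ℂ) * _ = ((s 0 0 : ℝ) : ℂ) * t.1 τ + (s 0 1 : ℝ)
  rw [← eq_div_iff (h2 τ), hs, coe_specialLinearGroup_apply]
  show _ = _ / (((s 1 0 : ℝ) : ℂ) * t.1 τ + (s 1 1 : ℝ))
  rw [ht]
  rfl

theorem Rs_ac (g : G) (s : Mer) : Rs (ac g s) = ac g (Rs s) := by
  have := cz
  by_cases h : DM s = 0
  · simp [Rs, DM_ac, h]
  · have h1 := Un.Sw_chain DM DM (ac g).toRingEquiv.toRingHom (h := jm (mv g⁻¹))
      (by rw [DM_jm]; exact jdr_ne g⁻¹) (fun x => by rw [DM_jm]; exact DM_ac g x) h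
    rw [Sw_mv, add_zero, Sw_eq, Sw_eq, DM_jm] at h1
    have h2 : Rs (ac g s) * DM (ac g s) ^ 2 = ac g (Rs s * DM s ^ 2) * jm (dr g⁻¹) ^ 2 := h1
    rw [DM_ac, map_mul, map_pow, mul_pow, mul_assoc] at h2
    exact mul_right_cancel₀ (mul_ne_zero (pow_ne_zero 2 ((_root_.map_ne_zero _).2 h))
      (pow_ne_zero 2 (jdr_ne g⁻¹))) h2

end

theorem lr_tE {K : IntermediateField ℂ Mer} (hK : ∀ s ∈ K, Rs s ∈ K) (τ : ℍ) :
    LR (RingEquiv.refl ℂ) Rs K τ tE :=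
  LR.of_hom ((ofM τ).toRingHom.comp K.val.toRingHom) (fun c => (ofM τ).commutes c) hK
    (fun s => by
      have := Un.Sw_map DM (Mz.D τ) (ofM τ).toRingHom (D_ofM τ) s
      rw [Sw_eq, map_mul, map_pow] at this
      exact this.trans (congrArg (fun y => _ * y ^ 2) (D_ofM τ s).symm))
    fun f => rp_ofM τ f

/-! ### the Cayley chart -/

theorem cay_det (τ : ℍ) : -conj (τ : ℂ) * 1 - τ * (-1) ≠ 0 := by
  have := den_ne τ τ
  rwa [mul_one, mul_neg_one, sub_neg_eq_add, neg_add_eq_sub]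

/-- the chart `w ↦ (τ - conj τ w) / (1 - w)` -/
def cay (τ : ℍ) : ℂ → ℂ := mob (mat (cay_det τ))

theorem cay_eq (τ : ℍ) (w : ℂ) : cay τ w = (-conj (τ : ℂ) * w + τ) / (-1 * w + 1) := rfl

theorem lo_cay (τ : ℍ) : Lo (cay τ) 0 τ := by
  have h := Un.lo_mob (M := mat (cay_det τ)) (z := 0) (by simp [Un.den_mat])
  rwa [show mob (mat (cay_det τ)) 0 = τ from (cay_eq τ 0).trans (by simp)] at h

theorem cay_rot {g : GL (Fin 2) ℝ} (hg : 0 < g.det.val) {τ σ : ℍ} (h : g • τ = τ) {w : ℂ}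
    (hw : -1 * w + 1 ≠ 0) (e : (σ : ℂ) = cay τ w) :
    ((g • σ : ℍ) : ℂ) = cay τ ((g.det.val : ℂ) / denom g τ ^ 2 * w) := by
  have h1 := congrArg (fun z : ℍ => (z : ℂ)) h
  have hd := denom_ne_zero g τ
  have hσ := denom_ne_zero g σ
  simp only [coe_smul_of_det_pos hg, div_eq_iff hd] at h1
  rw [coe_smul_of_det_pos hg, cay_eq, Matrix.GeneralLinearGroup.val_det_apply, Matrix.det_fin_two]
  rw [cay_eq, eq_div_iff hw] at e
  have h2 := congrArg conj h1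
  simp only [num, denom, map_add, map_mul, Complex.conj_ofReal] at h1 h2 hd hσ ⊢
  have ht := den_ne τ τ
  push_cast
  generalize ((g 0 0 : ℝ) : ℂ) = a at *
  generalize ((g 0 1 : ℝ) : ℂ) = b at *
  generalize ((g 1 0 : ℝ) : ℂ) = c at *
  generalize ((g 1 1 : ℝ) : ℂ) = d at *
  generalize conj (τ : ℂ) = u at *
  generalize (τ : ℂ) = t at *
  generalize (σ : ℂ) = z at *
  have h3 : a = c * (t + u) + d := mul_left_cancel₀ ht (by linear_combination h1 - h2)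
  have h4 : a * d - b * c = (c * t + d) * (c * u + d) := by
    linear_combination (d + c * t) * h3 - c * h1
  have h5 : (c * z + d) * (-1 * w + 1) = c * t + d - (c * u + d) * w := by linear_combination c * e
  have h6 : -1 * ((c * t + d) * (c * u + d) / (c * t + d) ^ 2 * w) + 1 =
      (c * z + d) * (-1 * w + 1) / (c * t + d) := by
    rw [h5]
    field_simp
    ring
  rw [h4, h6, div_eq_div_iff hσ (div_ne_zero (mul_ne_zero hσ hw) hd)]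
  field_simp
  linear_combination (c * z + d) * (a * e + h1 - w * h2)

/-- the tautological realisation in the chart at `τ` -/
def cE (τ : ℍ) : Mer → ℂ → ℂ := fun f => tE f ∘ cay τ

theorem lr_cE {K : IntermediateField ℂ Mer} (hK : ∀ s ∈ K, Rs s ∈ K) (τ : ℍ) :
    LR (RingEquiv.refl ℂ) Rs K 0 (cE τ) := (lr_tE hK τ).cmp (lo_cay τ) (Un.Sw_gmob _ 0)

theorem rp_cE (τ : ℍ) (f : Mer) : Rp ((lo_cay τ).cmp (ofM τ f)) (cE τ f) :=
  (rp_ofM τ f).cmp (lo_cay τ)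

theorem ord_cE (τ : ℍ) {f : Mer} (hf : f ≠ 0) : meromorphicOrderAt (cE τ f) 0 = (od τ f : ℤ) := by
  rw [← (rp_cE τ f).od, (lo_cay τ).od_cmp, od_ofM τ hf]

theorem ord_form (τ : ℍ) {a s : Mer} {k : ℕ} (h : Reg τ (a * DM s ^ k)) :
    0 ≤ meromorphicOrderAt (cE τ a * deriv (cE τ s) ^ k) 0 := by
  rw [← ((rp_cE τ a).mul ((rp_cE τ s).D.pow k)).od, (lo_cay τ).D_cmp, D_ofM, mul_pow, ← mul_assoc,
    ← map_pow, ← map_mul, ← map_pow, ← map_mul, Un.od_mul, Un.od_pow, (lo_cay τ).od_D,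
    (lo_cay τ).od_cmp]
  simpa using od_ofM_nonneg h

theorem rot_cE {g : GP} {τ : ℍ} (h : g • τ = τ) (f : Mer) : cE τ (ac g⁻¹ f) =ᶠ[𝓝[≠] 0] fun w =>
    cE τ f (((g : GL (Fin 2) ℝ).det.val : ℂ) / denom (g : GL (Fin 2) ℝ) τ ^ 2 * w) := by
  have h1 : ∀ᶠ w : ℂ in 𝓝 0, -1 * w + 1 ≠ 0 :=
    (show ContinuousAt (fun w : ℂ => -1 * w + 1) 0 by fun_prop).eventually_ne (by simp)
  have h2 : ∀ᶠ w : ℂ in 𝓝 0, 0 < (cay τ w).im :=
    (lo_cay τ).tendsto'.eventually (isOpen_upperHalfPlaneSet.mem_nhds τ.im_pos)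
  filter_upwards [nhdsWithin_le_nhds h1, nhdsWithin_le_nhds h2] with w h3 h4
  show tE _ ((⟨_, h4⟩ : ℍ) : ℂ) = tE f (cay τ _)
  rw [← cay_rot g.2 (σ := ⟨_, h4⟩) h h3 rfl, tE_coe, tE_coe, ← ev_ac _ f g⁻¹]
  exact congrArg (fun z => F0.Cf.ev z _) (inv_smul_smul g _).symm

/-! ### the rows -/

theorem ex_rel {k F : Type*} [Field k] [Field F] [Algebra k F] [CFF k F] {t : F}
    (ht : ∀ c, t ≠ algebraMap k F c) (f : F) :
    ∃ P : k[X][X], P ≠ 0 ∧ P.eval₂ (aeval t).toRingHom f = 0 := by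
  obtain ⟨h1, h2⟩ := finite_of_notMem ht
  obtain ⟨φ, ⟨i, hi⟩, h3⟩ := exists_rel h1 (y := fun i : Fin (Module.finrank
      (IntermediateField.adjoin k {t}) F + 1) => f ^ (i : ℕ)) fun h => by
    simpa using h.fintype_card_le_finrank
  refine ⟨∑ i : Fin _, monomial (i : ℕ) (φ i), fun e => hi ?_, by
    rw [eval₂_finsetSum, ← h3]
    exact Finset.sum_congr rfl fun i _ => eval₂_monomial _ _⟩
  have := congrArg (fun P => P.coeff i) e
  simp only [finsetSum_coeff, coeff_monomial, Fin.val_inj, Finset.sum_ite_eq', Finset.mem_univ,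
    if_true, coeff_zero] at this
  rw [this, coeff_zero]

theorem ex_poly {k E : Type*} [Field k] [Field E] [Algebra k E] (K : IntermediateField k E)
    (S : Finset E) (A : Set (E ≃ₐ[k] E)) (hK : ∀ y, (∀ g ∈ A, g y = y) → y ∈ K)
    (hS : ∀ g ∈ A, ∀ a, a ∈ S ↔ g a ∈ S) :
    ∃ P : K[X], P.map (algebraMap K E) = (S.1.map fun a => X - C a).prod := by
  have h1 : ∏ a ∈ S, (X - C a) ∈ lifts (algebraMap K E) := by
    refine (lifts_iff_coeff_lifts _).2 fun n => ⟨⟨_, hK _ fun g hg => ?_⟩, rfl⟩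
    have h2 : (∏ a ∈ S, (X - C a)).map (g : E →+* E) = ∏ a ∈ S, (X - C a) := by
      rw [Polynomial.map_prod]
      exact Finset.prod_equiv g.toEquiv (hS g hg) fun a _ => by simp
    exact (coeff_map (g : E →+* E) n).symm.trans (congrArg (coeff · n) h2)
  exact (mem_lifts _).1 h1

variable {G0 G : Type} [Group G0] [Group G] {T : Tw G0 G}

theorem mem_KF' {Γ : Subgroup G0} {f : Mer} : f ∈ T.KF Γ ↔ f ∈ F0.Cf.KF (Γ.map T.rho) := by
  rw [T.KF_eq]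

theorem act_ac (γ : G0) (f : Mer) : T.act γ f = ac (T.r γ) f := rfl

theorem Rs_KF {Γ : Subgroup G0} : ∀ s ∈ T.KF Γ, Rs s ∈ T.KF Γ := fun s hs =>
  T.mem_KF.2 fun γ hγ => by rw [act_ac, ← Rs_ac, ← act_ac, T.mem_KF.1 hs γ hγ]

theorem Rs_LU (ok : T.Ok) : ∀ s ∈ T.LU, Rs s ∈ T.LU := fun s hs => by
  obtain ⟨U, hU, h⟩ := (mem_LU ok).1 hs
  exact KU_le hU (Rs_KF s h)

theorem nrm (ok : T.Ok) : T.NRM := fun U hU f hf => by
  classical
  obtain ⟨U', hU', h⟩ := (mem_LU ok).1 hf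
  have := Subgroup.index_ne_zero_iff_finite.1 (ok.fi U' hU' U hU)
  have m : ∀ γ : T.Gam U 1, T.j γ ∈ U := fun γ => by simpa using T.mem_Gam.1 γ.2
  have hS : (Set.range fun γ : T.Gam U 1 => T.act γ f).Finite :=
    Md.fin_range (g := fun γ : T.Gam U 1 => ((⟨_, m γ⟩ : U) : U ⧸ U'.subgroupOf U))
      (Set.toFinite _) fun γ δ e => by
        have h1 : (γ : G0)⁻¹ * δ ∈ T.Gam U' 1 := T.mem_Gam.2 (by
          simpa using Subgroup.mem_subgroupOf.1 (QuotientGroup.eq.1 e))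
        show T.act γ f = T.act δ f
        rw [← T.mem_KF.1 h _ h1, ← act_mul, mul_inv_cancel_left, T.mem_KF.1 h _ h1]
  obtain ⟨P, hP⟩ := ex_poly (T.K1 U) hS.toFinset (T.act '' (T.Gam U 1 : Set G0))
    (fun y hy => T.mem_KF.2 fun γ hγ => hy _ ⟨γ, hγ, rfl⟩) (by
      rintro _ ⟨γ, hγ, rfl⟩ a
      simp only [Set.Finite.mem_toFinset]
      constructor
      · rintro ⟨δ, rfl⟩
        exact ⟨⟨γ * δ, mul_mem hγ δ.2⟩, act_mul γ δ f⟩
      · rintro ⟨δ, e⟩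
        have h1 := act_mul (T := T) γ (γ⁻¹ * δ) f
        rw [mul_inv_cancel_left] at h1
        exact ⟨⟨γ⁻¹ * δ, mul_mem (inv_mem hγ) δ.2⟩, (T.act γ).injective (h1.symm.trans e)⟩)
  refine ⟨P, hS.toFinset.1, fun a ha => ?_, hS.mem_toFinset.2 ⟨1, act_one f⟩, hP⟩
  obtain ⟨γ, e⟩ := hS.mem_toFinset.1 ha
  exact ⟨γ, γ.2, e.symm⟩

theorem ex_par (ok : T.Ok) (τ : ℍ) : ∃ t ∈ T.LU, meromorphicOrderAt (cE τ t) 0 = 1 ∧
    ∀ f ∈ T.LU, ∃ P : ℂ[X][X], P ≠ 0 ∧ P.eval₂ (aeval t).toRingHom f = 0 := by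
  obtain ⟨U, hU, hn⟩ := ok.neat
  obtain ⟨t, h1, h2⟩ := ((hn.fr 1).gen τ).ex_one (ok.fu U hU 1).cf
  rw [← T.KF_eq] at h1
  refine ⟨t, KU_le hU h1, ?_, fun f hf => ?_⟩
  · rw [ord_cE τ fun e => by simp [e, od_zero] at h2, h2]
    rfl
  · obtain ⟨U', hU', h⟩ := (mem_LU ok).1 hf
    obtain ⟨_, -⟩ := T.cf _ (ok.fu _ (ok.inf U hU U' hU') 1)
    obtain ⟨P, h3, h4⟩ := ex_rel (k := ℂ) (t := (⟨t, KU_anti inf_le_left h1⟩ : T.K1 (U ⊓ U')))
      (fun c e => by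
        rw [show t = algebraMap ℂ Mer c from congrArg Subtype.val e, od_const] at h2
        exact zero_ne_one h2) ⟨f, KU_anti inf_le_right h⟩
    refine ⟨P, h3, ?_⟩
    have h5 := congrArg (T.K1 (U ⊓ U')).val.toRingHom h4
    rw [map_zero, hom_eval₂] at h5
    refine Eq.trans (congrArg (fun φ => P.eval₂ φ f) (RingHom.ext fun p => ?_)) h5
    exact (aeval_algHom_apply (T.K1 (U ⊓ U')).val ⟨t, KU_anti inf_le_left h1⟩ p)

theorem rot (sig : Un.SIG) (ok : T.Ok) : T.ROT := fun σ τ => by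
  obtain ⟨E, h1, -, -, h2⟩ := sig Mer σ Rs _ _ (lr_cE (Rs_LU ok) τ) (ex_par ok τ)
  refine ⟨E, h1, fun γ hγ f hf => ⟨_, act_LU ok hf γ⁻¹, h2 _ ?_ f hf _ (act_LU ok hf γ⁻¹) ?_⟩⟩
  · rw [← T.dr_rho]
    exact dr_ne _ τ
  · rw [act_ac, map_inv]
    exact rot_cE hγ f

theorem lv (sig : Un.SIG) (foc : Un.FOC) (ok : T.Ok) : T.LV := fun σ U hU hn _ pt hp => by
  have ch : ∀ y : Plk ℂ (T.K1 U), ∃ E, LR σ Rs T.LU 0 E ∧ Un.Pl (T.K1 U) 0 E y ∧
      ∀ a ∈ T.LU, ∀ s ∈ T.LU, ∀ k : ℕ, (∀ τ, Reg τ (a * DM s ^ k)) →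
        0 ≤ meromorphicOrderAt (E a * deriv (E s) ^ k) 0 := fun y => by
    obtain ⟨τ, rfl⟩ := hp.onto y
    obtain ⟨E, h1, h2, h3, -⟩ := sig Mer σ Rs _ _ (lr_cE (Rs_LU ok) τ) (ex_par ok τ)
    refine ⟨E, h1, fun f f0 => ?_, fun a ha s hs k h => h3 a ha s hs k ▸ ord_form τ (h τ)⟩
    obtain ⟨h4, h5⟩ := mord_iff.1 (hp.ord (hn.fr 1) τ f f0)
    rw [h2 f (KU_le hU f.2), ord_cE τ h4, h5]
  have l0 : Un.Lv0 σ Rs (T.K1 U) T.LU :=
    { le := KU_le hU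
      mem := Rs_KF
      ch := fun y => (ch y).imp fun _ h => ⟨h.1, h.2.1⟩
      nm := fun f hf => by
        obtain ⟨P, s, h1, h2⟩ := nrm ok U hU f hf
        refine ⟨P, s, fun a ha => ?_, h2⟩
        obtain ⟨γ, -, rfl⟩ := h1 a ha
        exact act_LU ok hf γ }
  have hF := (ok.fu U hU 1).cf
  obtain ⟨s, hs, h1⟩ := hF.ex_zero I
  have s0 := (isOd_D h1.ne').ne
  have hs' : s ∈ T.K1 U := mem_KF'.2 hs
  have fo : ∀ (k : ℕ) (F : Hol), F0.Cf.MF ((T.Gam U 1).map T.rho) k (jm F) →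
      jm F / DM s ^ k ∈ T.K1 U ∧ Un.Fo σ Rs (T.K1 U) k (jm F / DM s ^ k) s := fun k F h => by
    have m : jm F / DM s ^ k ∈ T.K1 U :=
      mem_KF'.2 (h.div_mem (by simpa using (mf_D hs).pow k))
    refine ⟨m, foc Mer σ Rs _ _ l0 k _ m s hs' fun y => ?_⟩
    obtain ⟨E, h2, h3, h4⟩ := ch y
    refine ⟨E, h2.mono l0.le Rs_KF, h3, h4 _ (l0.le m) _ (l0.le hs') k fun τ => ?_⟩
    rw [div_mul_cancel₀ _ (pow_ne_zero k s0)]
    exact reg_jm τ F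
  refine ⟨l0, s, hs', fun c e => ?_, fun f hf => ?_⟩
  · rw [e, od_const] at h1
    exact lt_irrefl _ h1
  · obtain ⟨k, a, b, h2, h3, b0, e⟩ := hF.rat (l := 0) (mf_zero.2 (mem_KF'.1 hf))
    obtain ⟨l, H, l0', h4, h5⟩ := hF.ex_fm_ne I
    rw [zero_add] at h2
    have h6 := fo (k + l) (a * H) (by simpa [jm] using (mf_jm.2 h2).mul (mf_jm.2 h4))
    have h7 := fo (k + l) (b * H) (by simpa [jm] using (mf_jm.2 h3).mul (mf_jm.2 h4))
    refine ⟨k + l, by omega, _, h6.1, _, h7.1, div_ne_zero (jm_ne (mul_ne_zero b0 (ne_of_val h5)))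
      (pow_ne_zero _ s0), ?_, h6.2, h7.2⟩
    rw [← mul_div_assoc, jm, map_mul, ← mul_assoc, e, ← map_mul]

end Vale.Agent.P022K.Sh.Ut

namespace Vale.Agent.P022K.Sh

/-- **NRM** -/
theorem nrm_row : All fun T => T.NRM := fun _ _ _ _ _ ok => Ut.nrm ok

/-- **ROT** -/
theorem rot_row (sig : Un.SIG) : All fun T => T.ROT := fun _ _ _ _ _ ok => Ut.rot sig ok

/-- **LV** -/
theorem lv_row (sig : Un.SIG) (foc : Un.FOC) : All fun T => T.LV :=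
  fun _ _ _ _ _ ok => Ut.lv sig foc ok

end Vale.Agent.P022K.Sh
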