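import Vale.Agent.P022K.F0.UnKey

/-!
# P022K, block F0, row UNIF: the row MXU
-/

set_option autoImplicit false

open Filter Topology Metric
open scoped MatrixGroups

noncomputable section

namespace Vale.Agent.P022K.Sh.Un

open Vale.Agent.P019P

theorem Ky.punct (p : ℂ) (ε : ℝ) : IsPreconnected (ball p ε \ {p}) := by
  have e : ball p ε \ {p} = (fun q : ℝ × ℝ => p + q.1 * Complex.exp (q.2 * Complex.I)) ''
      (Set.Ioo 0 ε ×ˢ Set.univ) := by
    ext x
    constructor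
    · rintro ⟨h1, h2⟩
      refine ⟨(‖x - p‖, (x - p).arg), ⟨⟨norm_pos_iff.2 (sub_ne_zero.2 h2), ?_⟩, trivial⟩, ?_⟩
      · rwa [mem_ball, dist_eq_norm] at h1
      · simp only [Complex.norm_mul_exp_arg_mul_I, add_sub_cancel]
    · rintro ⟨⟨r, t⟩, ⟨⟨h1, h2⟩, -⟩, rfl⟩
      refine ⟨?_, ?_⟩
      · simpa [abs_of_pos h1] using h2
      · simpa using h1.ne'
  rw [e]
  exact (isPreconnected_Ioo.prod isPreconnected_univ).image _ (by fun_prop)

/-- a point does not disconnect a domain -/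
theorem Ky.diff {W : Set ℂ} (o : IsOpen W) (c : IsPreconnected W) (p : ℂ) :
    IsPreconnected (W \ {p}) := by
  by_cases hp : p ∈ W
  swap
  · rwa [Set.sdiff_singleton_eq_self hp]
  obtain ⟨ε, ε0, hε⟩ := Metric.isOpen_iff.1 o p hp
  have o' : IsOpen (W \ {p}) := o.sdiff isClosed_singleton
  have key : ∀ u v : Set ℂ, IsOpen u → IsOpen v → W \ {p} ⊆ u ∪ v → ((W \ {p}) ∩ v).Nonempty →
      ball p ε \ {p} ⊆ u → ((W \ {p}) ∩ (u ∩ v)).Nonempty := by
    intro u v hu hv cov ⟨y, hy⟩ s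
    obtain ⟨x, h1, h2, h3⟩ := c (u ∪ ball p ε) (v \ {p}) (hu.union isOpen_ball)
      (hv.sdiff isClosed_singleton) (fun x hx => by
        by_cases e : x = p
        · exact .inl (.inr (e ▸ mem_ball_self ε0))
        · exact (cov ⟨hx, e⟩).imp .inl fun k => ⟨k, e⟩)
      ⟨p, hp, .inr (mem_ball_self ε0)⟩ ⟨y, hy.1.1, hy.2, hy.1.2⟩
    exact ⟨x, ⟨h1, h3.2⟩, h2.elim id fun k => s ⟨k, h3.2⟩, h3.1⟩
  intro u v hu hv cov nu nv
  by_contra hc
  rcases (Ky.punct p ε).subset_or_subset (o'.inter hu) (o'.inter hv)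
    (Set.disjoint_left.2 fun x a b => hc ⟨x, a.1, a.2, b.2⟩)
    (fun x hx => (cov ⟨hε hx.1, hx.2⟩).imp (fun k => ⟨⟨hε hx.1, hx.2⟩, k⟩)
      fun k => ⟨⟨hε hx.1, hx.2⟩, k⟩) with s | s
  · exact hc (key u v hu hv cov nv fun x hx => (s hx).2)
  · exact hc (Set.inter_comm v u ▸ key v u hv hu (Set.union_comm u v ▸ cov) nu fun x hx => (s hx).2)

/-- holomorphic representatives -/
theorem Ky.hol {W : Set ℂ} {F : ℂ → ℂ} (h : MeromorphicOn F W)
    (o : ∀ x ∈ W, 0 ≤ meromorphicOrderAt F x) :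
    ∃ G, AnalyticOnNhd ℂ G W ∧ ∀ x ∈ W, G =ᶠ[𝓝[≠] x] F :=
  ⟨toMeromorphicNFOn F W, fun x hx =>
    (meromorphicNFOn_toMeromorphicNFOn F W hx).meromorphicOrderAt_nonneg_iff_analyticAt.1
      (by rw [meromorphicOrderAt_toMeromorphicNFOn h hx]; exact o x hx),
    fun _ hx => h.toMeromorphicNFOn_eq_self_on_nhdsNE hx⟩

/-- **MXU** -/
theorem mxu_row : MXU := by
  intro Ω _ _ σ R K L _ lv0 lv E hE W oW cW M w hw d _ e p hp
  refine ⟨fun dp => ?_, trivial⟩
  obtain ⟨s, hs, ns, rat⟩ := lv.rat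
  obtain ⟨k, k0, -, -, b, hb, b0, -, -, fo⟩ := rat 1 (one_mem _)
  have hK : Rl σ R K Set.univ E := fun x hx => (hE x hx).mono lv0.le lv0.mem
  choose! F F1 F2 using fun f (hf : f ∈ K) => e f (lv0.le hf)
  have hF : Rl σ R K W F := Ky.spread (lrm_row Ω σ R K M w E d (hK _ trivial)) cW hw F1 F2
  obtain ⟨Φ, Φ1, Φ2⟩ := Ky.hol (W := Set.univ) (F := E b * deriv (E s) ^ k)
    (fun x hx => ((hK x hx).mero b hb).mul (((hK x hx).mero s hs).deriv.pow k))
    fun x hx => fo x E (hK x hx)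
  obtain ⟨Ψ, Ψ1, Ψ2⟩ := Ky.hol (W := W) (F := F b * deriv (F s) ^ k)
    ((F1 b hb).mul ((F1 s hs).deriv.pow k)) fun x hx => fo x F (hF x hx)
  have Δ0 := det_ne M
  set Δ := M 0 0 * M 1 1 - M 0 1 * M 1 0 with hΔ
  have c0 : M 1 0 ≠ 0 := fun h => d (by rw [← dp, den, den, h, zero_mul, zero_mul])
  have dn : ∀ x, x ≠ p → den M x ≠ 0 := fun x hx h => hx (mul_left_cancel₀ c0 (by
    rw [den] at h dp
    linear_combination h - dp))
  have wp : w ≠ p := fun h => d (h ▸ dp)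
  have ad : ∀ x, AnalyticAt ℂ (den M) x := fun x => by
    unfold den
    fun_prop
  have id1 : Set.EqOn (Φ ∘ mob M) (fun x => Ψ x * (den M x ^ 2 / Δ) ^ k) (W \ {p}) := by
    have a1 : AnalyticOnNhd ℂ (Φ ∘ mob M) (W \ {p}) := fun x hx =>
      (Φ1 _ trivial).comp (lo_mob (dn x hx.2)).an
    have a2 : AnalyticOnNhd ℂ (fun x => Ψ x * (den M x ^ 2 / Δ) ^ k) (W \ {p}) := fun x hx =>
      (Ψ1 x hx.1).mul ((((ad x).pow 2).div_const).pow k)
    refine a1.eqOn_of_preconnected_of_frequently_eq a2 (Ky.diff oW cW p) ⟨hw, wp⟩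
      (Eventually.frequently ?_)
    have H := lo_mob d
    filter_upwards [H.tendsto.eventually (Φ2 _ trivial), Ψ2 w hw, F2 b hb,
      (F2 s hs).nhdsNE_deriv, mem_nhdsWithin_of_mem_nhds (den_ev d),
      H.tendsto.eventually (rp_gm ((hK _ trivial).mero s hs)).ev] with x h1 h2 h3 h4 h5 h6
    have h7 : deriv (E s ∘ mob M) x = deriv (E s) (mob M x) * (Δ / den M x ^ 2) :=
      (h6.hasDerivAt.comp x (mb_hasDerivAt h5)).deriv
    have h5' : den M x ≠ 0 := h5
    simp only [Function.comp_apply, h1, h2, Pi.mul_apply, Pi.pow_apply, h3, h4, h7, mul_assoc,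
      ← mul_pow]
    congr 2
    field_simp
  have t0 : Tendsto (fun u : ℂ => M 1 0 * u - M 0 0) (cocompact ℂ) (Bornology.cobounded ℂ) := by
    rw [← Metric.cobounded_eq_cocompact]
    exact (tendsto_sub_const_cobounded _).comp (tendsto_mul_left_cobounded c0)
  have t1 : Tendsto (fun u : ℂ => p - Δ / M 1 0 * (M 1 0 * u - M 0 0)⁻¹) (cocompact ℂ) (𝓝 p) := by
    simpa using ((tendsto_inv₀_cobounded.comp t0).const_mul (Δ / M 1 0)).const_sub p
  have t2 : Tendsto Φ (cocompact ℂ) (𝓝 0) := by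
    have c1 : ContinuousAt (fun x => Ψ x * (den M x ^ 2 / Δ) ^ k) p :=
      ((Ψ1 p hp).mul ((((ad p).pow 2).div_const).pow k)).continuousAt
    have := c1.tendsto.comp t1
    rw [dp, zero_pow two_ne_zero, zero_div, zero_pow k0.ne', mul_zero] at this
    refine this.congr' ?_
    filter_upwards [t1.eventually (oW.mem_nhds hp),
      t0.eventually (Bornology.eventually_ne_cobounded 0)] with u h1 h2
    have h3 : p - Δ / M 1 0 * (M 1 0 * u - M 0 0)⁻¹ ≠ p := by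
      simp [Δ0, c0, h2]
    refine (id1 ⟨h1, h3⟩).symm.trans (congrArg Φ ?_)
    rw [mob, div_eq_iff (dn _ h3)]
    rw [den] at dp ⊢
    have : p = -M 1 1 / M 1 0 := by
      field_simp
      linear_combination dp
    rw [this, hΔ]
    field_simp
    ring
  have z := Differentiable.eq_const_of_tendsto_cocompact
    (fun x => (Φ1 x trivial).differentiableAt) t2
  have h := hK 0 trivial
  have : h.hom ⟨b, hb⟩ * Mz.D 0 (h.hom ⟨s, hs⟩) ^ k = 0 :=
    ((h.rp' hb).mul ((h.rp' hs).D.pow k)).eq_zero_iff.2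
      ((Φ2 0 trivial).mono fun x hx => by rw [← hx, z]; rfl)
  exact mul_ne_zero ((_root_.map_ne_zero _).2 fun k => b0 (congrArg Subtype.val k))
    (pow_ne_zero _ (h.D_ne fun c k => ns c (congrArg Subtype.val k))) this

end Vale.Agent.P022K.Sh.Un
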