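import Vale.Agent.P022K.F0.Trc
import Vale.Agent.P022K.F0.Rig
import Vale.Agent.P022K.F0.Moda
import Vale.Agent.P022K.F0.Onto
import Vale.Agent.P022K.F0.Pts
import Vale.Agent.P022K.F0.OkA
import Vale.Agent.P022K.F0.UnEna
import Vale.Agent.P022K.F0.UnInf
import Vale.Agent.P022K.F0.UnMxu
import Vale.Agent.P022K.F0.UnL
import Vale.Agent.P022K.F0.Nat
import Vale.Agent.P022K.F0.End

/-!
# P022K, block F0: the rows UNI, UNIF and the canonical model CAN
-/

set_option autoImplicit false

open Filter Topology Metric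

namespace Vale.Agent.P022K.Sh

open Un

/-- **UNI** -/
theorem uniA : UNI := by
  intro Ω _ _ σ R K L _ lv lv' E l h h1 h2 rot
  obtain ⟨r0, r1, x0⟩ := ball_all Ω σ R K L lv 0 E h
  choose F0 f1 f2 using fun f : L => x0 f f.2
  have l0 : l ≠ 0 := norm_ne_zero_iff.1 (h1 ▸ one_ne_zero)
  have ex : ∀ {W : Set ℂ}, IsPreconnected W → (0 : ℂ) ∈ W → ∀ F : L → ℂ → ℂ,
      (∀ f, MeromorphicNFOn (F f) W ∧ F f =ᶠ[𝓝[≠] 0] E f) →
      ∃ E', Rl σ R L W E' ∧ ∀ f : L, E' f = F f := fun hW h0 F hF => by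
    classical
    have e : ∀ f : L, (fun g : Ω => if hg : g ∈ L then F ⟨g, hg⟩ else 0) f = F f :=
      fun f => dif_pos f.2
    refine ⟨fun g : Ω => if hg : g ∈ L then F ⟨g, hg⟩ else 0,
      (h.cgr fun f hf => ?_).spread hW h0 fun f hf => ?_, e⟩
    · rw [dif_pos hf]
      exact (hF _).2
    · rw [dif_pos hf]
      exact (hF _).1.meromorphicOn
  rcases rad (f := fun f : L => E f) (l := l⁻¹) (by rw [norm_inv, h1, inv_one])
    (fun n hn e => h2 n hn (by rwa [inv_pow, inv_eq_one] at e))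
    (fun f => by
      obtain ⟨f', hf, e⟩ := rot f f.2
      have t := mul_tendsto (inv_ne_zero l0) 0
      rw [mul_zero] at t
      refine ⟨⟨f', hf⟩, ?_⟩
      filter_upwards [t.eventually e] with y hy
      rw [hy, mul_inv_cancel_left₀ l0])
    ⟨r0, r1, F0, fun f => ⟨f1 f, f2 f⟩⟩ with ⟨F, hF⟩ | ⟨r, hr, F, hF, nx⟩
  · obtain ⟨E', a, -⟩ := ex isPreconnected_univ (Set.mem_univ _) F hF
    exact absurd a (inf_row mxu_row Ω σ R K L lv lv' E')
  · obtain ⟨E', a, b⟩ := ex (convex_ball 0 r).isPreconnected (mem_ball_self hr) F hF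
    refine trp_row Ω σ R L E' r hr a fun W o c M w hw d m x w' hw' => ?_
    choose F' g1 g2 using fun f : L => x f f.2
    have k := mob_in (fun f => (hF f).1.meromorphicOn) nx o c g1 (det_ne M) hw d m
      (fun f => by rw [← b]; exact (g2 f).symm) w' hw'
    exact ⟨k.1, k.2.1⟩

theorem cfA : All fun T => T.CF := fun _ _ _ _ T _ => T.cf

theorem genA : All fun T => T.GEN := fun _ _ _ _ T _ => T.gen

theorem ptsA : All fun T => T.PTS := pts cfA

theorem ontoA : All fun T => T.ONTO := onto cfA genA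

theorem lvA : All fun T => T.LV := lv_row sig_row foc_row

theorem enaA : All fun T => T.ENA := Gz.ena_row cfA lvA plc_row key_row glob_all aut_row

/-- **UNIF** -/
theorem unifA : All fun T => T.UNIF := unif_of cfA uniA lvA (rot_row sig_row) enaA end_row

/-- **CAN**: the canonical model -/
theorem can : AllQ fun X => X.CAN :=
  can_of ok (rig cmp) cmp trc (stb cfA) unifA ontoA (moda ptsA ontoA)

end Vale.Agent.P022K.Sh
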