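import Vale.Agent.P022K.F0.Aut
import Vale.Agent.P022D.Gma.Rep

/-!
# P022K, block F0: row TFR (continuous trace functions come from representations)
-/

set_option autoImplicit false

open scoped MatrixGroups

noncomputable section

namespace Vale.Agent.P022K.Sh

open Vale.Agent.P022 Vale.Agent.P022D.Gma

section

variable {G K : Type} [Group G] [Field K] [IsAlgClosed K] [CharZero K] {t : G → K} {d : G →* Kˣ}

theorem tf_mat (T : H346.TF t d) {A : Type} [Ring A] [Algebra K A] {L : A →ₗ[K] K} {π : G →* A}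
    (h : CH L) (hL : ∀ g, L (π g) = t g) (hπ : ∀ g, π g + (d g : K) • π g⁻¹ = t g • (1 : A))
    (S : Subalgebra K A) (hS : ∀ g, π g ∈ S) : ∃ e ∈ S, ∃ p ∈ S, ∃ q ∈ S,
      ∃ Φ : G →* Matrix (Fin 2) (Fin 2) K,
        ∀ g, Φ g = !![L (π g * e), L (π g * q); L (π g * p), L (π g * (1 - e))] := by
  have diag : ∀ e ∈ S, L e = 1 → (∀ g k, L (π (g * k) * e) = L (π g * e) * L (π k * e)) →
      (∀ g k, L (π (g * k) * (1 - e)) = L (π g * (1 - e)) * L (π k * (1 - e))) →
      ∃ e ∈ S, ∃ p ∈ S, ∃ q ∈ S, ∃ Φ : G →* Matrix (Fin 2) (Fin 2) K,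
        ∀ g, Φ g = !![L (π g * e), L (π g * q); L (π g * p), L (π g * (1 - e))] := by
    intro e he h1 h2 h3
    refine ⟨e, he, 0, zero_mem _, 0, zero_mem _, ⟨⟨fun g => _, ?_⟩, fun g k => ?_⟩, fun _ => rfl⟩
    · have : L (1 - e) = 1 := by rw [map_sub, h.one, h1]; ring
      ext i j
      fin_cases i <;> fin_cases j <;> simp [h1, this]
    · simp only [h2, h3]
      ext i j
      fin_cases i <;> fin_cases j <;> simp [Matrix.mul_apply, Fin.sum_univ_two]
  by_cases hA : ∀ g, t g ^ 2 = 4 * d g
  · have key : ∀ g k, t (g * k) = t g * t k / 2 := fun g k => by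
      have h1 := T.mul g k
      have h2 := hA (g * k)
      have h3 := hA (g * k⁻¹)
      have h4 : (d (g * k⁻¹) : K) * d k = d g := by
        rw [← Units.val_mul, ← map_mul, inv_mul_cancel_right]
      have h5 : ∀ g, t g ≠ 0 := fun g e => by simpa [e] using hA g
      rw [map_mul, Units.val_mul] at h2
      have h6 : (t (g * k) - d k * t (g * k⁻¹)) * (t g * t k) = 0 := by
        rw [h1]
        linear_combination h2 - (d k : K) ^ 2 * h3 - 4 * (d k : K) * h4
      linear_combination (-1 / 2 : K) * h1 + (1 / 2 : K) * sub_eq_zero.1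
        ((mul_eq_zero.1 h6).resolve_right (mul_ne_zero (h5 g) (h5 k)))
    have e1 : ∀ g, L (π g * ((1 / 2 : K) • 1)) = t g / 2 := fun g => by
      rw [mul_smul_comm, mul_one, map_smul, hL, smul_eq_mul]
      ring
    have e2 : ∀ g, L (π g * (1 - (1 / 2 : K) • 1)) = t g / 2 := fun g => by
      rw [mul_sub, map_sub, e1, mul_one, hL]
      ring
    refine diag ((1 / 2 : K) • 1) (S.smul_mem (one_mem _) _) ?_ (fun g k => ?_) fun g k => ?_
    · rw [map_smul, h.one, smul_eq_mul]
      ring
    · rw [e1, e1, e1, key]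
      ring
    · rw [e2, e2, e2, key]
      ring
  push Not at hA
  obtain ⟨g₀, h0⟩ := hA
  obtain ⟨r, hr⟩ := IsAlgClosed.exists_pow_nat_eq (t g₀ ^ 2 - 4 * d g₀) two_pos
  have r0 : r ≠ 0 := by
    rintro rfl
    exact h0 (by linear_combination -hr)
  obtain ⟨α, β, u, hs, hp, hu⟩ : ∃ α β u : K, α + β = t g₀ ∧ α * β = d g₀ ∧ (α - β) * u = 1 :=
    ⟨(t g₀ + r) / 2, (t g₀ - r) / 2, r⁻¹, by ring, by linear_combination (-1 / 4 : K) * hr, by
      field_simp
      ring⟩
  set e : A := u • (π g₀ - β • 1) with he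
  have hg : π g₀ * π g₀ = (α + β) • π g₀ - (α * β) • 1 := by
    have := congrArg (π g₀ * ·) (hπ g₀)
    simp only [mul_add, mul_smul_comm, ← map_mul π g₀ g₀⁻¹, mul_inv_cancel, map_one,
      mul_one] at this
    rw [hs, hp, ← this, add_sub_cancel_right]
  have hge : π g₀ * e = α • e := by
    rw [he, mul_smul_comm, mul_sub, hg, mul_smul_comm, mul_one, smul_comm α u]
    congr 1
    module
  have hee : e * e = e := by
    conv_lhs => rw [he, smul_mul_assoc, sub_mul, ← he, hge, smul_mul_assoc, one_mul, ← sub_smul,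
      smul_smul, mul_comm u, hu, one_smul]
  have h1 : L e = 1 := by
    rw [he, map_smul, map_sub, map_smul, hL, h.one, ← hs, smul_eq_mul, smul_eq_mul]
    linear_combination hu
  have hf : (1 - e) * (1 - e) = 1 - e := by
    rw [sub_mul, one_mul, mul_sub, mul_one, hee, sub_self, sub_zero]
  have h2 : L (1 - e) = 1 := by
    rw [map_sub, h.one, h1]; ring
  have ef : e * (1 - e) = 0 := by rw [mul_sub, mul_one, hee, sub_self]
  have fe : (1 - e) * e = 0 := by rw [sub_mul, one_mul, hee, sub_self]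
  have eS : e ∈ S := S.smul_mem (sub_mem (hS _) (S.smul_mem (one_mem _) _)) _
  have sw : ∀ x y, L (y * e * x * (1 - e)) = L (x * (1 - e) * y * e) := fun x y => by
    rw [mul_assoc (y * e), h.comm, ← mul_assoc]
  by_cases hB : ∀ g k, L (π g * (1 - e) * π k * e) = 0
  · refine diag e eS h1 (fun g k => ?_) fun g k => ?_
    · have e1 : π (g * k) * e = π g * (e * π k * e) + π g * (1 - e) * π k * e := by
        rw [map_mul]
        noncomm_ring
      rw [e1, map_add, hB, h.sand hee h1, mul_smul_comm, map_smul, smul_eq_mul, add_zero, mul_comm]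
    · have e1 : π (g * k) * (1 - e) = π g * ((1 - e) * π k * (1 - e)) +
          π g * e * π k * (1 - e) := by
        rw [map_mul]
        noncomm_ring
      rw [e1, map_add, sw, hB, h.sand hf h2, mul_smul_comm, map_smul, smul_eq_mul, add_zero,
        mul_comm]
  push Not at hB
  obtain ⟨g, k, hm⟩ := hB
  obtain ⟨Φ, hΦ⟩ := h.units (e := e) (p := e * π g * (1 - e))
    (q := (L (π g * (1 - e) * π k * e))⁻¹ • ((1 - e) * π k * e)) hee h1
    (by rw [← mul_assoc, ← mul_assoc, hee])
    (by rw [mul_assoc, fe, mul_zero])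
    (by rw [smul_mul_assoc, mul_assoc _ e e, hee])
    (by rw [mul_smul_comm, ← mul_assoc, ← mul_assoc, ef, zero_mul, zero_mul, smul_zero])
    (by
      have e1 : e * π g * (1 - e) * ((1 - e) * π k * e) = e * (π g * (1 - e) * π k) * e := by
        rw [mul_assoc (e * π g), ← mul_assoc (1 - e), ← mul_assoc (1 - e), hf]
        simp only [mul_assoc]
      rw [mul_smul_comm, e1, h.sand hee h1, smul_smul, inv_mul_cancel₀ hm, one_smul])
    (by
      have e1 : (1 - e) * π k * e * (e * π g * (1 - e)) = (1 - e) * (π k * e * π g) * (1 - e) := by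
        rw [mul_assoc ((1 - e) * π k), ← mul_assoc e, ← mul_assoc e, hee]
        simp only [mul_assoc]
      rw [smul_mul_assoc, e1, h.sand hf h2, sw, smul_smul, inv_mul_cancel₀ hm, one_smul])
  have fS : 1 - e ∈ S := sub_mem (one_mem _) eS
  exact ⟨e, eS, _, mul_mem (mul_mem eS (hS g)) fS, _, S.smul_mem (mul_mem (mul_mem fS (hS k)) eS) _,
    Φ.comp π, fun g => hΦ _⟩

/-- a continuous trace function is the trace of a continuous representation -/
theorem tf_rep [TopologicalSpace G] [IsTopologicalGroup G] [TopologicalSpace K]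
    [IsTopologicalRing K] (T : H346.TF t d) (ht : Continuous t) :
    ∃ ρ : G →* GL (Fin 2) K, Continuous ρ ∧ (∀ g, CH.tr ρ g = t g) ∧ (∀ g, CH.dt ρ g = d g) ∧
      ∀ s, (∀ g, t (s * g) = t g) → ρ s = 1 := by
  obtain ⟨A, _, _, L, π, h, hL, hπ⟩ := exists_ch T
  have key : ∀ z ∈ Algebra.adjoin K (Set.range π), Continuous (fun g => L (π g * z)) ∧
      ∀ s, (∀ g, t (s * g) = t g) → L (π s * z) = L (π 1 * z) := by
    intro z hz
    rw [← Subalgebra.mem_toSubmodule, Algebra.adjoin_eq_span, ← MonoidHom.coe_mrange,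
      Submonoid.closure_eq] at hz
    induction hz using Submodule.span_induction with
    | mem _ hx =>
      obtain ⟨k, rfl⟩ := hx
      simp only [← map_mul, hL, one_mul]
      exact ⟨ht.comp (continuous_mul_const k), fun s hs => hs k⟩
    | zero => simp [continuous_const]
    | add x y _ _ h1 h2 =>
      simp only [mul_add, map_add]
      exact ⟨h1.1.add h2.1, fun s hs => by rw [h1.2 s hs, h2.2 s hs]⟩
    | smul c x _ h1 =>
      simp only [mul_smul_comm, map_smul, smul_eq_mul]
      exact ⟨continuous_const.mul h1.1, fun s hs => by rw [h1.2 s hs]⟩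
  obtain ⟨e, he, p, hp, q, hq, Φ, hΦ⟩ := tf_mat T h hL hπ (Algebra.adjoin K (Set.range π))
    fun g => Algebra.subset_adjoin ⟨g, rfl⟩
  have hf := sub_mem (one_mem _) he
  have hc : Continuous Φ := by
    rw [funext hΦ]
    refine continuous_matrix fun i j => ?_
    fin_cases i <;> fin_cases j
    exacts [(key e he).1, (key q hq).1, (key p hp).1, (key _ hf).1]
  have htr : ∀ g, (Φ g).trace = t g := fun g => by
    rw [hΦ, Matrix.trace_fin_two_of, ← map_add, ← mul_add, add_sub_cancel, mul_one, hL]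
  refine ⟨Φ.toHomUnits, Units.continuous_iff.2 ⟨hc, ?_⟩, htr, fun g => ?_, fun s hs => ?_⟩
  · simp only [← map_inv]
    exact hc.comp continuous_inv
  · have e0 : ∀ z, L (π g * z) + d g * L (π g⁻¹ * z) = t g * L (π 1 * z) := fun z => by
      have := congrArg (fun x => L (x * z)) (hπ g)
      simpa only [add_mul, smul_mul_assoc, map_add, map_smul, smul_eq_mul, map_one] using this
    have e1 : Φ g + (d g : K) • Φ g⁻¹ = t g • Φ 1 := by
      rw [hΦ, hΦ, hΦ]
      ext i j
      fin_cases i <;> fin_cases j <;> exact e0 _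
    have e3 : Φ g * Φ g + (d g : K) • (1 : Matrix (Fin 2) (Fin 2) K) = t g • Φ g := by
      have := congrArg (Φ g * ·) e1
      simpa only [mul_add, mul_smul_comm, ← map_mul Φ g g⁻¹, mul_inv_cancel, map_one, mul_one]
        using this
    have e4 := congrFun (congrFun e3 0) 0
    have e5 := htr g
    rw [Matrix.trace_fin_two] at e5
    change (Φ g).det = _
    rw [Matrix.det_fin_two]
    simp [Matrix.mul_apply, Fin.sum_univ_two] at e4
    linear_combination -e4 + (Φ g 0 0) * e5
  · refine Units.ext ?_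
    change Φ s = 1
    rw [← map_one Φ, hΦ, hΦ, (key e he).2 s hs, (key q hq).2 s hs, (key p hp).2 s hs,
      (key _ hf).2 s hs]

end

/-- **TFR** -/
theorem tfr : TFR := fun _ _ _ _ _ T ht _ => tf_rep T ht

end Vale.Agent.P022K.Sh
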