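import Vale.Agent.P022K.F0.Sha
import Vale.Agent.P022K.F0.Vol
import Vale.Agent.P022K.F0.Wt

/-!
# P022K, block F0: normalised cocycles, change of coefficients, good operators
-/

set_option autoImplicit false

open MulAction

noncomputable section

namespace Vale.Agent.P022K.Sh.Ap

open Tw

variable {G0 G : Type} [Group G0] [Group G] {T : Tw G0 G} {U : Subgroup G}

variable (T U) in
/-- generators of the groups of all components -/
structure Gen {I : Type} (g : I → G0) (c : I → T.DC U) : Prop where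
  mem : ∀ i, g i ∈ T.Gam U (rq (c i))
  z0 : ∀ x, T.Z0 ≤ T.Gam U x
  gen : ∀ k, T.Gam U (rq k) ≤ Subgroup.closure (g '' {i | c i = k}) ⊔ T.Z0

theorem exGen (hT : T.Ok) (hU : U ∈ T.Lev) : ∃ (I : Type) (_ : Fintype I) (g : I → G0)
    (c : I → T.DC U), Gen T U g c := by
  have := hT.finDC hU
  choose S hS using fun k : T.DC U => T.vol_of _ (hT.fu U hU (rq k))
  refine ⟨Σ k, S k, Fintype.ofFinite _, fun i => i.2, fun i => i.1, fun i => ?_,
    fun x => (hT.fu U hU x).z0, fun k => ?_⟩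
  · rw [hS]
    exact Subgroup.mem_sup_left (Subgroup.subset_closure i.2.2)
  · rw [hS]
    refine sup_le_sup_right (Subgroup.closure_mono fun γ h => ?_) _
    exact ⟨⟨k, γ, h⟩, rfl, rfl⟩

variable (T U) in
/-- an element that moves the chosen point of the component to `x` -/
def dd (x : G) : G0 := dl G0 (T.xm U x)

theorem dd_mul (x : G) {u : G} (hu : u ∈ U) : dd T U (x * u) = dd T U x := by
  rw [dd, xm_mul _ hu, dd]

theorem xm_dd (x : G) : T.xm U (T.j (dd T U x) * rq (T.cls U x)) = T.xm U x := by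
  rw [← smul_xm, xm_rq]
  exact dl_smul _

theorem xm_dd' (x : G) : T.xm U ((T.j (dd T U x))⁻¹ * x) = T.xm U (rq (T.cls U x)) := by
  rw [← map_inv, ← smul_xm, inv_smul_eq_iff, smul_xm, xm_dd]

theorem dd_mem (γ : G0) (x : G) :
    (dd T U x)⁻¹ * γ * dd T U ((T.j γ)⁻¹ * x) ∈ T.Gam U (rq (T.cls U x)) := by
  have m := dl_mem γ (T.xm U x)
  rwa [stab_o, smul_xm, map_inv] at m

variable {Λ B : Type} [CommRing Λ] [AddCommGroup B] [Module Λ B] {ρ : Representation Λ G0 B}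

variable (T ρ) in
/-- the coboundary of `f` -/
def cob (f : G → B) : G0 → G → B := fun γ => T.lt ρ γ f - f

theorem cob_apply (f : G → B) (γ : G0) (x : G) :
    cob T ρ f γ x = ρ γ (f ((T.j γ)⁻¹ * x)) - f x := rfl

theorem cob_mem {f : G → B} (h : Inv U f) : cob T ρ f ∈ T.B1 ρ U := ⟨f, h, fun _ => rfl⟩

theorem mem_B1 {z : G0 → G → B} : z ∈ T.B1 ρ U ↔ ∃ f, Inv U f ∧ z = cob T ρ f :=
  ⟨fun ⟨f, h, e⟩ => ⟨f, h, funext e⟩, fun ⟨_, h, e⟩ => e ▸ cob_mem h⟩

theorem coc {z : G0 → G → B} (hz : z ∈ T.Z1 ρ U) (γ δ : G0) (x : G) :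
    z (γ * δ) x = z γ x + ρ γ (z δ ((T.j γ)⁻¹ * x)) := congrFun (hz.2.1 γ δ) x

theorem cob_mul (f : G → B) (γ δ : G0) :
    cob T ρ f (γ * δ) = cob T ρ f γ + T.lt ρ γ (cob T ρ f δ) := by
  funext x
  simp only [cob_apply, Pi.add_apply, Tw.lt, map_sub, map_mul, mul_inv_rev, mul_assoc,
    Module.End.mul_apply]
  abel

theorem cob_inv {f : G → B} (h : Inv U f) (γ : G0) : Inv U (cob T ρ f γ) := fun x u hu => by
  rw [cob_apply, cob_apply, ← mul_assoc, h _ _ hu, h _ _ hu]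

theorem B1_le (hT : T.Ok) (hU : U ∈ T.Lev) (h0 : ∀ γ ∈ T.Z0, ρ γ = 1) :
    T.B1 ρ U ≤ T.Z1 ρ U := fun z hz => by
  obtain ⟨f, h, rfl⟩ := mem_B1.1 hz
  refine ⟨cob_inv h, cob_mul f, fun γ hγ => funext fun x => ?_⟩
  rw [cob_apply, h0 γ hγ, inv_xm h (hT.xm_z0 hU hγ x)]
  exact sub_self _

variable (T U) in
/-- the normalising function -/
def fz (z : G0 → G → B) : G → B := fun x => z (dd T U x) x

omit [AddCommGroup B] in
theorem fz_inv {z : G0 → G → B} (hz : ∀ γ, Inv U (z γ)) : Inv U (fz T U z) := fun x u hu => by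
  rw [fz, dd_mul _ hu, hz _ _ _ hu, fz]

variable (T U ρ) in
/-- the normalised cocycle -/
def nz (z : G0 → G → B) : G0 → G → B := z + cob T ρ (fz T U z)

theorem nz_sub {z : G0 → G → B} (hz : z ∈ T.Z1 ρ U) : nz T U ρ z - z ∈ T.B1 ρ U := by
  rw [nz, add_sub_cancel_left]
  exact cob_mem (fz_inv hz.1)

theorem nz_apply {z : G0 → G → B} (hz : z ∈ T.Z1 ρ U) (γ : G0) (x : G) : nz T U ρ z γ x =
    ρ (dd T U x) (z ((dd T U x)⁻¹ * γ * dd T U ((T.j γ)⁻¹ * x)) (rq (T.cls U x))) := by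
  have e := coc hz (dd T U x) ((dd T U x)⁻¹ * γ * dd T U ((T.j γ)⁻¹ * x)) x
  rw [inv_xm (hz.1 _) (xm_dd' x), mul_assoc, mul_inv_cancel_left, coc hz] at e
  rw [← mul_assoc] at e
  show z γ x + (ρ γ (z _ _) - z _ x) = _
  rw [← add_sub_assoc, e, add_sub_cancel_left]

theorem nz_mem (hT : T.Ok) (hU : U ∈ T.Lev) {z : G0 → G → B} (hz : z ∈ T.Z1 ρ U) :
    nz T U ρ z ∈ T.Z1 ρ U := by
  refine ⟨fun γ x u hu => ?_, fun γ δ => ?_, fun γ hγ => funext fun x => ?_⟩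
  · show z γ _ + cob T ρ _ γ _ = z γ _ + cob T ρ _ γ _
    rw [hz.1 _ _ _ hu, cob_inv (fz_inv hz.1) _ _ _ hu]
  · funext x
    simp only [nz, Pi.add_apply, cob_mul, coc hz, Tw.lt, map_add]
    abel
  · rw [nz_apply hz, dd, dd, hT.xm_z0 hU hγ,
      hz.2.2 _ (Subgroup.Normal.conj_mem' inferInstance γ hγ _)]
    exact map_zero _

variable (T U ρ) in
/-- an equivariant system of subgroups -/
structure Sys (M : G → AddSubgroup B) : Prop where
  left : ∀ γ x v, v ∈ M x → ρ γ v ∈ M (T.j γ * x)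
  right : Inv U M

variable {I : Type} {g : I → G0} {c : I → T.DC U} {M : G → AddSubgroup B}

theorem Sys.dd (hM : Sys T U ρ M) {x : G} {v : B} (h : v ∈ M (rq (T.cls U x))) :
    ρ (dd T U x) v ∈ M x := inv_xm hM.right (xm_dd (T := T) x) ▸ hM.left _ _ _ h

theorem Sys.cob (hM : Sys T U ρ M) {f : G → B} (h : ∀ x, f x ∈ M x) (γ : G0) (x : G) :
    cob T ρ f γ x ∈ M x := by
  have := hM.left γ _ _ (h ((T.j γ)⁻¹ * x))
  rw [mul_inv_cancel_left] at this
  exact sub_mem this (h x)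

theorem Gen.mem_gam (hg : Gen T U g c) (hM : Sys T U ρ M) {z : G0 → G → B} (hz : z ∈ T.Z1 ρ U)
    (h : ∀ i, z (g i) (rq (c i)) ∈ M (rq (c i))) (k : T.DC U) :
    ∀ γ ∈ T.Gam U (rq k), z γ (rq k) ∈ M (rq k) := by
  have st : ∀ γ ∈ T.Gam U (rq k), ∀ v ∈ M (rq k), ρ γ v ∈ M (rq k) := fun γ hγ v hv => by
    have e := xm_gam (inv_mem hγ)
    rw [map_inv, inv_inv] at e
    exact inv_xm hM.right e ▸ hM.left γ _ v hv
  let H : Subgroup G0 :=
    { carrier := {γ | γ ∈ T.Gam U (rq k) ∧ z γ (rq k) ∈ M (rq k)}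
      mul_mem' := fun {a b} ha hb => ⟨mul_mem ha.1 hb.1, by
        rw [coc hz, inv_xm (hz.1 _) (xm_gam ha.1)]
        exact add_mem ha.2 (st _ ha.1 _ hb.2)⟩
      one_mem' := ⟨one_mem _, by rw [hz.2.2 1 (one_mem _)]; exact zero_mem _⟩
      inv_mem' := fun {a} ha => ⟨inv_mem ha.1, by
        have e := coc hz a⁻¹ a (rq k)
        rw [inv_mul_cancel, hz.2.2 1 (one_mem _), inv_xm (hz.1 _) (xm_gam (inv_mem ha.1))] at e
        rw [eq_neg_of_add_eq_zero_left e.symm]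
        exact neg_mem (st _ (inv_mem ha.1) _ ha.2)⟩ }
  have : Subgroup.closure (g '' {i | c i = k}) ⊔ T.Z0 ≤ H := sup_le
    ((Subgroup.closure_le H).2 (by rintro _ ⟨i, rfl, rfl⟩; exact ⟨hg.mem i, h i⟩))
    fun γ hγ => ⟨hg.z0 _ hγ, by rw [hz.2.2 γ hγ]; exact zero_mem _⟩
  exact fun γ hγ => (this (hg.gen k hγ)).2

/-- **REPR**: the normalised cocycle has its values in the system -/
theorem Gen.repr (hg : Gen T U g c) (hM : Sys T U ρ M) {z : G0 → G → B} (hz : z ∈ T.Z1 ρ U)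
    (h : ∀ i, z (g i) (rq (c i)) ∈ M (rq (c i))) (γ : G0) (x : G) : nz T U ρ z γ x ∈ M x := by
  rw [nz_apply hz]
  exact hM.dd (hg.mem_gam hM hz h _ _ (dd_mem γ x))

theorem Gen.nz_zero (hg : Gen T U g c) {z : G0 → G → B} (hz : z ∈ T.Z1 ρ U)
    (h : ∀ i, z (g i) (rq (c i)) = 0) : z = cob T ρ (-fz T U z) := by
  funext γ x
  have : z γ x + cob T ρ (fz T U z) γ x = 0 := hg.repr (M := fun _ => ⊥)
    ⟨fun γ x v hv => by rw [AddSubgroup.mem_bot.1 hv, map_zero]; exact zero_mem _,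
      fun _ _ _ => rfl⟩ hz h γ x
  rw [eq_neg_of_add_eq_zero_left this, cob_apply, cob_apply, Pi.neg_apply, Pi.neg_apply, map_neg]
  abel

variable (T U ρ) in
/-- extension of a function on the components -/
def xt : (T.DC U → B) →ₗ[Λ] G → B where
  toFun a x := ρ (dd T U x) (a (T.cls U x))
  map_add' _ _ := funext fun _ => map_add _ _ _
  map_smul' _ _ := funext fun _ => map_smul _ _ _

theorem xt_inv (a : T.DC U → B) : Inv U (xt T U ρ a) := fun x u hu => by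
  show ρ _ _ = ρ _ _
  rw [dd_mul _ hu, cls_mul' _ hu]

/-- the coboundaries on the generators -/
theorem Gen.ex_xt (hg : Gen T U g c) {f : G → B} (hf : Inv U f) : ∃ a, ∀ i,
    cob T ρ f (g i) (rq (c i)) = cob T ρ (xt T U ρ a) (g i) (rq (c i)) := by
  refine ⟨fun k => ρ (dd T U (rq k))⁻¹ (f (rq k)), fun i => ?_⟩
  have e : xt T U ρ (fun k => ρ (dd T U (rq k))⁻¹ (f (rq k))) (rq (c i)) = f (rq (c i)) := by
    show ρ _ (ρ _ _) = _
    rw [cls_rq, ← Module.End.mul_apply, ← map_mul, mul_inv_cancel, map_one, Module.End.one_apply]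
  rw [cob_apply, cob_apply, inv_xm hf (xm_gam (hg.mem i)), inv_xm (xt_inv _) (xm_gam (hg.mem i)), e]

/-- a cocycle that is a coboundary on the generators is a coboundary, inside the system -/
theorem Gen.cob_of (hg : Gen T U g c) (h1 : T.B1 ρ U ≤ T.Z1 ρ U) (hM : Sys T U ρ M)
    {y : G0 → G → B} (hy : y ∈ T.Z1 ρ U) (hv : ∀ γ x, y γ x ∈ M x) {f : G → B} (hf : Inv U f)
    (hf' : ∀ x, f x ∈ M x) (h : ∀ i, y (g i) (rq (c i)) = cob T ρ f (g i) (rq (c i))) :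
    ∃ f, Inv U f ∧ (∀ x, f x ∈ M x) ∧ y = cob T ρ f := by
  have hz := sub_mem hy (h1 (cob_mem hf))
  have e := hg.nz_zero hz fun i => sub_eq_zero.2 (h i)
  refine ⟨f - fz T U (y - cob T ρ f), fun x u hu => ?_,
    fun x => sub_mem (hf' x) (sub_mem (hv _ x) (hM.cob hf' _ x)), ?_⟩
  · rw [Pi.sub_apply, Pi.sub_apply, hf _ _ hu, fz_inv hz.1 _ _ hu]
  · rw [sub_eq_iff_eq_add] at e
    refine e.trans (funext fun γ => funext fun x => ?_)
    simp only [Pi.add_apply, cob_apply, Pi.neg_apply, map_neg]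
    rw [Pi.sub_apply f, Pi.sub_apply f, map_sub]
    abel

/-! ## change of coefficients -/

section

variable {Λ' B' : Type} [CommRing Λ'] [AddCommGroup B'] [Module Λ' B']
  {ρ' : Representation Λ' G0 B'} (l : B →+ B') (hl : ∀ γ v, l (ρ γ v) = ρ' γ (l v))

include hl

theorem co_Z1 {z : G0 → G → B} (hz : z ∈ T.Z1 ρ U) : (fun γ x => l (z γ x)) ∈ T.Z1 ρ' U :=
  ⟨fun γ x u hu => congrArg l (hz.1 γ x u hu), fun γ δ => funext fun x => by
    beta_reduce; rw [coc hz, map_add, hl]; rfl, fun γ hγ => funext fun x => by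
    beta_reduce; rw [hz.2.2 γ hγ]; exact map_zero l⟩

theorem co_B1 {z : G0 → G → B} (hz : z ∈ T.B1 ρ U) : (fun γ x => l (z γ x)) ∈ T.B1 ρ' U := by
  obtain ⟨f, h, rfl⟩ := mem_B1.1 hz
  exact ⟨fun x => l (f x), fun x u hu => congrArg l (h x u hu), fun γ => funext fun x => by
    beta_reduce; rw [cob_apply, map_sub, hl]; rfl⟩

end

/-! ## good operators -/

variable (T U ρ) in
/-- an operator that acts on cohomology -/
structure Good (A : (G → B) → G → B) : Prop where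
  sub : ∀ f f', A (f - f') = A f - A f'
  lt : ∀ γ f, A (T.lt ρ γ f) = T.lt ρ γ (A f)
  inv : ∀ f, Inv U f → Inv U (A f)

variable {A : (G → B) → G → B}

theorem Good.zero (h : Good T U ρ A) : A 0 = 0 := by simpa using h.sub 0 0

theorem Good.add (h : Good T U ρ A) (f f' : G → B) : A (f + f') = A f + A f' := by
  have := h.sub (f + f') f'
  rw [add_sub_cancel_right] at this
  rw [this, sub_add_cancel]

theorem Good.B1 (h : Good T U ρ A) {z : G0 → G → B} (hz : z ∈ T.B1 ρ U) :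
    (fun γ => A (z γ)) ∈ T.B1 ρ U := by
  obtain ⟨f, hf, e⟩ := hz
  exact ⟨A f, h.inv f hf, fun γ => by beta_reduce; rw [e, h.sub, h.lt]⟩

theorem Good.Z1 (h : Good T U ρ A) {z : G0 → G → B} (hz : z ∈ T.Z1 ρ U) :
    (fun γ => A (z γ)) ∈ T.Z1 ρ U :=
  ⟨fun γ => h.inv _ (hz.1 γ), fun γ δ => by beta_reduce; rw [hz.2.1, h.add, h.lt],
    fun γ hγ => by beta_reduce; rw [hz.2.2 γ hγ, h.zero]⟩

theorem Good.eig (h : Good T U ρ A) {z z' : G0 → G → B} (e : z' - z ∈ T.B1 ρ U) {a : Λ}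
    (hz : T.Eig ρ U z A a) : T.Eig ρ U z' A a := by
  have := add_mem hz (sub_mem (h.B1 e) (Submodule.smul_mem _ a e))
  refine (congrArg (· ∈ T.B1 ρ U) (funext fun γ => ?_)).mp this
  simp only [Pi.add_apply, Pi.sub_apply, Pi.smul_apply, h.sub, smul_sub]
  abel

theorem good_hk {O : Set G} (h : Cor U O U) : Good T U ρ (hk O U) :=
  ⟨fun f f' => funext fun x => by simp only [hk_eq h, Pi.sub_apply, Finset.sum_sub_distrib],
    T.hk_lt ρ h, fun _ => hk_inv h⟩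

end Vale.Agent.P022K.Sh.Ap
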