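import Vale.Agent.P022K.F0.Aut
import Vale.Agent.P022K.F0.Loc
import Vale.Agent.P022K.F0.Hec
import Vale.Agent.P022K.CH.Weil

/-! P022K, block F0: row BNDF from the rows BNDK, BNDI, BNDA. -/

set_option autoImplicit false

open NumberField IsDedekindDomain

noncomputable section

namespace Vale.Agent.P022K.Sh

open Vale.Agent.P022 CH
open Vale.Agent.P022D.W (dec)
open Vale.Agent.P022E.GW (Ov)

/-- a place whose decomposition group fixes the field has degree one -/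
theorem qw_eq {F : Type} [Field F] [NumberField F] {j : F →+* Qb} {w : Pl F} {l : ℕ} {P : Id}
    (hP : Ov l P) (hw : below j P = w.asIdeal) (hd : dec P ≤ GK j) : qw w = l := by
  obtain ⟨φ, h⟩ := P022D.W.exists_phi hP.1 hP.2.1 hP.2.2
  have h' : P022E.GW.Fb (l ^ 1) P φ := (pow_one l).symm ▸ h
  exact (Frb.norm (n := 1) hP hw ⟨hd (Weil.fb_dec hP h'), h', fun _ _ _ _ => one_dvd _⟩).trans
    (pow_one l)

/-- the Hecke correspondence at a place with maximal level -/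
theorem Tw.Lc.At.cor_card {G0 G : Type} [Group G0] [Group G] {T : Tw G0 G} {O K : Type} [CommRing O]
    [IsDomain O] [IsDiscreteValuationRing O] [Field K] [Algebra O K] {w : T.Lc O K}
    {U : Subgroup G} (h : w.At (KK O K) U) (hU : U ∈ T.Lev) :
    Cor U (w.To U) U ∧ {c : G ⧸ U | c.out ∈ w.To U}.ncard = qq O + 1 := by
  have := w.fin
  let _ := Fintype.ofFinite (IsLocalRing.ResidueField O)
  refine ⟨⟨?_, dc_right, (h.rep_To hU).fin⟩, by rw [(h.rep_To hU).ncard, Tw.Lc.card_opt]⟩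
  rintro u hu _ ⟨a, ha, b, hb, rfl⟩
  exact ⟨u * a, mul_mem hu ha, b, hb, by simp only [mul_assoc]⟩

/-- **row BNDF** -/
theorem bndf (hK : BNDK) (hI : BNDI) (hA : BNDA) : BNDF := by
  intro A e m
  refine ⟨m + 2, fun X S L b h => ?_⟩
  rw [e] at h
  obtain ⟨Y, io, s, V, z, h⟩ := h
  obtain ⟨K, hf, k⟩ := hK _ Y m s h.sp _ h.lev z h.coc h.ne
  refine ⟨K, hf, fun l P w hP hw hs hd => ?_⟩
  obtain ⟨Lw, h1, h2, h3⟩ := h.sph w ⟨l, P, hP, hw, hs⟩
  obtain ⟨c, hc⟩ := h2.cor_card h.lev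
  have q := qw_eq hP hw hd
  refine ⟨k _ c _ h3, ?_, fun φ => (hA _ Y m s h.sp _ h.lev z h.coc h.ne _ c _ h3 φ).trans ?_⟩
  · have := hI _ Y m s h.sp _ h.lev z h.coc h.ne _ _ Lw w h1 h2 _ h3
    rw [q] at this
    rw [pow_add, mul_comm (_ ^ m), mul_assoc]
    exact (IsIntegral.pow (by exact_mod_cast isIntegral_algebraMap (x := (l : ℤ))) 2).mul this
  · rw [hc, h1.qq_eq, show Ideal.absNorm w.asIdeal = l from q]
    have l2 := hP.1.two_le
    have : l + 1 ≤ l ^ (m + 2) :=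
      (by nlinarith : l + 1 ≤ l ^ 2).trans (Nat.pow_le_pow_right hP.1.pos (by omega))
    exact_mod_cast this

end Vale.Agent.P022K.Sh
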