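import Vale.Agent.P022K.F0.Bndi
import Vale.Agent.P022K.F0.ApeA
import Vale.Agent.P022K.F0.Bndf

/-!
# P022K, block F0, row BNDK: the eigenvalues of one class lie in a number field
-/

set_option autoImplicit false

open NumberField
open scoped MatrixGroups Matrix

noncomputable section

namespace Vale.Agent.P022K.Sh

open Vale.Agent.P022 CH

namespace Bk

variable {G0 G : Type} [Group G0] [Group G] {T : Tw G0 G} {U : Subgroup G} {k n : Type} [Field k]

/-- an automorphism that fixes the representation and the cocycle on generators fixes the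
eigenvalues -/
theorem fix {ρ : Representation k G0 (n → k)} {I : Type} {g : I → G0} {c : I → T.DC U}
    (hg : Ap.Gen T U g c) {z : G0 → G → n → k} (hz : z ∈ T.Z1 ρ U) (h0 : z ∉ T.B1 ρ U)
    (σ : k →+* k) (h1 : ∀ γ v, σ ∘ ρ γ v = ρ γ (σ ∘ v))
    (h2 : ∀ i, σ ∘ z (g i) (Tw.rq (c i)) = z (g i) (Tw.rq (c i))) {O : Set G} (h : Cor U O U) {a : k}
    (e : T.Eig ρ U z (hk O U) a) : σ a = a := by
  let l : (n → k) →+ n → k := σ.toAddMonoidHom.compLeft n
  have z1 := sub_mem (Ap.co_Z1 l h1 hz) hz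
  have b1 : (fun γ x => l (z γ x)) - z ∈ T.B1 ρ U := by
    rw [hg.nz_zero z1 fun i => sub_eq_zero.2 (h2 i)]
    exact Ap.cob_mem fun x u hu => congrArg Neg.neg (Ap.fz_inv z1.1 x u hu)
  have e1 : T.Eig ρ U (fun γ x => l (z γ x)) (hk O U) (σ a) := by
    refine (congrArg (· ∈ T.B1 ρ U) (funext fun γ => funext fun x => ?_)).mp (Ap.co_B1 l h1 e)
    simp only [Pi.sub_apply, Pi.smul_apply, hk_eq h, map_sub, map_sum]
    congr 1
    funext j
    exact map_mul σ _ _
  have e2 := sub_mem ((Ap.good_hk h).eig b1 e) e1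
  rw [sub_sub_sub_cancel_left, ← sub_smul] at e2
  by_contra hc
  have e3 := sub_mem (Submodule.smul_mem _ (σ a - a)⁻¹ e2) b1
  rw [inv_smul_smul₀ (sub_ne_zero.2 hc), sub_sub_cancel] at e3
  exact h0 e3

end Bk

/-- **BNDK** -/
theorem bndk : BNDK := by
  classical
  intro F _ _ Y m s hs U hU z hz h0
  obtain ⟨I, _, g, c, hg⟩ := Ap.exGen Y.ok hU
  have : Module.Finite ℚ Y.D := Module.Finite.trans F Y.D
  let b := Module.finBasis ℚ Y.D
  let A : Set Qb := (Set.range fun p : (F →+* Qb) × Fin _ × Fin 2 × Fin 2 =>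
    s p.1 (b p.2.1) p.2.2.1 p.2.2.2) ∪ Set.range fun p : I × _ => z (g p.1) (Tw.rq (c p.1)) p.2
  have : Finite A := ((Set.finite_range _).union (Set.finite_range _)).to_subtype
  refine ⟨IntermediateField.adjoin ℚ A, IntermediateField.finiteDimensional_adjoin fun x _ =>
    (Algebra.IsAlgebraic.isAlgebraic x).isIntegral, fun O h a e => ?_⟩
  rw [← InfiniteGalois.fixedField_fixingSubgroup (IntermediateField.adjoin ℚ A)]
  rintro ⟨σ, hσ⟩
  have hA : ∀ x ∈ A, σ x = x := fun x hx => hσ ⟨x, IntermediateField.subset_adjoin _ _ hx⟩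
  have h1 : ∀ τ d, (s τ d).map σ = s τ d := fun τ d => by
    have : ((σ : Qb →+* Qb).mapMatrix.comp (s τ)).toAddMonoidHom.toRatLinearMap =
        (s τ).toAddMonoidHom.toRatLinearMap :=
      b.ext fun i => Matrix.ext fun j l => hA _ (Or.inl ⟨(τ, i, j, l), rfl⟩)
    exact LinearMap.congr_fun this d
  refine Bk.fix hg hz h0 (σ : Qb →+* Qb) (fun γ v => funext fun p => ?_)
    (fun i => funext fun p => hA _ (Or.inr ⟨(i, p), rfl⟩)) h e
  rw [QD.rw, wt_apply, wt_apply, Function.comp_apply, RingHom.map_mulVec]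
  refine congrFun (congrArg (Matrix.mulVec · _) (Matrix.ext fun p q => ?_)) p
  change σ (∏ i, syd m _ (p i) (q i)) = ∏ i, syd m _ (p i) (q i)
  rw [map_prod]
  exact Finset.prod_congr rfl fun i _ =>
    (congrFun (congrFun (Bi.syd_map (σ : Qb →+* Qb) m (h1 i _).symm) _) _).symm

/-- **BNDF** from the archimedean bound -/
theorem bndf_of (hA : BNDA) : BNDF := bndf bndk bndi hA

end Vale.Agent.P022K.Sh
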