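import Vale.Agent.P022K.F0.Saut2
import Vale.Agent.P022K.F0.Ape
import Vale.Agent.P022K.F0.Can
import Vale.Agent.P022K.F0.Tfr
import Vale.Agent.P022K.FI.As2
import Vale.Agent.P022K.RM.All

/-!
# P022K, block F0: the exported rows without hypotheses
-/

set_option autoImplicit false

noncomputable section

namespace Vale.Agent.P022K.Sh

/-- **row REPF** -/
theorem repC : REPF := repf ape bndk bndi tfr FI.goodx can

/-- **row BNDF** -/
theorem bndC : BNDF := RM.bndfC

/-- **row RAMF** -/
theorem ramC : RM.RAMF := RM.ramf_of FI.goodx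

/-- **row SAUT** -/
theorem sautC : SAUT := saut1 FI.saq

/-- **row SAUT2** -/
theorem saut2C : SAUT2 := saut2 FI.saq repC

end Vale.Agent.P022K.Sh
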