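import Vale.Agent.P022K.F0.ApeA
import Vale.Agent.P022K.F0.Aut

/-!
# P022K, block F0: bounded cocycles over an ultrametric field
-/

set_option autoImplicit false

open scoped NNReal

noncomputable section

namespace Vale.Agent.P022K.Sh.Ap

open Tw

variable {G0 G : Type} [Group G0] [Group G] {T : Tw G0 G} {U : Subgroup G} {k n : Type}
  [NormedField k]

theorem ex_bound {ι W : Type} [Fintype ι] [SeminormedAddCommGroup W] [NormedSpace k W]
    (f : (ι → k) →ₗ[k] W) : ∃ C : ℝ≥0, ∀ v, ‖f v‖₊ ≤ C * ‖v‖₊ := by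
  classical
  refine ⟨∑ i, ‖f fun j => if i = j then 1 else 0‖₊, fun v => ?_⟩
  rw [f.pi_apply_eq_sum_univ, Finset.sum_mul]
  refine (nnnorm_sum_le _ _).trans (Finset.sum_le_sum fun i _ => ?_)
  rw [nnnorm_smul, mul_comm]
  exact mul_le_mul_right (nnnorm_le_pi_nnnorm v i) _

/-- closed balls -/
def bl (V : Type) [SeminormedAddCommGroup V] [IsUltrametricDist V] (D : ℝ≥0) : AddSubgroup V where
  carrier := {v | ‖v‖₊ ≤ D}
  add_mem' h h' := (IsUltrametricDist.nnnorm_add_le_max _ _).trans (max_le h h')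
  zero_mem' := by simp
  neg_mem' h := by simpa using h

variable [IsUltrametricDist k] [Fintype n] {σ : Representation k G (n → k)}

variable (T σ) in
/-- the restriction to `G0` -/
abbrev rs : Representation k G0 (n → k) := σ.comp T.j

variable (σ) in
/-- the twisted function -/
def tw (f : G → n → k) (x : G) : n → k := σ x⁻¹ (f x)

variable (σ) in
/-- bounded functions -/
def Bd (D : ℝ≥0) (f : G → n → k) : Prop := ∀ x, tw σ f x ∈ bl (n → k) D

section

omit [IsUltrametricDist k] [Fintype n]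

theorem sig_mul (x y : G) (v : n → k) : σ (x * y) v = σ x (σ y v) := by
  rw [map_mul, Module.End.mul_apply]

theorem sig_inv (x : G) (v : n → k) : σ x⁻¹ (σ x v) = v := by
  rw [← sig_mul, inv_mul_cancel, map_one, Module.End.one_apply]

theorem tw_cob (f : G → n → k) (γ : G0) (x : G) :
    tw σ (cob T (rs T σ) f γ) x = tw σ f ((T.j γ)⁻¹ * x) - tw σ f x := by
  rw [tw, cob_apply, map_sub, tw, mul_inv_rev, inv_inv, sig_mul]
  rfl

theorem tw_coc {z : G0 → G → n → k} (hz : z ∈ T.Z1 (rs T σ) U) (γ δ : G0) (x : G) :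
    tw σ (z (γ * δ)) x = tw σ (z γ) x + tw σ (z δ) ((T.j γ)⁻¹ * x) := by
  rw [tw, coc hz, map_add, tw, tw, mul_inv_rev, inv_inv, sig_mul]
  rfl

theorem tw_mul {f : G → n → k} (hf : Inv U f) (x : G) {u : G} (hu : u ∈ U) :
    tw σ f (x * u) = σ u⁻¹ (tw σ f x) := by rw [tw, hf _ _ hu, mul_inv_rev, sig_mul, tw]

theorem tw_one (f : G → n → k) (x : G) {g : G} (hg : σ g = 1) :
    tw σ f (x * g) = σ x⁻¹ (f (x * g)) := by
  rw [tw, mul_inv_rev, sig_mul]
  simpa only [hg, Module.End.one_apply] using sig_inv (σ := σ) g (σ x⁻¹ (f (x * g)))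

end

variable (σ U) in
/-- the system of lattices -/
def lat (D : ℝ≥0) (x : G) : AddSubgroup (n → k) :=
  ⨅ u ∈ U, (bl (n → k) D).comap (σ (x * u)⁻¹).toAddMonoidHom

theorem mem_lat {D : ℝ≥0} {x : G} {v : n → k} :
    v ∈ lat U σ D x ↔ ∀ u ∈ U, ‖σ (x * u)⁻¹ v‖₊ ≤ D := by
  simp only [lat, AddSubgroup.mem_iInf]
  rfl

theorem sys_lat (D : ℝ≥0) : Sys T U (rs T σ) (lat U σ D) := by
  refine ⟨fun γ x v hv => mem_lat.2 fun u hu => ?_, fun x u hu => AddSubgroup.ext fun v => ?_⟩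
  · rw [mul_assoc, mul_inv_rev, sig_mul]
    exact (congrArg (fun w => ‖σ (x * u)⁻¹ w‖₊) (sig_inv (T.j γ) v)).trans_le (mem_lat.1 hv u hu)
  · refine mem_lat.trans (Iff.trans ⟨fun h a ha => ?_, fun h a ha => ?_⟩ mem_lat.symm)
    · simpa only [mul_assoc, mul_inv_cancel_left] using h (u⁻¹ * a) (mul_mem (inv_mem hu) ha)
    · simpa only [mul_assoc] using h _ (mul_mem hu ha)

theorem bd_iff {D : ℝ≥0} {f : G → n → k} (hf : Inv U f) : Bd σ D f ↔ ∀ x, f x ∈ lat U σ D x :=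
  ⟨fun h x => mem_lat.2 fun u hu => hf x u hu ▸ h (x * u),
    fun h x => by
      have := mem_lat.1 (h x) 1 (one_mem _)
      rwa [mul_one] at this⟩

variable (T U σ) in
/-- the standing hypotheses -/
structure Std (C : ℝ≥0) : Prop where
  ok : T.Ok
  lev : U ∈ T.Lev
  cen : ∀ z ∈ T.Z, σ z = 1
  one : 1 ≤ C
  bd : ∀ u ∈ U, ∀ v, ‖σ u v‖₊ ≤ C * ‖v‖₊

variable {C : ℝ≥0}

omit [IsUltrametricDist k] in
theorem Std.le (h : Std T U σ C) : T.B1 (rs T σ) U ≤ T.Z1 (rs T σ) U :=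
  B1_le h.ok h.lev fun γ hγ => h.cen _ ((h.ok.z0 γ).1 hγ)

theorem Std.lat (h : Std T U σ C) {D : ℝ≥0} {x : G} {v : n → k} (hv : ‖σ x⁻¹ v‖₊ ≤ D) :
    v ∈ lat U σ (C * D) x := mem_lat.2 fun u hu => by
  rw [mul_inv_rev, sig_mul]
  exact (h.bd _ (inv_mem hu) _).trans (mul_le_mul_right hv C)

section

variable {I : Type} (g : I → G0) (c : I → T.DC U)

variable (σ) in
/-- the values on the generators -/
def eg : (G0 → G → n → k) →ₗ[k] I × n → k where
  toFun z a := tw σ (z (g a.1)) (rq (c a.1)) a.2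
  map_add' _ _ := funext fun a => congrFun (map_add (σ _) _ _) a.2
  map_smul' _ _ := funext fun a => congrFun (map_smul (σ _) _ _) a.2

variable (σ) in
/-- the coboundaries on the generators -/
def dm : (T.DC U × n → k) →ₗ[k] I × n → k where
  toFun a := eg σ g c (cob T (rs T σ) (xt T U (rs T σ) fun κ => σ (rq κ) fun i => a (κ, i)))
  map_add' a b := by
    rw [← map_add]
    refine congrArg _ (funext fun γ => funext fun x => ?_)
    have : ∀ κ, (fun i => (a + b) (κ, i)) = (fun i => a (κ, i)) + fun i => b (κ, i) := fun _ => rfl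
    simp only [this]
    simp only [cob_apply, Pi.add_apply, map_add, xt, LinearMap.coe_mk, AddHom.coe_mk]
    abel
  map_smul' a b := by
    rw [← map_smul]
    refine congrArg _ (funext fun γ => funext fun x => ?_)
    have : ∀ κ, (fun i => (a • b) (κ, i)) = a • fun i => b (κ, i) := fun _ => rfl
    simp only [this]
    simp only [cob_apply, Pi.smul_apply, map_smul, xt, LinearMap.coe_mk, AddHom.coe_mk,
      smul_sub, RingHom.id_apply]

variable {g c}

theorem eg_le [Fintype I] {D : ℝ≥0} {z : G0 → G → n → k} (h : ∀ γ, Bd σ D (z γ)) :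
    ‖eg σ g c z‖₊ ≤ D :=
  pi_nnnorm_le_iff.2 fun a => (nnnorm_le_pi_nnnorm _ a.2).trans (h _ _)

omit [IsUltrametricDist k] [Fintype n] in
theorem eg_mem (hg : Gen T U g c) {z : G0 → G → n → k} (hz : z ∈ T.B1 (rs T σ) U) :
    eg σ g c z ∈ (dm σ g c).range := by
  obtain ⟨f, hf, rfl⟩ := mem_B1.1 hz
  obtain ⟨a, ha⟩ := hg.ex_xt (ρ := rs T σ) hf
  refine ⟨fun t => σ (rq t.1)⁻¹ (a t.1) t.2, funext fun t => ?_⟩
  have e : (fun κ => σ (rq κ) fun i => σ (rq κ)⁻¹ (a κ) i) = a := funext fun κ => by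
    simpa only [inv_inv] using sig_inv (σ := σ) (rq κ)⁻¹ (a κ)
  exact (congrArg (fun a => eg σ g c (cob T _ (xt T U _ a)) t) e).trans
    (congrArg (fun v => σ _ v t.2) (ha t.1).symm)

omit [IsUltrametricDist k] in
theorem Std.ex_cob (h : Std T U σ C) (hg : Gen T U g c) {M : G → AddSubgroup (n → k)}
    (hM : Sys T U (rs T σ) M) {y : G0 → G → n → k} (hy : y ∈ T.Z1 (rs T σ) U)
    (hv : ∀ γ x, y γ x ∈ M x) {a : T.DC U × n → k}
    (ha : ∀ κ, (σ (rq κ) fun i => a (κ, i)) ∈ M (rq κ)) (e : dm σ g c a = eg σ g c y) :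
    ∃ f, Inv U f ∧ (∀ x, f x ∈ M x) ∧ y = cob T (rs T σ) f :=
  hg.cob_of h.le hM hy hv (xt_inv fun κ => σ (rq κ) fun i => a (κ, i)) (fun _ => hM.dd (ha _))
    fun i => by
      have : σ (rq (c i))⁻¹ (cob T (rs T σ) (xt T U (rs T σ) fun κ => σ (rq κ) fun i => a (κ, i))
          (g i) (rq (c i))) = σ (rq (c i))⁻¹ (y (g i) (rq (c i))) :=
        funext fun j => congrFun e (i, j)
      exact (sig_inv _ _).symm.trans ((congrArg _ this.symm).trans (sig_inv _ _))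

end

/-- every class has a bounded representative -/
theorem Std.ex_bd (h : Std T U σ C) {z : G0 → G → n → k} (hz : z ∈ T.Z1 (rs T σ) U) :
    ∃ D, ∀ γ, Bd σ D (nz T U (rs T σ) z γ) := by
  obtain ⟨I, _, g, c, hg⟩ := exGen h.ok h.lev
  exact ⟨C * ‖eg σ g c z‖₊, fun γ => (bd_iff ((nz_mem h.ok h.lev hz).1 γ)).2 <|
    hg.repr (sys_lat _) hz (fun i => h.lat (pi_nnnorm_le_iff.2 fun j =>
      nnnorm_le_pi_nnnorm (eg σ g c z) (i, j))) γ⟩

/-- a non zero class is not infinitely divisible -/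
theorem Std.bd_ne (h : Std T U σ C) {z : G0 → G → n → k} (hz : z ∈ T.Z1 (rs T σ) U)
    (hn : z ∉ T.B1 (rs T σ) U) : ∃ C' : ℝ≥0, ∀ (a : k) y D, (∀ γ, Bd σ D (y γ)) →
      a • z - y ∈ T.B1 (rs T σ) U → ‖a‖₊ ≤ C' * D := by
  obtain ⟨I, _, g, c, hg⟩ := exGen h.ok h.lev
  obtain ⟨l, l1, l2⟩ := Submodule.exists_le_ker_of_notMem (p := (dm σ g c).range)
    (v := eg σ g c z) fun ⟨a, e⟩ => hn (by
      obtain ⟨f, hf, -, e⟩ := h.ex_cob hg (M := fun _ => ⊤) ⟨fun _ _ _ _ => trivial,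
        fun _ _ _ => rfl⟩ hz (fun _ _ => trivial) (fun _ => trivial) e
      exact e ▸ cob_mem hf)
  obtain ⟨L, hL⟩ := ex_bound l
  refine ⟨‖l (eg σ g c z)‖₊⁻¹ * L, fun a y D hy e => ?_⟩
  have := l2 (eg_mem hg e)
  rw [LinearMap.mem_ker, map_sub, map_sub, map_smul, map_smul, sub_eq_zero, smul_eq_mul] at this
  rw [mul_assoc, le_inv_mul_iff₀ (nnnorm_pos.2 l1), mul_comm, ← nnnorm_mul, this]
  exact (hL _).trans (mul_le_mul_right (eg_le hy) L)

/-- bounded torsion -/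
theorem Std.bd_cob (h : Std T U σ C) : ∃ C' : ℝ≥0, 1 ≤ C' ∧ ∀ y ∈ T.B1 (rs T σ) U, ∀ D,
    (∀ γ, Bd σ D (y γ)) → ∃ f, Inv U f ∧ Bd σ (C' * D) f ∧ y = cob T (rs T σ) f := by
  obtain ⟨I, _, g, c, hg⟩ := exGen h.ok h.lev
  have := h.ok.finDC h.lev
  let _ := Fintype.ofFinite (T.DC U)
  obtain ⟨r, hr⟩ := (dm σ g c).rangeRestrict.exists_rightInverse_of_surjective
    (LinearMap.range_rangeRestrict _)
  obtain ⟨R, hR⟩ := r.exists_extend
  obtain ⟨L, hL⟩ := ex_bound R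
  refine ⟨C * max 1 L, one_le_mul h.one (le_max_left _ _), fun y hy D hD => ?_⟩
  obtain ⟨f, hf, h1, e⟩ := h.ex_cob hg (sys_lat (C * (max 1 L * D))) (h.le hy)
    (fun γ x => h.lat ((hD γ x).trans (le_mul_of_one_le_left' (le_max_left _ _))))
    (a := R (eg σ g c y)) (fun κ => h.lat (by
      rw [sig_inv]
      exact pi_nnnorm_le_iff.2 fun i => (nnnorm_le_pi_nnnorm _ _).trans ((hL _).trans
        (mul_le_mul' (le_max_right _ _) (eg_le hD))))) (by
      have e1 : R (eg σ g c y) = r ⟨_, eg_mem hg hy⟩ := LinearMap.congr_fun hR ⟨_, eg_mem hg hy⟩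
      rw [e1]
      exact congrArg Subtype.val (LinearMap.congr_fun hr ⟨_, eg_mem hg hy⟩))
  exact ⟨f, hf, mul_assoc C _ D ▸ (bd_iff hf).2 h1, e⟩

end Vale.Agent.P022K.Sh.Ap
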