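import Vale.Agent.P022K.F0.ApeB

/-!
# P022K, block F0: reduction of an eigenclass modulo powers of a uniformiser (abstract part)
-/

set_option autoImplicit false

open scoped NNReal

noncomputable section

namespace Vale.Agent.P022K.Sh.Ap

open Tw

variable {G0 G : Type} [Group G0] [Group G] {T : Tw G0 G} {U : Subgroup G}

section ts

variable {O K : Type} [CommRing O] [IsDomain O] [IsDiscreteValuationRing O] [Field K] [Algebra O K]
  (w : T.Lc O K) [Fintype (IsLocalRing.ResidueField O)] {B : Type} [AddCommGroup B]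

/-- the operator `T_w ^ 2 - (q + 1) ^ 2` -/
def ts : (G → B) →+ G → B where
  toFun f x := ∑ i, ∑ j, (f (x * w.ι (w.tr i) * w.ι (w.tr j)) - f x)
  map_zero' := funext fun x => by simp
  map_add' f g := funext fun x => by
    simp only [Pi.add_apply, ← Finset.sum_add_distrib]
    exact Finset.sum_congr rfl fun _ _ => Finset.sum_congr rfl fun _ _ => by abel

theorem ts_apply (f : G → B) (x : G) :
    ts w f x = ∑ i, ∑ j, (f (x * w.ι (w.tr i) * w.ι (w.tr j)) - f x) := rfl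

variable {w}

theorem ts_eq (h : w.At (KK O K) U) (hU : U ∈ T.Lev) (c : Cor U (w.To U) U) {f : G → B}
    (hf : Inv U f) : ts w f = hk (w.To U) U (hk (w.To U) U f) - (qq O + 1) ^ 2 • f := by
  funext x
  rw [Pi.sub_apply, (h.rep_To hU).hk (hk_inv c hf)]
  simp only [ts_apply, (h.rep_To hU).hk hf, Finset.sum_sub_distrib, Finset.sum_const, Lc.card_opt,
    smul_smul, Pi.smul_apply, sq]

theorem ts_inv (h : w.At (KK O K) U) (hU : U ∈ T.Lev) (c : Cor U (w.To U) U) {f : G → B}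
    (hf : Inv U f) : Inv U (ts w f) := fun x u hu => by
  rw [ts_eq h hU c hf, Pi.sub_apply, Pi.sub_apply, hk_inv c (hk_inv c hf) _ _ hu, Pi.smul_apply,
    hf _ _ hu, Pi.smul_apply]

theorem ts_mem {M : AddSubgroup B} {f : G → B} (h : ∀ x, f x ∈ M) (x : G) : ts w f x ∈ M :=
  sum_mem fun _ _ => sum_mem fun _ _ => sub_mem (h _) (h _)

/-- almost invariant functions are almost killed -/
theorem ts_eis (sa : w.SA) (hU : U ∈ T.Lev) {M : AddSubgroup B} {f : G → B} (hf : Inv U f)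
    (h : ∀ γ x, f ((T.j γ)⁻¹ * x) - f x ∈ M) (x : G) : ts w f x ∈ M :=
  sum_mem fun i _ => sum_mem fun j _ => by
    obtain ⟨γ, u, hu, e⟩ := sa U hU x
      (w.tr i * w.tr j * Matrix.GeneralLinearGroup.scalar (Fin 2) w.ϖ⁻¹) (by
        rw [map_mul, map_mul, w.det_tr, w.det_tr]
        ext
        simp [sq])
    rw [← hf _ _ ((sInf_le hU : T.Z ≤ U) (w.cen _ (scalar_mem w.ϖ⁻¹))), mul_assoc,
      mul_assoc, ← map_mul, ← map_mul, ← mul_assoc, e, hf _ _ hu]
    simpa using h γ⁻¹ x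

end ts

variable {k n : Type} [NormedField k] [IsUltrametricDist k] [Fintype n]
  {σ : Representation k G (n → k)} {C : ℝ≥0}

variable (k) in
/-- `O` is the ring of integers of `k` -/
structure Ri (O : Type) [CommRing O] [Algebra O k] : Prop where
  inj : Function.Injective (algebraMap O k)
  le : ∀ a : O, ‖algebraMap O k a‖₊ ≤ 1
  ex : ∀ x : k, ‖x‖₊ ≤ 1 → ∃ a, algebraMap O k a = x

variable {O : Type} [CommRing O] [Algebra O k]

omit [IsUltrametricDist k] in
theorem Ri.dvd (h : Ri k O) {a b : O} :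
    b ∣ a ↔ ‖algebraMap O k a‖₊ ≤ ‖algebraMap O k b‖₊ := by
  constructor
  · rintro ⟨c, rfl⟩
    rw [map_mul, nnnorm_mul]
    exact mul_le_of_le_one_right' (h.le c)
  · intro e
    by_cases b0 : algebraMap O k b = 0
    · rw [b0, nnnorm_zero, nonpos_iff_eq_zero, nnnorm_eq_zero, map_eq_zero_iff _ h.inj] at e
      exact e ▸ dvd_zero b
    · obtain ⟨c, hc⟩ := h.ex (algebraMap O k a / algebraMap O k b) (by
        rw [nnnorm_div]; exact div_le_one_of_le₀ e zero_le)
      exact ⟨c, h.inj (by rw [map_mul, hc, mul_div_cancel₀ _ b0])⟩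

omit [IsUltrametricDist k] in
theorem Ri.mk_eq (h : Ri k O) {a a' b : O} : Ideal.Quotient.mk (Ideal.span {b}) a =
    Ideal.Quotient.mk _ a' ↔ ‖algebraMap O k a - algebraMap O k a'‖₊ ≤ ‖algebraMap O k b‖₊ := by
  rw [Ideal.Quotient.eq, Ideal.mem_span_singleton, h.dvd, map_sub]

omit [IsUltrametricDist k] in
theorem Ri.lift (h : Ri k O) {J : Type} {f : J → n → k} (hf : ∀ j, ‖f j‖₊ ≤ 1) :
    ∃ g : J → n → O, ∀ j i, algebraMap O k (g j i) = f j i := by
  choose g hg using fun j i => h.ex (f j i) ((nnnorm_le_pi_nnnorm _ i).trans (hf j))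
  exact ⟨g, hg⟩

theorem op_apply {Λ B : Type} [CommRing Λ] [AddCommGroup B] [Module Λ B] (f : G →₀ Λ) (φ : G → B)
    (x : G) : op f φ x = ∑ g ∈ f.support, f g • φ (x * g) := Finset.sum_apply _ _ _

theorem smul_bl (h : Ri k O) (a : O) {D : ℝ≥0} {v : n → k} (hv : v ∈ bl (n → k) D) :
    algebraMap O k a • v ∈ bl (n → k) D :=
  (nnnorm_smul _ _).trans_le ((mul_le_of_le_one_left' (h.le a)).trans hv)

/-- the annihilator of the reduction -/
theorem Std.ann (h : Std T U σ C) {O' K : Type} [CommRing O'] [IsDomain O']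
    [IsDiscreteValuationRing O'] [Field K] [Algebra O' K] {w : T.Lc O' K} (hw : w.At (KK O' K) U)
    (sa : w.SA) (sw : ∀ g, σ (w.ι g) = 1) {c : k} (hc : c ^ 2 ≠ (qq O' + 1) ^ 2)
    {z : G0 → G → n → k} (hz : z ∈ T.Z1 (rs T σ) U) (hn : z ∉ T.B1 (rs T σ) U)
    (he : T.Eig (rs T σ) U z (hk (w.To U) U) c) : ∃ L : ℝ≥0, ∀ U' ∈ T.Lev, w.At (KK O' K) U' →
      ∀ (a : k) (ε : ℝ≥0) (f : G → n → k), Inv U' f →
      (∀ γ x, a • tw σ (z γ) x - (f ((T.j γ)⁻¹ * x) - f x) ∈ bl (n → k) ε) → ‖a‖₊ ≤ L * ε := by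
  have := w.fin
  let _ := Fintype.ofFinite (IsLocalRing.ResidueField O')
  have cor : ∀ U ∈ T.Lev, Cor U (w.To U) U := fun U hU =>
    cor_dc (h.ok.fi _ (h.ok.conj U hU _) U hU)
  have gd := good_hk (T := T) (ρ := rs T σ) (cor U h.lev)
  obtain ⟨L, hL⟩ := h.bd_ne hz hn
  refine ⟨‖c ^ 2 - (qq O' + 1) ^ 2‖₊⁻¹ * (L * C), fun U' hU' hw' a ε f hf e => ?_⟩
  have up : ∀ v ∈ bl (n → k) ε, v ∈ bl (n → k) (C * ε) := fun v hv =>
    le_trans hv (le_mul_of_one_le_left' h.one)
  have k1 : ∀ u ∈ U, ∀ x, σ u (ts w f (x * u)) - ts w f x ∈ bl (n → k) (C * ε) := fun u hu x => by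
    obtain ⟨v, hv, y, hy, h1, rfl⟩ := hw.split h.lev hu
    rw [sig_mul, sw, ← mul_assoc, ← ts_inv hw' hU' (cor U' hU') hf x _ ((hw'.iff hU').2 hv)]
    have := ts_eis sa (h.ok.inf _ hU' _ (h.ok.conj _ hU' y)) (f := fun x => σ y (f (x * y)) - f x)
      (M := bl (n → k) (C * ε)) (fun x u hu => by
        beta_reduce
        rw [hf _ _ hu.1, ← hf (x * y) _ (mem_cj.1 hu.2)]
        simp only [mul_assoc, mul_inv_cancel_left]) (fun γ x => by
        have e1 : σ y _ ∈ bl (n → k) (C * ε) :=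
          (h.bd y hy _).trans (mul_le_mul_right (e γ (x * y)) C)
        rw [tw_mul (hz.1 γ) _ hy, map_sub, map_smul, ← sig_mul, mul_inv_cancel, map_one,
          map_sub, ← mul_assoc] at e1
        convert sub_mem (up _ (e γ x)) e1 using 1
        simp only [Module.End.one_apply]
        abel) (x * w.ι v)
    convert this using 1
    simp only [ts_apply, map_sum, map_sub, Module.End.one_apply, ← Finset.sum_sub_distrib]
    refine Finset.sum_congr rfl fun i _ => Finset.sum_congr rfl fun j _ => ?_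
    rw [mul_assoc _ y, ← (w.com _ _ h1).eq, ← mul_assoc, mul_assoc _ y, ← (w.com _ _ h1).eq,
      ← mul_assoc]
    abel
  let H : G → n → k := fun x => σ (x : G ⧸ U).out (ts w f (x : G ⧸ U).out)
  have k2 : ∀ x, tw σ H x - ts w f x ∈ bl (n → k) (C * ε) := fun x => by
    have := k1 _ (out_mk_mem U x) x
    rwa [mul_inv_cancel_left, sig_mul] at this
  have k3 : ∀ γ x, tw σ (ts w (z γ)) x = ts w (tw σ (z γ)) x := fun γ x => by
    simp only [tw, ts_apply, map_sum, map_sub, mul_inv_rev, sig_mul, ← map_inv w.ι, sw,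
      Module.End.one_apply]
  have := hL (a * (c ^ 2 - (qq O' + 1) ^ 2)) (a • (fun γ => ts w (z γ)) - cob T (rs T σ) H) (C * ε)
    (fun γ x => by
      have e1 := up _ (ts_mem (w := w) (e γ) x)
      convert sub_mem e1 (sub_mem (k2 ((T.j γ)⁻¹ * x)) (k2 x)) using 1
      rw [tw, Pi.sub_apply, Pi.sub_apply, map_sub, Pi.smul_apply, Pi.smul_apply, map_smul]
      refine (congrArg₂ (a • · - ·) (k3 γ x) (tw_cob H γ x)).trans ?_
      simp only [ts_apply, Finset.sum_sub_distrib, smul_sub, Finset.smul_sum, mul_assoc]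
      abel) (by
      have e1 := add_mem (Submodule.smul_mem _ (-a) (add_mem (gd.B1 he)
        (Submodule.smul_mem _ c he))) (cob_mem (T := T) (ρ := rs T σ) (f := H) fun x u hu => by
          simp only [H, QuotientGroup.mk_mul_of_mem x hu])
      refine (congrArg (· ∈ T.B1 (rs T σ) U) (funext fun γ => funext fun x => ?_)).mp e1
      simp only [Pi.add_apply, Pi.sub_apply, Pi.smul_apply, ts_eq hw h.lev (cor U h.lev) (hz.1 γ),
        hk_eq (cor U h.lev), Finset.sum_sub_distrib, ← Finset.smul_sum,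
        ← Nat.cast_smul_eq_nsmul k, Nat.cast_pow, Nat.cast_add, Nat.cast_one]
      module)
  rw [nnnorm_mul, ← mul_assoc, mul_comm] at this
  rwa [mul_assoc, le_inv_mul_iff₀ (nnnorm_pos.2 (sub_ne_zero.2 hc))]

/-- **APE**, abstract form -/
theorem Std.ape [Nonempty n] (h : Std T U σ C) (hO : Ri k O) {p : O} (p0 : p ≠ 0)
    (p1 : ‖algebraMap O k p‖₊ < 1) {O' K : Type} [CommRing O'] [IsDomain O']
    [IsDiscreteValuationRing O'] [Field K] [Algebra O' K] {w : T.Lc O' K} (hw : w.At (KK O' K) U)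
    (sa : w.SA) (sw : ∀ g, σ (w.ι g) = 1) {c : k} (hc : c ^ 2 ≠ (qq O' + 1) ^ 2)
    {z : G0 → G → n → k} (hz : z ∈ T.Z1 (rs T σ) U) (hn : z ∉ T.B1 (rs T σ) U)
    (he : T.Eig (rs T σ) U z (hk (w.To U) U) c) : ∃ κ : ℕ, ∀ N : ℕ, ∀ U' ∈ T.Lev, U' ≤ U →
      w.At (KK O' K) U' → (∀ u ∈ U', ∀ v, ‖σ u v - v‖₊ ≤ ‖algebraMap O k (p ^ N)‖₊ * ‖v‖₊) →
      ∃ z' ∈ T.Z1 (Representation.trivial O G0 (O ⧸ Ideal.span {p ^ N})) U',
        (∀ a : O, a • z' ∈ T.B1 (Representation.trivial O G0 _) U' → p ^ N ∣ a * p ^ κ) ∧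
        ∀ (f : G →₀ O) (b : O), (∀ g ∈ f.support, σ g = 1) →
          (∀ φ : G → n → k, Inv U φ → Inv U (op f φ)) →
          T.Eig (rs T σ) U z (op f) (algebraMap O k b) →
          T.Eig (Representation.trivial O G0 _) U' z' (op f) b := by
  have q0 : algebraMap O k p ≠ 0 := (map_ne_zero_iff _ hO.inj).2 p0
  have sm : ∀ D : ℝ≥0, ∃ j : ℕ, ‖algebraMap O k p‖₊ ^ j * D ≤ 1 := fun D => by
    obtain ⟨j, hj⟩ := exists_pow_lt_of_lt_one (inv_pos.2 (add_pos_of_nonneg_of_pos zero_le one_pos :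
      0 < D + 1)) p1
    exact ⟨j, (mul_le_mul' hj.le (le_add_right le_rfl)).trans (inv_mul_cancel₀ (by simp)).le⟩
  obtain ⟨D, hD⟩ := h.ex_bd hz
  obtain ⟨C', c1, hC⟩ := h.bd_cob
  obtain ⟨j, hj⟩ := sm (C' * D)
  let y := algebraMap O k p ^ j • nz T U (rs T σ) z
  have y1 : y ∈ T.Z1 (rs T σ) U := Submodule.smul_mem _ _ (nz_mem h.ok h.lev hz)
  have y2 : ∀ γ, Bd σ (‖algebraMap O k p‖₊ ^ j * D) (y γ) := fun γ x => by
    show ‖σ x⁻¹ (algebraMap O k p ^ j • nz T U (rs T σ) z γ x)‖₊ ≤ _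
    rw [map_smul, nnnorm_smul, nnnorm_pow]
    exact mul_le_mul_right (hD γ x) _
  have y3 : ∀ A b, Good T U (rs T σ) A → (∀ (a : k) f, A (a • f) = a • A f) →
      T.Eig (rs T σ) U z A b → T.Eig (rs T σ) U y A b := fun A b h1 h2 h3 => by
    have := Submodule.smul_mem _ (algebraMap O k p ^ j) (h1.eig (nz_sub hz) h3)
    refine (congrArg (· ∈ T.B1 (rs T σ) U) (funext fun γ => ?_)).mp this
    simp only [y, Pi.smul_apply, Pi.sub_apply, h2, smul_sub, smul_comm b]
  have cor : Cor U (w.To U) U := cor_dc (h.ok.fi _ (h.ok.conj U h.lev _) U h.lev)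
  obtain ⟨L, hL⟩ := h.ann hw sa sw hc y1 (fun e => hn (by
    have := sub_mem (Submodule.smul_mem _ (algebraMap O k p ^ j)⁻¹ e) (nz_sub hz)
    rwa [inv_smul_smul₀ (pow_ne_zero j q0), sub_sub_cancel] at this))
    (y3 _ c (good_hk cor) (fun a f => funext fun x => by
      simp only [hk_eq cor, Pi.smul_apply, Finset.smul_sum]) he)
  obtain ⟨κ, hκ⟩ := sm L
  refine ⟨κ, fun N U' hU' le hw' sm => ?_⟩
  obtain ⟨Z, hZ⟩ := hO.lift (f := fun t : G0 × G => tw σ (y t.1) t.2) fun t =>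
    (y2 _ _).trans ((mul_le_mul_right (le_mul_of_one_le_left' c1) _).trans hj)
  have iv : ∀ {f : G → n → k} {F : G → n → O}, Inv U f → Bd σ 1 f →
      (∀ x i, algebraMap O k (F x i) = tw σ f x i) → ∀ i,
      Inv U' fun x => Ideal.Quotient.mk (Ideal.span {p ^ N}) (F x i) := by
    intro f F h1 h2 h3 i x u hu
    refine hO.mk_eq.2 ?_
    rw [h3, h3, tw_mul h1 x (le hu)]
    exact (nnnorm_le_pi_nnnorm (σ u⁻¹ _ - _) i).trans ((sm _ (inv_mem hu) _).trans
      (mul_le_of_le_one_right' (h2 x)))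
  have ex : ∃ i, ∀ a : O, a • (fun γ x => Ideal.Quotient.mk (Ideal.span {p ^ N}) (Z (γ, x) i)) ∈
      T.B1 (Representation.trivial O G0 _) U' → p ^ N ∣ a * p ^ κ := by
    by_contra! hh
    choose a h1 h2 using hh
    obtain ⟨i0, hi⟩ := Finite.exists_min fun i => ‖algebraMap O k (a i)‖₊
    choose f f1 f2 using fun i => (by
      obtain ⟨b, hb⟩ := hO.dvd.2 (hi i)
      rw [hb, mul_comm, mul_smul]
      exact Submodule.smul_mem _ b (h1 i) :
      a i0 • (fun γ x => Ideal.Quotient.mk (Ideal.span {p ^ N}) (Z (γ, x) i)) ∈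
        T.B1 (Representation.trivial O G0 _) U')
    refine h2 i0 (hO.dvd.2 ?_)
    have := hL U' hU' hw' (algebraMap O k (a i0)) ‖algebraMap O k (p ^ N)‖₊
      (fun x i => algebraMap O k (f i x).out) (fun x u hu => funext fun i => by
        beta_reduce; rw [f1 i x u hu]) fun γ x => pi_nnnorm_le_iff.2 fun i => by
      have e := (hO.mk_eq (a := a i0 * Z (γ, x) i) (a' := (f i ((T.j γ)⁻¹ * x)).out - (f i x).out)
        (b := p ^ N)).1 (by
        rw [map_sub, Ideal.Quotient.mk_out, Ideal.Quotient.mk_out]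
        exact congrFun (f2 i γ) x)
      rwa [map_mul, map_sub, hZ] at e
    rw [map_mul, nnnorm_mul, map_pow _ p κ, nnnorm_pow, mul_comm]
    refine (mul_le_mul_right this _).trans ?_
    rw [← mul_assoc]
    exact mul_le_of_le_one_left' hκ
  obtain ⟨i, hi⟩ := ex
  refine ⟨_, ⟨fun γ => iv (y1.1 γ) (fun x => (y2 _ _).trans ((mul_le_mul_right
    (le_mul_of_one_le_left' c1) _).trans hj)) (fun x => hZ (γ, x)) i, fun γ δ => funext fun x => ?_,
    fun γ hγ => funext fun x => ?_⟩, hi, fun f b f1 f2 f3 => ?_⟩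
  · refine Eq.trans (congrArg _ (hO.inj ?_)) (map_add _ (Z (γ, x) i) (Z (δ, (T.j γ)⁻¹ * x) i))
    rw [map_add, hZ, hZ, hZ, tw_coc y1]
    rfl
  · refine Eq.trans (congrArg _ (hO.inj ?_)) (map_zero _)
    rw [hZ, y1.2.2 γ hγ, map_zero]
    exact congrFun (map_zero (σ x⁻¹)) i
  · have tw1 : ∀ γ x, tw σ (op f (y γ) - algebraMap O k b • y γ) x = ∑ g ∈ f.support,
        algebraMap O k (f g) • tw σ (y γ) (x * g) - algebraMap O k b • tw σ (y γ) x := fun γ x => by
      rw [tw, Pi.sub_apply, map_sub, op_apply, map_sum, Pi.smul_apply, map_smul]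
      refine congrArg (· - _) (Finset.sum_congr rfl fun g hg => ?_)
      rw [tw_one _ _ (f1 g hg), ← map_smul, algebraMap_smul]
    obtain ⟨F, F1, F2, F3⟩ := hC _ (y3 (op f) _ ⟨fun φ ψ => funext fun x => by
        simp only [op_apply, Pi.sub_apply, smul_sub, Finset.sum_sub_distrib],
      fun γ φ => funext fun x => by
        simp only [op_apply, Tw.lt, map_sum, mul_assoc, LinearMap.map_smul_of_tower], f2⟩
      (fun a φ => funext fun x => by
        simp only [op_apply, Pi.smul_apply, Finset.smul_sum, smul_comm a]) f3) _ fun γ x => by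
      show tw σ (op f (y γ) - algebraMap O k b • y γ) x ∈ _
      rw [tw1]
      exact sub_mem (sum_mem fun g _ => smul_bl hO _ (y2 γ _)) (smul_bl hO _ (y2 γ x))
    rw [mul_left_comm] at F2
    have F4 : Bd σ 1 F := fun x => (F2 x).trans hj
    obtain ⟨R, hR⟩ := hO.lift (f := tw σ F) F4
    refine ⟨_, iv F1 F4 hR i, fun γ => funext fun x => ?_⟩
    have e : ∑ g ∈ f.support, f g * Z (γ, x * g) i - b * Z (γ, x) i =
        R ((T.j γ)⁻¹ * x) i - R x i := hO.inj (by
      have := congrFun ((tw1 γ x).symm.trans ((congrArg (fun t => tw σ (t γ) x) F3).trans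
        (tw_cob F γ x))) i
      simpa only [map_sub, map_sum, map_mul, hZ, hR, Pi.sub_apply, Finset.sum_apply, Pi.smul_apply,
        smul_eq_mul] using this)
    have := congrArg (Ideal.Quotient.mk (Ideal.span {p ^ N})) e
    rw [map_sub, map_sub, map_sum] at this
    rw [Pi.sub_apply, Pi.sub_apply, op_apply]
    exact this

end Vale.Agent.P022K.Sh.Ap
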