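import Vale.Agent.P022K.F0.Fuj

/-!
# P022K, block F0, row APX: additive approximation, inner automorphisms, the centre
-/

set_option autoImplicit false

open NumberField IsDedekindDomain IsDedekindDomain.HeightOneSpectrum
open scoped Quaternion

noncomputable section

namespace Vale.Agent.P022K.Sh

open F0

variable {F : Type} [Field F] [NumberField F]

/-! ## adeles -/

section ade

theorem mem_Ow {w : Pl F} {x : Fw w} : x ∈ Ow w ↔ Valued.v x ≤ 1 := Iff.rfl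

theorem ev_apply (w : Pl F) (x : AF F) : ev w x = x w := rfl

theorem OA_iff {x : AF F} : x ∈ OA F ↔ ∀ w, Valued.v (ev w x) ≤ 1 := by
  simp only [OA, Algebra.mem_iInf, Subalgebra.mem_comap, mem_Ow]

theorem AF.ext {x y : AF F} (h : ∀ w, ev w x = ev w y) : x = y := FiniteAdeleRing.ext F h

theorem AF.int (x : AF F) : ∀ᶠ w in Filter.cofinite, Valued.v (ev w x) ≤ 1 := x.2

/-- an adele from its components -/
def AF.mk (f : ∀ w : Pl F, Fw w) (h : ∀ᶠ w in Filter.cofinite, Valued.v (f w) ≤ 1) : AF F := ⟨f, h⟩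

@[simp] theorem AF.ev_mk (f : ∀ w : Pl F, Fw w) (h) (w : Pl F) : ev w (AF.mk f h) = f w := rfl

theorem AF.isUnit_iff {x : AF F} :
    IsUnit x ↔ (∀ w, ev w x ≠ 0) ∧ ∀ᶠ w in Filter.cofinite, Valued.v (ev w x) = 1 :=
  FiniteAdeleRing.isUnit_iff

theorem ev_alg (w : Pl F) (c : F) : ev w (algebraMap F (AF F) c) = algebraMap F (Fw w) c := rfl

theorem v_int (w : Pl F) (r : 𝓞 F) : Valued.v (algebraMap (𝓞 F) (Fw w) r) = w.intValuation r := by
  rw [← valuation_of_algebraMap (K := F)]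
  exact valuedAdicCompletion_eq_valuation w r

theorem v_alg (w : Pl F) (c : F) : Valued.v (algebraMap F (Fw w) c) = w.valuation F c :=
  valuedAdicCompletion_eq_valuation' w c

instance (w : Pl F) : CharZero (Fw w) := algebraRat.charZero _

theorem v_nat_le (w : Pl F) (N : ℕ) : Valued.v (N : Fw w) ≤ 1 := mem_Ow.1 (natCast_mem _ N)

theorem v_nat (w : Pl F) (N : ℕ) : Valued.v (N : Fw w) = w.intValuation (N : 𝓞 F) := by
  rw [← v_int, map_natCast (algebraMap (𝓞 F) (Fw w))]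

theorem v_nat_ne (w : Pl F) {N : ℕ} (h : 0 < N) : Valued.v (N : Fw w) ≠ 0 :=
  (Valuation.ne_zero_iff _).2 (Nat.cast_ne_zero.2 h.ne')

theorem isUnit_alg {c : F} (h : c ≠ 0) : IsUnit (algebraMap F (AF F) c) :=
  (IsUnit.mk0 c h).map _

theorem isUnit_int {c : 𝓞 F} (h : c ≠ 0) : IsUnit (algebraMap (𝓞 F) (AF F) c) :=
  isUnit_alg (c := (c : F)) (by simpa using h)

theorem isUnit_nat {N : ℕ} (h : 0 < N) : IsUnit (N : AF F) := by
  have := isUnit_alg (F := F) (c := N) (Nat.cast_ne_zero.2 h.ne')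
  rwa [map_natCast] at this

/-- a positive integer in the prime -/
theorem exists_nat_lt (w : Pl F) : ∃ p : ℕ, 0 < p ∧ Valued.v (p : Fw w) < 1 := by
  refine ⟨Ideal.absNorm w.asIdeal, Nat.pos_of_ne_zero ?_, ?_⟩
  · exact fun h => w.ne_bot (Ideal.absNorm_eq_zero_iff.1 h)
  · rw [v_nat, intValuation_lt_one_iff_mem]
    exact Ideal.absNorm_mem _

theorem exists_nat_le (w : Pl F) {γ : WithZero (Multiplicative ℤ)} (h : γ ≠ 0) :
    ∃ N : ℕ, 0 < N ∧ Valued.v (N : Fw w) < γ := by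
  obtain ⟨p, p0, hp⟩ := exists_nat_lt w
  obtain ⟨k, hk⟩ := exists_pow_lt₀ hp (Units.mk0 γ h)
  exact ⟨p ^ k, pow_pos p0 k, by simpa using hk⟩

theorem den_w {w : Pl F} (x : Fw w) : ∃ N : ℕ, 0 < N ∧ Valued.v ((N : Fw w) * x) ≤ 1 := by
  by_cases h : x = 0
  · exact ⟨1, one_pos, by simp [h]⟩
  have h0 : Valued.v x ≠ 0 := (Valuation.ne_zero_iff _).2 h
  obtain ⟨N, N0, hN⟩ := exists_nat_le w (inv_ne_zero h0)
  refine ⟨N, N0, ?_⟩
  rw [map_mul]
  calc _ ≤ (Valued.v x)⁻¹ * Valued.v x := mul_le_mul_left hN.le _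
    _ = 1 := inv_mul_cancel₀ h0

/-- denominators -/
theorem den (x : AF F) : ∃ N : ℕ, 0 < N ∧ N * x ∈ OA F := by
  classical
  choose n n0 hn using fun w => den_w (ev w x)
  have hf := Filter.eventually_cofinite.1 (AF.int x)
  refine ⟨∏ w ∈ hf.toFinset, n w, Finset.prod_pos fun w _ => n0 w, OA_iff.2 fun w => ?_⟩
  rw [map_mul, map_natCast]
  by_cases hw : w ∈ hf.toFinset
  · rw [← Finset.prod_erase_mul _ _ hw, Nat.cast_mul, mul_assoc, map_mul]
    exact mul_le_one' (v_nat_le w _) (hn w)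
  · rw [map_mul]
    exact mul_le_one' (v_nat_le w _) (by simpa using hw)

theorem exists_mul {x : AF F} {N : ℕ} (h0 : 0 < N)
    (h : ∀ w, Valued.v (ev w x) ≤ Valued.v (N : Fw w)) : ∃ y ∈ OA F, x = N * y := by
  obtain ⟨u, hu⟩ := isUnit_nat (F := F) h0
  refine ⟨(u⁻¹ : (AF F)ˣ) * x, OA_iff.2 fun w => ?_, by rw [← hu, Units.mul_inv_cancel_left]⟩
  have e : (N : Fw w) * ev w ((u⁻¹ : (AF F)ˣ) * x) = ev w x := by
    rw [← map_natCast (ev w), ← map_mul, ← hu, Units.mul_inv_cancel_left]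
  have := h w
  rw [← e, map_mul] at this
  exact (mul_le_iff_le_one_right (zero_lt_iff.2 (v_nat_ne w h0))).1 this

theorem le_of_mul {x y : AF F} {N : ℕ} (hy : y ∈ OA F) (h : x = N * y) (w : Pl F) :
    Valued.v (ev w x) ≤ Valued.v (N : Fw w) := by
  rw [h, map_mul, map_natCast, map_mul]
  exact mul_le_of_le_one_right' (OA_iff.1 hy w)

theorem eq_zero_of_dvd {x : AF F} (h : ∀ N : ℕ, 0 < N → ∃ y ∈ OA F, x = N * y) : x = 0 := by
  refine AF.ext fun w => ?_
  rw [map_zero]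
  by_contra h0
  obtain ⟨N, N0, hN⟩ := exists_nat_le w ((Valuation.ne_zero_iff (Valued.v)).2 h0)
  obtain ⟨y, hy, e⟩ := h N N0
  exact absurd (le_of_mul hy e w) (not_le.2 hN)

/-- `F` is dense in `F_w` -/
theorem dense_F {w : Pl F} (x : Fw w) {γ : WithZero (Multiplicative ℤ)} (h : γ ≠ 0) :
    ∃ c : F, Valued.v (x - algebraMap F (Fw w) c) < γ := by
  obtain ⟨N, N0, hN⟩ := exists_nat_le w h
  have ho : IsOpen {y : Fw w | Valued.v (x - y) < Valued.v (N : Fw w)} := by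
    have h1 : IsOpen {y : Fw w | Valued.v y < 1} := by
      simpa using Valued.isOpen_ball (Fw w) 1
    have : {y : Fw w | Valued.v (x - y) < Valued.v (N : Fw w)} =
        (fun y => (x - y) / (N : Fw w)) ⁻¹' {y : Fw w | Valued.v y < 1} := by
      ext y
      simp only [Set.mem_ofPred_eq, Set.mem_preimage, map_div₀]
      rw [div_lt_one₀ (zero_lt_iff.2 (v_nat_ne w N0))]
    rw [this]
    exact h1.preimage (by fun_prop)
  obtain ⟨c, hc⟩ := (denseRange_algebraMap F w).exists_mem_open ho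
    ⟨x, by simpa using zero_lt_iff.2 (v_nat_ne w N0)⟩
  exact ⟨c, lt_trans hc hN⟩

/-- `𝓞 F` is dense in `O_w` -/
theorem dense_O {w : Pl F} {x : Fw w} (hx : Valued.v x ≤ 1) {γ : WithZero (Multiplicative ℤ)}
    (h : γ ≠ 0) : ∃ r : 𝓞 F, Valued.v (x - algebraMap (𝓞 F) (Fw w) r) < γ := by
  obtain ⟨c, hc⟩ := dense_F x (γ := min γ 1) (by
    rcases min_choice γ 1 with e | e <;> rw [e]
    exacts [h, one_ne_zero])
  have h1 : w.valuation F c ≤ 1 := by
    rw [← v_alg, show algebraMap F (Fw w) c = x - (x - algebraMap F (Fw w) c) by ring]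
    exact Valuation.map_sub_le _ hx (hc.le.trans (min_le_right _ _))
  obtain ⟨r, hr⟩ := exists_valuation_sub_lt_of_integer w h1 (Units.mk0 γ h)
  refine ⟨r, ?_⟩
  rw [show x - algebraMap (𝓞 F) (Fw w) r = (x - algebraMap F (Fw w) c) -
    algebraMap F (Fw w) (algebraMap (𝓞 F) F r - c) by
      rw [map_sub, ← IsScalarTower.algebraMap_apply]; ring]
  exact Valuation.map_sub_lt _ (hc.trans_le (min_le_left _ _)) (by rw [v_alg]; exact hr)

theorem finite_dvd {r : 𝓞 F} (h : r ≠ 0) : {w : Pl F | r ∈ w.asIdeal}.Finite := by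
  have := Ideal.finite_factors (I := Ideal.span {r}) (by simpa using h)
  simpa only [Ideal.dvd_span_singleton] using this

/-- approximation of integral adeles by integers -/
theorem apx_int {x : AF F} (hx : x ∈ OA F) {N : ℕ} (h0 : 0 < N) :
    ∃ c : 𝓞 F, ∃ y ∈ OA F, x = algebraMap _ _ c + N * y := by
  classical
  have hf := finite_dvd (F := F) (r := N) (Nat.cast_ne_zero.2 h0.ne')
  choose r hr using fun w => dense_O (OA_iff.1 hx w) (v_nat_ne w h0)
  have hk : ∀ w : Pl F, ∃ k : ℕ, WithZero.exp (-(k : ℤ)) < Valued.v (N : Fw w) := fun w =>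
    WithZero.exists_exp_neg_natCast_lt (v_nat_ne w h0)
  choose k hk using hk
  obtain ⟨c, hc⟩ := IsDedekindDomain.exists_forall_sub_mem_ideal (s := hf.toFinset)
    (fun w : Pl F => w.asIdeal) k (fun w _ => w.prime)
    (fun w _ w' _ hne e => hne (HeightOneSpectrum.ext e)) fun w => r w
  obtain ⟨y, hy, e⟩ := exists_mul (x := x - algebraMap _ _ c) h0 fun w => by
    rw [map_sub, AlgHom.commutes]
    by_cases hw : w ∈ hf.toFinset
    · rw [show ev w x - algebraMap (𝓞 F) (Fw w) c = (ev w x - algebraMap _ _ (r w)) -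
        algebraMap (𝓞 F) (Fw w) (c - r w) by rw [map_sub]; ring]
      refine Valuation.map_sub_le _ (hr w).le ?_
      rw [v_int]
      exact ((intValuation_le_pow_iff_mem w _ _).2 (hc w hw)).trans (hk w).le
    · rw [v_nat, intValuation_eq_one_iff.2 (by simpa using hw)]
      exact Valuation.map_sub_le _ (OA_iff.1 hx w) (by rw [v_int]; exact intValuation_le_one w c)
  exact ⟨c, y, hy, by rw [← e]; ring⟩

/-- additive approximation -/
theorem apx_add (x : AF F) {N : ℕ} (h0 : 0 < N) :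
    ∃ c : F, ∃ y ∈ OA F, x = algebraMap F _ c + N * y := by
  obtain ⟨M, M0, hM⟩ := den x
  obtain ⟨c, y, hy, e⟩ := apx_int hM (mul_pos M0 h0)
  refine ⟨(c : F) / M, y, hy, (isUnit_nat M0).mul_left_cancel ?_⟩
  have h1 : (M : AF F) * algebraMap F (AF F) ((c : F) / M) = algebraMap (𝓞 F) _ c := by
    rw [← map_natCast (algebraMap F (AF F)), ← map_mul, mul_div_cancel₀ _ (Nat.cast_ne_zero.2 M0.ne')]
    rfl
  rw [mul_add, h1, e]
  push_cast
  ring

theorem alg_mem_OA {c : F} : algebraMap F (AF F) c ∈ OA F ↔ IsIntegral ℤ c := by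
  constructor
  · intro h
    obtain ⟨r, rfl⟩ := mem_integers_of_valuation_le_one F c fun w => by
      rw [← v_alg]; exact OA_iff.1 h w
    exact r.2
  · intro h
    exact (OA F).algebraMap_mem ⟨c, h⟩

end ade

/-! ## inner automorphisms -/

section SN

open Fuj QuaternionAlgebra

variable {R : Type} [CommRing R] {a b : R}

theorem four_nrd (A B C D : ℍ[R,a,b]) :
    a * b * Fuj.nrd (A + B * qi a b + C * qj a b + D * qk a b) -
      b * Fuj.nrd (A * qi a b + B * qi a b * qi a b + C * qi a b * qj a b + D * qi a b * qk a b) -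
      a * Fuj.nrd (A * qj a b + B * qj a b * qi a b + C * qj a b * qj a b + D * qj a b * qk a b) +
      Fuj.nrd (A * qk a b + B * qk a b * qi a b + C * qk a b * qj a b + D * qk a b * qk a b) =
    4 * a * b * (Fuj.nrd A - a * Fuj.nrd B - b * Fuj.nrd C + a * b * Fuj.nrd D) := by
  simp [Fuj.nrd, qi, qj, qk]
  ring

theorem nrd_anti (h2 : IsUnit (2 : R)) {I J : ℍ[R,a,b]} {c d : R} (hd : IsUnit d)
    (hI : I * I = algebraMap R _ c) (hJ : J * J = algebraMap R _ d) (h : I * J = -(J * I)) :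
    Fuj.nrd I = -c := by
  have h1 : trd (I * J * J) = d * trd I := by
    rw [mul_assoc, hJ, ← Algebra.commutes, ← Algebra.smul_def, trd_smul]
  have h3 : trd (I * J * J) = -(d * trd I) := by
    rw [trd_mul_comm, h, mul_neg, ← mul_assoc, hJ, ← Algebra.smul_def, ← neg_smul, trd_smul,
      neg_mul]
  have h4 : trd I = 0 := by
    refine (h2.mul hd).mul_right_eq_zero.1 ?_
    linear_combination h3 - h1
  have h5 := sq_eq I
  rw [h4, zero_smul, zero_sub, hI, ← map_neg, algebraMap_eq, algebraMap_eq] at h5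
  have := congrArg QuaternionAlgebra.re h5
  simp only at this
  rw [this, neg_neg]

/-- four intertwiners whose norms generate the unit ideal -/
theorem exists_intertw (h2 : IsUnit (2 : R)) (ha : IsUnit a) (hb : IsUnit b)
    (f : ℍ[R,a,b] →ₐ[R] ℍ[R,a,b]) : ∃ P : Fin 4 → ℍ[R,a,b], (∀ t y, f y * P t = P t * y) ∧
      a * b * Fuj.nrd (P 0) - b * Fuj.nrd (P 1) - a * Fuj.nrd (P 2) + Fuj.nrd (P 3) =
        16 * a ^ 3 * b ^ 3 := by
  obtain ⟨I, hI⟩ : ∃ I, I = f (qi a b) := ⟨_, rfl⟩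
  obtain ⟨J, hJ⟩ : ∃ J, J = f (qj a b) := ⟨_, rfl⟩
  have II : I * I = algebraMap R _ a := by rw [hI, ← map_mul, qi_sq, AlgHom.commutes]
  have JJ : J * J = algebraMap R _ b := by rw [hJ, ← map_mul, qj_sq, AlgHom.commutes]
  have IJ : I * J = -(J * I) := by
    rw [hI, hJ, ← map_mul, ← map_mul, qi_qj, qj_qi, map_neg, neg_neg]
  have JI : J * I = -(I * J) := by rw [IJ, neg_neg]
  have nI := nrd_anti h2 hb II JJ IJ
  have nJ := nrd_anti h2 ha JJ II JI
  have II' : ∀ y, I * (I * y) = a • y := fun y => by rw [← mul_assoc, II, Algebra.smul_def]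
  have JJ' : ∀ y, J * (J * y) = b • y := fun y => by rw [← mul_assoc, JJ, Algebra.smul_def]
  have JI' : ∀ y, J * (I * y) = -(I * (J * y)) := fun y => by
    rw [← mul_assoc, JI, neg_mul, mul_assoc]
  have ii : qi a b * qi a b = a • 1 := by rw [qi_sq, Algebra.algebraMap_eq_smul_one]
  have jj : qj a b * qj a b = b • 1 := by rw [qj_sq, Algebra.algebraMap_eq_smul_one]
  have ki : qk a b * qi a b = -(a • qj a b) := by ext <;> simp [qi, qj, qk]
  have kj : qk a b * qj a b = b • qi a b := by ext <;> simp [qi, qj, qk]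
  let Ψ : ℍ[R,a,b] → ℍ[R,a,b] := fun y => (a * b) • (1 : ℍ[R,a,b]) * y + b • I * y * qi a b +
    a • J * y * qj a b + -(I * J) * y * qk a b
  have e1 : ∀ y, I * Ψ y = Ψ y * qi a b := fun y => by
    simp only [Ψ, mul_add, add_mul, mul_assoc, smul_mul_assoc, mul_smul_comm, neg_mul, mul_neg, II',
      ii, qj_qi, ki, one_mul, mul_one]
    module
  have e2 : ∀ y, J * Ψ y = Ψ y * qj a b := fun y => by
    simp only [Ψ, mul_add, add_mul, mul_assoc, smul_mul_assoc, mul_smul_comm, neg_mul, mul_neg, JJ',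
      JI', jj, qi_qj, kj, one_mul, mul_one]
    module
  have e3 : ∀ y z, f z * Ψ y = Ψ y * z := fun y z => by
    have k : I * J * Ψ y = Ψ y * qk a b := by
      rw [mul_assoc, e2, ← mul_assoc, e1, mul_assoc, qi_qj]
    have fk : f (qk a b) = I * J := by rw [← qi_qj, map_mul, ← hI, ← hJ]
    rw [eq_sum z]
    simp only [map_add, map_smul, fk, ← hI, ← hJ, add_mul, mul_add,
      smul_mul_assoc, mul_smul_comm, e1, e2, k, Algebra.algebraMap_eq_smul_one, map_one, one_mul,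
      mul_one]
  refine ⟨![Ψ 1, Ψ (qi a b), Ψ (qj a b), Ψ (qk a b)], fun t y => ?_, ?_⟩
  · fin_cases t <;> exact e3 _ y
  · have := four_nrd ((a * b) • (1 : ℍ[R,a,b])) (b • I) (a • J) (-(I * J))
    have n3 : Fuj.nrd (-(I * J)) = a * b := by
      rw [← neg_one_smul R, nrd_smul, nrd_mul, nI, nJ]; ring
    rw [nrd_smul, nrd_smul, nrd_smul, nI, nJ, n3, nrd_one] at this
    simp only [Ψ, Matrix.cons_val, mul_one]
    linear_combination this

/-- Skolem-Noether over a field -/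
theorem sn_field {K : Type} [Field K] [CharZero K] {a b : K} (ha : a ≠ 0) (hb : b ≠ 0)
    (f : ℍ[K,a,b] →ₐ[K] ℍ[K,a,b]) : ∃ x : ℍ[K,a,b]ˣ, ∀ y, f y * x = x * y := by
  obtain ⟨P, h1, h2⟩ := exists_intertw (IsUnit.mk0 (2 : K) two_ne_zero) (IsUnit.mk0 a ha)
    (IsUnit.mk0 b hb) f
  have : ∃ t, Fuj.nrd (P t) ≠ 0 := by
    by_contra! h
    simp [h, ha, hb] at h2
  obtain ⟨t, ht⟩ := this
  obtain ⟨x, hx⟩ := (isUnit_iff_nrd _).2 (IsUnit.mk0 _ ht)
  exact ⟨x, fun y => by rw [hx, h1]⟩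

end SN

/-! ## quaternions over the adeles -/

section

variable {R S : Type} [CommRing R] [Algebra (𝓞 F) R] [CommRing S] [Algebra (𝓞 F) S] {a b : 𝓞 F}

omit [NumberField F]

@[simp] theorem qmap_re (f : R →ₐ[𝓞 F] S) (x : Qa a b R) : (qmap a b f x).re = f x.re := rfl
@[simp] theorem qmap_imI (f : R →ₐ[𝓞 F] S) (x : Qa a b R) : (qmap a b f x).imI = f x.imI := rfl
@[simp] theorem qmap_imJ (f : R →ₐ[𝓞 F] S) (x : Qa a b R) : (qmap a b f x).imJ = f x.imJ := rfl
@[simp] theorem qmap_imK (f : R →ₐ[𝓞 F] S) (x : Qa a b R) : (qmap a b f x).imK = f x.imK := rfl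

theorem nrd_map (f : R →ₐ[𝓞 F] S) (x : Qa a b R) : Fuj.nrd (qmap a b f x) = f (Fuj.nrd x) := by
  simp [Fuj.nrd]

theorem trd_map (f : R →ₐ[𝓞 F] S) (x : Qa a b R) : Fuj.trd (qmap a b f x) = f (Fuj.trd x) := by
  simp [Fuj.trd, map_ofNat]

theorem qmap_smul (f : R →ₐ[𝓞 F] S) (c : R) (x : Qa a b R) :
    qmap a b f (c • x) = f c • qmap a b f x := by
  ext <;> simp

theorem qmap_alg (f : R →ₐ[𝓞 F] S) (c : R) :
    qmap a b f (algebraMap R (Qa a b R) c) = algebraMap S _ (f c) := by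
  rw [QuaternionAlgebra.algebraMap_eq, QuaternionAlgebra.algebraMap_eq]
  ext <;> simp

theorem nrd_eq (x : Qa a b R) : nrd x = Fuj.nrd x := by
  rw [nrd, Fuj.mul_star_eq, QuaternionAlgebra.algebraMap_eq]

theorem nat_mul_eq (N : ℕ) (x : Qa a b R) : (N : Qa a b R) * x = (N : R) • x := by
  rw [Algebra.smul_def, map_natCast]

variable [NumberField F]

theorem smul_mem_qint {O : Subalgebra (𝓞 F) R} {c : R} {x : Qa a b R} (hc : c ∈ O)
    (h : x ∈ qint a b O) : c • x ∈ qint a b O := by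
  obtain ⟨h1, h2, h3, h4⟩ := mem_qint.1 h
  exact mem_qint.2 ⟨mul_mem hc h1, mul_mem hc h2, mul_mem hc h3, mul_mem hc h4⟩

theorem alg_mem_qint {O : Subalgebra (𝓞 F) R} {c : R} :
    algebraMap R (Qa a b R) c ∈ qint a b O ↔ c ∈ O := by
  rw [mem_qint, QuaternionAlgebra.algebraMap_eq]
  exact ⟨fun h => h.1, fun h => ⟨h, zero_mem _, zero_mem _, zero_mem _⟩⟩

theorem star_mem_qint {O : Subalgebra (𝓞 F) R} {x : Qa a b R} (h : x ∈ qint a b O) :
    star x ∈ qint a b O := by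
  obtain ⟨h1, h2, h3, h4⟩ := mem_qint.1 h
  refine mem_qint.2 ⟨?_, ?_, ?_, ?_⟩
  · simpa using h1
  · simpa using h2
  · simpa using h3
  · simpa using h4

theorem nrd_mem_qint {O : Subalgebra (𝓞 F) R} {x : Qa a b R} (h : x ∈ qint a b O) :
    Fuj.nrd x ∈ O := by
  have := mul_mem h (star_mem_qint h)
  rwa [Fuj.mul_star_eq, alg_mem_qint] at this

end

namespace QD

variable (X : QD F)

theorem cw_ext {x y : X.DA} (h : ∀ w, X.cw w x = X.cw w y) : x = y := by
  ext w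
  exacts [congrArg (fun z => z.re.toCompletion) (h w), congrArg (fun z => z.imI.toCompletion) (h w),
    congrArg (fun z => z.imJ.toCompletion) (h w), congrArg (fun z => z.imK.toCompletion) (h w)]

theorem mem_OD {x : X.DA} : x ∈ X.OD ↔ ∀ w, X.cw w x ∈ X.ODw w := by
  simp only [OD, ODw, mem_qint, OA_iff, mem_Ow, cw, qmap_re, qmap_imI, qmap_imJ, qmap_imK,
    forall_and]

theorem int_cw (x : X.DA) : ∀ᶠ w in Filter.cofinite, X.cw w x ∈ X.ODw w := by
  filter_upwards [AF.int x.re, AF.int x.imI, AF.int x.imJ, AF.int x.imK] with w h1 h2 h3 h4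
  exact mem_qint.2 ⟨h1, h2, h3, h4⟩

/-- an adelic quaternion from its components -/
theorem exists_cw (f : ∀ w, X.Dw w) (h : ∀ᶠ w in Filter.cofinite, f w ∈ X.ODw w) :
    ∃ x : X.DA, ∀ w, X.cw w x = f w :=
  ⟨⟨AF.mk (fun w => (f w).re) (h.mono fun _ h => (mem_qint.1 h).1),
    AF.mk (fun w => (f w).imI) (h.mono fun _ h => (mem_qint.1 h).2.1),
    AF.mk (fun w => (f w).imJ) (h.mono fun _ h => (mem_qint.1 h).2.2.1),
    AF.mk (fun w => (f w).imK) (h.mono fun _ h => (mem_qint.1 h).2.2.2)⟩, fun _ => rfl⟩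

theorem den_DA (x : X.DA) : ∃ N : ℕ, 0 < N ∧ (N : X.DA) * x ∈ X.OD := by
  obtain ⟨n1, p1, h1⟩ := den x.re
  obtain ⟨n2, p2, h2⟩ := den x.imI
  obtain ⟨n3, p3, h3⟩ := den x.imJ
  obtain ⟨n4, p4, h4⟩ := den x.imK
  have key : ∀ (n k : ℕ) (c : AF F), n * c ∈ OA F → ((k * n : ℕ) : AF F) * c ∈ OA F :=
    fun n k c h => by
      rw [Nat.cast_mul, mul_assoc]
      exact mul_mem (natCast_mem _ k) h
  refine ⟨n1 * n2 * n3 * n4, by positivity, ?_⟩
  rw [nat_mul_eq]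
  refine mem_qint.2 ⟨?_, ?_, ?_, ?_⟩
  · rw [show n1 * n2 * n3 * n4 = n2 * n3 * n4 * n1 by ring]; exact key _ _ _ h1
  · rw [show n1 * n2 * n3 * n4 = n1 * n3 * n4 * n2 by ring]; exact key _ _ _ h2
  · rw [show n1 * n2 * n3 * n4 = n1 * n2 * n4 * n3 by ring]; exact key _ _ _ h3
  · exact key _ _ _ h4

/-- Skolem-Noether over the adeles -/
theorem sn_adele (f : X.DA →ₐ[AF F] X.DA) : ∃ x : X.G, ∀ y, f y * x = x * y := by
  have h2 : IsUnit (2 : AF F) := by simpa using isUnit_nat (F := F) two_pos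
  have ha := isUnit_int X.a0
  have hb := isUnit_int X.b0
  obtain ⟨P, h1, h3⟩ := exists_intertw h2 ha hb f
  have hu : IsUnit (16 * algebraMap (𝓞 F) (AF F) X.a ^ 3 * algebraMap (𝓞 F) (AF F) X.b ^ 3) := by
    refine (IsUnit.mul ?_ (ha.pow 3)).mul (hb.pow 3)
    simpa using isUnit_nat (F := F) (N := 16) (by norm_num)
  rw [← h3] at hu
  generalize hs : algebraMap (𝓞 F) (AF F) X.a * algebraMap (𝓞 F) (AF F) X.b * Fuj.nrd (P 0) -
    algebraMap (𝓞 F) (AF F) X.b * Fuj.nrd (P 1) - algebraMap (𝓞 F) (AF F) X.a * Fuj.nrd (P 2) +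
    Fuj.nrd (P 3) = s at hu
  have hc : ∀ w, ∃ t, Valued.v (ev w s) ≤ Valued.v (ev w (Fuj.nrd (P t))) := fun w => by
    by_contra! h
    have k : ∀ (r : 𝓞 F) t, Valued.v (ev w (algebraMap _ _ r * Fuj.nrd (P t))) <
        Valued.v (ev w s) := fun r t => by
      rw [map_mul, map_mul, AlgHom.commutes, v_int]
      exact (mul_le_of_le_one_left' (intValuation_le_one w r)).trans_lt (h t)
    refine lt_irrefl (Valued.v (ev w s)) ?_
    conv_lhs => rw [← hs, ← map_mul, map_add, map_sub, map_sub]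
    exact Valuation.map_add_lt _ (Valuation.map_sub_lt _ (Valuation.map_sub_lt _ (k _ _) (k _ _))
      (k _ _)) (h 3)
  choose t ht using hc
  have hi : ∀ᶠ w in Filter.cofinite, ∀ i, X.cw w (P i) ∈ X.ODw w :=
    Filter.eventually_all.2 fun i => X.int_cw (P i)
  obtain ⟨x, hx⟩ := X.exists_cw (fun w => X.cw w (P (t w))) (hi.mono fun w h => h _)
  have hn : ∀ w, ev w (Fuj.nrd x) = ev w (Fuj.nrd (P (t w))) := fun w => by
    rw [← nrd_map, ← nrd_map]
    exact congrArg Fuj.nrd (hx w)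
  obtain ⟨u1, u2⟩ := AF.isUnit_iff.1 hu
  obtain ⟨u, hu'⟩ : IsUnit x := by
    refine (Fuj.isUnit_iff_nrd _).2 (AF.isUnit_iff.2 ⟨fun w h0 => u1 w ?_, ?_⟩)
    · have := ht w
      rw [← hn, h0, map_zero, le_zero_iff] at this
      exact (Valuation.zero_iff _).1 this
    · filter_upwards [u2, AF.int (Fuj.nrd x)] with w e1 e2
      exact le_antisymm e2 (by rw [hn, ← e1]; exact ht w)
  refine ⟨u, fun y => X.cw_ext fun w => ?_⟩
  rw [hu', map_mul, map_mul, hx, ← map_mul, ← map_mul, h1]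

/-- `D` is a division algebra -/
theorem isUnit_D {x : X.D} (h : x ≠ 0) : IsUnit x :=
  (Fuj.isUnit_iff_nrd _).2 (IsUnit.mk0 _ (X.div x h))

theorem mem_UN {N : ℕ} {x : X.G} : x ∈ X.UN N ↔ ∃ c : (AF F)ˣ, X.One N ((c : AF F) • (x : X.DA)) ∧
    X.One N (((c⁻¹ : (AF F)ˣ) : AF F) • ((x⁻¹ : X.G) : X.DA)) := Iff.rfl

theorem mem_Lev {U : Subgroup X.G} :
    U ∈ X.tw.Lev ↔ ∃ N, 0 < N ∧ X.UN N ≤ U ∧ (X.UN N).relIndex U ≠ 0 := Iff.rfl

theorem UN_mem {N : ℕ} (h : 0 < N) : X.UN N ∈ X.tw.Lev := ⟨N, h, le_rfl, by simp⟩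

theorem mem_Z_iff {x : X.G} : x ∈ X.tw.Z ↔ ∀ N, 0 < N → x ∈ X.UN N := by
  rw [Tw.Z, Subgroup.mem_sInf]
  exact ⟨fun h N h0 => h _ (X.UN_mem h0), fun h U ⟨N, h0, h1, _⟩ => h1 (h N h0)⟩

theorem one_one (N : ℕ) : X.One N 1 := ⟨0, zero_mem _, by simp⟩

theorem scal_mem_UN {x : X.G} {c : AF F} (h : (x : X.DA) = algebraMap _ _ c) (N : ℕ) :
    x ∈ X.UN N := by
  have hu : IsUnit c := by
    have := (Fuj.isUnit_iff_nrd _).1 x.isUnit
    rw [h, Fuj.nrd_algebraMap] at this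
    exact (isUnit_pow_iff two_ne_zero).1 this
  obtain ⟨u, rfl⟩ := hu
  have e1 : ((u⁻¹ : (AF F)ˣ) : AF F) • (x : X.DA) = 1 := by
    rw [h, Algebra.smul_def, ← map_mul, Units.inv_mul, map_one]
  refine ⟨u⁻¹, e1 ▸ X.one_one N, ?_⟩
  rw [inv_inv, Algebra.smul_def, ← h, Units.mul_inv]
  exact X.one_one N

/-- the centre -/
theorem mem_Z {x : X.G} : x ∈ X.tw.Z ↔ ∃ c : AF F, (x : X.DA) = algebraMap _ _ c := by
  rw [mem_Z_iff]
  refine ⟨fun h => ⟨(x : X.DA).re, ?_⟩, fun ⟨c, hc⟩ N _ => X.scal_mem_UN hc N⟩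
  obtain ⟨M, M0, hM⟩ := X.den_DA x
  rw [nat_mul_eq] at hM
  obtain ⟨m0, m1, m2, m3⟩ := mem_qint.1 hM
  have key : ∀ (l : X.DA →ₗ[AF F] AF F), l 1 = 0 → (∀ y ∈ X.OD, l y ∈ OA F) → l x = 0 := by
    intro l l1 hl
    refine (isUnit_nat M0).mul_right_eq_zero.1 (eq_zero_of_dvd fun N N0 => ?_)
    obtain ⟨c, ⟨y, hy, e⟩, -⟩ := h N N0
    rw [nat_mul_eq] at e
    have e0 : (c : AF F) * (x : X.DA).re = 1 + N * y.re := by
      simpa using congrArg QuaternionAlgebra.re e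
    have e1 : (c : AF F) * l x = N * l y := by simpa [l1] using congrArg l e
    refine ⟨M * (x : X.DA).re * l y - M * l x * y.re, sub_mem (mul_mem m0 (hl y hy))
      (mul_mem ?_ (mem_qint.1 hy).1), ?_⟩
    · simpa using hl _ hM
    · linear_combination (-(M : AF F) * l x) * e0 + (M : AF F) * (x : X.DA).re * e1
  rw [QuaternionAlgebra.algebraMap_eq]
  refine QuaternionAlgebra.ext rfl ?_ ?_ ?_
  · exact key (QuaternionAlgebra.imIₗ _ _ _) rfl fun y hy => (mem_qint.1 hy).2.1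
  · exact key (QuaternionAlgebra.imJₗ _ _ _) rfl fun y hy => (mem_qint.1 hy).2.2.1
  · exact key (QuaternionAlgebra.imKₗ _ _ _) rfl fun y hy => (mem_qint.1 hy).2.2.2

theorem apx : X.APX :=
  ⟨fun x _ h => apx_add x h, den, fun f => X.sn_adele f.toAlgHom,
    fun f => sn_field X.a_ne X.b_ne f.toAlgHom, fun _ => X.isUnit_D, fun _ => X.mem_Z⟩

end QD

/-- **APX** -/
theorem apx : AllQ fun X => X.APX := fun _ _ _ X => X.apx

end Vale.Agent.P022K.Sh
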