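import Vale.Agent.P022K.F0.Sha
import Vale.Agent.P022K.F0.Wt

/-!
# P022K, block F0, row BNDI, first part: eigenvalues are bounded by the growth of the operators
-/

set_option autoImplicit false

open Polynomial
open scoped MatrixGroups Matrix

noncomputable section

namespace Vale.Agent.P022K.Sh.Bi

section bd

variable {C : Type} [NormedField C] [IsUltrametricDist C] {l m n : Type}

/-- all entries have norm at most `a` -/
def Bd (a : ℝ) (A : Matrix l m C) : Prop := ∀ i j, ‖A i j‖ ≤ a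

omit [IsUltrametricDist C] in
theorem Bd.mono {a b : ℝ} {A : Matrix l m C} (h : Bd a A) (e : a ≤ b) : Bd b A :=
  fun i j => (h i j).trans e

omit [IsUltrametricDist C] in
theorem Bd.nn {a : ℝ} {A : Matrix (Fin 2) (Fin 2) C} (h : Bd a A) : 0 ≤ a :=
  (norm_nonneg _).trans (h 0 0)

theorem Bd.add {a : ℝ} {A B : Matrix l m C} (h : Bd a A) (h' : Bd a B) : Bd a (A + B) :=
  fun i j => (IsUltrametricDist.norm_add_le_max _ _).trans (max_le (h i j) (h' i j))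

omit [IsUltrametricDist C] in
theorem Bd.smul {a b : ℝ} {c : C} {A : Matrix l m C} (hc : ‖c‖ ≤ a) (h : Bd b A) :
    Bd (a * b) (c • A) := fun i j => by
  rw [Matrix.smul_apply, smul_eq_mul, norm_mul]
  exact mul_le_mul hc (h i j) (norm_nonneg _) ((norm_nonneg _).trans hc)

theorem Bd.mul [Fintype m] {a b : ℝ} {A : Matrix l m C} {B : Matrix m n C} (ha : 0 ≤ a)
    (hb : 0 ≤ b) (h : Bd a A) (h' : Bd b B) : Bd (a * b) (A * B) := fun i j => by
  rw [Matrix.mul_apply]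
  refine IsUltrametricDist.norm_sum_le_of_forall_le_of_nonneg (mul_nonneg ha hb) fun k _ => ?_
  rw [norm_mul]
  exact mul_le_mul (h i k) (h' k j) (norm_nonneg _) ha

theorem Bd.vec [Fintype m] {a b : ℝ} {A : Matrix l m C} {v : m → C} (ha : 0 ≤ a)
    (hb : 0 ≤ b) (h : Bd a A) (h' : ∀ k, ‖v k‖ ≤ b) (i : l) : ‖(A *ᵥ v) i‖ ≤ a * b := by
  refine IsUltrametricDist.norm_sum_le_of_forall_le_of_nonneg (mul_nonneg ha hb) fun k _ => ?_
  rw [norm_mul]
  exact mul_le_mul (h i k) (h' k) (norm_nonneg _) ha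

omit [IsUltrametricDist C] in
theorem bd_one [DecidableEq l] : Bd 1 (1 : Matrix l l C) := fun i j => by
  rw [Matrix.one_apply]
  split_ifs <;> simp

theorem ex_ub {I : Type} [Finite I] (f : I → ℝ) : ∃ a, 0 ≤ a ∧ ∀ i, f i ≤ a := by
  obtain ⟨a, ha⟩ := (Set.finite_range f).bddAbove
  exact ⟨max a 0, le_max_right _ _, fun i => (ha ⟨i, rfl⟩).trans (le_max_left _ _)⟩

omit [IsUltrametricDist C] in
theorem ex_bd {I : Type} [Finite I] [Finite l] [Finite m] (A : I → Matrix l m C) :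
    ∃ a, 0 ≤ a ∧ ∀ i, Bd a (A i) := by
  obtain ⟨a, h0, ha⟩ := ex_ub fun p : I × l × m => ‖A p.1 p.2.1 p.2.2‖
  exact ⟨a, h0, fun i j k => ha (i, j, k)⟩

theorem Bd.det {a : ℝ} {A : Matrix (Fin 2) (Fin 2) C} (h : Bd a A) : ‖A.det‖ ≤ a ^ 2 := by
  rw [Matrix.det_fin_two, sub_eq_add_neg, sq]
  refine (IsUltrametricDist.norm_add_le_max _ _).trans (max_le ?_ ?_)
  · rw [norm_mul]
    exact mul_le_mul (h _ _) (h _ _) (norm_nonneg _) h.nn
  · rw [norm_neg, norm_mul]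
    exact mul_le_mul (h _ _) (h _ _) (norm_nonneg _) h.nn

/-- all coefficients have norm at most `a` -/
def PB (a : ℝ) (f : C[X]) : Prop := ∀ k, ‖f.coeff k‖ ≤ a

theorem PB.mul {a b : ℝ} {f g : C[X]} (h : PB a f) (h' : PB b g) : PB (a * b) (f * g) := fun k => by
  have ha := (norm_nonneg _).trans (h 0)
  rw [coeff_mul]
  refine IsUltrametricDist.norm_sum_le_of_forall_le_of_nonneg
    (mul_nonneg ha ((norm_nonneg _).trans (h' 0))) fun p _ => ?_
  rw [norm_mul]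
  exact mul_le_mul (h _) (h' _) (norm_nonneg _) ha

theorem PB.pow {a : ℝ} {f : C[X]} (h : PB a f) (k : ℕ) : PB (a ^ k) (f ^ k) := by
  induction k with
  | zero =>
    intro i
    rw [pow_zero, pow_zero, coeff_one]
    split_ifs <;> simp
  | succ k ih =>
    rw [pow_succ, pow_succ]
    exact ih.mul h

omit [IsUltrametricDist C] in
theorem pb_lin {a : ℝ} {x y : C} (hx : ‖x‖ ≤ a) (hy : ‖y‖ ≤ a) :
    PB a (Polynomial.C x * X + Polynomial.C y) := fun k => by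
  rcases k with _ | _ | k
  · simpa using hy
  · simpa using hx
  · simpa [coeff_X, coeff_C] using (norm_nonneg _).trans hx

theorem Bd.sy {a : ℝ} {A : Matrix (Fin 2) (Fin 2) C} (h : Bd a A) (w : ℕ) :
    Bd (a ^ w) (sy w A) := fun j k => by
  have := ((pb_lin (h 0 0) (h 0 1)).pow j).mul ((pb_lin (h 1 0) (h 1 1)).pow (w - j)) k
  rwa [← pow_add, Nat.add_sub_cancel' (Nat.lt_succ_iff.1 j.2)] at this

theorem Bd.syd {a d : ℝ} {g : GL (Fin 2) C} (h : Bd a g.val) (hd : ‖((g.det⁻¹ : Cˣ) : C)‖ ≤ d)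
    (m : ℕ) : Bd (d ^ m * a ^ (2 * m)) (syd m g) := by
  refine Bd.smul ?_ (h.sy _)
  rw [Units.val_pow_eq_pow_val, norm_pow]
  exact pow_le_pow_left₀ (norm_nonneg _) hd m

omit [IsUltrametricDist C] in
theorem bd_kr {ι : Type} [Fintype ι] [DecidableEq ι] [Fintype n] [DecidableEq n]
    {A : ι → Matrix n n C} {a : ι → ℝ} (h : ∀ i, Bd (a i) (A i)) : Bd (∏ i, a i) (kr A) :=
  fun x y => by
  change ‖∏ i, A i (x i) (y i)‖ ≤ _
  rw [norm_prod]
  exact Finset.prod_le_prod (fun _ _ => norm_nonneg _) fun i _ => h i _ _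

/-- bounded on a subgroup of finite index -/
theorem bd_up {G : Type} [Group G] [Fintype n] [DecidableEq n] (σ : G →* Matrix n n C)
    {H U : Subgroup G} (hi : H.relIndex U ≠ 0) {a : ℝ} (ha : 0 ≤ a) (h : ∀ x ∈ H, Bd a (σ x)) :
    ∃ b, 0 ≤ b ∧ ∀ x ∈ U, Bd b (σ x) := by
  have : Finite (U ⧸ H.subgroupOf U) := Nat.finite_of_card_ne_zero hi
  obtain ⟨b, hb, hB⟩ := ex_bd fun c : U ⧸ H.subgroupOf U => σ (c.out : U)
  refine ⟨b * a, mul_nonneg hb ha, fun x hx => ?_⟩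
  have m : (((⟨x, hx⟩ : U) : U ⧸ H.subgroupOf U).out)⁻¹ * ⟨x, hx⟩ ∈ H.subgroupOf U :=
    QuotientGroup.eq.1 (QuotientGroup.out_eq' _)
  have := (hB ((⟨x, hx⟩ : U) : U ⧸ H.subgroupOf U)).mul hb ha (h _ (Subgroup.mem_subgroupOf.1 m))
  rwa [← map_mul, Subgroup.coe_mul, Subgroup.coe_inv, mul_inv_cancel_left] at this

end bd

variable {G0 G : Type} [Group G0] [Group G] {T : Tw G0 G} {U : Subgroup G}

section rep

variable {Λ B : Type} [CommRing Λ] [AddCommGroup B] [Module Λ B] {ρ : Representation Λ G0 B}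

theorem coc {z : G0 → G → B} (h : z ∈ T.Z1 ρ U) (γ δ : G0) (x : G) :
    z (γ * δ) x = z γ x + ρ γ (z δ ((T.j γ)⁻¹ * x)) := congrFun (h.2.1 γ δ) x

theorem coc_gam {z : G0 → G → B} (h : z ∈ T.Z1 ρ U) {γ : G0} (δ : G0) {x : G}
    (hγ : γ ∈ T.Gam U x) : z (γ * δ) x = z γ x + ρ γ (z δ x) := by
  rw [coc h, Tw.inv_xm (h.1 δ) (Tw.xm_gam hγ)]

variable (ρ) in
/-- a system of subgroups that is stable under `G0` and `U` -/
structure Sys (T : Tw G0 G) (U : Subgroup G) (M : G → AddSubgroup B) : Prop where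
  l : ∀ γ x, ∀ v ∈ M x, ρ γ v ∈ M (T.j γ * x)
  r : ∀ x, ∀ u ∈ U, ∀ v ∈ M x, v ∈ M (x * u)

theorem Sys.gam {M : G → AddSubgroup B} (h : Sys ρ T U M) {γ : G0} {x : G} (hγ : γ ∈ T.Gam U x)
    {v : B} (hv : v ∈ M x) : ρ γ v ∈ M x := by
  have := h.r _ _ (inv_mem (T.mem_Gam.1 hγ)) _ (h.l γ x v hv)
  rwa [show T.j γ * x * (x⁻¹ * T.j γ * x)⁻¹ = x by group] at this

/-- the elements of a component group on which the cocycle has values in `M` -/
def good {M : G → AddSubgroup B} (h : Sys ρ T U M) {z : G0 → G → B} (hz : z ∈ T.Z1 ρ U) (x : G) :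
    Subgroup G0 where
  carrier := {γ | γ ∈ T.Gam U x ∧ z γ x ∈ M x}
  mul_mem' {γ δ} a b := ⟨mul_mem a.1 b.1, by
    rw [coc_gam hz δ a.1]
    exact add_mem a.2 (h.gam a.1 b.2)⟩
  one_mem' := ⟨one_mem _, by
    rw [hz.2.2 1 (one_mem _)]
    exact zero_mem _⟩
  inv_mem' {γ} a := ⟨inv_mem a.1, by
    have e := coc_gam hz γ (inv_mem a.1)
    rw [inv_mul_cancel, hz.2.2 1 (one_mem _), Pi.zero_apply, eq_comm, add_eq_zero_iff_eq_neg] at e
    rw [e]
    exact neg_mem (h.gam (inv_mem a.1) a.2)⟩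

/-- **representatives** that are controlled by finitely many values -/
theorem repr (ok : T.Ok) (vol : T.VOL) (hU : U ∈ T.Lev) : ∃ A : Finset (G0 × G),
    ∀ z ∈ T.Z1 ρ U, ∃ f, Inv U f ∧ ∀ M, Sys ρ T U M → (∀ a ∈ A, z a.1 a.2 ∈ M a.2) →
      ∀ γ x, z γ x + (T.lt ρ γ f - f) x ∈ M x := by
  classical
  have := ok.finDC hU
  have := Fintype.ofFinite (T.DC U)
  choose S hS using fun c : T.DC U => vol _ (ok.fu U hU (Tw.rq c))
  refine ⟨Finset.univ.biUnion fun c => (S c).image fun s => (s, Tw.rq c), fun z hz =>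
    ⟨fun x => z (dl G0 (T.xm U x)) x, fun x u hu => ?_, fun M hM hA γ x => ?_⟩⟩
  · beta_reduce
    rw [Tw.xm_mul _ hu, hz.1 _ _ _ hu]
  have m := dl_mem γ (T.xm U x)
  rw [Tw.stab_o] at m
  have le : T.Gam U (Tw.rq (T.cls U x)) ≤ good hM hz (Tw.rq (T.cls U x)) := by
    refine (hS _).le.trans (sup_le ((Subgroup.closure_le _).2 fun s hs => ⟨?_, ?_⟩) fun s hs =>
      ⟨(ok.fu U hU _).z0 hs, ?_⟩)
    · rw [hS]
      exact Subgroup.mem_sup_left (Subgroup.subset_closure hs)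
    · exact hA (s, _) (Finset.mem_biUnion.2 ⟨_, Finset.mem_univ _, Finset.mem_image_of_mem _ hs⟩)
    · rw [hz.2.2 s hs]
      exact zero_mem _
  have e := coc hz (dl G0 (T.xm U x)) ((dl G0 (T.xm U x))⁻¹ * γ * dl G0 (γ⁻¹ • T.xm U x)) x
  have e' : T.xm U ((T.j (dl G0 (T.xm U x)))⁻¹ * x) = T.xm U (Tw.rq (T.cls U x)) := by
    rw [← map_inv, ← Tw.smul_xm, inv_smul_eq_iff, Tw.xm_rq]
    exact (dl_smul _).symm
  rw [Tw.inv_xm (hz.1 _) e', mul_assoc, mul_inv_cancel_left, coc hz] at e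
  have k := hM.r _ _ (Tw.xm_eq.1 e'.symm) _ (le m).2
  have k' := hM.l (dl G0 (T.xm U x)) _ _ k
  rw [mul_inv_cancel_left, mul_inv_cancel_left, mul_assoc] at k'
  convert k' using 1
  rw [Pi.sub_apply, Tw.lt, ← map_inv, ← Tw.smul_xm, map_inv, ← add_sub_assoc, e]
  abel

theorem cob_mem (ok : T.Ok) (hU : U ∈ T.Lev) (h0 : ∀ γ ∈ T.Z0, ρ γ = 1) {z : G0 → G → B}
    (h : z ∈ T.B1 ρ U) : z ∈ T.Z1 ρ U := by
  obtain ⟨f, hf, e⟩ := h
  refine ⟨fun γ x u hu => ?_, fun γ δ => ?_, fun γ hγ => ?_⟩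
  · simp only [e, Pi.sub_apply, Tw.lt, ← mul_assoc, hf _ u hu]
  · funext x
    simp only [e, Pi.sub_apply, Pi.add_apply, Tw.lt, map_mul, mul_inv_rev, mul_assoc, map_sub,
      Module.End.mul_apply]
    abel
  · funext x
    rw [e, Pi.sub_apply, Tw.lt, h0 γ hγ, Tw.inv_xm hf (ok.xm_z0 hU hγ x), Module.End.one_apply,
      sub_self, Pi.zero_apply]

end rep

section main

variable {k C n : Type} [Field k] [NormedField C] [IsUltrametricDist C] [Fintype n]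

/-- the vectors whose image under `A u` is small for all `u` -/
def bl (ι : k →+* C) {I : Type} (A : I → Matrix n n C) {r : ℝ} (hr : 0 ≤ r) :
    AddSubgroup (n → k) where
  carrier := {v | ∀ u i, ‖(A u *ᵥ (ι ∘ v)) i‖ ≤ r}
  add_mem' {v w} a b u i := by
    rw [show ι ∘ (v + w) = ι ∘ v + ι ∘ w from funext fun i => map_add ι _ _, Matrix.mulVec_add]
    exact (IsUltrametricDist.norm_add_le_max _ _).trans (max_le (a u i) (b u i))
  zero_mem' u i := by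
    rw [show ι ∘ (0 : n → k) = 0 from funext fun i => map_zero ι, Matrix.mulVec_zero]
    simpa using hr
  neg_mem' {v} a u i := by
    rw [show ι ∘ (-v) = -(ι ∘ v) from funext fun i => map_neg ι _, Matrix.mulVec_neg, Pi.neg_apply,
      norm_neg]
    exact a u i

theorem lin_bd (ι : k →+* C) {I : Type} [Fintype I] (l : (I → n → k) →ₗ[k] k) :
    ∃ a, 0 ≤ a ∧ ∀ (r : ℝ) (v : I → n → k), 0 ≤ r → (∀ i j, ‖ι (v i j)‖ ≤ r) →
      ‖ι (l v)‖ ≤ a * r := by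
  classical
  obtain ⟨a, h0, ha⟩ := ex_ub fun p : I × n => ‖ι (l (Pi.single p.1 (Pi.single p.2 1)))‖
  refine ⟨a, h0, fun r v hr hv => ?_⟩
  have e : v = ∑ p : I × n, v p.1 p.2 • (Pi.single p.1 (Pi.single p.2 1) : I → n → k) := by
    funext i j
    simp [Finset.sum_apply, Fintype.sum_prod_type, Pi.single_apply, ite_apply]
  rw [e, map_sum, map_sum]
  refine IsUltrametricDist.norm_sum_le_of_forall_le_of_nonneg (mul_nonneg h0 hr) fun p _ => ?_
  rw [map_smul, smul_eq_mul, map_mul, norm_mul, mul_comm]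
  exact mul_le_mul (ha p) (hv _ _) (norm_nonneg _) h0

/-- **the eigenvalue is bounded by the growth of the words in the representatives** -/
theorem le_of [DecidableEq n] (ι : k →+* C) {ρ : Representation k G0 (n → k)}
    (σ : G →* Matrix n n C) (hσ : ∀ γ v, σ (T.j γ) *ᵥ (ι ∘ v) = ι ∘ ρ γ v) (ok : T.Ok)
    (vol : T.VOL) (hU : U ∈ T.Lev) (h0 : ∀ γ ∈ T.Z0, ρ γ = 1) {a : ℝ} (a0 : 0 ≤ a)
    (ha : ∀ u ∈ U, Bd a (σ u)) {z : G0 → G → n → k} (hz : z ∈ T.Z1 ρ U) (hn : z ∉ T.B1 ρ U)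
    {O : Set G} (h : Cor U O U) {I : Type} {s : Finset I} {r : I → G} (hr : Rep O U s r)
    (S : ℕ → Set G) (S0 : 1 ∈ S 0) (S1 : ∀ m, ∀ i ∈ s, ∀ t ∈ S m, r i * t ∈ S (m + 1)) {b R : ℝ}
    (b0 : 0 ≤ b) (hR : 0 < R) (hS : ∀ m, ∀ t ∈ S m, Bd (b * R ^ m) (σ t)) {c : k}
    (e : T.Eig ρ U z (hk O U) c) : ‖ι c‖ ≤ R := by
  classical
  obtain ⟨A, hA⟩ := repr (ρ := ρ) ok vol hU
  let res : (G0 → G → n → k) →ₗ[k] (A → n → k) :=
    ⟨⟨fun y p => y p.1.1 p.1.2, fun _ _ => rfl⟩, fun _ _ => rfl⟩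
  have k0 : res z ∉ (T.B1 ρ U).map res := by
    rintro ⟨y, hy, e⟩
    obtain ⟨f, hf, h1⟩ := hA _ (sub_mem hz (cob_mem ok hU h0 hy))
    have h2 := h1 (fun _ => ⊥) ⟨fun γ x v hv => by simp [AddSubgroup.mem_bot.1 hv],
      fun _ _ _ _ hv => hv⟩ fun p hp => sub_eq_zero.2 (congrFun e ⟨p, hp⟩).symm
    refine hn ?_
    have h3 : z - y = -fun γ => T.lt ρ γ f - f := by
      funext γ x
      exact eq_neg_of_add_eq_zero_left (h2 γ x)
    rw [← sub_add_cancel z y, h3]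
    exact add_mem (neg_mem ⟨f, hf, fun _ => rfl⟩) hy
  obtain ⟨l, l1, l0⟩ := Submodule.exists_le_ker_of_notMem k0
  have lB : ∀ y ∈ T.B1 ρ U, l (res y) = 0 := fun y hy => l0 ⟨y, hy, rfl⟩
  obtain ⟨f, hf, h1⟩ := hA z hz
  have fB : (fun γ => T.lt ρ γ f - f) ∈ T.B1 ρ U := ⟨f, hf, fun _ => rfl⟩
  let y : T.Z1 ρ U := ⟨z + fun γ => T.lt ρ γ f - f, add_mem hz (cob_mem ok hU h0 fB)⟩
  have hB : ∀ w : T.Z1 ρ U, w.1 ∈ T.B1 ρ U → (T.hZ ρ h w).1 ∈ T.B1 ρ U := fun w hw => by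
    have h2 : T.hH ρ h (Submodule.Quotient.mk w) = Submodule.Quotient.mk (T.hZ ρ h w) := rfl
    rw [(Submodule.Quotient.mk_eq_zero _ (x := w)).2 hw, map_zero, eq_comm,
      Submodule.Quotient.mk_eq_zero] at h2
    exact h2
  have e1 : (T.hZ ρ h y - c • y).1 ∈ T.B1 ρ U := by
    have h2 := sub_mem (add_mem e (hB ⟨_, cob_mem ok hU h0 fB⟩ fB)) (Submodule.smul_mem _ c fB)
    convert h2 using 1
    rw [show y = ⟨z, hz⟩ + ⟨_, cob_mem ok hU h0 fB⟩ from rfl, map_add, smul_add]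
    change (fun γ => hk O U (z γ)) + _ - (c • z + _) = _
    abel
  have em : ∀ m : ℕ, ((T.hZ ρ h ^ m) y - c ^ m • y).1 ∈ T.B1 ρ U := fun m => by
    induction m with
    | zero => simp
    | succ m ih =>
      have h2 := add_mem (hB _ ih) (Submodule.smul_mem _ (c ^ m) e1)
      convert h2 using 1
      rw [← Submodule.coe_smul, ← Submodule.coe_add, pow_succ', Module.End.mul_apply, map_sub,
        map_smul, smul_sub, smul_smul, ← pow_succ, sub_add_sub_cancel]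
  have wd : ∀ (m : ℕ) (γ : G0) (x : G) (W : AddSubgroup (n → k)),
      (∀ t ∈ S m, y.1 γ (x * t) ∈ W) → ((T.hZ ρ h ^ m) y).1 γ x ∈ W := fun m => by
    induction m with
    | zero => exact fun γ x W hW => by simpa using hW 1 S0
    | succ m ih =>
      intro γ x W hW
      rw [pow_succ', Module.End.mul_apply]
      change hk O U (((T.hZ ρ h ^ m) y).1 γ) x ∈ W
      rw [hr.hk (((T.hZ ρ h ^ m) y).2.1 γ)]
      exact sum_mem fun i hi => ih γ _ W fun t ht => mul_assoc x _ t ▸ hW _ (S1 m i hi t ht)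
  obtain ⟨d, d0, hd⟩ := ex_bd fun p : A × Bool => σ (if p.2 then p.1.1.2 else p.1.1.2⁻¹)
  obtain ⟨q, q0, hq⟩ := ex_ub fun p : A × n => ‖ι (z p.1.1.1 p.1.1.2 p.2)‖
  have r0 : 0 ≤ a * d * q := mul_nonneg (mul_nonneg a0 d0) q0
  have hy := h1 (fun x => bl ι (fun u : U => σ (x * u)⁻¹) r0) ⟨fun γ x v hv u i => by
      rw [← hσ, Matrix.mulVec_mulVec, ← map_mul, show (T.j γ * x * u)⁻¹ * T.j γ = (x * u)⁻¹ by group]
      exact hv u i, fun x u hu v hv u' i => by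
      have := hv (⟨u, hu⟩ * u') i
      beta_reduce at this
      rwa [Subgroup.coe_mul, ← mul_assoc] at this⟩ fun p hp u i => by
    beta_reduce
    rw [mul_inv_rev, map_mul]
    exact ((ha _ (inv_mem u.2)).mul a0 d0 (hd (⟨p, hp⟩, false))).vec (mul_nonneg a0 d0) q0
      (fun j => hq (⟨p, hp⟩, j)) i
  obtain ⟨g, g0, hg⟩ := lin_bd ι l
  have l2 : l (res y.1) = l (res z) := by
    change l (res (z + _)) = _
    rw [map_add, map_add, lB _ fB, add_zero]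
  have key : ∀ m : ℕ, ‖ι c‖ ^ m * ‖ι (l (res z))‖ ≤ g * (d * (b * R ^ m) * (a * d * q)) :=
    fun m => by
    have p0 : 0 ≤ d * (b * R ^ m) := mul_nonneg d0 (mul_nonneg b0 (pow_pos hR m).le)
    have h2 := lB _ (em m)
    rw [Submodule.coe_sub, Submodule.coe_smul, map_sub, map_sub, map_smul, map_smul, l2,
      sub_eq_zero, smul_eq_mul] at h2
    rw [← norm_pow, ← map_pow, ← norm_mul, ← map_mul, ← h2]
    refine hg _ _ (mul_nonneg p0 r0) fun p j => ?_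
    have h3 := wd m p.1.1 p.1.2 (bl ι (fun _ : Unit => 1) (mul_nonneg p0 r0)) (fun t ht _ i => by
      have h4 := ((hd (p, true)).mul d0 (mul_nonneg b0 (pow_pos hR m).le) (hS m t ht)).vec p0 r0
        (hy p.1.1 (p.1.2 * t) 1) i
      rw [Matrix.mulVec_mulVec, ← map_mul, ← map_mul, if_pos rfl, Subgroup.coe_one, mul_one,
        mul_inv_cancel, map_one] at h4
      exact h4) () j
    rwa [Matrix.one_mulVec] at h3
  by_contra hc
  have l3 : 0 < ‖ι (l (res z))‖ := norm_pos_iff.2 ((map_ne_zero ι).2 l1)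
  obtain ⟨m, hm⟩ := pow_unbounded_of_one_lt (g * (d * b * (a * d * q)) / ‖ι (l (res z))‖)
    ((one_lt_div hR).2 (not_le.1 hc))
  rw [div_pow, div_lt_div_iff₀ l3 (pow_pos hR m)] at hm
  exact hm.not_ge ((key m).trans_eq (by ring))

end main

end Vale.Agent.P022K.Sh.Bi
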