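import Vale.Agent.P022K.F0.Sha

/-!
# P022K, block F0: covers `Γ' \ ℍ → Γ \ ℍ` (embeddings, norm, trace, degree)
-/

set_option autoImplicit false

open UpperHalfPlane MulAction Polynomial
open scoped MatrixGroups Pointwise

noncomputable section

namespace Vale.Agent.P022K.Sh

open Vale.Agent.P022 Vale.Agent.P022.H218.L3 Vale.Agent.P019P P025H816 P027M.K

variable {G0 G : Type} [Group G0] [Group G]

theorem hp_invC {B : Type} [CommMonoid B] {U U' : Subgroup G} {O : Set G} (h : Cor U' O U)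
    {f : G → B} (hf : Inv U f) : Inv U' (hp O U f) := by
  intro x u hu
  have hf' : Inv U fun x => Additive.ofMul (f x) := fun x u hu => congrArg _ (hf x u hu)
  have := hk_inv h hf' x u hu
  rw [h.rep.hk hf', h.rep.hk hf', ← ofMul_prod, ← ofMul_prod] at this
  rw [h.rep.hp hf, h.rep.hp hf]
  exact Additive.ofMul.injective this

theorem Rep.cor {U U' : Subgroup G} {I : Type} {s : Finset I} {r : I → G}
    (h : Rep (U : Set G) U' s r) : Cor U U U' := ⟨fun _ hu _ hy => mul_mem hu hy, h.right, h.fin⟩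

theorem Rep.prod_mul {B : Type} [CommMonoid B] {U U' : Subgroup G} {I : Type} {s : Finset I}
    {r : I → G} (h : Rep (U : Set G) U' s r) {f : G → B} (hf : Inv U' f) {u : G} (hu : u ∈ U) :
    ∏ i ∈ s, f (u * r i) = ∏ i ∈ s, f (r i) := by
  have := hp_invC h.cor hf 1 u hu
  rw [h.hp hf, h.hp hf] at this
  simpa using this

theorem ex_rep {U U' : Subgroup G} (h : U' ≤ U) (h' : U'.relIndex U ≠ 0) :
    ∃ (s : Finset (G ⧸ U')) (r : G ⧸ U' → G), Rep (U : Set G) U' s r := by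
  have e : dc U 1 U' = U := Set.ext fun y => mem_dc.trans ⟨fun ⟨u, hu, e⟩ => by
    simpa using mul_mem hu (h e), fun hy => ⟨y, hy, by simp⟩⟩
  have e' : cj 1 U' = U' := Subgroup.ext fun y => by simp [mem_cj]
  have c := cor_dc (U := U') (U' := U) (g := 1) (by rwa [e'])
  rw [e] at c
  exact ⟨_, _, c.rep⟩

/-! ## values and orders -/

theorem cz_mer : CharZero Mer := charZero_of_injective_algebraMap (algebraMap ℂ Mer).injective

theorem hol_ne {a : Hol} (h : a ≠ 0) : (a : ℍ → ℂ) ≠ 0 := fun e => h (Subtype.ext e)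

theorem MOrd.pow {τ : ℍ} {f : Mer} {k : ℤ} (h : MOrd τ f k) (n : ℕ) : MOrd τ (f ^ n) (n * k) := by
  obtain ⟨a, b, a0, b0, e, rfl⟩ := h
  refine ⟨a ^ n, b ^ n, pow_ne_zero _ a0, pow_ne_zero _ b0, by
    rw [map_pow, map_pow, ← mul_pow, e], ?_⟩
  rw [SubmonoidClass.coe_pow, SubmonoidClass.coe_pow, H587.L3.om_pow a.2 (hol_ne a0),
    H587.L3.om_pow b.2 (hol_ne b0)]
  push_cast
  ring

theorem ex_mord (τ : ℍ) {f : Mer} (h : f ≠ 0) : ∃ k, MOrd τ f k := by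
  obtain ⟨a, b, hb, e⟩ := IsFractionRing.div_surjective (A := Hol) f
  have b0 := nonZeroDivisors.ne_zero hb
  have b1 : algebraMap Hol Mer b ≠ 0 := (map_ne_zero_iff _ (IsFractionRing.injective _ _)).2 b0
  exact ⟨_, a, b, by
    rintro rfl
    exact h (by simp [← e]), b0, by rw [← e, div_mul_cancel₀ _ b1], rfl⟩

namespace Tw

variable {T : Tw G0 G} {Γ Γ' : Subgroup G0}

theorem KF_anti (h : Γ' ≤ Γ) : T.KF Γ ≤ T.KF Γ' := fun _ hf =>
  T.mem_KF.2 fun γ hγ => T.mem_KF.1 hf γ (h hγ)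

theorem act_inv (γ : G0) (f : Mer) : T.act γ⁻¹ (T.act γ f) = f := by
  rw [← act_mul, inv_mul_cancel, map_one, AlgEquiv.one_apply]

theorem act_inv' (γ : G0) (f : Mer) : T.act γ (T.act γ⁻¹ f) = f := by
  rw [← act_mul, mul_inv_cancel, map_one, AlgEquiv.one_apply]

theorem Fr.mono (h : T.Fr Γ) (h' : Γ' ≤ Γ) : T.Fr Γ' := fun γ hγ => h γ (h' hγ)

theorem Fu.sub (h : T.Fu Γ) (h0 : T.Z0 ≤ Γ') (h1 : Γ' ≤ Γ) (h2 : Γ'.relIndex Γ ≠ 0) : T.Fu Γ' := by
  obtain ⟨s, r, R⟩ := ex_rep h1 h2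
  refine ⟨h0, fun K hK => (h.pd K hK).imp fun S hS γ hγ => hS γ (h1 hγ), ?_⟩
  obtain ⟨K, hK, e⟩ := h.cc
  refine ⟨⋃ i ∈ s, (fun τ => (T.r (r i)⁻¹ : GL (Fin 2) ℝ) • τ) '' K,
    s.isCompact_biUnion fun i _ => hK.image (continuous_const_smul _), fun τ => ?_⟩
  obtain ⟨γ, hγ, m⟩ := e τ
  obtain ⟨i, hi, m'⟩ := R.sur γ hγ
  exact ⟨_, m', Set.mem_biUnion hi ⟨_, m, by rw [map_mul, mul_smul]; rfl⟩⟩

/-- an element that fixes the function field moves points inside their orbits -/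
theorem CF.orbit (hC : T.CF) (h : T.Fu Γ') {γ : G0} (e : ∀ f ∈ T.KF Γ', T.act γ f = f) (τ : ℍ) :
    ∃ ν ∈ Γ', T.r ν • τ = T.r γ • τ := by
  obtain ⟨_, pt, P⟩ := hC Γ' h
  refine (P.eq _ _).1 (Plk.eq_of_le fun z hz => ?_)
  obtain ⟨c, hc⟩ := exists_val (mem_Mge.2 ((mem_iff_ord _ _).1 hz))
  have := ((P.val _ _ _).1 hc).act (T.r γ)
  rw [show actM (T.r γ) z = z from e z z.2] at this
  exact (mem_iff_ord _ _).2 (mem_Mge.1 ((P.val _ _ _).2 this).mem)

/-- **faithfulness** -/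
theorem CF.faith (hC : T.CF) (h : T.Fu Γ') (h1 : Γ' ≤ Γ) (hF : T.Fr Γ) {γ : G0} (hγ : γ ∈ Γ)
    (e : ∀ f ∈ T.KF Γ', T.act γ f = f) : γ ∈ Γ' := by
  obtain ⟨ν, hν, e'⟩ := hC.orbit h e I
  have := h.z0 (hF (ν⁻¹ * γ) (mul_mem (inv_mem (h1 hν)) hγ) I (by
    rw [map_mul, map_inv, mul_smul, ← e', inv_smul_smul]))
  simpa using mul_mem hν this

variable (T) in
/-- the inclusion of function fields -/
@[reducible] def alg (h : Γ' ≤ Γ) : Algebra (T.KF Γ) (T.KF Γ') :=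
  (IntermediateField.inclusion (KF_anti h)).toRingHom.toAlgebra

section

variable {ι : Type} {s : Finset ι} {r : ι → G0}

theorem ex_poly (R : Rep (Γ : Set G0) Γ' s r) {f : Mer} (hf : f ∈ T.KF Γ') (n : ℕ) :
    (∏ i ∈ s, (X - C (T.act (r i) f)) : Mer[X]).coeff n ∈ T.KF Γ := by
  refine T.mem_KF.2 fun γ hγ => ?_
  have := R.prod_mul (f := fun y => (X - C (T.act y f) : Mer[X]))
    (fun x u hu => by simp only [act_mul, T.mem_KF.1 hf u hu]) hγ
  conv_rhs => rw [← this]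
  refine (coeff_map (T.act γ : Mer →+* Mer) n).symm.trans (congrArg (coeff · n) ?_)
  rw [Polynomial.map_prod]
  simp

variable {K L : Type} [Field K] [Field L] [Algebra K L]

variable (T Γ Γ' K) in
/-- `L / K` is a copy of the extension of function fields of `Γ' ≤ Γ` -/
structure Cv (i : L →+* Mer) : Prop where
  le : Γ' ≤ Γ
  bot : ∀ f, f ∈ T.KF Γ ↔ ∃ x : K, i (algebraMap K L x) = f
  top : ∀ f, f ∈ T.KF Γ' ↔ ∃ x : L, i x = f

theorem cv_alg (h : Γ' ≤ Γ) :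
    @Cv _ _ _ _ T Γ Γ' (T.KF Γ) (T.KF Γ') _ _ (T.alg h) (T.KF Γ').val.toRingHom :=
  @Cv.mk _ _ _ _ T Γ Γ' (T.KF Γ) (T.KF Γ') _ _ (T.alg h) _ h
    (fun f => ⟨fun hf => ⟨⟨f, hf⟩, rfl⟩, fun ⟨x, e⟩ => e ▸ x.2⟩)
    fun f => ⟨fun hf => ⟨⟨f, hf⟩, rfl⟩, fun ⟨x, e⟩ => e ▸ x.2⟩

variable {i : L →+* Mer}

theorem Cv.poly (c : T.Cv Γ Γ' K i) (R : Rep (Γ : Set G0) Γ' s r) (f : L) :
    ∃ P : K[X], P.map (i.comp (algebraMap K L)) = ∏ k ∈ s, (X - C (T.act (r k) (i f))) ∧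
      aeval f P = 0 := by
  have hf := (c.top _).2 ⟨f, rfl⟩
  obtain ⟨P, hP⟩ := (mem_lifts (f := i.comp (algebraMap K L)) _).1
    ((lifts_iff_coeff_lifts _).2 fun n => (c.bot _).1 (ex_poly R hf n))
  refine ⟨P, hP, i.injective ?_⟩
  obtain ⟨k, hk, m⟩ := R.sur 1 (one_mem Γ)
  rw [aeval_def, hom_eval₂, map_zero, eval₂_eq_eval_map, hP, eval_prod]
  refine Finset.prod_eq_zero hk ?_
  rw [T.mem_KF.1 hf _ (by simpa using m)]
  simp

theorem Cv.fd [Algebra ℂ K] [Algebra ℂ L] [IsScalarTower ℂ K L] [CFF ℂ L] (c : T.Cv Γ Γ' K i)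
    (R : Rep (Γ : Set G0) Γ' s r) : FiniteDimensional K L := by
  obtain ⟨t, -, ht⟩ := CFF.ex (k := ℂ) (F := L)
  have := CFld_essFin ht
  have := Algebra.EssFiniteType.of_comp ℂ K L
  have : Algebra.IsAlgebraic K L := ⟨fun f => by
    obtain ⟨P, h1, h2⟩ := c.poly R f
    refine ⟨P, ?_, h2⟩
    rintro rfl
    exact (monic_prod_of_monic _ _ fun i _ => monic_X_sub_C _).ne_zero
      (h1.symm.trans (Polynomial.map_zero _))⟩
  exact Algebra.finite_of_essFiniteType_of_isAlgebraic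

theorem Cv.emb (c : T.Cv Γ Γ' K i) (hC : T.CF) (h : T.Fu Γ') (hF : T.Fr Γ)
    (R : Rep (Γ : Set G0) Γ' s r) [FiniteDimensional K L] {E : Type} [Field E] [Algebra K E]
    (a : Mer →+* E) (ha : ∀ x, algebraMap K E x = a (i (algebraMap K L x))) :
    ∃ e : s → (L →ₐ[K] E), Function.Bijective e ∧ ∀ k f, e k f = a (T.act (r k) (i f)) := by
  have := cz_mer
  have : CharZero K := (i.comp (algebraMap K L)).charZero
  refine ⟨fun k => ⟨a.comp ((T.act (r k) : Mer →+* Mer).comp i), fun x => ?_⟩,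
    ⟨fun k l e => Subtype.ext (R.inj _ k.2 _ l.2 (hC.faith h c.le hF
      (mul_mem (inv_mem (R.mem _ k.2)) (R.mem _ l.2)) fun f hf => ?_)), fun σ => ?_⟩,
    fun _ _ => rfl⟩
  · exact (congrArg a (T.mem_KF.1 ((c.bot _).2 ⟨x, rfl⟩) _ (R.mem _ k.2))).trans (ha x).symm
  · obtain ⟨f, rfl⟩ := (c.top f).1 hf
    have : T.act (r k) (i f) = T.act (r l) (i f) := a.injective (DFunLike.congr_fun e f)
    rw [act_mul, ← this, act_inv]
  · let pb := Field.powerBasisOfFiniteOfSeparable K L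
    obtain ⟨P, h1, h2⟩ := c.poly R pb.gen
    have := aeval_algHom_apply σ pb.gen P
    rw [h2, map_zero, aeval_def, show algebraMap K E = a.comp (i.comp (algebraMap K L)) from
      RingHom.ext ha, ← eval₂_map, h1, eval₂_finsetProd, Finset.prod_eq_zero_iff] at this
    obtain ⟨k, hk, e⟩ := this
    refine ⟨⟨k, hk⟩, pb.algHom_ext ?_⟩
    rw [eval₂_sub, eval₂_X, eval₂_C, sub_eq_zero] at e
    exact e.symm

/-- **norm, trace and degree** -/
theorem Cv.norm (c : T.Cv Γ Γ' K i) (hC : T.CF) (h : T.Fu Γ') (hF : T.Fr Γ)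
    (R : Rep (Γ : Set G0) Γ' s r) [FiniteDimensional K L] :
    (∀ f, i (algebraMap K L (Algebra.norm K f)) = ∏ k ∈ s, T.act (r k) (i f)) ∧
    (∀ f, i (algebraMap K L (Algebra.trace K L f)) = ∑ k ∈ s, T.act (r k) (i f)) ∧
    Module.finrank K L = s.card := by
  have := cz_mer
  have : CharZero K := (i.comp (algebraMap K L)).charZero
  let a := algebraMap Mer (AlgebraicClosure Mer)
  let : Algebra K (AlgebraicClosure Mer) := (a.comp (i.comp (algebraMap K L))).toAlgebra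
  obtain ⟨e, he, ev⟩ := c.emb hC h hF R a fun _ => rfl
  refine ⟨fun f => a.injective ?_, fun f => a.injective ?_, ?_⟩
  · rw [map_prod, ← Finset.prod_coe_sort s]
    exact (Algebra.norm_eq_prod_embeddings K (AlgebraicClosure Mer) f).trans
      ((he.prod_comp fun σ => σ f).symm.trans (Finset.prod_congr rfl fun k _ => ev k f))
  · rw [map_sum, ← Finset.sum_coe_sort s]
    exact (trace_eq_sum_embeddings (AlgebraicClosure Mer) (K := K) (x := f)).trans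
      ((he.sum_comp fun σ => σ f).symm.trans (Finset.sum_congr rfl fun k _ => ev k f))
  · rw [← AlgHom.card _ _ (AlgebraicClosure Mer), ← Fintype.card_of_bijective he, Fintype.card_coe]

end

variable (T) in
/-- conjugate groups have isomorphic function fields -/
def actK (δ : G0) (h : ∀ γ, γ ∈ Γ' ↔ δ⁻¹ * γ * δ ∈ Γ) : T.KF Γ ≃ₐ[ℂ] T.KF Γ' where
  toFun f := ⟨T.act δ f, T.mem_KF.2 fun γ hγ => by
    conv_rhs => rw [← T.mem_KF.1 f.2 _ ((h γ).1 hγ), mul_assoc, act_mul, act_inv', act_mul]⟩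
  invFun f := ⟨T.act δ⁻¹ f, T.mem_KF.2 fun γ hγ => by
    conv_rhs => rw [← T.mem_KF.1 f.2 (δ * (γ * δ⁻¹)) ((h _).2 (by simpa [mul_assoc] using hγ)),
      act_mul, act_inv, act_mul]⟩
  left_inv f := Subtype.ext (act_inv δ f)
  right_inv f := Subtype.ext (act_inv' δ f)
  map_mul' f g := Subtype.ext (map_mul _ _ _)
  map_add' f g := Subtype.ext (map_add _ _ _)
  commutes' c := Subtype.ext ((T.act δ).commutes c)

theorem actK_val (δ : G0) (h : ∀ γ, γ ∈ Γ' ↔ δ⁻¹ * γ * δ ∈ Γ) (f : T.KF Γ) :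
    (T.actK δ h f : Mer) = T.act δ f := rfl

theorem mem_stab_smul {X : Type} [MulAction G0 X] (δ : G0) (p : X) (γ : G0) :
    γ ∈ stabilizer G0 (δ • p) ↔ δ⁻¹ * γ * δ ∈ stabilizer G0 p := by
  simp only [mem_stabilizer_iff, mul_smul, inv_smul_eq_iff]

end Tw

end Vale.Agent.P022K.Sh
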