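import Vale.Agent.P022.H587.L3.Kum
import Vale.Agent.P027M.K.Pic
import Vale.Agent.P022.H20.GalDef

/-!
# P022K, block F0: abstract towers of compact curves `G0 \ (ℍ × G) / U` (definitions)

`G0` acts on `ℍ` through `r` and maps to `G` through `j`.  Levels are subgroups `U` of `G` (they all
contain the centre).  Functions on the tower are functions `G → Mer`; cohomology is the first
cohomology of `G0` modulo the kernel `Z0` of its action on `ℍ`, with coefficients in the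
`U`-invariant functions on `G`.
-/

set_option autoImplicit false

open UpperHalfPlane
open scoped MatrixGroups Manifold Pointwise

noncomputable section

namespace Vale.Agent.P022K.Sh

open Vale.Agent.P022 Vale.Agent.P022.H218.L3

/-! ## meromorphic functions on `ℍ` -/

/-- matrices of positive determinant -/
def GP : Subgroup (GL (Fin 2) ℝ) where
  carrier := {g | 0 < g.det.val}
  mul_mem' {a b} ha hb := by
    simp only [Set.mem_ofPred_eq, map_mul, Units.val_mul] at *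
    exact mul_pos ha hb
  one_mem' := by simp
  inv_mem' {a} ha := by
    simp only [Set.mem_ofPred_eq, map_inv, Units.val_inv_eq_inv_val] at *
    exact inv_pos.2 ha

theorem comp_mem (g : GP) {f : ℍ → ℂ} (hf : f ∈ Hol) : (fun τ => f (g • τ)) ∈ Hol :=
  (mem_Hol.1 hf).comp (UpperHalfPlane.mdifferentiable_smul (g := (g : GL (Fin 2) ℝ)) g.2)

/-- `actH g f = f ∘ g⁻¹` -/
def actH : GP →* (Hol ≃ₐ[ℂ] Hol) where
  toFun g :=
    { toFun := fun f => ⟨fun τ => (f : ℍ → ℂ) (g⁻¹ • τ), comp_mem g⁻¹ f.2⟩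
      invFun := fun f => ⟨fun τ => (f : ℍ → ℂ) (g • τ), comp_mem g f.2⟩
      left_inv := fun f => Subtype.ext (funext fun τ => by simp)
      right_inv := fun f => Subtype.ext (funext fun τ => by simp)
      map_mul' := fun f g => rfl
      map_add' := fun f g => rfl
      commutes' := fun c => rfl }
  map_one' := by
    ext f τ
    simp
  map_mul' γ δ := by
    ext f τ
    show (f : ℍ → ℂ) ((γ * δ)⁻¹ • τ) = (f : ℍ → ℂ) (δ⁻¹ • γ⁻¹ • τ)
    rw [mul_inv_rev, mul_smul]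

theorem actH_apply (g : GP) (f : Hol) (τ : ℍ) :
    ((actH g f : Hol) : ℍ → ℂ) τ = (f : ℍ → ℂ) (g⁻¹ • τ) := rfl

/-- the action on `Mer`: `actM g f = f ∘ g⁻¹` -/
def actM : GP →* (Mer ≃ₐ[ℂ] Mer) :=
  (IsFractionRing.fieldEquivOfAlgEquivHom (A := ℂ) (B := Hol) ℂ Mer).comp actH

theorem actM_algebraMap (g : GP) (f : Hol) :
    actM g (algebraMap Hol Mer f) = algebraMap Hol Mer (actH g f) := by
  simp [actM]

/-- `f` is holomorphic at `τ` with the value `c` -/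
def MVal (τ : ℍ) (f : Mer) (c : ℂ) : Prop := ∃ g h : Hol, (h : ℍ → ℂ) τ ≠ 0 ∧
  f * algebraMap Hol Mer h = algebraMap Hol Mer g ∧ (g : ℍ → ℂ) τ = c * (h : ℍ → ℂ) τ

/-- `f ≠ 0` has the order `n` at `τ` -/
def MOrd (τ : ℍ) (f : Mer) (n : ℤ) : Prop := ∃ g h : Hol, g ≠ 0 ∧ h ≠ 0 ∧
  f * algebraMap Hol Mer h = algebraMap Hol Mer g ∧
  n = (H587.L3.om τ g : ℤ) - H587.L3.om τ h

/-- `exp (2 π i k / n)` -/
def en (n : ℕ) (k : ZMod n) : ℂ := Complex.exp (2 * Real.pi * Complex.I * (k.val : ℂ) / n)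

/-! ## towers -/

/-- the data of a tower -/
structure Tw (G0 G : Type) [Group G0] [Group G] where
  j : G0 →* G
  r : G0 →* GP
  Lev : Set (Subgroup G)

variable {G0 G : Type} [Group G0] [Group G]

/-- `x U x⁻¹` -/
def cj (x : G) (U : Subgroup G) : Subgroup G := U.comap (MulAut.conj x⁻¹).toMonoidHom

theorem mem_cj {x y : G} {U : Subgroup G} : y ∈ cj x U ↔ x⁻¹ * y * x ∈ U := by
  simp [cj]

namespace Tw

variable (T : Tw G0 G)

/-- the group of the component of `x` in level `U` -/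
def Gam (U : Subgroup G) (x : G) : Subgroup G0 := (cj x U).comap T.j

theorem mem_Gam {U : Subgroup G} {x : G} {γ : G0} : γ ∈ T.Gam U x ↔ x⁻¹ * T.j γ * x ∈ U := mem_cj

/-- the kernel of the action on `ℍ` -/
def Z0 : Subgroup G0 := ((MulAction.toPermHom GP ℍ).comp T.r).ker

/-- the intersection of all levels -/
def Z : Subgroup G := sInf T.Lev

/-- the action on meromorphic functions -/
def act : G0 →* (Mer ≃ₐ[ℂ] Mer) := actM.comp T.r

/-- no elliptic elements on any component -/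
def Neat (U : Subgroup G) : Prop :=
  ∀ x, ∀ γ ∈ T.Gam U x, ∀ τ : ℍ, T.r γ • τ = τ → γ ∈ T.Z0

/-- `Γ` acts properly discontinuously (modulo `Z0`) and cocompactly -/
structure Fu (Γ : Subgroup G0) : Prop where
  z0 : T.Z0 ≤ Γ
  pd : ∀ K : Set ℍ, IsCompact K → ∃ S : Finset G0, ∀ γ ∈ Γ, (∃ τ ∈ K, T.r γ • τ ∈ K) →
    ∃ s ∈ S, s⁻¹ * γ ∈ T.Z0
  cc : ∃ K : Set ℍ, IsCompact K ∧ ∀ τ : ℍ, ∃ γ ∈ Γ, T.r γ • τ ∈ K

/-- the axioms of a tower -/
structure Ok : Prop where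
  inf : ∀ U ∈ T.Lev, ∀ U' ∈ T.Lev, U ⊓ U' ∈ T.Lev
  conj : ∀ U ∈ T.Lev, ∀ x, cj x U ∈ T.Lev
  up : ∀ U ∈ T.Lev, ∀ U', U ≤ U' → U.relIndex U' ≠ 0 → U' ∈ T.Lev
  fi : ∀ U ∈ T.Lev, ∀ U' ∈ T.Lev, U.relIndex U' ≠ 0
  neat : ∃ U ∈ T.Lev, T.Neat U
  fin : ∀ U ∈ T.Lev, ∃ S : Finset G, ∀ x, ∃ s ∈ S, ∃ γ, ∃ u ∈ U, x = T.j γ * s * u
  fu : ∀ U ∈ T.Lev, ∀ x, T.Fu (T.Gam U x)
  z0 : ∀ γ, γ ∈ T.Z0 ↔ T.j γ ∈ T.Z
  zc : T.Z ≤ Subgroup.center G
  seq : ∃ u : ℕ → Subgroup G, Antitone u ∧ (∀ n, u n ∈ T.Lev) ∧ ∀ U ∈ T.Lev, ∃ n, u n ≤ U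
  cpl : ∀ u : ℕ → Subgroup G, Antitone u → (∀ n, u n ∈ T.Lev) → (∀ U ∈ T.Lev, ∃ n, u n ≤ U) →
    ∀ c : ℕ → G, (∀ n, (c n)⁻¹ * c (n + 1) ∈ u n) → ∃ x, ∀ n, (c n)⁻¹ * x ∈ u n
  cnt : Countable G0

/-- the function field of `Γ` -/
def KF (Γ : Subgroup G0) : IntermediateField ℂ Mer :=
  IntermediateField.fixedField (Γ.map T.act)

theorem mem_KF {Γ : Subgroup G0} {f : Mer} : f ∈ T.KF Γ ↔ ∀ γ ∈ Γ, T.act γ f = f := by
  simp [KF, IntermediateField.mem_fixedField_iff]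

end Tw

/-- invariance under right translation by `U` -/
def Inv {B : Type} (U : Subgroup G) (f : G → B) : Prop := ∀ x, ∀ u ∈ U, f (x * u) = f x

/-- right translation -/
def rt {B : Type} (g : G) (f : G → B) : G → B := fun x => f (x * g)

namespace Tw

variable (T : Tw G0 G)

/-- the functions of level `U` -/
def RU (U : Subgroup G) : Subalgebra ℂ (G → Mer) where
  carrier := {φ | (∀ γ x, φ (T.j γ * x) = T.act γ (φ x)) ∧ Inv U φ}
  mul_mem' {φ ψ} h h' := ⟨fun γ x => by rw [Pi.mul_apply, Pi.mul_apply, h.1, h'.1, map_mul],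
    fun x u hu => by rw [Pi.mul_apply, Pi.mul_apply, h.2 x u hu, h'.2 x u hu]⟩
  add_mem' {φ ψ} h h' := ⟨fun γ x => by rw [Pi.add_apply, Pi.add_apply, h.1, h'.1, map_add],
    fun x u hu => by rw [Pi.add_apply, Pi.add_apply, h.2 x u hu, h'.2 x u hu]⟩
  algebraMap_mem' c := ⟨fun γ x => ((T.act γ).commutes c).symm, fun _ _ _ => rfl⟩

/-- `θ` is a `σ`-semilinear automorphism of the tower that commutes with `G`.  It is a function on
all of `G → Mer`; only its values on the `RU U` matter. -/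
structure Sl (σ : ℂ ≃+* ℂ) (θ : (G → Mer) → G → Mer) : Prop where
  mem : ∀ U ∈ T.Lev, ∀ φ ∈ T.RU U, θ φ ∈ T.RU U
  bij : ∀ U ∈ T.Lev, Set.BijOn θ (T.RU U) (T.RU U)
  add : ∀ U ∈ T.Lev, ∀ φ ∈ T.RU U, ∀ ψ ∈ T.RU U, θ (φ + ψ) = θ φ + θ ψ
  mul : ∀ U ∈ T.Lev, ∀ φ ∈ T.RU U, ∀ ψ ∈ T.RU U, θ (φ * ψ) = θ φ * θ ψ
  cst : ∀ c : ℂ, θ (algebraMap ℂ (G → Mer) c) = algebraMap ℂ (G → Mer) (σ c)
  eqv : ∀ U ∈ T.Lev, ∀ φ ∈ T.RU U, ∀ g, θ (rt g φ) = rt g (θ φ)

/-- `θ` maps the point `(τ, x)` to the point `(τ', x')` -/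
def Pt (σ : ℂ ≃+* ℂ) (θ : (G → Mer) → G → Mer) (τ : ℍ) (x : G) (τ' : ℍ) (x' : G) : Prop :=
  ∀ U ∈ T.Lev, ∀ φ ∈ T.RU U, ∀ c, MVal τ (φ x) c → MVal τ' (θ φ x') (σ c)

/-- the same point of the tower -/
def Same (τ : ℍ) (x : G) (τ' : ℍ) (x' : G) : Prop :=
  ∃ γ, ∃ z ∈ T.Z, τ' = T.r γ • τ ∧ x' = T.j γ * x * z

/-! ## cohomology -/

section

variable {Λ B : Type} [CommRing Λ] [AddCommGroup B] [Module Λ B] (ρ : Representation Λ G0 B)

/-- the action of `G0` on functions on `G` -/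
def lt (γ : G0) (f : G → B) : G → B := fun x => ρ γ (f ((T.j γ)⁻¹ * x))

/-- cocycles of level `U` -/
def Z1 (U : Subgroup G) : Submodule Λ (G0 → G → B) where
  carrier := {z | (∀ γ, Inv U (z γ)) ∧ (∀ γ δ, z (γ * δ) = z γ + T.lt ρ γ (z δ)) ∧
    ∀ γ ∈ T.Z0, z γ = 0}
  add_mem' {z w} h h' := ⟨fun γ x u hu => by
      simp only [Pi.add_apply, h.1 γ x u hu, h'.1 γ x u hu],
    fun γ δ => by
      funext x
      simp only [Pi.add_apply, h.2.1, h'.2.1, lt, map_add]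
      abel,
    fun γ hγ => by rw [Pi.add_apply, h.2.2 γ hγ, h'.2.2 γ hγ, add_zero]⟩
  zero_mem' := ⟨fun _ _ _ _ => rfl, fun γ δ => by funext x; simp [lt], fun _ _ => rfl⟩
  smul_mem' c z h := ⟨fun γ x u hu => by simp only [Pi.smul_apply, h.1 γ x u hu],
    fun γ δ => by
      funext x
      simp only [Pi.add_apply, Pi.smul_apply, h.2.1, lt, map_smul, smul_add],
    fun γ hγ => by rw [Pi.smul_apply, h.2.2 γ hγ, smul_zero]⟩

/-- coboundaries of level `U` -/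
def B1 (U : Subgroup G) : Submodule Λ (G0 → G → B) where
  carrier := {z | ∃ f, Inv U f ∧ ∀ γ, z γ = T.lt ρ γ f - f}
  add_mem' := by
    rintro z w ⟨f, h1, h2⟩ ⟨f', h1', h2'⟩
    refine ⟨f + f', fun x u hu => by simp only [Pi.add_apply, h1 x u hu, h1' x u hu], fun γ => ?_⟩
    funext x
    simp only [Pi.add_apply, Pi.sub_apply, h2, h2', lt, map_add]
    abel
  zero_mem' := ⟨0, fun _ _ _ => rfl, fun γ => by funext x; simp [lt]⟩
  smul_mem' := by
    rintro c z ⟨f, h1, h2⟩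
    refine ⟨c • f, fun x u hu => by simp only [Pi.smul_apply, h1 x u hu], fun γ => ?_⟩
    funext x
    simp only [Pi.smul_apply, Pi.sub_apply, h2, lt, map_smul, smul_sub]

/-- the first cohomology of level `U` -/
abbrev H1 (U : Subgroup G) : Type := T.Z1 ρ U ⧸ (T.B1 ρ U).submoduleOf (T.Z1 ρ U)

/-- invariant sections of level `U` -/
def H0 (U : Subgroup G) : Submodule Λ (G → B) where
  carrier := {f | Inv U f ∧ ∀ γ, T.lt ρ γ f = f}
  add_mem' {f f'} h h' := ⟨fun x u hu => by simp only [Pi.add_apply, h.1 x u hu, h'.1 x u hu],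
    fun γ => by
      funext x
      have e := congrFun (h.2 γ) x
      have e' := congrFun (h'.2 γ) x
      simp only [lt] at e e'
      simp only [lt, Pi.add_apply, map_add, e, e']⟩
  zero_mem' := ⟨fun _ _ _ => rfl, fun γ => by funext x; simp [lt]⟩
  smul_mem' c f h := ⟨fun x u hu => by simp only [Pi.smul_apply, h.1 x u hu], fun γ => by
    funext x
    have e := congrFun (h.2 γ) x
    simp only [lt] at e
    simp only [lt, Pi.smul_apply, map_smul, e]⟩

end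

end Tw

/-! ## correspondences -/

/-- `O = U' O U` is a finite union of cosets `c U` -/
structure Cor (U' : Subgroup G) (O : Set G) (U : Subgroup G) : Prop where
  left : ∀ u ∈ U', ∀ y ∈ O, u * y ∈ O
  right : ∀ y ∈ O, ∀ u ∈ U, y * u ∈ O
  fin : {c : G ⧸ U | c.out ∈ O}.Finite

/-- the double coset `U' g U` -/
def dc (U' : Subgroup G) (g : G) (U : Subgroup G) : Set G :=
  {y | ∃ u' ∈ U', ∃ u ∈ U, y = u' * g * u}

/-- the sum over the cosets `c U` in `O` -/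
def hk {B : Type} [AddCommMonoid B] (O : Set G) (U : Subgroup G) (f : G → B) : G → B :=
  fun x => ∑ᶠ c ∈ {c : G ⧸ U | c.out ∈ O}, f (x * c.out)

/-- the product over the cosets `c U` in `O` -/
def hp {B : Type} [CommMonoid B] (O : Set G) (U : Subgroup G) (f : G → B) : G → B :=
  fun x => ∏ᶠ c ∈ {c : G ⧸ U | c.out ∈ O}, f (x * c.out)

theorem hk_eq {B : Type} [AddCommMonoid B] {U U' : Subgroup G} {O : Set G} (h : Cor U' O U)
    (f : G → B) (x : G) : hk O U f x = ∑ c ∈ h.fin.toFinset, f (x * c.out) :=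
  finsum_mem_eq_finite_toFinset_sum _ h.fin

theorem hk_inv {B : Type} [AddCommMonoid B] {U U' : Subgroup G} {O : Set G} (h : Cor U' O U)
    {f : G → B} (hf : Inv U f) : Inv U' (hk O U f) := by
  intro x u hu
  have key : ∀ (v : G) (c : G ⧸ U), ∃ w ∈ U, (v • c).out = v * c.out * w := fun v c => by
    have e : ((v * c.out : G) : G ⧸ U) = v • c := by
      rw [← smul_eq_mul, ← MulAction.Quotient.smul_mk, QuotientGroup.out_eq']
    refine ⟨(v * c.out)⁻¹ * (v • c).out, QuotientGroup.eq.1 ?_, by group⟩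
    rw [e, QuotientGroup.out_eq']
  have mem : ∀ v ∈ U', ∀ c : G ⧸ U, c.out ∈ O → (v • c).out ∈ O := fun v hv c hc => by
    obtain ⟨w, hw, e⟩ := key v c
    exact e ▸ h.right _ (h.left v hv _ hc) w hw
  rw [hk_eq h, hk_eq h]
  refine Finset.sum_bij' (fun c _ => u • c) (fun c _ => u⁻¹ • c) (fun c hc => ?_) (fun c hc => ?_)
    (fun c _ => by simp) (fun c _ => by simp) fun c _ => ?_
  · exact h.fin.mem_toFinset.2 (mem u hu c (h.fin.mem_toFinset.1 hc))
  · exact h.fin.mem_toFinset.2 (mem _ (inv_mem hu) c (h.fin.mem_toFinset.1 hc))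
  · obtain ⟨w, hw, e⟩ := key u c
    rw [e, ← mul_assoc, ← mul_assoc, hf _ w hw]

namespace Tw

variable (T : Tw G0 G) {Λ B : Type} [CommRing Λ] [AddCommGroup B] [Module Λ B]
  (ρ : Representation Λ G0 B) {U U' : Subgroup G} {O : Set G}

theorem hk_lt (h : Cor U' O U) (γ : G0) (f : G → B) :
    hk O U (T.lt ρ γ f) = T.lt ρ γ (hk O U f) := by
  funext x
  simp only [lt, hk_eq h, map_sum, mul_assoc]

/-- the correspondence on cocycles -/
def hZ (h : Cor U' O U) : T.Z1 ρ U →ₗ[Λ] T.Z1 ρ U' where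
  toFun z := ⟨fun γ => hk O U (z.1 γ), fun γ => hk_inv h (z.2.1 γ), fun γ δ => by
      beta_reduce
      rw [z.2.2.1, ← T.hk_lt ρ h]
      funext x
      simp only [hk_eq h, Pi.add_apply, Finset.sum_add_distrib], fun γ hγ => by
      funext x
      simp only [hk_eq h, z.2.2.2 γ hγ, Pi.zero_apply, Finset.sum_const_zero]⟩
  map_add' z w := by
    ext γ x
    simp only [hk_eq h, Submodule.coe_add, Pi.add_apply, Finset.sum_add_distrib]
  map_smul' c z := by
    ext γ x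
    simp only [hk_eq h, Submodule.coe_smul, Pi.smul_apply, Finset.smul_sum, RingHom.id_apply]

/-- the correspondence on cohomology -/
def hH (h : Cor U' O U) : T.H1 ρ U →ₗ[Λ] T.H1 ρ U' :=
  Submodule.mapQ _ _ (T.hZ ρ h) (by
    rintro z ⟨f, h1, h2⟩
    refine ⟨hk O U f, hk_inv h h1, fun γ => ?_⟩
    rw [← T.hk_lt ρ h]
    funext x
    have e : z.1 γ = T.lt ρ γ f - f := h2 γ
    show hk O U (z.1 γ) x = _
    simp only [e, hk_eq h, Pi.sub_apply, Finset.sum_sub_distrib])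

/-- cohomology with constant coefficients -/
abbrev Hc (Λ B : Type) [CommRing Λ] [AddCommGroup B] [Module Λ B] (U : Subgroup G) : Type :=
  T.H1 (Representation.trivial Λ G0 B) U

/-- the correspondence on cohomology with constant coefficients -/
abbrev hC (Λ B : Type) [CommRing Λ] [AddCommGroup B] [Module Λ B] (h : Cor U' O U) :
    T.Hc Λ B U →ₗ[Λ] T.Hc Λ B U' := T.hH (Representation.trivial Λ G0 B) h

/-- `h` is a Kummer function for the cocycle `z` -/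
def Kum (n : ℕ) (U : Subgroup G) (h : G → Mer) (z : G0 → G → ZMod n) : Prop :=
  (∀ x, h x ≠ 0) ∧ Inv U h ∧
    ∀ γ x, T.act γ (h ((T.j γ)⁻¹ * x)) = algebraMap ℂ Mer (en n (z γ x)) * h x

/-- `θ` maps the class of `z` to the class of `z'` -/
def KGal (θ : (G → Mer) → G → Mer) (n : ℕ) (U : Subgroup G) (z z' : G0 → G → ZMod n) : Prop :=
  ∃ h h', T.Kum n U h z ∧ T.Kum n U h' z' ∧ θ (h ^ n) = h' ^ n

/-- `θ` maps the class `a` to the class `a'` (coefficients in a module over `ℤ / n`) -/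
def IsGal (θ : (G → Mer) → G → Mer) (n : ℕ) (U : Subgroup G) (a a' : T.Hc Λ B U) : Prop :=
  ∃ z z' : T.Z1 (Representation.trivial Λ G0 B) U, Submodule.Quotient.mk z = a ∧
    Submodule.Quotient.mk z' = a' ∧ ∀ l : B →+ ZMod n,
      T.KGal θ n U (fun γ x => l (z.1 γ x)) fun γ x => l (z'.1 γ x)

/-- holomorphic one-forms of level `U`, `ω x` standing for `ω x (τ) d τ` -/
def Om (U : Subgroup G) : Submodule ℂ (G → ℍ → ℂ) where
  carrier := {ω | (∀ x, ω x ∈ Hol) ∧ Inv U ω ∧ ∀ γ x τ, ω (T.j γ * x) (T.r γ • τ) *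
    ((T.r γ : GL (Fin 2) ℝ).det.val : ℂ) = denom (T.r γ : GL (Fin 2) ℝ) τ ^ 2 * ω x τ}
  add_mem' {f g} h h' := ⟨fun x => Hol.add_mem (h.1 x) (h'.1 x),
    fun x u hu => by simp only [Pi.add_apply, h.2.1 x u hu, h'.2.1 x u hu],
    fun γ x τ => by simp only [Pi.add_apply, add_mul, mul_add, h.2.2, h'.2.2]⟩
  zero_mem' := ⟨fun _ => Hol.zero_mem, fun _ _ _ => rfl, fun _ _ _ => by simp⟩
  smul_mem' c f h := ⟨fun x => Hol.smul_mem (h.1 x) c,
    fun x u hu => by simp only [Pi.smul_apply, h.2.1 x u hu],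
    fun γ x τ => by
      simp only [Pi.smul_apply, smul_eq_mul, mul_assoc, h.2.2]
      ring⟩

end Tw

/-! ## places where `G` is `GL₂` of a local field -/

section

variable (O K : Type) [CommRing O] [IsDomain O] [IsDiscreteValuationRing O] [Field K] [Algebra O K]

/-- `GL₂(O)` -/
def KK : Subgroup (GL (Fin 2) K) :=
  (Matrix.GeneralLinearGroup.map (n := Fin 2) (algebraMap O K)).range

/-- the principal congruence subgroup of level `m` -/
def Km (m : ℕ) : Subgroup (GL (Fin 2) K) :=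
  (Matrix.GeneralLinearGroup.map (n := Fin 2)
    (Ideal.Quotient.mk (IsLocalRing.maximalIdeal O ^ m))).ker.map
    (Matrix.GeneralLinearGroup.map (n := Fin 2) (algebraMap O K))

/-- the scalar matrices -/
abbrev Zl : Subgroup (GL (Fin 2) K) := Subgroup.center _

/-- the size of the residue field -/
def qq : ℕ := Nat.card (IsLocalRing.ResidueField O)

variable {K} in
/-- `diag (c, 1)` -/
def dg (c : Kˣ) : GL (Fin 2) K :=
  Matrix.GeneralLinearGroup.mkOfDetNeZero !![(c : K), 0; 0, 1] (by simp [Matrix.det_fin_two])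

/-- a direct factor `GL₂(K)` of `G`, `K` a local field with integers `O` and uniformiser `ϖ` -/
structure Tw.Lc (T : Tw G0 G) where
  fr : IsFractionRing O K
  fin : Finite (IsLocalRing.ResidueField O)
  cpl : IsAdicComplete (IsLocalRing.maximalIdeal O) O
  ch : CharZero K
  ϖ : Kˣ
  irr : ∃ p : O, Irreducible p ∧ algebraMap O K p = ϖ
  ι : GL (Fin 2) K →* G
  π : G →* GL (Fin 2) K
  πι : ∀ g, π (ι g) = g
  com : ∀ g x, π x = 1 → Commute (ι g) x
  cen : ∀ g ∈ Zl K, ι g ∈ T.Z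
  cen' : ∀ z ∈ T.Z, π z ∈ Zl K
  op : ∀ U ∈ T.Lev, ∃ m, Km O K m ≤ U.comap ι
  cpt : ∀ U ∈ T.Lev, (KK O K ⊔ Zl K).relIndex (U.map π) ≠ 0
  lev : ∀ U ∈ T.Lev, ∀ m, (U ⊓ π.ker) ⊔ T.Z ⊔ (Km O K m).map ι ∈ T.Lev

namespace Tw

variable {O K} {T : Tw G0 G} (w : T.Lc O K)

/-- `U` is the product of `V · centre` at `w` and a group away from `w` -/
def Lc.At (V : Subgroup (GL (Fin 2) K)) (U : Subgroup G) : Prop :=
  (∀ g ∈ V, w.ι g ∈ U) ∧ ∀ u ∈ U, w.π u ∈ V ⊔ Zl K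

/-- the part of `U` away from `w` times `V · centre` at `w` -/
def Lc.set (V : Subgroup (GL (Fin 2) K)) (U : Subgroup G) : Subgroup G :=
  (U ⊓ w.π.ker) ⊔ T.Z ⊔ V.map w.ι

/-- the double coset of the Hecke operator -/
def Lc.To (U : Subgroup G) : Set G := dc U (w.ι (dg w.ϖ)) U

/-- different places -/
def Lc.Ne {O' K' : Type} [CommRing O'] [IsDomain O'] [IsDiscreteValuationRing O'] [Field K']
    [Algebra O' K'] (w' : T.Lc O' K') : Prop :=
  (∀ g, w.π (w'.ι g) = 1) ∧ ∀ g, w'.π (w.ι g) = 1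

end Tw

end

end Vale.Agent.P022K.Sh
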