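import Vale.Agent.P022K.F0.HilbA
import Vale.Agent.P022.H567.Rec

/-!
# P022K, block F0: Hilbert's reciprocity law, quaternion algebras with given ramification
-/

set_option autoImplicit false

open NumberField IsDedekindDomain
open scoped Pointwise

noncomputable section

namespace Vale.Agent.P022K.Hilb

open Vale.Agent.P011.Arith Vale.Agent.P022

section loc

variable {F : Type} [Field F] [CharZero F] {w : Valuation F Z0} {c : F} {e : Fˣ}

theorem admC_of (he : (e : F) = 1 + 4 * c) (hc : w c ≤ 1) (h1 : w (e : F) = 1) (hn : e ∉ LS w) :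
    AdmC w c := by
  have key : ∀ t : F, w t ≤ 1 → w (t ^ 2 + t - c) = 1 := by
    intro t ht
    have hle : w (t ^ 2 + t - c) ≤ 1 := Valuation.map_sub_le _ (Valuation.map_add_le _
      (by rw [map_pow]; exact pow_le_one₀ zero_le ht) ht) hc
    by_contra hne
    have hlt : w (4 * (t ^ 2 + t - c)) < w 4 := by
      rw [map_mul]
      exact mul_lt_of_lt_one_right (zero_lt_iff.2 (val_four_ne w)) (lt_of_le_of_ne hle hne)
    have e1 : (2 * t + 1) ^ 2 = e + 4 * (t ^ 2 + t - c) := by rw [he]; ring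
    have h2 : w ((2 * t + 1) ^ 2) = 1 := by
      rw [e1, Valuation.map_add_eq_of_lt_left _ (by rw [h1]; exact hlt.trans_le (val_four_le w)),
        h1]
    have h3 : 2 * t + 1 ≠ 0 := by
      intro h0
      simp [h0] at h2
    refine hn ⟨Units.mk0 _ h3, ?_⟩
    have e2 : (e : F) / (2 * t + 1) ^ 2 - 1 = -(4 * (t ^ 2 + t - c)) / (2 * t + 1) ^ 2 := by
      rw [div_sub_one (pow_ne_zero 2 h3), e1]
      ring
    rw [Units.val_mk0, e2, map_div₀, h2, div_one, Valuation.map_neg]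
    exact hlt
  refine ⟨hc, fun p q => ?_⟩
  rcases le_or_gt (w p) (w q) with h | h
  · rw [max_eq_right h]
    by_cases hq : q = 0
    · subst hq
      have : p = 0 := by simpa using h
      simp [this]
    have hq' : w q ≠ 0 := (Valuation.ne_zero_iff _).2 hq
    have e1 : p ^ 2 + p * q - c * q ^ 2 = ((p / q) ^ 2 + p / q - c) * q ^ 2 := by field_simp
    rw [e1, map_mul, key _ (by rwa [map_div₀, div_le_one₀ (zero_lt_iff.2 hq')]), one_mul, map_pow]
  · rw [max_eq_left h.le]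
    have hp : 0 < w p := zero_le.trans_lt h
    have e1 : p ^ 2 + p * q - c * q ^ 2 = p ^ 2 + (p * q - c * q ^ 2) := by ring
    have h2 : w p * w q < w (p ^ 2) := by
      rw [map_pow, sq]
      exact mul_lt_mul_of_pos_left h hp
    rw [e1, Valuation.map_add_eq_of_lt_left _ (Valuation.map_sub_lt _ (by rwa [map_mul]) ?_),
      map_pow]
    refine lt_of_le_of_lt ?_ h2
    rw [map_mul, map_pow, sq]
    calc w c * (w q * w q) ≤ 1 * (w p * w q) := mul_le_mul' hc (mul_le_mul' h.le le_rfl)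
      _ = _ := one_mul _

theorem even_log {x : Z0} (y : Z0) (h : x = y ^ 2) : Even (WithZero.log x) := by
  rw [h, WithZero.log_pow]
  exact ⟨WithZero.log y, two_nsmul _⟩

theorem even_of (he : (e : F) = 1 + 4 * c) (hc : AdmC w c) {x : Fˣ} (hx : x ∈ NF e ⊔ LS w) :
    Even (WithZero.log (w (x : F))) := by
  obtain ⟨n, ⟨s, t, hn⟩, l, hl, rfl⟩ := Subgroup.mem_sup.1 hx
  obtain ⟨y, hy⟩ := LS_even hl
  refine even_log (max (w (s - t)) (w (2 * t)) * w (y : F)) ?_
  rw [Units.val_mul, map_mul, hn, he, hc.norm_eq two_ne_zero, hy, mul_pow]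

theorem val_one_of (hc : AdmC w c) : w (1 + 4 * c) = 1 := by
  have h := hc.norm_eq two_ne_zero 0 1
  rw [zero_pow two_ne_zero, one_pow, mul_one, zero_sub, zero_sub, Valuation.map_neg,
    Valuation.map_neg, map_one, mul_one, max_eq_left (val_two_le w), one_pow] at h
  exact h

end loc

variable {F : Type} [Field F] [NumberField F]

theorem unif (v : HeightOneSpectrum (𝓞 F)) :
    ∃ π : Fˣ, WithZero.log (v.valuation F (π : F)) = -1 := by
  obtain ⟨π, hπ⟩ := exists_exp v
  have h0 : π ≠ 0 := by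
    rintro rfl
    rw [map_zero] at hπ
    exact WithZero.exp_ne_zero hπ.symm
  exact ⟨Units.mk0 π h0, by rw [Units.val_mk0, hπ, WithZero.log_exp]⟩

theorem notMem_of_admC {v : HeightOneSpectrum (𝓞 F)} {c : F} {e : Fˣ} (he : (e : F) = 1 + 4 * c)
    (hc : AdmC (v.valuation F) c) : e ∉ LS (v.valuation F) := fun h => by
  obtain ⟨π, hπ⟩ := unif v
  have := even_of he hc (x := π) (by rw [NF_sup_of_mem' e h]; trivial)
  rw [hπ] at this
  exact absurd this (by decide)

theorem odd_of {v : HeightOneSpectrum (𝓞 F)} {c : F} {e : Fˣ} (he : (e : F) = 1 + 4 * c)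
    (hc : AdmC (v.valuation F) c) {x : Fˣ} (hx : x ∉ LN e (.inl v)) :
    Odd (WithZero.log (v.valuation F (x : F))) := by
  obtain ⟨π, hπ⟩ := unif v
  have h1 : π ∉ LN e (.inl v) := fun h => by
    have := even_of he hc h
    rw [hπ] at this
    exact absurd this (by decide)
  have h2 := even_of he hc ((mul_iff e (.inl v) x π).2 (iff_of_false hx h1))
  rw [Units.val_mul, map_mul, WithZero.log_mul ((Valuation.ne_zero_iff _).2 x.ne_zero)
    ((Valuation.ne_zero_iff _).2 π.ne_zero), hπ] at h2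
  obtain ⟨k, hk⟩ := h2
  exact ⟨k, by omega⟩

section ext

variable {E : Type} [Field E] [NumberField E] [Algebra F E] {e : Fˣ} {θ : E} {σ : E ≃ₐ[F] E}

omit [NumberField F] [NumberField E] in
theorem gal (Q : QD e θ σ) (g : E ≃ₐ[F] E) : g = 1 ∨ g = σ := by
  have h : g θ ^ 2 = θ ^ 2 := by rw [← map_pow, Q.sq, AlgEquiv.commutes]
  rcases sq_eq_sq_iff_eq_or_eq_neg.1 h with h | h
  · left
    ext z
    obtain ⟨p, q, rfl⟩ := coords Q.h2 Q.sq Q.ns z
    simp [h]
  · right
    ext z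
    obtain ⟨p, q, rfl⟩ := coords Q.h2 Q.sq Q.ns z
    simp [h, Q.conj]

omit [NumberField F] in
theorem cyc (Q : QD e θ σ) : C.Cyc F 2 σ := by
  refine ⟨two_pos, orderOf_eq_prime (AlgEquiv.ext fun z => Q.conj_conj z) fun h => ?_, Q.h2⟩
  have h1 := Q.conj
  rw [h] at h1
  exact Q.theta_ne (by simpa [eq_neg_iff_add_eq_zero, ← two_mul] using h1)

omit [NumberField F] in
theorem pow_cases (Q : QD e θ σ) (k : ℕ) : (Even k ∧ σ ^ k = 1) ∨ (Odd k ∧ σ ^ k = σ) := by
  have h : σ ^ 2 = 1 := (cyc Q).ord ▸ pow_orderOf_eq_one σ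
  rcases Nat.even_or_odd k with ⟨j, rfl⟩ | ⟨j, rfl⟩
  · exact Or.inl ⟨⟨j, rfl⟩, by rw [← two_mul, pow_mul, h, one_pow]⟩
  · exact Or.inr ⟨⟨j, rfl⟩, by rw [pow_succ, pow_mul, h, one_pow, one_mul]⟩

theorem exists_frob (Q : QD e θ σ) (v : HeightOneSpectrum (𝓞 F)) : ∃ k : ℕ,
    ∀ P : Ideal (𝓞 E), P.IsPrime → C.dn F P = v.asIdeal →
      C.Frob (σ ^ k) (Ideal.absNorm v.asIdeal) P := by
  have : Algebra.IsQuadraticExtension F E := ⟨Q.h2⟩
  obtain ⟨W, hW⟩ := exists_above (E := E) v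
  have : Finite (𝓞 E ⧸ W.asIdeal) := finite_residue W
  obtain ⟨g, hg⟩ := IsArithFrobAt.exists_of_isInvariant (𝓞 F) (E ≃ₐ[F] E) W.asIdeal
  have key : ∀ P : Ideal (𝓞 E), P.IsPrime → C.dn F P = v.asIdeal →
      C.Frob g (Ideal.absNorm v.asIdeal) P := by
    intro P hP hPv
    obtain ⟨τ, rfl⟩ := Algebra.IsInvariant.exists_smul_of_under_eq (𝓞 F) (𝓞 E) (E ≃ₐ[F] E)
      W.asIdeal P (hW.trans hPv.symm)
    have h1 := hg.conj τ
    have h2 : τ * g * τ⁻¹ = g := by
      rcases gal Q τ with rfl | h <;> rcases gal Q g with rfl | h' <;> simp [*]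
    rw [h2] at h1
    rw [← hPv]
    exact fun x => h1 x
  rcases gal Q g with rfl | rfl
  · exact ⟨0, key⟩
  · exact ⟨1, by simpa using key⟩

theorem exists_om (Q : QD e θ σ) {c : 𝓞 F} (he : (e : F) = 1 + 4 * c) : ∃ ω : 𝓞 E,
    (ω : E) = (1 + θ) / 2 ∧ ω ^ 2 - ω = algebraMap (𝓞 F) (𝓞 E) c := by
  have h1 : ((1 + θ) / 2) ^ 2 - (1 + θ) / 2 = algebraMap F E c := by
    have := Q.sq
    rw [he, map_add, map_mul, map_one, map_ofNat] at this
    linear_combination (1 / 4 : E) * this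
  have h2 : IsIntegral (𝓞 F) ((1 + θ) / 2) := by
    refine ⟨Polynomial.X ^ 2 - Polynomial.X - Polynomial.C c, by monicity!, ?_⟩
    simp only [Polynomial.eval₂_sub, Polynomial.eval₂_X_pow, Polynomial.eval₂_X,
      Polynomial.eval₂_C, h1]
    exact sub_self _
  exact ⟨⟨_, isIntegral_trans (R := ℤ) _ h2⟩, rfl, Subtype.ext h1⟩

theorem unr (Q : QD e θ σ) {c : 𝓞 F} (he : (e : F) = 1 + 4 * c) {P : Ideal (𝓞 E)}
    (h : 1 + 4 * c ∉ C.dn F P) : C.Unr σ P := by
  intro i hi
  rcases pow_cases Q i with h1 | h1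
  · exact h1.2
  obtain ⟨ω, h2, -⟩ := exists_om Q he
  have h3 := hi ω
  rw [h1.2] at h3
  refine absurd ?_ h
  have h4 : algebraMap (𝓞 F) (𝓞 E) (1 + 4 * c) = (σ • ω - ω) ^ 2 := by
    apply Subtype.ext
    show algebraMap F E ((1 + 4 * c : 𝓞 F) : F) = (σ (ω : E) - ω) ^ 2
    rw [h2, map_div₀, map_add, map_one, Q.conj, map_ofNat]
    have := Q.sq
    rw [he] at this
    have e1 : ((1 + 4 * c : 𝓞 F) : F) = 1 + 4 * c := by push_cast; rfl
    rw [e1]
    linear_combination -this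
  rw [Ideal.mem_comap, h4]
  exact P.pow_mem_of_mem h3 2 two_pos

theorem frob_even (Q : QD e θ σ) {v : HeightOneSpectrum (𝓞 F)} (h : e ∈ LS (v.valuation F))
    {k : ℕ} (hk : ∀ P : Ideal (𝓞 E), P.IsPrime → C.dn F P = v.asIdeal →
      C.Frob (σ ^ k) (Ideal.absNorm v.asIdeal) P) : Even k := by
  rcases pow_cases Q k with h1 | h1
  · exact h1.1
  obtain ⟨W, hW⟩ := exists_above (E := E) v
  have h2 := hk _ W.isPrime hW
  rw [h1.2] at h2
  exact absurd rfl ((split_iff Q.h2 Q.ns Q.sq Q.conj hW (H477.CF.val_frob W σ h2)).1 h)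

theorem frob_odd (Q : QD e θ σ) {c : 𝓞 F} (he : (e : F) = 1 + 4 * c)
    {v : HeightOneSpectrum (𝓞 F)} (hc : AdmC (v.valuation F) c)
    {k : ℕ} (hk : ∀ P : Ideal (𝓞 E), P.IsPrime → C.dn F P = v.asIdeal →
      C.Frob (σ ^ k) (Ideal.absNorm v.asIdeal) P) : Odd k := by
  classical
  rcases pow_cases Q k with h1 | h1
  swap
  · exact h1.1
  exfalso
  obtain ⟨W, hW⟩ := exists_above (E := E) v
  have h2 := hk _ W.isPrime hW
  rw [h1.2] at h2
  obtain ⟨ω, -, hω⟩ := exists_om Q he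
  have := W.isMaximal
  have := finite_residue W
  have := finite_residue v
  let _ := Ideal.Quotient.field W.asIdeal
  let _ := Fintype.ofFinite (𝓞 E ⧸ W.asIdeal)
  let _ := Fintype.ofFinite (𝓞 F ⧸ v.asIdeal)
  have hq : 1 < Ideal.absNorm v.asIdeal := by
    exact_mod_cast NumberField.HeightOneSpectrum.one_lt_absNorm v
  have hcard : Fintype.card (𝓞 E ⧸ W.asIdeal) ≤ Fintype.card (𝓞 F ⧸ v.asIdeal) := by
    have h3 := Polynomial.card_le_degree_of_subset_roots (Z := Finset.univ)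
      (p := (Polynomial.X ^ Ideal.absNorm v.asIdeal - Polynomial.X :
        Polynomial (𝓞 E ⧸ W.asIdeal))) fun x _ => by
      rw [Polynomial.mem_roots (FiniteField.X_pow_card_sub_X_ne_zero _ hq)]
      obtain ⟨x, rfl⟩ := Ideal.Quotient.mk_surjective x
      have h4 := Ideal.Quotient.eq.2 (h2 x)
      rw [one_smul, map_pow] at h4
      simp [← h4]
    rw [FiniteField.X_pow_card_sub_X_natDegree_eq _ hq] at h3
    rw [← Nat.card_eq_fintype_card (α := 𝓞 F ⧸ v.asIdeal)]
    exact h3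
  have hb := (Fintype.bijective_iff_injective_and_card
    (Ideal.quotientMap W.asIdeal (algebraMap (𝓞 F) (𝓞 E)) hW.ge)).2
      ⟨Ideal.quotientMap_injective' hW.le, le_antisymm (Fintype.card_le_of_injective _
        (Ideal.quotientMap_injective' (H := hW.ge) hW.le)) hcard⟩
  obtain ⟨r, hr⟩ := hb.2 (Ideal.Quotient.mk _ ω)
  obtain ⟨r, rfl⟩ := Ideal.Quotient.mk_surjective r
  rw [Ideal.quotientMap_mk, Ideal.Quotient.eq] at hr
  have h5 : r ^ 2 - r - c ∈ v.asIdeal := by
    rw [← hW, Ideal.mem_comap, map_sub, map_sub, map_pow, ← hω]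
    have e1 : algebraMap (𝓞 F) (𝓞 E) r ^ 2 - algebraMap (𝓞 F) (𝓞 E) r - (ω ^ 2 - ω) =
        (algebraMap (𝓞 F) (𝓞 E) r - ω) * (algebraMap (𝓞 F) (𝓞 E) r + ω - 1) := by ring
    rw [e1]
    exact W.asIdeal.mul_mem_right _ hr
  have h6 := (v.valuation_lt_one_iff_mem (K := F) _).2 h5
  have h7 := hc.2 (-(r : F)) 1
  have h8 : max (v.valuation F (-(r : F))) (v.valuation F 1) ^ 2 = 1 := by
    rw [map_one, Valuation.map_neg, max_eq_right (v.valuation_le_one r), one_pow]
  have e2 : algebraMap (𝓞 F) F (r ^ 2 - r - c) = (-(r : F)) ^ 2 + -(r : F) * 1 - c * 1 ^ 2 := by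
    simp only [map_sub, map_pow]
    ring
  exact h6.ne ((congrArg (v.valuation F) e2).trans (h7.trans h8))

omit [NumberField F] in
open Classical in
theorem conj_real (Q : QD e θ σ) (φ : F →+* ℝ) (ρ : E →+* ℂ)
    (h : ∀ x, ρ (algebraMap F E x) = (φ x : ℂ)) (x : E) :
    starRingEnd ℂ (ρ x) = ρ ((σ ^ (if φ e < 0 then 1 else 0)) x) := by
  obtain ⟨p, q, rfl⟩ := coords Q.h2 Q.sq Q.ns x
  have h1 : ρ θ ^ 2 = (φ e : ℂ) := by rw [← map_pow, Q.sq, h]
  have h2 := congrArg Complex.re h1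
  have h3 := congrArg Complex.im h1
  simp only [sq, Complex.mul_re, Complex.mul_im, Complex.ofReal_re, Complex.ofReal_im] at h2 h3
  have h4 : (ρ θ).re = 0 ∨ (ρ θ).im = 0 := mul_eq_zero.1 (by linarith)
  split_ifs with hs
  · have h5 : (ρ θ).re = 0 := h4.resolve_right fun h0 => by
      rw [h0] at h2
      nlinarith [mul_self_nonneg (ρ θ).re]
    have h6 : starRingEnd ℂ (ρ θ) = -ρ θ := Complex.ext (by simp [h5]) (by simp)
    simp [h, h6, Q.conj]
  · have h5 : (ρ θ).im = 0 := by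
      rcases h4 with h0 | h0
      · rw [h0] at h2
        exact mul_self_eq_zero.1 (le_antisymm (by linarith [not_lt.1 hs]) (mul_self_nonneg _))
      · exact h0
    have h6 : starRingEnd ℂ (ρ θ) = ρ θ := Complex.conj_eq_iff_im.2 h5
    simp [h, h6]

end ext

theorem finsum_par {ι : Type} {g : ι → ℤ} (hf : (Function.support g).Finite) (i : ι)
    (h : ∀ j, j ≠ i → Even (g j)) : Even (∑ᶠ j, g j - g i) := by
  classical
  rw [finsum_eq_sum_of_support_subset g (s := insert i hf.toFinset) (by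
    intro j hj
    simp only [Finset.coe_insert, Set.Finite.coe_toFinset]
    exact Or.inr hj), ← Finset.add_sum_erase _ _ (Finset.mem_insert_self i _), add_sub_cancel_left]
  exact Finset.even_sum _ fun j hj => h j (Finset.ne_of_mem_erase hj)

theorem core {c : 𝓞 F} {e b : Fˣ} (he : (e : F) = 1 + 4 * c) {p0 : Pl F} (hR : Ram e b = {p0})
    (hv : ∀ v w : HeightOneSpectrum (𝓞 F), p0 = .inl v → ∀ p : ℕ, p.Prime →
      (p : 𝓞 F) ∈ v.asIdeal → (p : 𝓞 F) ∈ w.asIdeal → 1 + 4 * c ∉ w.asIdeal)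
    (hv' : ∀ v : HeightOneSpectrum (𝓞 F), p0 = .inl v → 1 + 4 * c ∉ v.asIdeal) : False := by
  classical
  have hp0 : e ∉ LSp p0 := fun h => by
    have : p0 ∈ Ram e b := hR ▸ rfl
    exact this (by rw [LN_top h]; trivial)
  have hns : ¬ IsSquare (e : F) := fun h => hp0 (Sq_le_LSp p0 (mem_Sq_iff.2 h))
  obtain ⟨E, _, _, _, h2, θ, hθ⟩ := exists_quad e hns
  obtain ⟨σ, Q⟩ := exists_QD h2 hθ hns
  obtain ⟨m, hm0, hm1, -, hrec⟩ := C.REC F E 2 σ (cyc Q)
  have he' : ((1 + 4 * c : 𝓞 F) : F) = e := by rw [he]; push_cast; rfl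
  have he0 : (1 + 4 * c : 𝓞 F) ≠ 0 := fun h => e.ne_zero (by rw [← he', h]; rfl)
  set M : 𝓞 F := m * (1 + 4 * c) with hM
  have hM0 : M ≠ 0 := mul_ne_zero (Nat.cast_ne_zero.2 hm0) he0
  have hM0' : (M : F) ≠ 0 := by exact_mod_cast hM0
  have hMp : ∀ v : HeightOneSpectrum (𝓞 F), M ∈ v.asIdeal → p0 ≠ .inl v := by
    intro v hMv hpv
    rcases v.isPrime.mem_or_mem hMv with h | h
    · have h1 : ((m.primeFactorsList.map fun p : ℕ => (p : 𝓞 F)).prod) ∈ v.asIdeal := by
        rwa [← Nat.cast_list_prod, Nat.prod_primeFactorsList hm0]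
      have := v.isPrime
      obtain ⟨x, hx, hxv⟩ := (Ideal.IsPrime.multiset_prod_mem_iff_exists_mem v.isPrime
        (m.primeFactorsList.map fun p : ℕ => (p : 𝓞 F))).1 (by simpa using h1)
      obtain ⟨p, hp, rfl⟩ := List.mem_map.1 (Multiset.mem_coe.1 hx)
      have hpp := Nat.prime_of_mem_primeFactorsList hp
      obtain ⟨P, hP, hpP, hU⟩ := hm1 p hpp (Nat.dvd_of_mem_primeFactorsList hp)
      have hP0 : P ≠ ⊥ := fun h0 => hpp.ne_zero (by simpa [h0] using hpP)
      obtain ⟨w, hw⟩ := exists_below (F := F) (⟨P, hP, hP0⟩ : HeightOneSpectrum (𝓞 E))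
      refine hU (unr Q he ?_)
      rw [show C.dn F P = w.asIdeal from hw]
      refine hv v w hpv p hpp hxv ?_
      rw [← hw, Ideal.mem_comap, map_natCast]
      exact hpP
    · exact hv' v hpv h
  have hfin : {v : HeightOneSpectrum (𝓞 F) | M ∈ v.asIdeal}.Finite :=
    (finite_valuation_ne_one (M : F) hM0').subset fun v hv =>
      ((v.valuation_lt_one_iff_mem M).2 hv).ne
  have hmem : ∀ p, p ≠ p0 → b ∈ LN e p := fun p hp => by
    by_contra h
    exact hp (Set.mem_singleton_iff.1 (hR ▸ h))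
  obtain ⟨n, hn, hnear⟩ := near (a := e) (b := b) hfin.toFinset
    (fun v hv => hmem _ (hMp v (hfin.mem_toFinset.1 hv)).symm)
    (fun v => v.valuation F (M : F)) fun v _ => (Valuation.ne_zero_iff _).2 hM0'
  have hnear' : ∀ v : HeightOneSpectrum (𝓞 F), M ∈ v.asIdeal →
      v.valuation F ((b * n : Fˣ) - 1 : F) < v.valuation F (M : F) := fun v hv =>
    hnear v (hfin.mem_toFinset.2 hv)
  obtain ⟨d, u, hd0, hd, hu⟩ := denom ((b * n : Fˣ) : F) (Ideal.span {M}) (fun v hv => by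
    have := (v.valuation F).map_one_add_of_lt ((hnear' v
      ((Ideal.span_singleton_le_iff_mem _).1 hv)).trans_le (v.valuation_le_one M))
    rw [add_sub_cancel] at this
    exact this.le) (by simpa using hM0)
  rw [Ideal.mem_span_singleton] at hd
  have hud : M ∣ u - d := dvd_of_val hM0 fun v hv => by
    have e1 : ((u - d : 𝓞 F) : F) = d * ((b * n : Fˣ) - 1 : F) := by
      rw [mul_sub, hu]; simp
    rw [e1, map_mul]
    exact (mul_le_of_le_one_left zero_le (v.valuation_le_one d)).trans (hnear' v hv).le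
  have hα1 : M ∣ d * u - 1 := by
    have e1 : d * u - 1 = d * (u - d) + (d + 1) * (d - 1) := by ring
    rw [e1]
    exact (hud.mul_left _).add (hd.mul_left _)
  have hd0' : (d : F) ≠ 0 := by exact_mod_cast hd0
  set A : Fˣ := b * (n * Units.mk0 (d : F) hd0' ^ 2) with hA
  have hAv : ((d * u : 𝓞 F) : F) = A := by
    rw [hA, ← mul_assoc, Units.val_mul, Units.val_pow_eq_pow_val, Units.val_mk0]
    have e1 : ((d * u : 𝓞 F) : F) = d * u := by simp
    rw [e1, ← hu]
    ring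
  have hα0 : d * u ≠ 0 := fun h => A.ne_zero (by rw [← hAv, h]; rfl)
  have hRA : Ram e A = {p0} := by rw [hA, Ram_mul (mul_mem hn (Sch.sq_mem_NF e _)), hR]
  have hin : ∀ p, p ≠ p0 → A ∈ LN e p := fun p hp => by
    by_contra h
    exact hp (Set.mem_singleton_iff.1 (hRA ▸ h))
  have hout : A ∉ LN e p0 := by
    have : p0 ∈ Ram e A := hRA ▸ rfl
    exact this
  choose f hf using exists_frob Q
  have key := hrec f (fun v P _ hP hPv => hf v P hP hPv) _ (conj_real Q) (d * u) hα0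
    ((Dvd.intro _ rfl).trans hα1)
  rw [hAv, finsum_mem_def] at key
  have hval : ∀ v : HeightOneSpectrum (𝓞 F), 1 + 4 * c ∉ v.asIdeal → v.valuation F (e : F) = 1 :=
    fun v h => by
      rw [← he']
      exact le_antisymm (v.valuation_le_one _)
        (not_lt.1 fun h2 => h ((v.valuation_lt_one_iff_mem _).1 h2))
  have k1 : ∀ v : HeightOneSpectrum (𝓞 F), A ∈ LN e (.inl v) →
      Even (C.ordv v (A : F) * f v) := by
    intro v h
    by_cases hMv : M ∈ v.asIdeal
    · have h1 := (v.valuation F).map_one_add_of_lt ((v.valuation_lt_one_iff_mem (K := F) _).2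
        (v.asIdeal.mem_of_dvd hα1 hMv))
      have h3 : v.valuation F (A : F) = 1 := by
        rw [← hAv, ← h1]
        congr 1
        simp
      simp [C.ordv, h3]
    have h1 : 1 + 4 * c ∉ v.asIdeal := fun h1 => hMv (v.asIdeal.mul_mem_left _ h1)
    by_cases h3 : e ∈ LS (v.valuation F)
    · exact (Int.even_coe_nat _ |>.2 (frob_even Q h3 (hf v))).mul_left _
    · exact (even_of he (admC_of he (v.valuation_le_one c) (hval v h1) h3) h).neg.mul_right _
  have k2 : ∀ φ : F →+* ℝ, A ∈ LN e (.inr φ) → Even (Set.indicator {φ : F →+* ℝ | φ (A : F) < 0}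
      (fun φ => ((if φ e < 0 then 1 else 0 : ℕ) : ℤ)) φ) := by
    intro φ h
    have h' : A ∈ NF e ⊔ LSR φ := h
    rcases real_iff.1 h' with h1 | h1
    · simp [Set.indicator, h1.not_gt]
    · simp [Set.indicator, h1.not_gt]
  have key' := even_iff_two_dvd.2 key
  rcases p0 with v | φ
  · have ha := admC_of he (v.valuation_le_one c) (hval v (hv' v rfl)) hp0
    have h1 := finsum_par (g := fun v : HeightOneSpectrum (𝓞 F) => C.ordv v (A : F) * f v)
      ((finite_ne_one A).subset fun w hw h0 => hw (by simp [C.ordv, h0])) v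
      fun w hw => k1 w (hin _ fun h => hw (Sum.inl_injective h))
    have h3 := finsum_induction Even Even.zero (fun _ _ => Even.add)
      fun φ => k2 φ (hin _ Sum.inr_ne_inl)
    have h4 : Odd (C.ordv v (A : F) * f v) :=
      (odd_of he ha hout).neg.mul ((Int.odd_coe_nat _).2 (frob_odd Q he ha (hf v)))
    have h5 := (key'.sub h3).sub h1
    rw [add_sub_cancel_right, sub_sub_cancel] at h5
    exact Int.not_odd_iff_even.2 h5 h4
  · have h1 := finsum_par (g := Set.indicator {φ : F →+* ℝ | φ (A : F) < 0}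
      fun φ => ((if φ e < 0 then 1 else 0 : ℕ) : ℤ)) (Set.toFinite _) φ
      fun w hw => k2 w (hin _ fun h => hw (Sum.inr_injective h))
    have h3 := finsum_induction Even Even.zero (fun _ _ => Even.add)
      fun v => k1 v (hin _ Sum.inl_ne_inr)
    have h5 := (key'.sub h3).sub h1
    rw [add_sub_cancel_left, sub_sub_cancel] at h5
    have h6 : ¬ (0 < φ e ∨ 0 < φ A) := fun h => hout (real_iff.2 h)
    have h7 : φ e < 0 := notMem_LSR.1 fun h => h6 (Or.inl h)
    have h8 : φ A < 0 := notMem_LSR.1 fun h => h6 (Or.inr h)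
    simp [Set.indicator, h7, h8] at h5

/-- no quaternion algebra is ramified at exactly one place -/
theorem nosing (a b : Fˣ) (p0 : Pl F) : Ram a b ≠ {p0} := by
  classical
  intro hR
  have fin : ∀ (c : 𝓞 F) (e : Fˣ), (e : F) = 1 + 4 * c → e ∉ LSp p0 →
      (∀ v w : HeightOneSpectrum (𝓞 F), p0 = .inl v → ∀ p : ℕ, p.Prime →
        (p : 𝓞 F) ∈ v.asIdeal → (p : 𝓞 F) ∈ w.asIdeal → 1 + 4 * c ∉ w.asIdeal) →
      (∀ v : HeightOneSpectrum (𝓞 F), p0 = .inl v → 1 + 4 * c ∉ v.asIdeal) → False := by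
    intro c e he h0 h1 h2
    obtain ⟨s, x, y, h⟩ := emb (a := a) (b := b) (e := e) fun p hp => by
      by_contra h
      exact h0 ((Set.mem_singleton_iff.1 (hR ▸ h : p ∈ ({p0} : Set (Pl F)))) ▸ hp)
    obtain ⟨b', hb'⟩ := chg h
    exact core he (hb'.trans hR) h1 h2
  rcases p0 with v | φ
  swap
  · refine fin (-1) (Units.mk0 (-3) (by norm_num)) (by simp; norm_num) (notMem_LSR.2 ?_)
      (fun _ _ h => by cases h) fun _ h => by cases h
    rw [Units.val_mk0, map_neg, map_ofNat]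
    norm_num
  obtain ⟨c0, hc0⟩ := exists_admC v
  obtain ⟨c1, hc1⟩ := exists_residue v hc0.1
  set N : ℕ := Ideal.absNorm v.asIdeal with hN
  have hN0 : N ≠ 0 := by
    rw [hN, Ne, Ideal.absNorm_eq_zero_iff]
    exact v.ne_bot
  have hNv : (N : 𝓞 F) ∈ v.asIdeal := Ideal.absNorm_mem _
  have hfin : {w : HeightOneSpectrum (𝓞 F) | (N : 𝓞 F) ∈ w.asIdeal}.Finite :=
    (finite_valuation_ne_one ((N : 𝓞 F) : F) (by exact_mod_cast hN0)).subset fun w hw =>
      ((w.valuation_lt_one_iff_mem _).2 hw).ne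
  obtain ⟨c, hc⟩ := IsDedekindDomain.exists_forall_sub_mem_ideal (s := hfin.toFinset)
    (fun w => w.asIdeal) (fun _ => 1) (fun w _ => w.prime)
    (fun _ _ _ _ h h' => h (HeightOneSpectrum.ext h')) fun w => if w.1 = v then c1 else 0
  have hcv : AdmC (v.valuation F) c := by
    refine (hc0.congr hc1).congr ?_
    have := hc v (hfin.mem_toFinset.2 hNv)
    rw [if_pos rfl, pow_one] at this
    simpa using (v.valuation_lt_one_iff_mem (K := F) _).2 this
  have h1 := val_one_of hcv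
  have h0 : (1 + 4 * c : F) ≠ 0 := fun h => by simp [h] at h1
  have h2 : 1 + 4 * c ∉ v.asIdeal := fun h => by
    have e1 : ((1 + 4 * c : 𝓞 F) : F) = 1 + 4 * c := by push_cast; rfl
    exact ((v.valuation_lt_one_iff_mem (K := F) _).2 h).ne ((congrArg _ e1).trans h1)
  refine fin c (Units.mk0 _ h0) rfl (notMem_of_admC rfl hcv) ?_ ?_
  · intro v' w hv p hp hpv hpw
    obtain rfl := Sum.inl_injective hv
    by_cases hw : w = v
    · rwa [hw]
    have hpN : p ∣ N := by
      by_contra h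
      obtain ⟨x, y, hxy⟩ := Nat.isCoprime_iff_coprime.2 ((Nat.Prime.coprime_iff_not_dvd hp).2 h)
      refine v.isPrime.ne_top ((Ideal.eq_top_iff_one _).2 ?_)
      have e1 : (1 : 𝓞 F) = x * p + y * N := by exact_mod_cast congrArg (Int.cast (R := 𝓞 F)) hxy.symm
      rw [e1]
      exact add_mem (Ideal.mul_mem_left _ _ hpv) (Ideal.mul_mem_left _ _ hNv)
    have h3 := hc w (hfin.mem_toFinset.2 (w.asIdeal.mem_of_dvd (Nat.cast_dvd_cast hpN) hpw))
    rw [if_neg hw, pow_one, sub_zero] at h3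
    intro h
    exact w.isPrime.ne_top ((Ideal.eq_top_iff_one _).2
      ((Ideal.add_mem_iff_left _ (Ideal.mul_mem_left _ _ h3)).1 h))
  · intro v' hv
    obtain rfl := Sum.inl_injective hv
    exact h2

theorem count {a : Fˣ} {S : Set (HeightOneSpectrum (𝓞 F))} (hS : Good a S) (T : Finset (Pl F))
    (hT : ∀ p ∈ T, p ∈ SP S ∧ a ∉ LSp p) : (∃ u ∈ S.unit F, Ram a u = T) ↔ Even T.card := by
  classical
  let N := {p | p ∈ SP S ∧ a ∉ LSp p}
  have hN : N.Finite := (SP_finite hS.fin).subset fun _ h => h.1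
  have : Finite N := hN
  let ψ : S.unit F →* (N → ℤˣ) := MonoidHom.mk' (fun u p => hs p.1 a u)
    fun u u' => funext fun p => hs_mul _ _ _ _
  have hout : ∀ u ∈ S.unit F, ∀ p, p ∉ N → u ∈ LN a p := by
    intro u hu p hp
    by_cases h : a ∈ LSp p
    · rw [LN_top h]; trivial
    rcases p with v | φ
    · have hv : v ∉ S := fun hv => hp ⟨inl_mem_SP.2 hv, h⟩
      exact unit_norm v (dyadic_of_Pr hS.pr hv) a u (hS.unit v hv) (hu v hv)
    · exact absurd ⟨inr_mem_SP, h⟩ hp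
  have hker : ψ.ker = (NF a).subgroupOf (S.unit F) := by
    ext u
    rw [MonoidHom.mem_ker, Subgroup.mem_subgroupOf]
    refine ⟨fun h => hasse_norm a u fun p => ?_, fun h => funext fun p => hs_NF h⟩
    by_cases hp : p ∈ N
    · exact hs_one.1 (congrFun h ⟨p, hp⟩)
    · exact hout u u.2 p hp
  have hidx : ψ.range.index = 2 := by
    have h1 := ψ.range.index_mul_card
    have h2 := hS.idx
    rw [tc_eq a hS.fin, Subgroup.relIndex, ← hker, Subgroup.index_ker] at h2
    rw [Nat.card_fun, Nat.card_eq_fintype_card (α := ℤˣ), Fintype.card_units_int,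
      Nat.card_coe_set_eq, ← h2, mul_comm] at h1
    exact Nat.eq_of_mul_eq_mul_left Nat.card_pos h1
  let χ : Finset (Pl F) → N → ℤˣ := fun T p => if p.1 ∈ T then -1 else 1
  have hχ : ∀ T : Finset (Pl F), (∀ p ∈ T, p ∈ N) →
      ((∃ u ∈ S.unit F, Ram a u = T) ↔ χ T ∈ ψ.range) := by
    intro T hT
    constructor
    · rintro ⟨u, hu, h⟩
      refine ⟨⟨u, hu⟩, funext fun p => ?_⟩
      have h1 : u ∉ LN a p.1 ↔ p.1 ∈ T := Set.ext_iff.1 h p.1
      by_cases hp : p.1 ∈ T
      · exact (hs_neg.2 (h1.2 hp)).trans (if_pos hp).symm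
      · exact (hs_one.2 (not_not.1 (mt h1.1 hp))).trans (if_neg hp).symm
    · rintro ⟨u, hu⟩
      refine ⟨u, u.2, Set.ext fun p => ?_⟩
      by_cases hp : p ∈ N
      · have h1 : hs p a u = if p ∈ T then -1 else 1 := congrFun hu ⟨p, hp⟩
        by_cases hp' : p ∈ T
        · exact iff_of_true (hs_neg.1 (h1.trans (if_pos hp'))) hp'
        · exact iff_of_false (not_not.2 (hs_one.1 (h1.trans (if_neg hp')))) hp'
      · exact iff_of_false (not_not.2 (hout u u.2 p hp)) fun h => hp (hT p h)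
  rw [hχ T hT]
  induction T using Finset.induction_on with
  | empty => exact iff_of_true ⟨1, funext fun p => by simp [χ]⟩ (by simp)
  | insert p T hp ih =>
    have h1 : χ (insert p T) = χ {p} * χ T := funext fun q => by
      by_cases hq : q.1 = p <;> simp [χ, hq, hp]
    have h2 : χ {p} ∉ ψ.range := fun h => by
      obtain ⟨u, -, hu⟩ := (hχ {p} fun q hq =>
        hT q (Finset.mem_singleton.1 hq ▸ Finset.mem_insert_self _ _)).2 h
      exact nosing a u p (hu.trans (Finset.coe_singleton p))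
    have h3 := ih fun q hq => hT q (Finset.mem_insert_of_mem hq)
    rw [h1, Subgroup.mul_mem_iff_of_index_two hidx, Finset.card_insert_of_notMem hp,
      Nat.even_add_one]
    tauto

/-- **existence of quaternion algebras** with given ramification -/
theorem exists_ram {a : Fˣ} (ha : ¬ IsSquare (a : F)) (T : Finset (Pl F))
    (hT : ∀ p ∈ T, a ∉ LSp p) (h : Even T.card) : ∃ b, Ram a b = T := by
  obtain ⟨S, hS, h1⟩ := exists_good a ha
  have hf : (Sum.inl ⁻¹' (T : Set (Pl F))).Finite := T.finite_toSet.preimage Sum.inl_injective.injOn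
  obtain ⟨b, -, hb⟩ := (count (h1 _ Set.subset_union_left (hS.union hf)) T fun p hp =>
    ⟨by
      rcases p with v | φ
      · exact inl_mem_SP.2 (Or.inr hp)
      · exact inr_mem_SP, hT p hp⟩).2 h
  exact ⟨b, hb⟩

/-- **Hilbert's reciprocity law** -/
theorem hilb (a b : Fˣ) : ∃ T : Finset (Pl F), Ram a b = T ∧ Even T.card := by
  by_cases ha : IsSquare (a : F)
  · refine ⟨∅, ?_, by simp⟩
    rw [Finset.coe_empty, Set.eq_empty_iff_forall_notMem]
    intro p hp
    exact hp (by rw [LN_top (Sq_le_LSp p (mem_Sq_iff.2 ha))]; trivial)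
  obtain ⟨S, hS, h1⟩ := exists_good a ha
  have hG := h1 _ Set.subset_union_left (hS.union (finite_ne_one b))
  have hb : b ∈ (S ∪ {v | v.valuation F (b : F) ≠ 1}).unit F := fun v hv =>
    not_not.1 fun h => hv (Or.inr h)
  have hsub : ∀ p ∈ Ram a b, p ∈ SP (S ∪ {v | v.valuation F (b : F) ≠ 1}) ∧ a ∉ LSp p := by
    intro p hp
    refine ⟨?_, fun h => hp (by rw [LN_top h]; trivial)⟩
    rcases p with v | φ
    · refine inl_mem_SP.2 (not_not.1 fun hv => hp ?_)
      exact unit_norm v (dyadic_of_Pr hG.pr hv) a b (hG.unit v hv) (hb v hv)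
    · exact inr_mem_SP
  have hf : (Ram a b).Finite := (SP_finite hG.fin).subset fun p hp => (hsub p hp).1
  exact ⟨hf.toFinset, hf.coe_toFinset.symm, (count hG _ fun p hp =>
    hsub p (hf.mem_toFinset.1 hp)).1 ⟨b, hb, hf.coe_toFinset.symm⟩⟩

end Vale.Agent.P022K.Hilb
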