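import Vale.Agent.P022K.F0.St
import Vale.Agent.P022K.F0.HilbB
import Vale.Agent.P011.Even.Completion

/-!
# P022K, block F0: row DEX
-/

set_option autoImplicit false

open NumberField IsDedekindDomain

noncomputable section

namespace Vale.Agent.P022K.Sh

open Vale.Agent.P022K.Hilb

variable {F : Type} [Field F] [NumberField F]

/-- the real splitting of `(a, b)` at a place where `b` is positive -/
def spl (a b : 𝓞 F) (t : F →+* ℝ) (β : ℝ) (h : β ^ 2 = t b) :
    Qa a b F →+* Matrix (Fin 2) (Fin 2) ℝ where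
  toFun x := !![t x.re + t x.imJ * β, t a * (t x.imI - β * t x.imK);
    t x.imI + β * t x.imK, t x.re - t x.imJ * β]
  map_one' := by
    ext i j
    fin_cases i <;> fin_cases j <;> simp
  map_zero' := by
    ext i j
    fin_cases i <;> fin_cases j <;> simp
  map_add' x y := by
    ext i j
    fin_cases i <;> fin_cases j <;> simp <;> ring
  map_mul' x y := by
    ext i j
    fin_cases i <;> fin_cases j <;> simp [Matrix.mul_apply, Fin.sum_univ_two, ← h] <;> ring

theorem loc_iff (w : Pl F) (a b : Fˣ) : b ∈ LN a (.inl w) ↔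
    ∃ x y : Fw w, x ^ 2 - algebraMap F _ (a : F) * y ^ 2 = algebraMap F _ (b : F) :=
  (P011.Even.mem_LN_iff w a b).symm.trans
    ⟨fun ⟨x, y, h⟩ => ⟨x, y, h.symm⟩, fun ⟨x, y, h⟩ => ⟨x, y, h.symm⟩⟩

theorem alg_int (w : Pl F) (a : 𝓞 F) :
    algebraMap (𝓞 F) (Fw w) a = algebraMap F (Fw w) (a : F) :=
  IsScalarTower.algebraMap_apply (𝓞 F) F (Fw w) a

theorem dex1 (a : 𝓞 F) (t1 : F →+* ℝ) (R W : Finset (Pl F))
    (hr : ∀ (φ : F →+* ℂ) (x : F), (φ x).im = 0) (h2 : ∃ t : F →+* ℝ, t ≠ t1)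
    (ha : ∀ t : F →+* ℝ, t a < 0) (hR : ∀ w ∈ R, ¬ IsSquare (algebraMap (𝓞 F) (Fw w) a))
    (hodd : Odd (R.card + Module.finrank ℚ F)) (hd : Disjoint R W) :
    ∃ X : QD F, X.a = a ∧ X.t1 = t1 ∧ (∀ w ∈ W, X.b ∉ w.asIdeal) ∧
      ∀ w, w ∉ R ↔ ∃ x y : Fw w, x ^ 2 - algebraMap _ _ a * y ^ 2 = algebraMap _ _ X.b := by
  classical
  have a0 : (a : F) ≠ 0 := fun h => by simpa [h] using ha t1
  set A : Fˣ := Units.mk0 _ a0 with hA
  have hns : ¬ IsSquare (A : F) := by
    rintro ⟨r, hr⟩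
    have h1 := ha t1
    rw [show (a : F) = r * r from hr, map_mul] at h1
    exact (mul_self_nonneg _).not_gt h1
  have htr : IsTotallyReal F := ⟨fun v => InfinitePlace.isReal_iff.mpr
    (ComplexEmbedding.isReal_iff.mpr (RingHom.ext fun x => Complex.conj_eq_iff_im.mpr (hr _ x)))⟩
  let _ := Fintype.ofFinite (F →+* ℝ)
  have hc : Fintype.card (F →+* ℝ) = Module.finrank ℚ F := by
    rw [← Nat.card_eq_fintype_card, P011.Arith.card_real, IsTotallyReal.finrank]
  obtain ⟨b, hb⟩ := exists_ram hns (R.disjSum (Finset.univ.erase t1)) (by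
    rintro (v | φ) hp
    · intro h
      refine hR v (Finset.inl_mem_disjSum.1 hp) ?_
      rw [alg_int]
      exact (P011.Even.isSquare_iff v A).2 h
    · exact P011.Arith.notMem_LSR.2 (ha φ)) (by
    rw [Finset.card_disjSum, Finset.card_erase_of_mem (Finset.mem_univ _), Finset.card_univ, hc]
    have : 0 < Module.finrank ℚ F := Module.finrank_pos
    obtain ⟨k, hk⟩ := hodd
    exact ⟨k, by omega⟩)
  have hb' : ∀ p, b ∉ LN A p ↔ p ∈ R.disjSum (Finset.univ.erase t1) := fun p =>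
    Set.ext_iff.1 hb p
  obtain ⟨n, hn, h1⟩ := near (a := A) (b := b) W (fun v hv => not_not.1 fun h =>
    Finset.disjoint_left.1 hd (Finset.inl_mem_disjSum.1 ((hb' _).1 h)) hv) (fun _ => 1)
    fun _ _ => one_ne_zero
  have h3 : ∀ v ∈ W, v.valuation F ((b * n : Fˣ) : F) = 1 := fun v hv => by
    have := (v.valuation F).map_one_add_of_lt (h1 v hv)
    rwa [add_sub_cancel] at this
  obtain ⟨d, u, d0, hd1, hu⟩ := denom ((b * n : Fˣ) : F) (∏ w ∈ W, w.asIdeal) (fun v hv => by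
    obtain ⟨w, hw, h⟩ := (Ideal.IsPrime.prod_le v.isPrime).1 hv
    obtain rfl : w = v := HeightOneSpectrum.ext (w.isMaximal.eq_of_le v.isPrime.ne_top h)
    exact (h3 w hw).le) (Finset.prod_ne_zero_iff.2 fun w _ => w.ne_bot)
  have d0' : (d : F) ≠ 0 := by exact_mod_cast d0
  set B : Fˣ := b * (n * Units.mk0 (d : F) d0' ^ 2) with hB
  have hBv : ((d * u : 𝓞 F) : F) = B := by
    rw [hB, ← mul_assoc, Units.val_mul, Units.val_pow_eq_pow_val, Units.val_mk0]
    have e1 : ((d * u : 𝓞 F) : F) = d * u := by simp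
    rw [e1, ← hu]
    ring
  have hB' : ∀ p, B ∉ LN A p ↔ p ∈ R.disjSum (Finset.univ.erase t1) := fun p =>
    (Set.ext_iff.1 (Ram_mul (b := b) (mul_mem hn (P011.Arith.Sch.sq_mem_NF A _))) p).trans (hb' p)
  have hre : ∀ t : F →+* ℝ, B ∈ LN A (.inr t) ↔ 0 < t B := fun t =>
    real_iff.trans (or_iff_right (ha t).not_gt)
  have hpos : 0 < t1 ((d * u : 𝓞 F) : F) := by
    rw [hBv, ← hre]
    exact not_not.1 fun h => by simpa using (hB' _).1 h
  refine ⟨⟨a, d * u, fun h => a0 (by simp [h]), fun h => B.ne_zero (by rw [← hBv, h]; rfl), t1,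
    spl a (d * u) t1 _ (Real.sq_sqrt hpos.le), fun c => ?_, hr, fun t ht => ⟨ha t, ?_⟩, h2⟩,
    rfl, rfl, fun w hw h => ?_, fun w => ?_⟩
  · ext i j
    fin_cases i <;> fin_cases j <;> simp [spl, Matrix.algebraMap_eq_diagonal]
  · rw [hBv]
    refine P011.Arith.notMem_LSR.1 fun h => (hB' (.inr t)).2 (by simpa using ht) ((hre t).2 h)
  · have hdw : d ∉ w.asIdeal := fun h' => w.isPrime.ne_top ((Ideal.eq_top_iff_one _).2 (by
      have := sub_mem h' (Ideal.prod_le_inf.trans (Finset.inf_le hw) hd1)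
      rwa [sub_sub_cancel] at this))
    refine hdw ((w.isPrime.mem_or_mem h).elim id fun h' => ?_)
    have := (w.valuation_lt_one_iff_mem (K := F) _).2 h'
    rw [← w.valuation_lt_one_iff_mem (K := F)]
    have e1 : w.valuation F (u : F) = w.valuation F (d : F) := by
      rw [← hu, map_mul, h3 w hw, mul_one]
    exact e1.symm.trans_lt this
  · have h4 : w ∉ R ↔ B ∈ LN A (.inl w) := by
      rw [← Finset.inl_mem_disjSum (t := Finset.univ.erase t1), ← hB', not_not]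
    have h5 : algebraMap (𝓞 F) (Fw w) (d * u) = algebraMap F _ (B : F) := by rw [alg_int, hBv]
    have h6 : algebraMap (𝓞 F) (Fw w) a = algebraMap F _ (A : F) := alg_int w a
    have h7 := h4.trans (loc_iff w A B)
    rw [← h5, ← h6] at h7
    exact h7

/-- a pure quaternion of given square -/
theorem QD.exists_sq (X : QD F) (e : F) (e0 : e ≠ 0)
    (h : ∀ w : Pl F, IsSquare (algebraMap F (Fw w) e) → ∃ x y z : Fw w, (x ≠ 0 ∨ y ≠ 0 ∨ z ≠ 0) ∧
      x ^ 2 - algebraMap _ _ X.a * y ^ 2 = algebraMap _ _ X.b * z ^ 2)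
    (hr : ∀ t : F →+* ℝ, t ≠ X.t1 → t e < 0) (h1 : X.t1 e < 0) :
    ∃ δ : X.D, δ * δ = algebraMap F _ e := by
  have a0 : (X.a : F) ≠ 0 := by exact_mod_cast X.a0
  have b0 : (X.b : F) ≠ 0 := by exact_mod_cast X.b0
  obtain ⟨s, x, y, hs⟩ := emb (a := Units.mk0 _ a0) (b := Units.mk0 _ b0) (e := Units.mk0 e e0) (by
    rintro (w | t) hp
    · obtain ⟨x, y, z, h0, hz⟩ := h w ((P011.Even.isSquare_iff w (Units.mk0 e e0)).2 hp)
      rw [alg_int, alg_int] at hz
      by_cases z0 : z = 0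
      · have y0 : y ≠ 0 := by
          rintro rfl
          simp [z0] at hz h0
          exact h0 hz
        rw [LN_top (p := .inl w) ((P011.Even.isSquare_iff w _).1 ⟨x / y, ?_⟩)]
        · trivial
        · rw [z0] at hz
          rw [Units.val_mk0]
          field_simp
          linear_combination -hz
      · refine (loc_iff w _ _).2 ⟨x / z, y / z, ?_⟩
        rw [Units.val_mk0, Units.val_mk0]
        field_simp
        linear_combination hz
    · have h2 : t e < 0 := by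
        by_cases ht : t = X.t1
        · rwa [ht]
        · exact hr t ht
      exact absurd hp h2.not_gt)
  refine ⟨⟨0, s, x, y⟩, ?_⟩
  simp only [Units.val_mk0] at hs
  ext
  · simp
    linear_combination -hs
  all_goals (simp; ring)

theorem dex2 (X : QD F) (Δ : ℕ) (hΔ : 0 < Δ) (h : ∀ w : Pl F, IsSquare (-(Δ : Fw w)) →
    ∃ x y z : Fw w, (x ≠ 0 ∨ y ≠ 0 ∨ z ≠ 0) ∧
      x ^ 2 - algebraMap _ _ X.a * y ^ 2 = algebraMap _ _ X.b * z ^ 2) : ∃ K : X.Kd, K.Δ = Δ := by
  have hn : ∀ t : F →+* ℝ, t (-(Δ : F)) < 0 := fun t => by simpa using hΔ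
  obtain ⟨δ, hδ⟩ := X.exists_sq (-(Δ : F)) (by simpa using hΔ.ne')
    (fun w hw => h w (by simpa using hw)) (fun t _ => hn t) (hn _)
  have hδ' : δ * δ = -(Δ : X.D) := by rw [hδ, map_neg, map_natCast]
  have h1 : X.s δ 1 0 ≠ 0 := fun h0 => by
    have h2 := congrArg (fun x => X.s x 0 0) hδ
    simp only [map_mul, X.hs, Matrix.mul_apply, Fin.sum_univ_two, h0, mul_zero, add_zero,
      Matrix.algebraMap_eq_diagonal, Matrix.diagonal_apply_eq, Pi.algebraMap_apply,
      Algebra.algebraMap_self, RingHom.id_apply] at h2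
    exact (mul_self_nonneg _).not_gt (h2 ▸ hn X.t1)
  rcases h1.lt_or_gt with h2 | h2
  · exact ⟨⟨δ, Δ, hΔ, hδ', h2⟩, rfl⟩
  · exact ⟨⟨-δ, Δ, hΔ, by rw [neg_mul_neg, hδ'], by simpa using h2⟩, rfl⟩

/-- **DEX** -/
theorem dex : DEX := fun _ _ _ =>
  ⟨fun a t1 R W hr h2 ha hR hodd hd => by
    obtain ⟨X, h1, h3, h4, h5⟩ := dex1 a t1 R W hr h2 ha hR hodd hd
    exact ⟨X, h1, h3, fun w hw _ => h4 w hw, h5⟩, dex2⟩

end Vale.Agent.P022K.Sh
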