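import Vale.Agent.P022K.F0.OrbS
import Vale.Agent.P022K.F0.Defs

/-!
# P022K, block F0, row ORB: the orbital sums at the unramified places, in the language of `Tw.Lc`
-/

set_option autoImplicit false
set_option linter.unusedSectionVars false

open scoped MatrixGroups WithZero
open WithZero Matrix Polynomial

noncomputable section

namespace Vale.Agent.P022K.Sh.Orb

section values

variable {K : Type} [Field K] {v : Valuation K ℤᵐ⁰} {ϖ : Kˣ} {ω : Matrix (Fin 2) (Fin 2) K}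

variable (v) in
/-- the additive valuation -/
def od (x : K) : ℤ := -log (v x)

variable (v) in
/-- the content of the pair `(s, t)` -/
def ct (s t : K) : ℤ := by
  classical exact if s = 0 then od v t else min (od v s) (od v t)

theorem v_od {x : K} (hx : x ≠ 0) : v x = exp (-od v x) := by
  rw [od, neg_neg, exp_log (by simpa using hx)]

theorem od_eq {x : K} {n : ℤ} (h : v x = exp (-n)) : od v x = n := by rw [od, h, log_exp, neg_neg]

theorem ct_le (s t : K) : ct v s t ≤ od v t := by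
  unfold ct
  split_ifs
  exacts [le_rfl, min_le_right _ _]

theorem prim_ct (hϖ : v ϖ = exp (-1)) (s : K) {t : K} (ht : t ≠ 0) :
    Prim v ((ϖ ^ (-ct v s t) : Kˣ) * s) ((ϖ ^ (-ct v s t) : Kˣ) * t) := by
  have e : ∀ x : K, x ≠ 0 → v ((ϖ ^ (-ct v s t) : Kˣ) * x) = exp (ct v s t - od v x) :=
    fun x hx => by rw [map_mul, v_zpow hϖ, v_od hx, neg_neg, ← exp_add, sub_eq_add_neg]
  by_cases hs : s = 0
  · have : ct v s t = od v t := by simp [ct, hs]
    refine ⟨by simp [hs], ?_, Or.inr ?_⟩ <;> rw [e t ht, this] <;> simp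
  · have : ct v s t = min (od v s) (od v t) := by simp [ct, hs]
    refine ⟨?_, ?_, ?_⟩ <;> simp only [e s hs, e t ht, ← exp_zero (M := ℤ), exp_le_exp, exp_inj] <;>
      omega

variable {ε κ : ℂ} {P : Set (GL (Fin 2) K ⧸ ZV v)} (hϖ : v ϖ = exp (-1)) (hS : Sec v ϖ ω ε κ P)
  (h : Et v ω) {γ : GL (Fin 2) K} {s t : K} (ht : t ≠ 0)
  (hγ : γ.val = s • (1 : Matrix (Fin 2) (Fin 2) K) + t • ω)
  {f : GL (Fin 2) K → ℂ} {φ : GL (Fin 2) K ⧸ ZV v → ℂ}
  (hφ : ∀ x : GL (Fin 2) K, φ x = sg v ε x * f (x⁻¹ * γ * x))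

include hγ in
theorem nf (m : ℤ) : γ.val = ((ϖ ^ m : Kˣ) : K) • ((((ϖ ^ (-m) : Kˣ) : K) * s) •
    (1 : Matrix (Fin 2) (Fin 2) K) + (((ϖ ^ (-m) : Kˣ) : K) * t) • ω) := by
  rw [smul_add, smul_smul, smul_smul, ← mul_assoc, ← mul_assoc, ← Units.val_mul, ← _root_.zpow_add,
    add_neg_cancel, _root_.zpow_zero, Units.val_one, one_mul, one_mul, hγ]

include hϖ hγ in
theorem nf_norm (m : ℤ) : v ((((ϖ ^ (-m) : Kˣ) : K) * s) ^ 2 + (ϖ ^ (-m) : Kˣ) * s *
    ((ϖ ^ (-m) : Kˣ) * t) * ω.trace + (((ϖ ^ (-m) : Kˣ) : K) * t) ^ 2 * ω.det) =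
    exp (2 * m - od v (s ^ 2 + s * t * ω.trace + t ^ 2 * ω.det)) := by
  have h0 : s ^ 2 + s * t * ω.trace + t ^ 2 * ω.det ≠ 0 := by
    rw [← det_lin, ← hγ]; exact γ.det_ne_zero
  rw [show (((ϖ ^ (-m) : Kˣ) : K) * s) ^ 2 + (ϖ ^ (-m) : Kˣ) * s * ((ϖ ^ (-m) : Kˣ) * t) * ω.trace +
    (((ϖ ^ (-m) : Kˣ) : K) * t) ^ 2 * ω.det = (ϖ ^ (-m) : Kˣ) * ((ϖ ^ (-m) : Kˣ) *
      (s ^ 2 + s * t * ω.trace + t ^ 2 * ω.det)) by ring, map_mul, map_mul, v_zpow hϖ, v_od h0,
    ← exp_add, ← exp_add]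
  congr 1
  ring

include hϖ hS h ht hγ hφ

open Classical in
/-- **ORB-I / ORB-S**: type functions -/
theorem orb_typ {c1 cu : ℂ} (hf : Typ v f c1 cu) : HasOrb (Tor ω) (Tor ω ⊓ ZV v) φ
    (if od v (s ^ 2 + s * t * ω.trace + t ^ 2 * ω.det) = 2 * ct v s t then
      if od v t = ct v s t then f γ else c1 * κ ^ (od v t - ct v s t - 1) +
        cu * (κ ^ (od v t - ct v s t) - κ ^ (od v t - ct v s t - 1)) else 0) := by
  have hp := prim_ct hϖ s ht
  have h0 := nf (ϖ := ϖ) hγ (ct v s t)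
  have hb : v ((ϖ ^ (-ct v s t) : Kˣ) * t) = exp (-(od v t - ct v s t)) := by
    rw [map_mul, v_zpow hϖ, v_od ht, ← exp_add]; congr 1; ring
  split_ifs with h1 h2
  · obtain ⟨h3, h4, h5⟩ := typ_orb0 hS h hp h0 hφ hf (by rw [hb, h2]; simp)
    exact ⟨{((1 : GL (Fin 2) K) : GL (Fin 2) K ⧸ ZV v)}, fun y hy => by simpa using h3 y hy,
      fun t ht r hr => by
        rw [Finset.mem_singleton.1 hr, Finset.mem_singleton]; exact h4 t ht, by simp [h5]⟩
  · have := ct_le (v := v) s t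
    obtain ⟨N, hN⟩ : ∃ N : ℕ, od v t - ct v s t = (N + 1 : ℕ) :=
      ⟨(od v t - ct v s t - 1).toNat, by omega⟩
    rw [hN] at hb ⊢
    rw [show ((N + 1 : ℕ) : ℤ) - 1 = N by omega, zpow_natCast, zpow_natCast]
    exact typ_orb1 hS h hp h0 hφ hϖ hf hb
  · refine hasOrb_zero (typ_zero h hp h0 hφ hf fun e => h1 ?_)
    rw [nf_norm hϖ hγ, exp_eq_one] at e
    omega

omit hϖ hS h ht hγ hφ in
theorem typ_unit (hf0 : ∀ g, g ∉ ZV v → f g = 0) (hf1 : ∀ g ∈ ZV v, f g = 1) : Typ v f 1 1 := by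
  have key : ∀ g g', (g ∈ ZV v ↔ g' ∈ ZV v) → f g = f g' := fun g g' e => by
    by_cases hg : g ∈ ZV v
    · rw [hf1 g hg, hf1 g' (e.1 hg)]
    · rw [hf0 g hg, hf0 g' (mt e.2 hg)]
  exact ⟨hf0, fun z g => key _ _ ((ZV v).mul_mem_cancel_left (sc_mem z)), fun k hk g => key _ _
    (by rw [(ZV v).mul_mem_cancel_right (KV_le hk),
      (ZV v).mul_mem_cancel_left (inv_mem (KV_le hk))]),
    fun g hg _ => hf1 g (KV_le hg), fun g hg _ _ => hf1 g (KV_le hg)⟩

open Classical in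
/-- **ORB-I / ORB-S**: the unit of the Hecke algebra -/
theorem orb_unit (hf0 : ∀ g, g ∉ ZV v → f g = 0) (hf1 : ∀ g ∈ ZV v, f g = 1) :
    HasOrb (Tor ω) (Tor ω ⊓ ZV v) φ
      (if od v (s ^ 2 + s * t * ω.trace + t ^ 2 * ω.det) = 2 * ct v s t then
        κ ^ (od v t - ct v s t) else 0) := by
  have := orb_typ hϖ hS h ht hγ hφ (typ_unit hf0 hf1)
  split_ifs at this ⊢ with h1 h2
  · rwa [h2, sub_self, _root_.zpow_zero, ← hf1 γ]
    have h3 := (conj_KV h (prim_ct hϖ s ht) (γ := sc (ϖ ^ (-ct v s t)) * γ)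
      (by rw [sc_mul_val, hγ, smul_add, smul_smul, smul_smul]) 1).2 ⟨by
        rw [sc_mul_val, hγ, smul_add, smul_smul, smul_smul, det_lin, nf_norm hϖ hγ, h1]; simp, by
        simpa [In, Wx] using h.int.smul (prim_ct hϖ s ht).hb⟩
    rwa [inv_one, one_mul, mul_one, (ZV v).mul_mem_cancel_left (sc_mem _)] at h3
  · simpa using this
  · exact this

open Classical in
/-- **ORB-T**: the Hecke operator -/
theorem orb_hecke (hf0 : ∀ g, g ∉ TV v → f g = 0) (hf1 : ∀ g ∈ TV v, f g = 1) :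
    HasOrb (Tor ω) (Tor ω ⊓ ZV v) φ
      (if od v (s ^ 2 + s * t * ω.trace + t ^ 2 * ω.det) = 2 * ct v s t + 1 then
        κ ^ (od v t - ct v s t) else 0) := by
  have hp := prim_ct hϖ s ht
  have h0 := nf (ϖ := ϖ) hγ (ct v s t)
  split_ifs with h1
  · have hd := nf_norm hϖ hγ (ct v s t)
    rw [h1, show 2 * ct v s t - (2 * ct v s t + 1) = -1 by ring] at hd
    have h2 : od v t = ct v s t := by
      obtain ⟨γ0, -, h3⟩ := ex_unit h0
      have h4 := hp.hb.eq_or_lt.resolve_right fun hb => by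
        have := det_unit h hp h3 hb
        rw [h3, det_lin, hd, exp_eq_one] at this
        omega
      rw [map_mul, v_zpow hϖ, v_od ht, ← exp_add, exp_eq_one] at h4
      omega
    rw [h2, sub_self, _root_.zpow_zero]
    exact (hecke_base hS h hp h0 hφ hf0 hf1 hd).hasOrb
  · refine hasOrb_zero (hecke_zero h hp h0 hφ hf0 fun e => h1 ?_)
    rw [nf_norm hϖ hγ, exp_inj] at e
    omega

omit hϖ ht in
/-- almost all places -/
theorem base_unit (hf0 : ∀ g, g ∉ ZV v → f g = 0) (hf1 : ∀ g ∈ ZV v, f g = 1) (hs : v s ≤ 1)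
    (ht1 : v t = 1) (hn : v (s ^ 2 + s * t * ω.trace + t ^ 2 * ω.det) = 1) :
    Base (Tor ω) (Tor ω ⊓ ZV v) φ (1 : GL (Fin 2) K) := by
  have hp : Prim v s t := ⟨hs, ht1.le, Or.inr ht1⟩
  obtain ⟨h3, h4, h5⟩ := typ_orb0 hS h hp (z := 1) (by simpa using hγ) hφ (typ_unit hf0 hf1) ht1
  exact ⟨h3, h4, h5.trans (hf1 _ (KV_le ⟨im_gam h hp hγ, by rw [hγ, det_lin, hn]⟩))⟩

end values

section bridge

variable {O K : Type} [CommRing O] [IsDomain O] [IsDiscreteValuationRing O] [Field K] [Algebra O K]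
  {v : Valuation K ℤᵐ⁰} {ϖ : Kˣ}

variable (O) in
/-- `v` is the normalised valuation with ring of integers `O` -/
structure Vd (v : Valuation K ℤᵐ⁰) (ϖ : Kˣ) : Prop where
  inj : Function.Injective (algebraMap O K)
  int : ∀ x, v x ≤ 1 ↔ x ∈ (algebraMap O K).range
  uni : v ϖ = exp (-1)
  fin : Finite (IsLocalRing.ResidueField O)

theorem unit_iff (inj : Function.Injective (algebraMap O K))
    (int : ∀ x, v x ≤ 1 ↔ x ∈ (algebraMap O K).range) (o : O) :
    v (algebraMap O K o) = 1 ↔ IsUnit o := by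
  constructor
  · intro h
    have h0 : algebraMap O K o ≠ 0 := fun e => by simp [e] at h
    obtain ⟨o', e⟩ := (int (algebraMap O K o)⁻¹).1 (by rw [map_inv₀, h, inv_one])
    exact IsUnit.of_mul_eq_one o' (inj (by rw [map_mul, e, mul_inv_cancel₀ h0, map_one]))
  · rintro ⟨u, rfl⟩
    have h1 := (int _).2 ⟨(u : O), rfl⟩
    have h2 := (int _).2 ⟨((u⁻¹ : Oˣ) : O), rfl⟩
    refine h1.eq_or_lt.resolve_right fun hl => ?_
    have := v_mul_lt hl h2
    rw [← map_mul, Units.mul_inv, map_one, map_one] at this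
    exact lt_irrefl _ this

/-- any valuation with ring `O` and value group `ℤ` is the normalised one -/
theorem Vd.of_irr (inj : Function.Injective (algebraMap O K))
    (int : ∀ x, v x ≤ 1 ↔ x ∈ (algebraMap O K).range) (sur : ∃ x, v x = exp (-1))
    (fin : Finite (IsLocalRing.ResidueField O)) {p : O} (hp : Irreducible p)
    (e : algebraMap O K p = ϖ) : Vd O v ϖ := by
  refine ⟨inj, int, ?_, fin⟩
  obtain ⟨x, hx⟩ := sur
  obtain ⟨o, rfl⟩ := (int x).1 (by rw [hx, ← exp_zero, exp_le_exp]; omega)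
  have h1 : v (algebraMap O K p) < 1 :=
    lt_of_le_of_ne ((int _).2 ⟨p, rfl⟩) fun h => hp.not_isUnit ((unit_iff inj int p).1 h)
  have h2 : o ∈ IsLocalRing.maximalIdeal O := fun h => by
    have := (unit_iff inj int o).2 h
    rw [hx, exp_eq_one] at this
    omega
  rw [hp.maximalIdeal_eq, Ideal.mem_span_singleton] at h2
  obtain ⟨c, rfl⟩ := h2
  rw [← e]
  refine le_antisymm (lt_one_iff.1 h1) ?_
  rw [← hx, map_mul, map_mul]
  exact mul_le_of_le_one_right' ((int _).2 ⟨c, rfl⟩)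

namespace Vd

variable (h : Vd O v ϖ)
include h

theorem le (o : O) : v (algebraMap O K o) ≤ 1 := (h.int _).2 ⟨o, rfl⟩

theorem lt_iff (o : O) : v (algebraMap O K o) < 1 ↔ o ∈ IsLocalRing.maximalIdeal O := by
  rw [IsLocalRing.mem_maximalIdeal, mem_nonunits_iff, ← unit_iff h.inj h.int, lt_iff_le_and_ne,
    and_iff_right (h.le o)]

theorem KK_eq : KK O K = KV v := by
  ext g
  constructor
  · rintro ⟨k, rfl⟩
    refine ⟨fun i j => h.le _, ?_⟩
    have : (Matrix.GeneralLinearGroup.map (n := Fin 2) (algebraMap O K) k).val.det =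
        algebraMap O K k.val.det := ((algebraMap O K).map_det _).symm
    rw [this, unit_iff h.inj h.int]
    exact (Matrix.GeneralLinearGroup.det k).isUnit
  · rintro ⟨h1, h2⟩
    choose A hA using fun i j => (h.int _).1 (h1 i j)
    have e : (algebraMap O K).mapMatrix (Matrix.of A) = g.val := Matrix.ext hA
    rw [← e, ← RingHom.map_det, unit_iff h.inj h.int] at h2
    exact ⟨Matrix.GeneralLinearGroup.mk'' _ h2, Units.ext e⟩

theorem ZK_eq : KK O K ⊔ Zl K = ZV v := by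
  rw [h.KK_eq]
  refine le_antisymm (sup_le KV_le fun g hg => ?_) fun g hg => ?_
  · rw [Zl, Matrix.GeneralLinearGroup.center_eq_range_scalar] at hg
    obtain ⟨z, rfl⟩ := hg
    exact sc_mem z
  · obtain ⟨z, k, hk, rfl⟩ := ZV_dec hg
    refine mul_mem (Subgroup.mem_sup_right ?_) (Subgroup.mem_sup_left hk)
    rw [Zl, Matrix.GeneralLinearGroup.center_eq_range_scalar]
    exact ⟨z, rfl⟩

theorem cnt : Cnt v (qq O) := by
  classical
  have := h.fin
  have := Fintype.ofFinite (IsLocalRing.ResidueField O)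
  choose l hl using IsLocalRing.residue_surjective (R := O)
  have key : ∀ o o' : O, v (algebraMap O K o - algebraMap O K o') ≤ exp (-1) ↔
      IsLocalRing.residue O o = IsLocalRing.residue O o' := fun o o' => by
    rw [← lt_one_iff, ← map_sub, h.lt_iff, ← IsLocalRing.residue_eq_zero_iff, map_sub, sub_eq_zero]
  refine ⟨Finset.univ.image fun c => algebraMap O K (l c), ?_, fun r hr => ?_, fun x hx => ?_,
    fun r hr r' hr' e => ?_⟩
  · rw [Finset.card_image_of_injective, qq, Nat.card_eq_fintype_card, Finset.card_univ]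
    intro c c' e
    rw [← hl c, h.inj e, hl]
  · obtain ⟨c, -, rfl⟩ := Finset.mem_image.1 hr
    exact h.le _
  · obtain ⟨o, rfl⟩ := (h.int x).1 hx
    exact ⟨_, Finset.mem_image_of_mem _ (Finset.mem_univ (IsLocalRing.residue O o)),
      (key _ _).2 (hl _).symm⟩
  · obtain ⟨c, -, rfl⟩ := Finset.mem_image.1 hr
    obtain ⟨c', -, rfl⟩ := Finset.mem_image.1 hr'
    have := (key _ _).1 e
    rw [hl, hl] at this
    rw [this]

/-- Hensel's lemma for the characteristic polynomial -/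
theorem roots (cpl : IsAdicComplete (IsLocalRing.maximalIdeal O) O) {t n x : K} (ht : v t ≤ 1)
    (hn : v n ≤ 1) (hd : v (t ^ 2 - 4 * n) = 1) (hx : v x ≤ 1) (hr : v (x ^ 2 - t * x + n) < 1) :
    ∃ α β : K, v α ≤ 1 ∧ v β ≤ 1 ∧ v (α - β) = 1 ∧ t = α + β ∧ n = α * β := by
  have h2 : v (2 * x - t) = 1 := by
    refine sq_eq_one ?_
    rw [← map_pow, show (2 * x - t) ^ 2 = t ^ 2 - 4 * n + (x ^ 2 - t * x + n) * 4 by ring,
      v.map_add_eq_of_lt_left, hd]
    rw [hd]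
    exact v_mul_lt hr (by exact_mod_cast v_nat 4)
  obtain ⟨t, rfl⟩ := (h.int t).1 ht
  obtain ⟨n, rfl⟩ := (h.int n).1 hn
  obtain ⟨x, rfl⟩ := (h.int x).1 hx
  obtain ⟨a, ha, -⟩ := HenselianRing.is_henselian (I := IsLocalRing.maximalIdeal O)
    (X ^ 2 - C t * X + C n) (by monicity!) x (by
      rw [← h.lt_iff]; simpa using hr) (IsUnit.map _ (by
      rw [← unit_iff h.inj h.int, ← h2]; congr 1; simp; norm_num))
  have ha : algebraMap O K a ^ 2 - algebraMap O K t * algebraMap O K a + algebraMap O K n = 0 := by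
    simpa using congrArg (algebraMap O K) ha
  refine ⟨algebraMap O K a, algebraMap O K t - algebraMap O K a, h.le _,
    v.map_sub_le ht (h.le _), sq_eq_one ?_, by ring, by linear_combination ha⟩
  rw [← map_pow, ← hd]
  congr 1
  linear_combination 4 * ha

/-- an unramified torus is inert or split -/
theorem sec (cpl : IsAdicComplete (IsLocalRing.maximalIdeal O) O) {ω : Matrix (Fin 2) (Fin 2) K}
    (hω : Et v ω) : (Ine v ω ∧ Sec v ϖ ω (-1) (-qq O) Set.univ) ∨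
      (¬ Ine v ω ∧ ∃ P, Sec v ϖ ω 1 (qq O) P) := by
  by_cases hi : Ine v ω
  · exact Or.inl ⟨hi, sec_inert h.uni h.cnt hω.int hi⟩
  · refine Or.inr ⟨hi, ?_⟩
    obtain ⟨x, hx⟩ := not_forall.1 hi
    obtain ⟨hx, hr⟩ := Classical.not_imp.1 hx
    obtain ⟨α, β, h1, h2, h3, h4, h5⟩ := h.roots cpl hω.int.trace hω.int.det hω.disc hx
      (lt_of_le_of_ne (v.map_add_le (v.map_sub_le (v_sq_le hx) (v_mul_le hω.int.trace hx))
        hω.int.det) hr)
    exact sec_split h.uni h.cnt hω.int h1 h2 h3 h4 h5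

end Vd

theorem dg_eq (c : Kˣ) : dg c = bx c 0 := Units.ext rfl

theorem TV_mul {g k : GL (Fin 2) K} (hg : g ∈ TV v) (hk : k ∈ ZV v) :
    g * k ∈ TV v ∧ k * g ∈ TV v := by
  obtain ⟨z, h1, h2⟩ := hg
  obtain ⟨w, hw⟩ := hk
  have e1 : sc (z * w) * (g * k) = sc z * g * (sc w * k) := by
    rw [map_mul, mul_assoc, mul_assoc, ← mul_assoc (sc w), sc_comm w g, mul_assoc]
  have e2 : sc (w * z) * (k * g) = sc w * k * (sc z * g) := by
    rw [map_mul, mul_assoc, mul_assoc, ← mul_assoc (sc z), sc_comm z k, mul_assoc]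
  exact ⟨⟨z * w, by rw [e1]; exact h1.mul hw.1, by
      rw [e1, Units.val_mul, det_mul, map_mul, h2, hw.2, mul_one]⟩,
    ⟨w * z, by rw [e2]; exact hw.1.mul h1, by
      rw [e2, Units.val_mul, det_mul, map_mul, h2, hw.2, one_mul]⟩⟩

/-- the double coset of the Hecke operator -/
theorem TV_eq (hϖ : v ϖ = exp (-1)) : TV v = dc (ZV v) (dg ϖ) (ZV v) := by
  have h1 : v (ϖ : K) ≤ 1 := by rw [hϖ, ← exp_zero, exp_le_exp]; omega
  ext g
  constructor
  · intro hg
    obtain ⟨c, y, e⟩ := iwa0 (v := v) g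
    have hk := QuotientGroup.eq.1 e
    obtain ⟨z, h2, h3⟩ := (TV_mul hg hk).1
    rw [mul_inv_cancel_left] at h2 h3
    rw [det_sc_mul, bx_det] at h3
    rw [sc_mul_val, bx_val] at h2
    have a : v (z * c : K) ≤ 1 := by simpa using h2 0 0
    have b : v (z * y : K) ≤ 1 := by simpa using h2 0 1
    have d : v (z : K) ≤ 1 := by simpa using h2 1 1
    obtain ⟨m, hm⟩ := ex_exp (v := v) z.ne_zero
    obtain ⟨n, hn⟩ := ex_exp (v := v) c.ne_zero
    have hg' : g = bx c y * (g⁻¹ * bx c y)⁻¹ := by group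
    simp only [map_mul, map_pow, hm, hn, ← WithZero.exp_nsmul, ← exp_add, ← exp_zero (M := ℤ), exp_le_exp,
      exp_inj, nsmul_eq_mul] at a d h3
    rcases (by omega : m = 0 ∧ n = 1 ∨ m = 1 ∧ n = -1) with ⟨rfl, rfl⟩ | ⟨rfl, rfl⟩
    · refine ⟨bx (c * ϖ⁻¹) y, bx_mem_ZV.2 ⟨?_, by simpa [hm] using b⟩, _, inv_mem hk, ?_⟩
      · rw [Units.val_mul, Units.val_inv_eq_inv_val, map_mul, map_inv₀, hn, hϖ,
          mul_inv_cancel₀ exp_ne_zero]
      · rw [dg_eq, bx_mul]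
        simp
    · refine ⟨sc ϖ⁻¹ * sw, mul_mem (sc_mem _) (KV_le sw_mem), sw * bx (ϖ * c) (ϖ * y) *
        (g⁻¹ * bx c y)⁻¹, mul_mem (mul_mem (KV_le sw_mem) (bx_mem_ZV.2 ⟨?_, ?_⟩)) (inv_mem hk), ?_⟩
      · rw [Units.val_mul, map_mul, hn, hϖ, ← exp_add]; simp
      · rwa [map_mul, hϖ, ← hm, ← map_mul]
      · have e2 : sc ϖ⁻¹ * sw * dg ϖ * (sw * bx (ϖ * c) (ϖ * y)) = bx c y := by
          refine Units.ext ?_
          rw [mul_assoc, mul_assoc, sc_mul_val, Units.val_mul, Units.val_mul, Units.val_mul, dg_eq,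
            bx_val, bx_val, bx_val, sw_val, Matrix.mul_fin_two, Matrix.mul_fin_two,
            Matrix.mul_fin_two]
          ext i j
          fin_cases i <;> fin_cases j <;> simp
        rw [← mul_assoc, e2]
        exact hg'
  · rintro ⟨k, hk, k', hk', rfl⟩
    refine (TV_mul (TV_mul ⟨1, ?_, ?_⟩ hk).2 hk').1 <;> rw [map_one, one_mul, dg_eq]
    · exact im_of h1 (by simp) (by simp) (by simp)
    · rw [bx_det, hϖ]

theorem ex_vd {G0 G : Type} [Group G0] [Group G] {T : Tw G0 G} (w : T.Lc O K) :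
    ∃ v : Valuation K ℤᵐ⁰, Vd O v w.ϖ := by
  have := w.fr
  obtain ⟨p, hp, e⟩ := w.irr
  refine ⟨(IsDiscreteValuationRing.maximalIdeal O).valuation K, Vd.of_irr
    (IsFractionRing.injective O K) (fun x => ⟨fun h => ?_, ?_⟩)
    ((IsDiscreteValuationRing.maximalIdeal O).valuation_exists_uniformizer K) w.fin hp e⟩
  · exact IsDiscreteValuationRing.exists_lift_of_le_one h
  · rintro ⟨o, rfl⟩
    exact IsDedekindDomain.HeightOneSpectrum.valuation_le_one _ _

end bridge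

end Vale.Agent.P022K.Sh.Orb
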