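import Vale.Agent.P022K.F0.StS3
import Vale.Agent.P022K.F0.Emb
import Vale.Agent.P022K.F0.Loc
import Vale.Agent.P022K.F0.OrbB
import Vale.Agent.P022K.CH.Fld

/-!
# P022K, block F0, rows DG1, PLC3, SPL, TYS and YEX
-/

set_option autoImplicit false

open NumberField IsDedekindDomain Topology
open scoped Quaternion MatrixGroups Pointwise

noncomputable section

namespace Vale.Agent.P022K.Sh

open Vale.Agent.P022 Orb Tor CH
open Vale.Agent.P022.C (ordv)
open Vale.Agent.P022D.W (dec)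
open Vale.Agent.P022D.Loc2
open Vale.Agent.P022E.GW (Ov)

namespace Dgo

variable {F : Type} [Field F] [NumberField F]

/-! ## places -/

/-- an embedding of the completion in `ℚ_l` is onto -/
theorem surj {w : Pl F} {l : ℕ} [Fact l.Prime] {E : Fw w →+* ℚ_[l]} (hE : Continuous E)
    (h : ∀ c, ‖E c‖ ≤ 1 ↔ c ∈ Ow w) : Function.Surjective E := by
  have hu : IsUniformInducing E := by
    refine AddMonoidHom.isUniformInducing_of_isInducing (f := E)
      (IsTopologicalAddGroup.isInducing_iff_nhds_zero.2 (le_antisymm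
        (hE.tendsto' 0 0 (map_zero E)).le_comap fun s hs => ?_))
    obtain ⟨γ, hγ⟩ := Valued.mem_nhds_zero.1 hs
    simp only [Valuation.restrict_lt_iff_lt_embedding] at hγ
    obtain ⟨N, N0, hN⟩ := exists_nat_le w
      (γ := MonoidWithZeroHom.ValueGroup₀.embedding γ.1) (by simp)
    have n0 : (N : Fw w) ≠ 0 := Nat.cast_ne_zero.2 N0.ne'
    have n1 : 0 < ‖E N‖ := norm_pos_iff.2 ((map_ne_zero E).2 n0)
    refine ⟨_, Metric.closedBall_mem_nhds 0 n1, fun c hc => hγ (lt_of_le_of_lt ?_ hN)⟩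
    have := (h (c / N)).1 (by
      rw [map_div₀, norm_div, div_le_one n1]
      exact mem_closedBall_zero_iff.1 hc)
    rwa [mem_Ow, map_div₀, div_le_one₀ (zero_lt_iff.2 (v_nat_ne w N0))] at this
  intro x
  refine (Padic.denseRange_ratCast l).induction_on x hu.isComplete_range.isClosed fun q => ?_
  exact ⟨q, map_ratCast E q⟩

theorem ex_char (w : Pl F) : ∃ p : ℕ, p.Prime ∧ (p : 𝓞 F) ∈ w.asIdeal := by
  have := w.isMaximal
  let _ := Ideal.Quotient.field w.asIdeal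
  have : Finite (𝓞 F ⧸ w.asIdeal) := Ideal.finiteQuotientOfFreeOfNeBot _ w.ne_bot
  obtain ⟨p, hp⟩ := CharP.exists (𝓞 F ⧸ w.asIdeal)
  refine ⟨p, CharP.char_is_prime (𝓞 F ⧸ w.asIdeal) p, Ideal.Quotient.eq_zero_iff_mem.1 ?_⟩
  rw [map_natCast, CharP.cast_eq_zero]

theorem ex_above (j : F →+* Qb) (w : Pl F) : ∃ l P, Ov l P ∧ below j P = w.asIdeal := by
  obtain ⟨l, hl, h⟩ := ex_char w
  obtain ⟨P, hP, e⟩ := H916.exists_above j w.asIdeal w.isPrime
  refine ⟨l, P, ⟨hl, hP, ?_⟩, e⟩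
  rwa [← e, H20.mem_below, map_natCast] at h

theorem same {j : F →+* Qb} {l l' : ℕ} {P Q : Id} (hP : Ov l P) (hQ : Ov l' Q)
    (e : below j P = below j Q) : l = l' ∧ (dec P ≤ GK j → dec Q ≤ GK j) := by
  obtain ⟨g, rfl⟩ := H916.exists_smul j hP.2.1 hQ.2.1 e
  have h := Fld.ov_smul hP g
  refine ⟨(Nat.prime_dvd_prime_iff_eq h.1 hQ.1).1 (Int.natCast_dvd_natCast.1
    (H20.dvd_of_mem h.1 h.2.1 h.2.2 (d := (l' : ℤ)) (by exact_mod_cast hQ.2.2))), fun k x hx => ?_⟩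
  simpa [mul_assoc] using mul_mem (mul_mem g.2 (k (Fld.mem_dec_smul.1 hx))) (inv_mem g.2)

theorem fin_mem {r : 𝓞 F} (h : r ≠ 0) : {w : Pl F | r ∈ w.asIdeal}.Finite :=
  (Ideal.finite_factors (I := Ideal.span {r}) (by simpa using h)).subset fun _ hw =>
    Ideal.dvd_span_singleton.2 hw

/-! ## splittings -/

section

variable {k : Type} [Field k] [CharZero k] {a b : k}

/-- in a split algebra `b` is a norm -/
theorem norm_of (ha : a ≠ 0) (s : ℍ[k,a,b] ≃ₐ[k] Matrix (Fin 2) (Fin 2) k) :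
    ∃ x y, x ^ 2 - a * y ^ 2 = b := by
  have sq : ∀ p q : k, q ≠ 0 → p ^ 2 - a * q ^ 2 = 0 → ∃ x y, x ^ 2 - a * y ^ 2 = b :=
    fun p q hq h => by
      have hp : p ≠ 0 := fun e => by simp [e, ha, hq] at h
      refine ⟨(b + 1) / 2, (b - 1) * q / (2 * p), ?_⟩
      field_simp
      linear_combination (b - 1) ^ 2 * h
  obtain ⟨z, hz⟩ := s.surjective !![1, 0; 0, 0]
  have h0 : z ≠ 0 := fun e => by
    have := congrFun (congrFun hz 0) 0
    simp [e] at this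
  have h1 : F0.Fuj.nrd z = 0 := by
    by_contra h
    have := ((F0.Fuj.isUnit_iff_nrd z).2 (IsUnit.mk0 _ h)).map s
    simp [hz, Matrix.isUnit_iff_isUnit_det] at this
  rw [F0.Fuj.nrd] at h1
  by_cases h2 : z.imJ ^ 2 - a * z.imK ^ 2 = 0
  · by_cases h3 : z.imK = 0
    · by_cases h4 : z.imI = 0
      · refine (h0 ?_).elim
        ext <;> simp_all
      · exact sq z.re _ h4 (by linear_combination h1 + b * h2)
    · exact sq _ _ h3 h2
  · refine ⟨(z.re * z.imJ - a * z.imI * z.imK) / (z.imJ ^ 2 - a * z.imK ^ 2),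
      (z.re * z.imK - z.imI * z.imJ) / (z.imJ ^ 2 - a * z.imK ^ 2), ?_⟩
    field_simp
    linear_combination (z.imJ ^ 2 - a * z.imK ^ 2) * h1

/-- a splitting with a given image of `i` -/
theorem ex_spl (ha : a ≠ 0) (hb : b ≠ 0) (s : ℍ[k,a,b] ≃ₐ[k] Matrix (Fin 2) (Fin 2) k)
    {B : Matrix (Fin 2) (Fin 2) k} (h : B * B = a • 1) (h0 : B 1 0 ≠ 0) :
    ∃ s : ℍ[k,a,b] ≃ₐ[k] Matrix (Fin 2) (Fin 2) k, s ⟨0, 1, 0, 0⟩ = B := by
  obtain ⟨x, y, e⟩ := norm_of ha s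
  let P : GL (Fin 2) k := Matrix.GeneralLinearGroup.mkOfDetNeZero !![1, B 0 0; 0, B 1 0]
    (by simpa [Matrix.det_fin_two] using h0)
  refine ⟨(LocA.spl ha hb e).trans (MulSemiringAction.toAlgEquiv k _ (ConjAct.toConjAct P)), ?_⟩
  change P.val * LocA.spl ha hb e ⟨0, 1, 0, 0⟩ * (P⁻¹).val = B
  rw [Units.mul_inv_eq_iff_eq_mul]
  have h1 := congrFun (congrFun h 0) 0
  have h2 := congrFun (congrFun h 1) 0
  ext i j
  fin_cases i <;> fin_cases j <;>
    simp_all [P, LocA.spl, Matrix.mul_apply, Fin.sum_univ_two]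

end

theorem spl_iff (X : QD F) (w : Pl F) : X.Spl w ↔
    ∃ x y : Fw w, x ^ 2 - algebraMap _ _ X.a * y ^ 2 = algebraMap _ _ X.b :=
  ⟨fun ⟨s⟩ => norm_of (LocA.alg_ne X.a0) s, fun ⟨_, _, e⟩ =>
    ⟨LocA.spl (LocA.alg_ne X.a0) (LocA.alg_ne X.b0) e⟩⟩

theorem cp_refl (w : Pl F) : LocA.Cp (Oc w) (RingEquiv.refl (Fw w)) :=
  ⟨Subtype.val_injective, fun x => ⟨fun h => ⟨⟨x, h⟩, rfl⟩, fun ⟨y, e⟩ => (show y.1 = x from e) ▸ y.2⟩⟩

theorem unif_ne {w : Pl F} {π : Fw w} (h : vw w π = WithZero.exp (-1)) : π ≠ 0 :=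
  (vw w).ne_zero_iff.1 (h ▸ WithZero.exp_ne_zero)

theorem ZK_eq (w : Pl F) : KK (Oc w) (Fw w) ⊔ Zl (Fw w) = ZV (vw w) := by
  obtain ⟨π, hπ⟩ := P011.H519.exists_unif F w
  exact Vd.ZK_eq (ϖ := Units.mk0 (π : Fw w) (unif_ne hπ))
    ⟨(cp_refl w).inj, (cp_refl w).int, hπ, (cp_refl w).fin⟩

end Dgo

open Dgo

namespace QD

variable {F : Type} [Field F] [NumberField F] {X : QD F} {O K : Type} [CommRing O] [IsDomain O]
  [IsDiscreteValuationRing O] [Field K] [Algebra O K] {w : Pl F}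

/-- the component at `w` of a product level -/
theorem IsPl.at_of {L : X.tw.Lc O K} (h : X.IsPl w L) {V : ∀ v, Subgroup (X.Dw v)ˣ}
    {W : Subgroup (GL (Fin 2) K)} (hV : ∀ x, X.cu w x ∈ V w ↔ L.π x ∈ W ⊔ Zl K) :
    L.At W (X.PU V) := by
  refine ⟨fun g hg => Subgroup.mem_iInf.2 fun v => ?_, fun u hu =>
    (hV u).1 (Subgroup.mem_iInf.1 hu w)⟩
  by_cases hv : v = w
  · subst hv
    exact (hV _).2 (by rw [L.πι]; exact Subgroup.mem_sup_left hg)
  · obtain ⟨-, -, -, -, -, h2⟩ := h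
    exact Subgroup.mem_comap.2 ((Units.ext (h2 g v hv) : X.cu v (L.ι g) = 1) ▸ one_mem _)

/-- the factor attached to a splitting -/
theorem ex_pl {e : Fw w ≃+* K} (h : LocA.Cp O e) (s : X.Dw w ≃+* Matrix (Fin 2) (Fin 2) K)
    (hs : ∀ c, s (algebraMap _ _ c) = algebraMap K _ (e c)) : ∃ L : X.tw.Lc O K, X.IsPl w L ∧
      ∀ x, L.π x = Units.map s.toMonoidHom (X.cu w x) := by
  obtain ⟨p, hp⟩ := IsDiscreteValuationRing.exists_irreducible O
  exact ⟨mkLc h hs hp, ⟨e, s, h.int, hs, coe_pr, fun g _ hv => cw_io_ne hv g⟩, fun _ => rfl⟩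

end QD

/-- **DG1** -/
theorem dg1 : DG1 := fun F _ _ j l _ P w hP hw hd => by
  obtain ⟨s, rfl⟩ := Fld.ov_conj ⟨hP.1, PP_prime l, p_mem_PP l⟩ hP
  let φ : F →+* PadicAlgCl l :=
    (io l).toRingHom.comp ((s⁻¹ : GQ).toRingEquiv.toRingHom.comp j)
  have hφ : ∀ x, ∃ a, algebraMap ℚ_[l] (PadicAlgCl l) a = φ x := fun x =>
    (InfiniteGalois.mem_range_algebraMap_iff_fixed (k := ℚ_[l]) (io l (s⁻¹ (j x)))).2 fun σ => by
      have := hd (x := s * jj l σ * s⁻¹) (Fld.mem_dec_smul.2 (by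
        rw [← mul_assoc, ← mul_assoc, inv_mul_cancel, one_mul, inv_mul_cancel_right]
        exact (range_jj l _).2 ⟨σ, rfl⟩)) x
      rw [← io_jj]
      conv_rhs => rw [← this, ← AlgEquiv.mul_apply, ← mul_assoc, inv_mul_cancel_left]
      rfl
  choose g hg using hφ
  have inj := (algebraMap ℚ_[l] (PadicAlgCl l)).injective
  let f : F →+* ℚ_[l] :=
    { toFun := g
      map_one' := inj (by rw [hg, map_one, map_one])
      map_mul' := fun x y => inj (by rw [map_mul, hg, hg, hg, map_mul])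
      map_zero' := inj (by rw [hg, map_zero, map_zero])
      map_add' := fun x y => inj (by rw [map_add, hg, hg, hg, map_add]) }
  have hp : EmbA.prm f = w.asIdeal := by
    ext x
    rw [EmbA.mem_prm, ← hw, H20.mem_below, Ideal.mem_pointwise_smul_iff_inv_smul_mem, mem_PP,
      ← PadicAlgCl.norm_extends l, show f x = g x from rfl, hg]
    rfl
  obtain ⟨E, h1, -, h2⟩ := EmbA.exists_ext hp
  refine ⟨RingEquiv.ofBijective E ⟨E.injective, surj h1 h2⟩, fun x => (h2 x).symm.trans ?_⟩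
  exact ⟨fun h => ⟨⟨_, h⟩, rfl⟩, fun ⟨y, e⟩ => e ▸ y.2⟩

/-- **PLC3** -/
theorem plc3 : PLC3 := fun X S => by
  have h1 : ∀ w, w = X.v0 ∨ SphW X S w ∨ ∃ l, l.Prime ∧ TyW X S l w := fun w => by
    obtain ⟨l, P, hP, e⟩ := ex_above X.j w
    by_cases h0 : w = X.v0
    · exact .inl h0
    by_cases h : l ∈ S ∧ dec P ≤ X.H
    · exact .inr (.inr ⟨l, hP.1, h.1, h0, P, hP, e, h.2⟩)
    · exact .inr (.inl ⟨l, P, hP, e, fun k => h0 (HeightOneSpectrum.ext (e.symm.trans k)),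
        not_and_or.1 h⟩)
  refine ⟨h1, ?_, ?_, ?_⟩
  · rintro w l' ⟨l, P, hP, e, h0, h⟩
    refine ⟨fun k => h0 (k ▸ e), ?_⟩
    rintro ⟨k1, -, Q, hQ, e', k2⟩
    obtain ⟨rfl, k3⟩ := same hQ hP (e'.trans e.symm)
    exact h.elim (· k1) (· (k3 k2))
  · rintro w l l' ⟨-, -, P, hP, e, -⟩ ⟨-, -, Q, hQ, e', -⟩
    exact (same hP hQ (e.trans e'.symm)).1
  · refine ((Set.finite_singleton X.v0).union ((S.erase 0).finite_toSet.biUnion fun l hl =>
      fin_mem (r := (l : 𝓞 X.F)) (Nat.cast_ne_zero.2 (Finset.ne_of_mem_erase hl)))).subset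
      fun w hw => ?_
    rcases h1 w with h | h | ⟨l, hl, h, -, P, hP, e, -⟩
    · exact .inl h
    · exact (hw h).elim
    · exact .inr (Set.mem_biUnion (Finset.mem_erase.2 ⟨hl.ne_zero, h⟩)
        (show _ ∈ w.asIdeal from e ▸ H20.l_mem_below X.j hP.2.2))

/-- **SPL** -/
theorem splx : SPL := fun F _ _ X Δ hΔ ha w ⟨s⟩ ⟨m, hm⟩ => by
  have a0 := LocA.alg_ne (w := w) X.a0
  have b0 := LocA.alg_ne (w := w) X.b0
  have ea : algebraMap (𝓞 F) (Fw w) X.a = -(Δ : Fw w) := by rw [ha, map_neg, map_natCast]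
  obtain ⟨k, hk⟩ : ∃ k, Δ = 4 * k + 3 := ⟨Δ / 4, by omega⟩
  have ek : (Δ : Fw w) = 4 * k + 3 := by rw [hk]; push_cast; rfl
  by_cases h : vw w (Δ : Fw w) = 1
  · obtain ⟨s', hs⟩ := ex_spl a0 b0 s
      (B := (-1 : Fw w) • 1 + (2 : Fw w) • !![0, -((k + 1 : ℕ) : Fw w); 1, 1]) (by
        refine Matrix.ext fun i j => ?_
        fin_cases i <;> fin_cases j <;> simp [Matrix.mul_apply, Fin.sum_univ_two, ea, ek] <;> ring)
      (by simp)
    refine ⟨s', _, _, _, ⟨im_of (by simp) ?_ (by simp) (by simp), ?_⟩, two_ne_zero, hs⟩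
    · rw [Valuation.map_neg]; exact v_nat_le w _
    · rw [← h, ← (vw w).map_neg, ek]
      congr 1
      simp [Matrix.det_fin_two]
      ring
  · have two : vw w 2 = 1 := by
      have h2 : vw w 2 ≤ 1 := v_nat_le w 2
      refine le_antisymm h2 (not_lt.1 fun h3 => h ?_)
      rw [ek, show (4 * k + 3 : Fw w) = 1 + 2 * ((2 * k + 1 : ℕ) : Fw w) by push_cast; ring]
      refine (vw w).map_one_add_of_lt ?_
      rw [map_mul]
      exact (mul_le_of_le_one_right' (v_nat_le w _)).trans_lt h3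
    obtain ⟨π, hπ⟩ := P011.H519.exists_unif F w
    have p0 : (π : Fw w) ^ m ≠ 0 := zpow_ne_zero _ (unif_ne hπ)
    have d0 : vw w (Δ : Fw w) ≠ 0 := v_nat_ne w (by omega)
    have u1 : vw w (-(Δ : Fw w) / ((π : Fw w) ^ m) ^ 2) = 1 := by
      rw [ordv, ← v_alg, map_natCast, neg_eq_iff_eq_neg] at hm
      rw [map_div₀, Valuation.map_neg, ← WithZero.exp_log d0, hm, map_pow, map_zpow₀, hπ,
        ← WithZero.exp_zsmul, ← WithZero.exp_nsmul, ← WithZero.exp_sub, ← WithZero.exp_zero]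
      congr 1
      simp
      ring
    obtain ⟨s', hs⟩ := ex_spl a0 b0 s (B := (0 : Fw w) • 1 +
      (π : Fw w) ^ m • !![0, -(Δ : Fw w) / ((π : Fw w) ^ m) ^ 2; 1, 0]) (by
        generalize (π : Fw w) ^ m = y at p0
        refine Matrix.ext fun i j => ?_
        fin_cases i <;> fin_cases j <;> simp [Matrix.mul_apply, Fin.sum_univ_two, ea] <;>
          field_simp) (by simpa using p0)
    refine ⟨s', _, _, _, ⟨im_of (by simp) u1.le (by simp) (by simp), ?_⟩, p0, hs⟩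
    generalize -(Δ : Fw w) / ((π : Fw w) ^ m) ^ 2 = u at u1
    rw [show _ - _ = 2 * (2 * u) by simp [Matrix.det_fin_two]; ring, map_mul, map_mul, two, u1,
      one_mul, one_mul]

/-- **TYS** -/
theorem tys : TYS := fun F _ _ X Δ hΔ ha w hs hm => by
  classical
  obtain ⟨s, ω, x, y, h1, h2, h3⟩ := splx F X Δ hΔ ha w hs hm
  obtain ⟨L, hL, e⟩ := QD.ex_pl (cp_refl w) s.toRingEquiv s.commutes
  refine ⟨(ZV (vw w)).comap (Units.map s.toRingEquiv.toMonoidHom), fun u => if u ∈ _ then 1 else 0,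
    fun _ => 1, if IsSquare (algebraMap (𝓞 F) (Fw w) X.a) then qw w else -(qw w : ℂ), L,
    ⟨s, ω, x, y, h1, h2, h3, fun _ => Iff.rfl, fun _ => rfl, fun _ => rfl, ?_⟩, hL,
    fun V hV => hL.at_of fun x => ?_⟩
  · split_ifs with h
    exacts [.inl ⟨rfl, h⟩, .inr ⟨rfl, h⟩]
  · rw [hV, e, ZK_eq]
    rfl

/-- **YEX** -/
theorem yex_of (hD : DEX) : YEX := fun F E _ _ _ _ _ C v hev hns => by
  have hr : ∀ φ : F →+* ℂ, ComplexEmbedding.IsReal φ := fun φ =>
    ComplexEmbedding.isReal_iff.2 (RingHom.ext fun x => by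
      rw [ComplexEmbedding.conjugate_coe_eq, ← C.ovr φ, ← C.cj, AlgEquiv.commutes])
  have he : ∀ φ : F →+* ℂ, Complex.ofRealHom.comp (hr φ).embedding = φ := fun φ =>
    RingHom.ext (hr φ).coe_embedding_apply
  obtain ⟨τ, hτ⟩ := C.two
  obtain ⟨X, h1, h2, -, h3⟩ := (hD F).1 C.a (hr C.t1).embedding {v} ∅
    (fun φ x => Complex.conj_eq_iff_im.1 (RingHom.congr_fun (hr φ) x))
    ⟨(hr τ).embedding, fun e => hτ (by rw [← he τ, e, he])⟩ (fun t => by
      have e1 := C.cj (C.sec (Complex.ofRealHom.comp t)) C.δ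
      have e2 := congrArg (C.sec (Complex.ofRealHom.comp t)) C.sq
      have e3 := (map_ne_zero (C.sec (Complex.ofRealHom.comp t))).2 C.δ0
      rw [map_pow, C.ovr] at e2
      rw [C.cδ, map_neg] at e1
      generalize C.sec (Complex.ofRealHom.comp t) C.δ = z at *
      have e4 : z.re = 0 := by linarith [show -z.re = z.re from congrArg Complex.re e1]
      have e5 : z.im ≠ 0 := fun e => e3 (Complex.ext e4 e)
      have e6 : t C.a = -z.im ^ 2 := by simpa [sq, e4] using (congrArg Complex.re e2).symm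
      rw [e6]
      exact neg_neg_of_pos (sq_pos_of_ne_zero e5))
    (by simpa using hns) (by rw [Finset.card_singleton]; exact odd_one.add_even hev)
    (Finset.disjoint_empty_right _)
  have hb : (X.b : F) ≠ 0 := by exact_mod_cast X.b0
  have ha : (X.a : F) ≠ 0 := by exact_mod_cast X.a0
  let g : QuadraticAlgebra F (C.a : F) 0 →ₐ[F] E := QuadraticAlgebra.lift ⟨C.δ, by
    rw [← sq, C.sq, zero_smul, add_zero, Algebra.algebraMap_eq_smul_one]⟩
  have hg : ∀ z, g z = algebraMap F E z.re + algebraMap F E z.im * C.δ := fun z => by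
    rw [← Algebra.smul_def, Algebra.algebraMap_eq_smul_one]; rfl
  have bij : Function.Bijective g := by
    refine ⟨(injective_iff_map_eq_zero g).2 fun z hz => ?_, fun x => ?_⟩
    · have e1 := congrArg C.c hz
      rw [hg] at hz e1
      rw [map_add, map_mul, AlgEquiv.commutes, AlgEquiv.commutes, C.cδ, map_zero] at e1
      have e2 : algebraMap F E z.re = 0 := by linear_combination (hz + e1) / 2
      rw [e2, zero_add, mul_eq_zero, or_iff_left C.δ0] at hz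
      exact QuadraticAlgebra.ext ((map_eq_zero _).1 e2) ((map_eq_zero _).1 hz)
    · obtain ⟨s, t, rfl⟩ := C.span x
      exact ⟨⟨s, t⟩, hg _⟩
  let g' : QuadraticAlgebra F (C.a : F) 0 →ₐ[F] X.D := QuadraticAlgebra.lift ⟨⟨0, 1, 0, 0⟩, by
    ext <;> simp [h1, Algebra.smul_def]⟩
  refine ⟨X, Ideal.absNorm (Ideal.span {X.b}), Nat.pos_of_ne_zero fun e => X.b0 (by
    simpa using Ideal.absNorm_eq_zero_iff.1 e), fun w => ?_,
    ⟨g'.comp (AlgEquiv.ofBijective g bij).symm, h1.symm, ?_, .inl ?_, fun w hw h => hw ?_⟩, ?_⟩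
  · rw [spl_iff, h1, ← h3, Finset.mem_singleton]
  · rw [QD.tc, h2, he]
    rfl
  · have : (AlgEquiv.ofBijective g bij).symm C.δ = ⟨0, 1⟩ :=
      (AlgEquiv.symm_apply_eq _).2 ((hg _).trans (by simp)).symm
    refine (congrArg g' this).trans ?_
    ext <;> simp [g']
  · exact Nat.cast_mul (α := 𝓞 F) C.D _ ▸ w.asIdeal.mul_mem_left _
      ((Ideal.span_singleton_le_iff_mem _).2 h (Ideal.absNorm_mem _))
  · choose r hr using fun τ : F →+* Qb => IsAlgClosed.exists_pow_nat_eq (τ X.b) two_pos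
    refine ⟨fun τ => (LocA.spl ((map_ne_zero τ).2 ha) ((map_ne_zero τ).2 hb) (y := 0)
      (by rw [hr τ]; simp)).toRingEquiv.toRingHom.comp (F0.Fuj.qmap τ rfl rfl), fun τ c => ?_⟩
    rw [RingHom.comp_apply, F0.Fuj.qmap_algebraMap]
    exact AlgEquiv.commutes _ (τ c)

end Vale.Agent.P022K.Sh
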