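import Vale.Agent.P022K.F0.UnD
import Vale.Agent.P022K.F0.Pts
import Vale.Agent.P022K.F0.Cf.Rows

/-!
# P022K, block F0, row END, first part: points of the uniformised conjugate field (helper85)
-/

set_option autoImplicit false
set_option linter.unusedSectionVars false

open UpperHalfPlane Filter Topology
open scoped MatrixGroups

noncomputable section

namespace Vale.Agent.P022K.Sh

open Vale.Agent.P022 Vale.Agent.P022.H218.L3 Vale.Agent.P019P Vale.Agent.P022K.F0.Cf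

namespace En

/-- a Moebius map with two fixed points is trivial -/
theorem fix_two {g : GP} {a b : ℍ} (ha : g • a = a) (hb : g • b = b) (h : a ≠ b) (τ : ℍ) :
    g • τ = τ := by
  have k : ∀ z : ℍ, g • z = z ↔ num (g : GL (Fin 2) ℝ) z = z * denom (g : GL (Fin 2) ℝ) z :=
    fun z => by
      rw [← div_eq_iff (denom_ne_zero _ _), ← coe_smul_of_det_pos g.2]
      exact ⟨fun e => congrArg _ e, fun e => UpperHalfPlane.ext e⟩
  rw [k] at ha hb ⊢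
  simp only [num, denom] at ha hb ⊢
  have h1 : (((g : GL (Fin 2) ℝ) 0 0 : ℝ) : ℂ) =
      ((g : GL (Fin 2) ℝ) 1 0 : ℝ) * ((a : ℂ) + b) + ((g : GL (Fin 2) ℝ) 1 1 : ℝ) :=
    mul_left_cancel₀ (sub_ne h) (by linear_combination ha - hb)
  have h2 : (g : GL (Fin 2) ℝ) 1 0 = 0 := by
    have := congrArg Complex.im h1
    simp only [Complex.ofReal_im, Complex.add_im, Complex.mul_im, Complex.ofReal_re, zero_mul,
      add_zero, coe_im] at this
    exact (mul_eq_zero.1 this.symm).resolve_right (add_pos a.im_pos b.im_pos).ne'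
  rw [h2] at h1 ha ⊢
  push_cast at h1 ha ⊢
  linear_combination ha + ((τ : ℂ) - a) * h1

theorem actM_triv {g : GP} (h : ∀ τ : ℍ, g • τ = τ) (f : Mer) : actM g f = f := by
  have key : ∀ a : Hol, actM g (jm a) = jm a := fun a => by
    refine (actM_algebraMap _ _).trans (congrArg jm (Subtype.ext (funext fun τ => ?_)))
    rw [actH_apply, inv_smul_eq_iff.2 (h τ).symm]
  obtain ⟨a, b, b0, e⟩ := ex_frac f
  rw [(eq_div_iff (jm_ne b0)).2 e, map_div₀, key, key]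

theorem od_actM (g : GP) (τ : ℍ) (y : Mer) : od (g • τ) (actM g y) = od τ y := od_ac τ y g

theorem actM_inv (g : GP) (y : Mer) : actM g⁻¹ (actM g y) = y := ac_inv_ac g y

theorem mval_dr (g : GP) {τ : ℍ} {y : Mer} (hg : g • τ = τ) (h : MOrd τ y 1) :
    MVal τ (actM g⁻¹ y * y⁻¹) ((dr g).1 τ) :=
  dr_gl (g := g) (s := (g : GL (Fin 2) ℝ)) g.2 (fun _ => rfl) τ ▸ mval_mu g hg h

theorem triv_of_unif {g : GP} {τ : ℍ} {y : Mer} (hg : g • τ = τ) (h : MOrd τ y 1)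
    (e : actM g y = y) (z : ℍ) : g • z = z := by
  have h1 := mval_dr g hg h
  rw [show actM g⁻¹ y = y by rw [← e, actM_inv, e], mul_inv_cancel₀ h.ne] at h1
  exact triv_of_dr hg (h1.unique (MVal.one τ)) z

theorem od_ps (a : ℍ) (s : Multiset ℍ) : ps s ≠ 0 ∧ (a ∉ s → od a (ps s) = 0) := by
  induction s using Multiset.induction_on with
  | empty => exact ps_zero ▸ ⟨one_ne_zero, fun _ => od_one a⟩
  | cons b s ih =>
    rw [ps_cons]
    refine ⟨mul_ne_zero (jt_ne b) ih.1, fun h => ?_⟩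
    rw [Multiset.mem_cons, not_or] at h
    rw [od_mul a (jt_ne b) ih.1, ih.2 h.2, od_unit (tz_ne h.1), add_zero]

theorem fin_zero {K : Set ℍ} (hK : IsCompact K) (y : Mer) : {a ∈ K | 0 < od a y}.Finite := by
  obtain ⟨s, hs⟩ := ex_ps hK y⁻¹
  refine s.finite_toSet.subset fun a ha => ?_
  by_contra h
  have y0 : y⁻¹ ≠ 0 := inv_ne_zero fun e => by simpa [e, od_zero] using ha.2
  have := hs a ha.1
  rw [reg_iff, od_mul a (od_ps a s).1 y0, (od_ps a s).2 h, od_inv,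
    or_iff_right (mul_ne_zero (od_ps a s).1 y0)] at this
  have := ha.2
  omega

theorem liou {y : Mer} (hr : ∀ a, Reg a y) {C : Set ℍ} (hC : IsCompact C)
    (h : ∀ z, ∃ z' ∈ C, F0.Cf.ev z y = F0.Cf.ev z' y) : ∃ c, y = algebraMap ℂ Mer c := by
  obtain ⟨f, rfl, hf⟩ := ex_hol hr
  obtain ⟨a, -, ha⟩ := hC.exists_isMaxOn ⟨_, (h I).choose_spec.1⟩ (cont f).norm.continuousOn
  have hm : IsMaxOn (norm ∘ f.1) Set.univ a := fun τ _ => by
    obtain ⟨z, hz, h1⟩ := h τ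
    have h2 : ‖f.1 z‖ ≤ ‖f.1 a‖ := ha hz
    rwa [hf, ← h1, ← hf] at h2
  have := MDifferentiableOn.eqOn_of_isPreconnected_of_isMaxOn_norm
    (mem_Hol.1 f.2).mdifferentiableOn isPreconnected_univ isOpen_univ (Set.mem_univ a) hm
  refine ⟨f.1 a, ?_⟩
  rw [← jm_const]
  congr 1
  exact Subtype.ext (funext fun τ => this (Set.mem_univ τ))

theorem mval_od {τ : ℍ} {y : Mer} {c : ℂ} :
    MVal τ y c ↔ y - algebraMap ℂ Mer c = 0 ∨ 0 < od τ (y - algebraMap ℂ Mer c) := by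
  have k : MVal τ y c ↔ MVal τ (y - algebraMap ℂ Mer c) 0 :=
    ⟨fun h => by simpa [sub_eq_add_neg] using h.add (MVal.const τ (-c)),
      fun h => by simpa using h.add (MVal.const τ c)⟩
  rw [k, mval_iff]
  by_cases h : y - algebraMap ℂ Mer c = 0
  · rw [h]
    exact ⟨fun _ => Or.inl rfl, fun _ => mval_iff.1 (MVal.zero τ)⟩
  · exact ⟨fun e => Or.inr ((ev_eq_zero h e.1).1 e.2), fun e =>
      have r := reg_iff.2 (Or.inr (e.resolve_left h).le)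
      ⟨r, (ev_eq_zero h r).2 (e.resolve_left h)⟩⟩

variable {G : Type} [Group G]

/-- the largest subgroup of `W` normalised by `U` -/
def cor (U W : Subgroup G) : Subgroup G := ⨅ v : U, cj v.1 W

theorem mem_cor {U W : Subgroup G} {y : G} : y ∈ cor U W ↔ ∀ v ∈ U, v⁻¹ * y * v ∈ W := by
  simp only [cor, Subgroup.mem_iInf, mem_cj, Subtype.forall]

theorem cor_le (U W : Subgroup G) : cor U W ≤ W := fun y h => by
  simpa using mem_cor.1 h 1 (one_mem U)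

theorem cor_conj {U W : Subgroup G} {y v : G} (h : y ∈ cor U W) (hv : v ∈ U) :
    v⁻¹ * y * v ∈ cor U W := mem_cor.2 fun w hw => by
  convert mem_cor.1 h _ (mul_mem hv hw) using 1
  group

theorem ex_reps {U W : Subgroup G} (h : W.relIndex U ≠ 0) :
    ∃ S : Finset G, (∀ s ∈ S, s ∈ U) ∧ ∀ v ∈ U, ∃ s ∈ S, s⁻¹ * v ∈ W := by
  classical
  have : Finite (U ⧸ W.subgroupOf U) := Nat.finite_of_card_ne_zero h
  have := Fintype.ofFinite (U ⧸ W.subgroupOf U)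
  refine ⟨Finset.univ.image fun c : U ⧸ W.subgroupOf U => (c.out : G), fun s hs => ?_,
    fun v hv => ⟨_, Finset.mem_image_of_mem _ (Finset.mem_univ ((⟨v, hv⟩ : U) : U ⧸ _)), ?_⟩⟩
  · obtain ⟨c, -, rfl⟩ := Finset.mem_image.1 hs
    exact c.out.2
  · have := QuotientGroup.eq.1 (QuotientGroup.out_eq' ((⟨v, hv⟩ : U) : U ⧸ W.subgroupOf U))
    exact this

end En

open En

variable {G0 G : Type} [Group G0] [Group G]

namespace Tw

variable {T : Tw G0 G} {U V W : Subgroup G} {Γ Γ' : Subgroup G0}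

theorem Gam_cj (U : Subgroup G) (x y : G) : T.Gam (cj x U) y = T.Gam U (y * x) := by
  ext γ
  rw [T.mem_Gam, T.mem_Gam, mem_cj, mul_inv_rev]
  simp only [mul_assoc]

theorem Gam_one (U : Subgroup G) (x : G) : T.Gam U x = T.Gam (cj x U) 1 := by
  rw [Gam_cj, one_mul]

theorem mem_Gam1 {γ : G0} : γ ∈ T.Gam U 1 ↔ T.j γ ∈ U := by
  rw [T.mem_Gam, inv_one, one_mul, mul_one]

theorem Neat.cj (h : T.Neat U) (x : G) : T.Neat (cj x U) := fun y =>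
  (Gam_cj (T := T) U x y).symm ▸ h (y * x)

theorem Ok.cor (ok : T.Ok) (hU : U ∈ T.Lev) (hW : W ∈ T.Lev) : cor U W ∈ T.Lev := by
  obtain ⟨S, h1, h2⟩ := ex_reps (ok.fi W hW U hU)
  have k : ∀ S : Finset G, ∃ N ∈ T.Lev, ∀ y, y ∈ N ↔ y ∈ W ∧ ∀ s ∈ S, s⁻¹ * y * s ∈ W := by
    classical
    intro S
    induction S using Finset.induction_on with
    | empty => exact ⟨W, hW, by simp⟩
    | insert a S _ ih =>
      obtain ⟨N, n1, n2⟩ := ih
      refine ⟨_, ok.inf N n1 _ (ok.conj W hW a), fun y => ?_⟩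
      rw [Subgroup.mem_inf, n2, mem_cj, Finset.forall_mem_insert]
      tauto
  obtain ⟨N, n1, n2⟩ := k S
  convert n1
  ext y
  rw [n2, mem_cor]
  refine ⟨fun h => ⟨by simpa using h 1 (one_mem U), fun s hs => h s (h1 s hs)⟩, fun h v hv => ?_⟩
  obtain ⟨s, hs, e⟩ := h2 v hv
  convert mul_mem (mul_mem (inv_mem e) (h.2 s hs)) e using 1
  group

theorem od_act (γ : G0) (τ : ℍ) (y : Mer) : od (T.r γ • τ) (T.act γ y) = od τ y := od_actM _ τ y

theorem od_act' (γ : G0) (τ : ℍ) (y : Mer) : od τ (T.act γ y) = od (T.r γ⁻¹ • τ) y := by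
  rw [← od_act (T := T) γ (T.r γ⁻¹ • τ), map_inv, smul_inv_smul]

theorem Fu.orb (h : T.Fu Γ) {a b : ℍ} (e : ∀ f ∈ T.KF Γ, od a f = od b f) :
    ∃ γ ∈ Γ, T.r γ • a = b := by
  by_contra hn
  obtain ⟨x, h1, h2, h3⟩ := h.cf.sep (a := a) (b := b) (by
    rintro _ ⟨γ, hγ, rfl⟩ e
    exact hn ⟨γ, hγ, e⟩)
  have := e x (T.KF_eq Γ ▸ h1)
  omega

theorem Fu.unif (h : T.Fu Γ) (hf : T.Fr Γ) (a : ℍ) : ∃ f ∈ T.KF Γ, od a f = 1 :=
  T.KF_eq Γ ▸ (hf.gen a).ex_one h.cf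

theorem Fu.pts (h : T.Fu Γ) (hf : T.Fr Γ) : ∃ (_ : CFF ℂ (T.KF Γ)) (pt : ℍ → Plk ℂ (T.KF Γ)),
    Function.Surjective pt ∧ ∀ τ (f : T.KF Γ), ord (pt τ) f = od τ f := by
  obtain ⟨i, pt, hp⟩ := T.cf Γ h
  refine ⟨i, pt, hp.onto, fun τ f => ?_⟩
  by_cases f0 : f = 0
  · rw [f0, ord_zero, ZeroMemClass.coe_zero, od_zero]
  · exact (mord_iff.1 (hp.ord hf τ f f0)).2.symm

/-- the group is read off from its function field -/
theorem Fu.fai [Countable G0] (h : T.Fu Γ) {γ : G0} (e : ∀ f ∈ T.KF Γ, T.act γ f = f) : γ ∈ Γ := by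
  choose ν h1 h2 using fun τ => h.orb (a := τ) (b := T.r γ • τ) fun f hf => by
    rw [← od_act (T := T) γ τ f, e f hf]
  have : Uncountable ℍ := Function.Injective.uncountable (f := fun x : ℝ => x +ᵥ I) fun x y e => by
    simpa using congrArg UpperHalfPlane.re e
  obtain ⟨a, b, e1, e2⟩ := Function.not_injective_iff.1 (not_injective_uncountable_countable ν)
  have k : ∀ τ, T.r ((ν τ)⁻¹ * γ) • τ = τ := fun τ => by
    rw [map_mul, map_inv, mul_smul, ← h2, inv_smul_smul]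
  simpa using mul_mem (h1 a) (h.z0 (mem_Z0.2 (fix_two (k a) (e1 ▸ k b) e2)))

theorem Fu.sup (h : T.Fu Γ') (le : Γ' ≤ Γ) (fi : Γ'.relIndex Γ ≠ 0) : T.Fu Γ := by
  classical
  obtain ⟨R, -, h2⟩ := ex_reps fi
  refine ⟨h.z0.trans le, fun K hK => ?_, h.cc.imp fun K hK => ⟨hK.1, fun τ =>
    (hK.2 τ).imp fun γ e => ⟨le e.1, e.2⟩⟩⟩
  obtain ⟨S, hS⟩ := h.pd (K ∪ ⋃ s ∈ R, (fun τ => T.r s⁻¹ • τ) '' K)
    (hK.union (R.isCompact_biUnion fun s _ => hK.image (cont_sm _)))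
  refine ⟨Finset.image₂ (· * ·) R S, fun γ hγ ⟨τ, t1, t2⟩ => ?_⟩
  obtain ⟨s, hs, e⟩ := h2 γ hγ
  obtain ⟨t, ht, e'⟩ := hS _ e ⟨τ, Or.inl t1, Or.inr (Set.mem_biUnion hs ⟨_, t2, by
    rw [map_mul, mul_smul]⟩)⟩
  exact ⟨_, Finset.mem_image₂_of_mem hs ht, by rwa [mul_inv_rev, mul_assoc]⟩

theorem act_congr {γ δ : G0} {g : G} (h : (T.j γ)⁻¹ * g ∈ U) (h' : (T.j δ)⁻¹ * g ∈ U) {f : Mer}
    (hf : f ∈ T.K1 U) : T.act γ f = T.act δ f := by
  have : δ⁻¹ * γ ∈ T.Gam U 1 := mem_Gam1.2 (by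
    convert mul_mem h' (inv_mem h) using 1
    rw [map_mul, map_inv]
    group)
  rw [← mul_inv_cancel_left δ γ, act_mul, T.mem_KF.1 hf _ this]

variable (T) in
/-- in level `U` the point `τ` of the conjugate tower lies over the point `τ₀` -/
def Sp (e : Mer → Mer) (U : Subgroup G) (τ τ₀ : ℍ) : Prop := ∀ f ∈ T.K1 U, od τ (e f) = od τ₀ f

variable (T) in
/-- `g` acts through `h` -/
def InG (e : Mer → Mer) (h : GP) (g : G) : Prop := ∀ U ∈ T.Lev, ∃ γ, (T.j γ)⁻¹ * g ∈ U ∧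
  ∀ f ∈ T.K1 U, e (T.act γ f) = actM h (e f)

variable {σ : ℂ ≃+* ℂ} {e : Mer → Mer}

theorem InG.all {h : GP} {g : G} (p : T.InG e h g) (hU : U ∈ T.Lev) {γ : G0}
    (hγ : (T.j γ)⁻¹ * g ∈ U) {f : Mer} (hf : f ∈ T.K1 U) : e (T.act γ f) = actM h (e f) := by
  obtain ⟨δ, h1, h2⟩ := p U hU
  rw [act_congr hγ h1 hf, h2 f hf]

theorem InG.fix {h : GP} {g : G} (p : T.InG e h g) (hU : U ∈ T.Lev) (hg : g ∈ U) {f : Mer}
    (hf : f ∈ T.K1 U) : actM h (e f) = e f := by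
  rw [← p.all hU (γ := 1) (by simpa using hg) hf, act_one]

/-- the ring homomorphism in level `U` -/
def Unf.hom (u : T.Unf σ e) (hU : U ∈ T.Lev) : T.K1 U →+* Mer where
  toFun f := e f
  map_one' := by simpa using u.cst 1
  map_zero' := by simpa using u.cst 0
  map_mul' f g := u.mul U hU _ f.2 _ g.2
  map_add' f g := u.add U hU _ f.2 _ g.2

theorem Unf.sub (u : T.Unf σ e) (hU : U ∈ T.Lev) {f g : Mer} (hf : f ∈ T.K1 U) (hg : g ∈ T.K1 U) :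
    e (f - g) = e f - e g := map_sub (u.hom hU) ⟨f, hf⟩ ⟨g, hg⟩

theorem Unf.inv (u : T.Unf σ e) (hU : U ∈ T.Lev) {f : Mer} (hf : f ∈ T.K1 U) :
    e f⁻¹ = (e f)⁻¹ := map_inv₀ (u.hom hU) ⟨f, hf⟩

theorem Unf.eq_zero (u : T.Unf σ e) (hU : U ∈ T.Lev) {f : Mer} (hf : f ∈ T.K1 U) :
    e f = 0 ↔ f = 0 :=
  (map_eq_zero (u.hom hU) (a := ⟨f, hf⟩)).trans Subtype.ext_iff

theorem Unf.inj (u : T.Unf σ e) (ok : T.Ok) (hU : U ∈ T.Lev) (hV : V ∈ T.Lev) {f g : Mer}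
    (hf : f ∈ T.K1 U) (hg : g ∈ T.K1 V) (h : e f = e g) : f = g :=
  congrArg Subtype.val ((u.hom (ok.inf U hU V hV)).injective (a₁ := ⟨f, KU_anti inf_le_left hf⟩)
    (a₂ := ⟨g, KU_anti inf_le_right hg⟩) h)

theorem Unf.isOrd (u : T.Unf σ e) (hU : U ∈ T.Lev) (n : T.Neat U) (τ : ℍ) :
    IsOrd ((pl τ).comap (u.hom hU)) fun f => od τ (e f) where
  zero := by
    show od τ (u.hom hU 0) = 0
    rw [map_zero, od_zero]
  mul x y hx hy := by
    show od τ (u.hom hU (x * y)) = od τ (u.hom hU x) + od τ (u.hom hU y)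
    rw [map_mul, od_mul τ ((map_ne_zero _).2 hx) ((map_ne_zero _).2 hy)]
  add x y hx hy h := by
    show min (od τ (u.hom hU x)) (od τ (u.hom hU y)) ≤ od τ (u.hom hU (x + y))
    rw [map_add]
    exact od_add τ ((map_ne_zero _).2 hx) ((map_ne_zero _).2 hy) (map_add (u.hom hU) x y ▸
      (map_ne_zero _).2 h)
  mem x := by
    show Reg τ (u.hom hU x) ↔ _
    rw [reg_iff, map_eq_zero]
    rfl
  one := by
    obtain ⟨f, hf, h⟩ := u.unr U hU n τ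
    exact ⟨⟨f, hf⟩, (mord_iff.1 h).2⟩

theorem Sp.mval (u : T.Unf σ e) (hU : U ∈ T.Lev) {τ a : ℍ} (s : T.Sp e U τ a) {f : Mer}
    (hf : f ∈ T.K1 U) (c : ℂ) : MVal τ (e f) (σ c) ↔ MVal a f c := by
  have m := (T.K1 U).algebraMap_mem c
  rw [mval_od, mval_od, ← u.cst, ← u.sub hU hf m, u.eq_zero hU (sub_mem hf m), s _ (sub_mem hf m)]

theorem Sp.mono {τ a : ℍ} (s : T.Sp e V τ a) (le : V ≤ U) : T.Sp e U τ a :=
  fun f hf => s f (KU_anti le hf)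

variable (u : T.Unf σ e) (ok : T.Ok) (hU : U ∈ T.Lev) (n : T.Neat U)

include u ok hU n

theorem Unf.plc (τ : ℍ) : ∃ a, T.Sp e U τ a := by
  obtain ⟨_, pt, h1, h2⟩ := (ok.fu U hU 1).pts (n 1)
  have o := u.isOrd hU n τ
  let P : Plk ℂ (T.K1 U) := ⟨(pl τ).comap (u.hom hU), fun c => by
    show Reg τ (e (algebraMap ℂ Mer c))
    rw [u.cst]
    exact reg_const τ _, fun h => by
      obtain ⟨π, h3⟩ := o.one
      have h4 := (o.mem π⁻¹).1 (h ▸ ValuationSubring.mem_top _)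
      rw [IntermediateField.coe_inv, u.inv hU π.2, od_inv, inv_eq_zero] at h4
      rcases h4 with h4 | h4
      · rw [h4, o.zero] at h3
        exact zero_ne_one h3
      · omega⟩
  obtain ⟨a, ha⟩ := h1 P
  exact ⟨a, fun f hf => by
    rw [← h2 a ⟨f, hf⟩, ha]
    exact congrFun (o.unique (ord_spec P)) ⟨f, hf⟩⟩

theorem Unf.od_eq {z z' : ℍ} (h : ∀ f ∈ T.K1 U, ∀ c, MVal z (e f) c ↔ MVal z' (e f) c) {f : Mer}
    (hf : f ∈ T.K1 U) : od z (e f) = od z' (e f) := by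
  have k : (pl z).comap (u.hom hU) = (pl z').comap (u.hom hU) := ValuationSubring.ext _ _ fun f =>
    ⟨fun r => (mval_iff.1 ((h f f.2 _).1 (mval_iff.2 ⟨r, rfl⟩))).1,
      fun r => (mval_iff.1 ((h f f.2 _).2 (mval_iff.2 ⟨r, rfl⟩))).1⟩
  exact congrFun ((u.isOrd hU n z).unique (k ▸ u.isOrd hU n z')) ⟨f, hf⟩

/-- every point has a point above it in a fixed compact set -/
theorem Unf.cpt : ∃ C : Set ℍ, IsCompact C ∧ ∀ a, ∃ τ ∈ C, T.Sp e U τ a := by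
  obtain ⟨C, hC, h⟩ := u.cc U hU n
  refine ⟨C, hC, fun a => ?_⟩
  obtain ⟨_, pt, -, h2⟩ := (ok.fu U hU 1).pts (n 1)
  obtain ⟨y, h3, h4⟩ := ex_pole (pt a)
  by_contra hn
  have r : ∀ z, Reg z (e y) := fun z => by
    obtain ⟨z', hz, k⟩ := h z
    obtain ⟨b, hb⟩ := u.plc ok hU n z'
    have := h4 (pt b) fun q => hn ⟨z', hz, fun f hf => by
      rw [hb f hf, ← h2 b ⟨f, hf⟩, q, h2]⟩
    rw [mem_iff_ord, h2] at this
    rw [reg_iff, u.od_eq ok hU n k y.2, hb y y.2, u.eq_zero hU y.2]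
    exact this.imp (fun q => congrArg Subtype.val q) id
  obtain ⟨c, hc⟩ := liou r hC fun z => (h z).imp fun z' k =>
    ⟨k.1, (mval_iff.1 ((k.2 y y.2 _).1 (mval_iff.2 ⟨r z, rfl⟩))).2.symm⟩
  refine h3 (σ.symm c) (Subtype.ext (u.inj ok hU hU y.2 ((T.K1 U).algebraMap_mem _) ?_))
  exact hc.trans (by rw [← σ.apply_symm_apply c, ← u.cst, σ.symm_apply_apply]; rfl)

theorem Unf.fin (a : ℍ) {K : Set ℍ} (hK : IsCompact K) : {τ ∈ K | T.Sp e U τ a}.Finite := by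
  obtain ⟨f, h1, h2⟩ := (ok.fu U hU 1).unif (n 1) a
  exact (fin_zero hK (e f)).subset fun τ h => ⟨h.1, by rw [h.2 f h1, h2]; exact one_pos⟩

omit ok in
theorem Unf.triv {h : GP} (h1 : ∀ f ∈ T.K1 U, actM h (e f) = e f) {τ : ℍ} (h2 : h • τ = τ)
    (z : ℍ) : h • z = z := by
  obtain ⟨f, hf, o⟩ := u.unr U hU n τ
  exact triv_of_unif h2 o (h1 f hf) z

theorem Unf.key1 {γ : G0} {τ τ' : ℍ} (h : ∀ f ∈ T.K1 U, od τ (e (T.act γ f)) = od τ' (e f)) :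
    ∃ h : GP, h • τ' = τ ∧ ∀ f ∈ T.K1 U, e (T.act γ f) = actM h (e f) :=
  u.key U hU n γ τ' τ fun f hf c => by
    have m := sub_mem hf ((T.K1 U).algebraMap_mem (σ.symm c))
    have hV := ok.conj U hU (T.j γ)
    have e1 : algebraMap ℂ Mer c = e (algebraMap ℂ Mer (σ.symm c)) := by
      rw [u.cst, RingEquiv.apply_symm_apply]
    have e2 : e (T.act γ f) - algebraMap ℂ Mer c =
        e (T.act γ (f - algebraMap ℂ Mer (σ.symm c))) := by
      rw [map_sub, AlgEquiv.commutes, u.sub hV (act_KU hf γ) ((T.K1 _).algebraMap_mem _), e1]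
    rw [mval_od, mval_od, e2, e1, ← u.sub hU hf ((T.K1 U).algebraMap_mem _), h _ m,
      u.eq_zero hU m, u.eq_zero hV (act_KU m γ), map_eq_zero]

theorem Unf.step (hW : W ∈ T.Lev) (le : W ≤ U) (nm : ∀ y ∈ W, ∀ v ∈ U, v⁻¹ * y * v ∈ W)
    {γ : G0} {τ τ' : ℍ} (h : ∀ f ∈ T.K1 U, od τ (e (T.act γ f)) = od τ' (e f)) :
    ∃ ν ∈ T.Gam U 1, ∀ f ∈ T.K1 W, od τ (e (T.act (γ * ν) f)) = od τ' (e f) := by
  obtain ⟨a, ha⟩ := u.plc ok hW (n.mono le) τ'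
  obtain ⟨b, hb⟩ := u.plc ok (ok.conj W hW (T.j γ)) ((n.mono le).cj _) τ
  obtain ⟨ν, h1, h2⟩ := (ok.fu U hU 1).orb (a := a) (b := T.r γ⁻¹ • b) fun f hf => by
    rw [← ha f (KU_anti le hf), ← h f hf, hb _ (act_KU (KU_anti le hf) γ), od_act']
  refine ⟨ν, h1, fun f hf => ?_⟩
  have m : T.act ν f ∈ T.K1 W := KU_anti (fun y hy => mem_cj.2 (nm y hy _ (mem_Gam1.1 h1)))
    (act_KU hf ν)
  rw [act_mul, hb _ (act_KU m γ), od_act', ← h2, od_act, ha f hf]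

/-- points over the same place differ by an element of the group of the conjugate tower -/
theorem Unf.keyI {γ : G0} {τ τ' : ℍ} (h : ∀ f ∈ T.K1 U, od τ (e (T.act γ f)) = od τ' (e f)) :
    ∃ v ∈ U, ∃ h : GP, h • τ' = τ ∧ T.InG e h (T.j γ * v) := by
  obtain ⟨w, w1, w2, w3⟩ := ok.seq
  let N : ℕ → Subgroup G := fun k => cor U (w k ⊓ U)
  have N1 : Antitone N := fun k l kl y hy => mem_cor.2 fun v hv =>
    ⟨w1 kl (mem_cor.1 hy v hv).1, (mem_cor.1 hy v hv).2⟩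
  have N2 : ∀ k, N k ∈ T.Lev := fun k => ok.cor hU (ok.inf _ (w2 k) U hU)
  have N3 : ∀ V ∈ T.Lev, ∃ k, N k ≤ V := fun V hV => (w3 V hV).imp fun k le =>
    ((cor_le _ _).trans inf_le_left).trans le
  have N4 : ∀ k, N k ≤ U := fun k => (cor_le _ _).trans inf_le_right
  let P : ℕ → G0 → Prop := fun k δ => ∀ f ∈ T.K1 (N k), od τ (e (T.act δ f)) = od τ' (e f)
  obtain ⟨ν, h1, h2⟩ := u.step ok hU n (N2 0) (N4 0) (fun y hy v hv => cor_conj hy hv) h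
  have step : ∀ k (y : {y // P k y}), ∃ y' : {y // P (k + 1) y},
      (T.j y.1)⁻¹ * T.j y'.1 ∈ N k := fun k y => by
    obtain ⟨μ, h3, h4⟩ := u.step ok (N2 k) (n.mono (N4 k)) (N2 (k + 1)) (N1 k.le_succ)
      (fun y hy v hv => cor_conj hy (N4 k hv)) y.2
    exact ⟨⟨_, h4⟩, by simpa using mem_Gam1.1 h3⟩
  choose nx hn using step
  let c : ∀ k, {y // P k y} := fun k => Nat.rec ⟨γ * ν, h2⟩ nx k
  obtain ⟨g, hg⟩ := ok.cpl N N1 N2 N3 (fun k => T.j (c k).1) fun k => hn k (c k)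
  have g1 : (T.j γ)⁻¹ * g ∈ U := by
    have : (T.j (γ * ν))⁻¹ * g ∈ U := N4 0 (hg 0)
    convert mul_mem (mem_Gam1.1 h1) this using 1
    rw [map_mul]
    group
  obtain ⟨h0, h3, h4⟩ := u.key1 ok hU n h
  refine ⟨_, g1, h0, h3, fun V hV => ?_⟩
  obtain ⟨k, le⟩ := N3 V hV
  obtain ⟨h', h5, h6⟩ := u.key1 ok (N2 k) (n.mono (N4 k)) (c k).2
  have t := u.triv hU n (h := h0⁻¹ * h') (fun f hf => by
    rw [actM_mul, ← h6 f (KU_anti (N4 k) hf), act_congr (N4 k (hg k)) g1 hf, h4 f hf, actM_inv])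
    (τ := τ') (by rw [mul_smul, h5, ← h3, inv_smul_smul])
  refine ⟨(c k).1, by simpa using le (hg k), fun f hf => ?_⟩
  rw [h6 f (KU_anti le hf), ← mul_inv_cancel_left h0 h', actM_mul, actM_triv t]

end Tw

end Vale.Agent.P022K.Sh
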