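import Vale.Agent.P022K.F0.StC

/-!
# P022K, block F0: the input of the last step of the uniformisation
-/

set_option autoImplicit false

open UpperHalfPlane

noncomputable section

namespace Vale.Agent.P022K.Sh.Tw

open Vale.Agent.P022 Vale.Agent.P022.H218.L3

variable {G0 G : Type} [Group G0] [Group G] (T : Tw G0 G)

/-- the function field of the component of `1` -/
abbrev K1 (U : Subgroup G) : IntermediateField ℂ Mer := T.KF (T.Gam U 1)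

/-- `ι` is a `σ`-semilinear uniformisation of the fields `K1 U` -/
structure Unf (σ : ℂ ≃+* ℂ) (ι : Mer → Mer) : Prop where
  add : ∀ U ∈ T.Lev, ∀ f ∈ T.K1 U, ∀ g ∈ T.K1 U, ι (f + g) = ι f + ι g
  mul : ∀ U ∈ T.Lev, ∀ f ∈ T.K1 U, ∀ g ∈ T.K1 U, ι (f * g) = ι f * ι g
  cst : ∀ c : ℂ, ι (algebraMap ℂ Mer c) = algebraMap ℂ Mer (σ c)
  unr : ∀ U ∈ T.Lev, T.Neat U → ∀ z : ℍ, ∃ f ∈ T.K1 U, MOrd z (ι f) 1
  key : ∀ U ∈ T.Lev, T.Neat U → ∀ (γ : G0) (z z' : ℍ),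
    (∀ f ∈ T.K1 U, ∀ c, MVal z (ι f) c ↔ MVal z' (ι (T.act γ f)) c) →
    ∃ h : GP, h • z = z' ∧ ∀ f ∈ T.K1 U, ι (T.act γ f) = actM h (ι f)
  cc : ∀ U ∈ T.Lev, T.Neat U → ∃ C : Set ℍ, IsCompact C ∧ ∀ z : ℍ, ∃ z' ∈ C,
    ∀ f ∈ T.K1 U, ∀ c, MVal z (ι f) c ↔ MVal z' (ι f) c

/-- **END**: the conjugate tower -/
def END : Prop := ∀ (σ : ℂ ≃+* ℂ) (ι : Mer → Mer), T.Unf σ ι →
  (∃ τ γ, T.r γ • τ = τ ∧ ∀ n : ℕ, 0 < n → T.mu γ τ ^ n ≠ 1) →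
  ∃ (G0' : Type) (_ : Group G0') (T' : Tw G0' G), T'.Ok ∧ ∃ θ, T.Is T' σ θ

end Vale.Agent.P022K.Sh.Tw
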