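import Vale.Agent.P022K.F0.StS
import Vale.Agent.P022K.F0.TorF

/-!
# P022K, block F0, row ETA: the local components of the quadratic character
-/

set_option linter.all false

open NumberField IsDedekindDomain WithZero Finset

noncomputable section

namespace Vale.Agent.P022K.Sh

open Tor
open Vale.Agent.P022.C (ordv)
open Vale.Agent.P027M.S.Cls (val_eq ordv_of ordv_mul)

namespace EtaP

/-- congruence subgroups -/
def cg {K : Type} [Field K] (ν : Valuation K ℤᵐ⁰) (c : ℤᵐ⁰) : Subgroup Kˣ where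
  carrier := {x | ν x = 1 ∧ ν ((x : K) - 1) ≤ c}
  mul_mem' {x y} hx hy := ⟨by rw [Units.val_mul, map_mul, hx.1, hy.1, one_mul], by
    rw [show ((x * y : Kˣ) : K) - 1 = x * (y - 1) + (x - 1) by push_cast; ring]
    exact Valuation.map_add_le _ (by rw [map_mul, hx.1, one_mul]; exact hy.2) hx.2⟩
  one_mem' := by simp
  inv_mem' {x} hx := ⟨by rw [Units.val_inv_eq_inv_val, map_inv₀, hx.1, inv_one], by
    rw [show ((x⁻¹ : Kˣ) : K) - 1 = -(x : K)⁻¹ * (x - 1) by
      rw [Units.val_inv_eq_inv_val]; field_simp; ring, map_mul, Valuation.map_neg, map_inv₀, hx.1,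
      inv_one, one_mul]
    exact hx.2⟩

theorem mem_cg {K : Type} [Field K] {ν : Valuation K ℤᵐ⁰} {c : ℤᵐ⁰} (hc : c < 1) {x y : Kˣ}
    (h : ν ((y : K) - x) ≤ c * ν x) : x⁻¹ * y ∈ cg ν c := by
  have x0 : ν x ≠ 0 := (Valuation.ne_zero_iff _).2 x.ne_zero
  have e : ν (((x⁻¹ * y : Kˣ) : K) - 1) ≤ c := by
    rw [show ((x⁻¹ * y : Kˣ) : K) - 1 = (y - x) / x by
      rw [Units.val_mul, Units.val_inv_eq_inv_val]; field_simp, map_div₀]
    exact (div_le_iff₀ (zero_lt_iff.2 x0)).2 h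
  refine ⟨?_, e⟩
  have := Valuation.map_one_add_of_lt _ (e.trans_lt hc)
  rwa [add_sub_cancel] at this

variable {F E : Type} [Field F] [NumberField F] [Field E] [NumberField E] [Algebra F E]
  (C : CM F E) {Ψ : Pl E → ℂˣ}

/-- the embedding in the completion -/
abbrev al (w : Pl F) : Fˣ →* (Fw w)ˣ := Units.map (algebraMap F (Fw w) : F →* Fw w)

theorem vD (w : Pl F) : vw w (C.D : Fw w) = w.valuation F (C.D : F) := by
  rw [← map_natCast (algebraMap F (Fw w))]
  exact val_comp w _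

theorem vD0 (w : Pl F) : w.valuation F (C.D : F) ≠ 0 :=
  (Valuation.ne_zero_iff _).2 (Nat.cast_ne_zero.2 C.D0)

theorem vD1 (w : Pl F) : w.valuation F (C.D : F) ≤ 1 := by exact_mod_cast val_le w (C.D : 𝓞 F)

variable {C} in
theorem vDlt {w : Pl F} (h : (C.D : 𝓞 F) ∈ w.asIdeal) : w.valuation F (C.D : F) < 1 := by
  exact_mod_cast (mem_iff w _).1 h

theorem apx (w : Pl F) (x : Fw w) (y : F) {b : ℤᵐ⁰} (hb : b ≠ 0) : ∃ l : F,
    vw w (algebraMap F (Fw w) l - x) < b ∧ ∀ v : Pl F, v ≠ w → (C.D : 𝓞 F) ∈ v.asIdeal →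
      v.valuation F (l - y) < v.valuation F (C.D : F) := by
  classical
  obtain ⟨z, hz⟩ := dense_val w x hb
  obtain ⟨l, hl⟩ := crt1 ((fin_nat (E := F) C.D0).insert w) (fun v => if v = w then z else y)
    (fun v => if v = w then b else v.valuation F (C.D : F)) fun v => by
      split_ifs
      exacts [hb, vD0 C v]
  refine ⟨l, ?_, fun v a k => ?_⟩
  · have := hl w (Set.mem_insert _ _)
    rw [if_pos rfl, if_pos rfl, ← val_comp, map_sub] at this
    rw [← sub_add_sub_cancel _ (algebraMap F (Fw w) z)]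
    exact Valuation.map_add_lt _ this hz
  · have := hl v (Set.mem_insert_of_mem _ k)
    rwa [if_neg a, if_neg a] at this

/-- the elements which are `≡ 1` at the other places -/
def A (w : Pl F) : Subgroup Fˣ :=
  ⨅ (v : Pl F) (_ : v ≠ w) (_ : (C.D : 𝓞 F) ∈ v.asIdeal), cg (v.valuation F) (v.valuation F C.D)

variable {C} in
theorem mem_A {w : Pl F} {l : Fˣ} : l ∈ A C w ↔ ∀ v : Pl F, v ≠ w → (C.D : 𝓞 F) ∈ v.asIdeal →
    v.valuation F ((l : F) - 1) ≤ v.valuation F (C.D : F) := by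
  simp only [A, Subgroup.mem_iInf]
  exact ⟨fun h v a b => (h v a b).2, fun h v a b => ⟨val_of_cong b (h v a b), h v a b⟩⟩

/-- `l` is a global approximation of `x` -/
def Cl (w : Pl F) (l : Fˣ) (x : (Fw w)ˣ) : Prop := l ∈ A C w ∧
  vw w (algebraMap F (Fw w) l - x) < w.valuation F (C.D : F) * vw w x

theorem cl_of {w : Pl F} {l : F} {x : (Fw w)ˣ}
    (h : vw w (algebraMap F (Fw w) l - x) < w.valuation F (C.D : F) * vw w x) :
    l ≠ 0 ∧ ordv w l = ow (x : Fw w) := by
  have := Valuation.map_add_eq_of_lt_right _ (h.trans_le (mul_le_of_le_one_left' (vD1 C w)))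
  rw [sub_add_cancel, val_comp] at this
  refine ⟨fun k => ?_, by rw [ordv, this, ow]⟩
  rw [k, map_zero, eq_comm, Valuation.zero_iff] at this
  exact x.ne_zero this

theorem b0 (w : Pl F) (x : (Fw w)ˣ) : w.valuation F (C.D : F) * vw w x ≠ 0 :=
  mul_ne_zero (vD0 C w) ((Valuation.ne_zero_iff _).2 x.ne_zero)

theorem exists_cl (w : Pl F) (x : (Fw w)ˣ) : ∃ l, Cl C w l x := by
  obtain ⟨l, h1, h2⟩ := apx C w x 1 (b0 C w x)
  exact ⟨Units.mk0 l (cl_of C h1).1, mem_A.2 fun v a b => (h2 v a b).le, h1⟩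

theorem exists_nm (w : Pl F) (x : (Fw w)ˣ) (s t : Fw w)
    (e : (x : Fw w) = s ^ 2 - algebraMap _ _ C.a * t ^ 2) :
    ∃ (l : Fˣ) (s' t' : F), (l : F) = s' ^ 2 - C.a * t' ^ 2 ∧ Cl C w l x := by
  obtain ⟨m, m1, m2, m3⟩ : ∃ m : ℤᵐ⁰, 1 ≤ m ∧ vw w s ≤ m ∧ vw w t ≤ m :=
    ⟨max 1 (max (vw w s) (vw w t)), le_max_left _ _, (le_max_left _ _).trans (le_max_right _ _),
      (le_max_right _ _).trans (le_max_right _ _)⟩
  have m0 : 0 < m := zero_lt_one.trans_le m1
  have hb : min 1 (w.valuation F (C.D : F) * vw w x / m) ≠ 0 :=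
    (lt_min zero_lt_one (div_pos (zero_lt_iff.2 (b0 C w x)) m0)).ne'
  obtain ⟨s', s1, s2⟩ := apx C w s 1 hb
  obtain ⟨t', t1, t2⟩ := apx C w t 0 hb
  have k : ∀ a b : Fw w, vw w (a - b) < min 1 (w.valuation F (C.D : F) * vw w x / m) →
      vw w b ≤ m → vw w (a ^ 2 - b ^ 2) < w.valuation F (C.D : F) * vw w x := fun a b h1 h2 => by
    rw [show a ^ 2 - b ^ 2 = (a - b) * (a - b + b + b) by ring, map_mul]
    exact (mul_le_mul_right (Valuation.map_add_le _ (Valuation.map_add_le _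
      ((h1.trans_le (min_le_left _ _)).le.trans m1) h2) h2) _).trans_lt
      ((lt_div_iff₀ m0).1 (h1.trans_le (min_le_right _ _)))
  have h : vw w (algebraMap F (Fw w) (s' ^ 2 - C.a * t' ^ 2) - x) <
      w.valuation F (C.D : F) * vw w x := by
    have a : algebraMap (𝓞 F) (Fw w) C.a = algebraMap F (Fw w) C.a := rfl
    rw [show algebraMap F (Fw w) (s' ^ 2 - C.a * t' ^ 2) - x =
      (algebraMap F (Fw w) s' ^ 2 - s ^ 2) - algebraMap F (Fw w) C.a *
        (algebraMap F (Fw w) t' ^ 2 - t ^ 2) by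
      rw [e, a, map_sub, map_mul, map_pow, map_pow]; ring]
    refine Valuation.map_sub_lt _ (k _ _ s1 m2) ?_
    rw [map_mul, val_comp]
    exact (mul_le_of_le_one_left' (val_le w C.a)).trans_lt (k _ _ t1 m3)
  refine ⟨Units.mk0 _ (cl_of C h).1, s', t', rfl, mem_A.2 fun v a b => ?_, h⟩
  have s3 := (s2 v a b).le
  have t3 := (t2 v a b).le
  rw [sub_zero] at t3
  rw [show ((Units.mk0 _ (cl_of C h).1 : Fˣ) : F) - 1 =
    (s' - 1) * (s' - 1 + 1 + 1) - C.a * t' * t' by rw [Units.val_mk0]; ring]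
  refine Valuation.map_sub_le _ ?_ ?_ <;> rw [map_mul]
  · exact (mul_le_of_le_one_right' (Valuation.map_add_le _ (Valuation.map_add_le _
      (s3.trans (vD1 C v)) (map_one _).le) (map_one _).le)).trans s3
  · refine (mul_le_of_le_one_left' ?_).trans t3
    rw [map_mul]
    exact mul_le_one' (val_le v C.a) (t3.trans (vD1 C v))

theorem exists_eta (hΨ : C.Hk Ψ) {w : Pl F} (h : (C.D : 𝓞 F) ∈ w.asIdeal) :
    ∃ η : (Fw w)ˣ →* ℂˣ, (∀ x ∈ cg (vw w) (w.valuation F C.D), η x = 1) ∧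
      ∀ l x, Cl C w l x → (η x : ℂ) * (qw w : ℂ) ^ ow (x : Fw w) = C.rho Ψ l := by
  let o : Fˣ →* ℂˣ := MonoidHom.mk' (fun l => qU w ^ ordv w (l : F)) fun a b => by
    rw [Units.val_mul, ordv_mul w a.ne_zero b.ne_zero, zpow_add]
  obtain ⟨θ, hθ⟩ := ext_char (A := A C w) (B := (Fw w)ˣ ⧸ cg (vw w) (w.valuation F C.D))
    ((QuotientGroup.mk' _).comp ((al w).comp (A C w).subtype))
    ((C.rhoU Ψ / o).comp (A C w).subtype) fun l k => by
      obtain ⟨k1, k2⟩ := (QuotientGroup.eq_one_iff _).1 k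
      replace k1 : w.valuation F (l.1 : F) = 1 := (val_comp w _).symm.trans k1
      replace k2 : w.valuation F ((l.1 : F) - 1) ≤ w.valuation F (C.D : F) := by
        rw [← val_comp, map_sub, map_one]
        exact k2
      refine div_eq_one.2 (Units.ext ?_)
      refine (C.rho_one hΨ l.1.ne_zero fun v b => ?_).trans ?_
      · by_cases a : v = w
        · rw [a]; exact k2
        · exact mem_A.1 l.2 v a b
      · simp only [o, MonoidHom.mk'_apply, Subgroup.subtype_apply, ordv_one k1, zpow_zero,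
          Units.val_one]
  refine ⟨θ.comp (QuotientGroup.mk' _), fun x k => by
    rw [MonoidHom.comp_apply, QuotientGroup.mk'_apply, (QuotientGroup.eq_one_iff _).2 k, map_one],
    fun l x k => ?_⟩
  have e : θ (x : (Fw w)ˣ ⧸ cg (vw w) (w.valuation F C.D)) = C.rhoU Ψ l / qU w ^ ordv w (l : F) :=
    (congrArg θ (QuotientGroup.eq.2 (mem_cg (vDlt h) (y := al w l) k.2.le))).trans (hθ ⟨l, k.1⟩)
  rw [MonoidHom.comp_apply, QuotientGroup.mk'_apply, e, (cl_of C k.2).2, Units.val_div_eq_div_val,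
    Units.val_zpow_eq_zpow_val]
  exact div_mul_cancel₀ _ (zpow_ne_zero _ (nr_ne w))

theorem kap_sg (h : Kp C Ψ) {w : Pl F} (k : (C.D : 𝓞 F) ∉ w.asIdeal) :
    kap Ψ w = qU w * C.sg w := Units.ext (by
  rw [h w k, CM.sg]
  by_cases g : C.Gd w <;> simp [g, k, qU])

theorem off_sg (h : Kp C Ψ) : off C.D (kap Ψ) = off C.D qU * C.sg := funext fun w => by
  rw [Pi.mul_apply, off, off]
  split_ifs with k
  · rw [CM.sg, if_pos (Or.inl k), one_mul]
  · exact kap_sg C h k

theorem rho_A (h : Kp C Ψ) {w : Pl F} (k : (C.D : 𝓞 F) ∈ w.asIdeal) {l : Fˣ} (a : l ∈ A C w) :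
    C.rho Ψ l = (SignType.sign (Algebra.norm ℚ (l : F)) : ℚ) * pv C.sg (l : F) *
      (qw w : ℂ) ^ ordv w (l : F) := by
  rw [C.rho_sg (off_sg C h) l.ne_zero, pv_at (on C.D qU) w fun v b => ?_, on, if_pos k,
    Units.val_zpow_eq_zpow_val]
  · rfl
  · by_cases c : (C.D : 𝓞 F) ∈ v.asIdeal
    · exact Or.inr (ordv_one (val_of_cong c (mem_A.1 a v b c)))
    · exact Or.inl (if_neg c)

/-- unramified characters -/
def ur (w : Pl F) (z : ℂˣ) : (Fw w)ˣ →* ℂˣ := MonoidHom.mk' (fun x => z ^ ow (x : Fw w)) fun a b => by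
  rw [← zpow_add, ow, ow, ow, Units.val_mul, map_mul, log_mul
    ((Valuation.ne_zero_iff _).2 a.ne_zero) ((Valuation.ne_zero_iff _).2 b.ne_zero), neg_add]

theorem ap_al {w : Pl F} (η : (Fw w)ˣ →* ℂˣ) (t : Fˣ) :
    QD.ap η (algebraMap F (Fw w) t) = η (al w t) := by
  unfold QD.ap
  rw [dif_neg (show algebraMap F (Fw w) t ≠ 0 from (al w t).ne_zero)]
  exact congrArg (fun u => (η u : ℂ)) (Units.ext rfl)

theorem ow_al (w : Pl F) (t : Fˣ) : ow ((al w t : (Fw w)ˣ) : Fw w) = ordv w (t : F) :=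
  congrArg (fun z => -log z) (val_comp w _)

end EtaP

open EtaP

theorem eta : ETA := by
  classical
  intro F E _ _ _ _ _ X C Ψ hΨ hK
  choose η0 η1 η2 using fun w : Pl F => exists_eta C hΨ (w := w)
  let η : ∀ w : Pl F, (Fw w)ˣ →* ℂˣ := fun w =>
    if h : (C.D : 𝓞 F) ∈ w.asIdeal then η0 w h else ur w (C.sg w)
  have e1 : ∀ {w : Pl F} (h : (C.D : 𝓞 F) ∈ w.asIdeal), η w = η0 w h := fun h => dif_pos h
  have e2 : ∀ {w : Pl F}, (C.D : 𝓞 F) ∉ w.asIdeal → ∀ x, η w x = C.sg w ^ ow (x : Fw w) :=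
    fun {w} h x => by rw [show η w = _ from dif_neg h]; rfl
  have e3 : ∀ {w : Pl F} (h : (C.D : 𝓞 F) ∈ w.asIdeal) l x, Cl C w l x → (η w x : ℂ) =
      (SignType.sign (Algebra.norm ℚ (l : F)) : ℚ) * pv C.sg (l : F) := fun {w} h l x k => by
    have := η2 w h l x k
    rw [rho_A C hK h k.1, (cl_of C k.2).2] at this
    rw [e1 h]
    exact mul_right_cancel₀ (zpow_ne_zero _ (nr_ne w)) this
  let S := (fin_nat (E := F) C.D0).toFinset
  have hS : ∀ w, w ∈ S ↔ (C.D : 𝓞 F) ∈ w.asIdeal := fun w => Set.Finite.mem_toFinset _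
  have pf : ∀ t : Fˣ, C.rho Ψ t = ∏ w ∈ S, η w (al w t) * (qw w : ℂ) ^ ordv w (t : F) := fun t => by
    choose l hl using fun w => exists_cl C w (al w t)
    have r1 : C.rhoU Ψ (t⁻¹ * ∏ w ∈ S, l w) = 1 := Units.ext
      (C.rho_one hΨ (Units.ne_zero _) fun v k => by
        refine (show _ ∈ cg (v.valuation F) (v.valuation F C.D) from ?_).2
        rw [← mul_prod_erase _ _ ((hS v).2 k), ← mul_assoc]
        refine mul_mem (mem_cg (vDlt k) ?_) (prod_mem fun w hw => ?_)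
        · have := (hl v).2.le
          rwa [← val_comp v (t : F), ← val_comp v (_ - _), map_sub]
        · have := mem_A.1 (hl w).1 v (ne_of_mem_erase hw).symm k
          exact ⟨val_of_cong k this, this⟩)
    rw [map_mul, map_inv, inv_mul_eq_one, map_prod] at r1
    refine (congrArg Units.val r1).trans ((Units.coe_prod _ _).trans
      (prod_congr rfl fun w hw => ?_))
    rw [e1 ((hS w).1 hw), ← ow_al]
    exact (η2 w _ _ _ (hl w)).symm
  refine ⟨η, ⟨fun w x => ?_, fun w h x => ?_, fun w x s t e => ?_, fun w x a b => ?_,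
    fun t ht => ?_, fun t ht => ?_⟩, fun w κ h k x => ?_⟩
  · by_cases h : (C.D : 𝓞 F) ∈ w.asIdeal
    · obtain ⟨l, k⟩ := exists_cl C w x
      have a := congrArg Units.val (C.pv_sg l.ne_zero)
      have b := Algebra.norm_ne_zero_iff (R := ℚ).2 l.ne_zero
      refine Units.ext ?_
      rw [Units.val_pow_eq_pow_val, e3 h l x k, mul_pow, sq (pv _ _ : ℂˣ).val, ← Units.val_mul, a]
      rcases lt_or_gt_of_ne b with c | c <;> simp [sign_neg, sign_pos, c]
    · rw [e2 h, sq, ← mul_zpow, C.sg_sq, one_zpow]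
  · rw [e2 h, kap_sg C hK h, Units.val_mul, Units.val_zpow_eq_zpow_val]
    exact congrArg (· ^ _) (mul_div_cancel_left₀ _ (nr_ne w)).symm
  · obtain ⟨l, s', t', a, k⟩ := exists_nm C w x s t e
    have l0 := l.ne_zero
    rw [a] at l0
    by_cases h : (C.D : 𝓞 F) ∈ w.asIdeal
    · refine Units.ext ?_
      rw [e3 h l x k, a, sign_pos (C.norm_pos (C.nm_pos l0)),
        show pv C.sg _ = 1 from finprod_eq_one_of_forall_eq_one (C.sg_nm l0)]
      simp
    · rw [e2 h, ← (cl_of C k.2).2, a, C.sg_nm l0]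
  · have c : vw w (x : Fw w) = 1 := by
      have := Valuation.map_one_add_of_lt _ a
      rwa [add_sub_cancel] at this
    by_cases h : (C.D : 𝓞 F) ∈ w.asIdeal
    · rw [e1 h]
      exact η1 w h x ⟨c, b.trans_eq (vD C w)⟩
    · rw [e2 h, ow, c, log_one, neg_zero, zpow_zero]
  · rw [fp_S (S := S) (fun v => (hS v).1) fun v a b => absurd ((hS v).2 a) b]
    exact (pf (Units.mk0 t ht)).trans (prod_congr rfl fun w _ => by
      rw [← ap_al]; rfl)
  · have n := C.norm_pos ht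
    have t0 : t ≠ 0 := Algebra.norm_ne_zero_iff.1 n.ne'
    obtain ⟨t, rfl⟩ : ∃ u : Fˣ, (u : F) = t := ⟨Units.mk0 t t0, rfl⟩
    have a := pf t
    have b : (pv (on C.D qU) (t : F) : ℂ) = ∏ w ∈ S, (qw w : ℂ) ^ ordv w (t : F) := by
      rw [pv, finprod_eq_prod_of_mulSupport_subset (s := S) _ fun v k => by_contra fun c =>
        k (by simp only [on, if_neg fun d => c (mem_coe.2 ((hS v).2 d)), one_zpow]),
        Units.coe_prod]
      exact prod_congr rfl fun w hw => by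
        rw [on, if_pos ((hS w).1 hw), Units.val_zpow_eq_zpow_val]; rfl
    rw [C.rho_sg (off_sg C hK) t0, sign_pos n, prod_mul_distrib, ← b, ← Units.coe_prod] at a
    have c : pv C.sg (t : F) = ∏ w ∈ S, η w (al w t) := Units.ext (by
      simpa using mul_right_cancel₀ (Units.ne_zero _) a)
    have d : ∀ w, η w (al w t) = (if w ∈ S then η w (al w t) else 1) * C.sg w ^ ordv w (t : F) :=
      fun w => by
      split_ifs with h
      · rw [CM.sg, if_pos (Or.inl ((hS w).1 h)), one_zpow, mul_one]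
      · rw [e2 fun k => h ((hS w).2 k), ow_al, one_mul]
    have f : Function.mulSupport (fun w => if w ∈ S then η w (al w t) else 1) ⊆ S :=
      fun w k => by_contra fun c => k (if_neg c)
    have g := finprod_mul_distrib (S.finite_toSet.subset f) (pv_fin C.sg t0)
    rw [finprod_eq_prod_of_mulSupport_subset _ f, prod_congr rfl fun w h => if_pos h, ← c,
      ← finprod_congr d] at g
    simp only [ap_al]
    have h := (Units.coeHom ℂ).map_finprod_of_injective Units.val_injective fun w => η w (al w t)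
    rw [g] at h
    exact h.symm.trans (congrArg Units.val (C.pv_sg t0))
  · obtain ⟨l, a⟩ := exists_cl C w x
    have := η2 w h l x a
    rw [k l l.ne_zero (mem_A.1 a.1), (cl_of C a.2).2] at this
    rw [e1 h, div_zpow, eq_div_iff (zpow_ne_zero _ (nr_ne w)), this]

end Vale.Agent.P022K.Sh
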