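import Vale.Agent.P022K.F0.Prd
import Vale.Agent.P022K.F0.Hec

/-!
# P022K, block F0: the rows HKT and ETG (helper80)
-/

set_option autoImplicit false

open NumberField IsDedekindDomain
open scoped MatrixGroups

noncomputable section

namespace Vale.Agent.P022K.Sh

open Vale.Agent.P022K.F0 Tor Orb Dc Prd

/-- **HKT** -/
theorem hkt : HKT := by
  classical
  intro F _ _ X w h
  obtain ⟨s, ω, hs⟩ := ex_std' h
  obtain ⟨p, hp⟩ := P011.H519.exists_unif F w
  have cp : LocA.Cp (Oc w) (RingEquiv.refl (Fw w)) :=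
    ⟨Subtype.val_injective, fun x => ⟨fun h => ⟨⟨x, h⟩, rfl⟩, fun ⟨o, e⟩ => by
      rw [show x = o from e.symm]; exact o.2⟩⟩
  obtain ⟨L, hL, hϖ, hπ⟩ := X.loc.1 (Oc w) (Fw w) w (RingEquiv.refl _) s.toRingEquiv p cp.inj
    ((IsDiscreteValuationRing.irreducible_iff_uniformizer p).2 (LocA.max_eq hp)) cp.int
    fun c => s.commutes c
  have hV : Vd (Oc w) (vw w) L.ϖ := ⟨cp.inj, cp.int, hϖ ▸ hp, cp.fin⟩
  have eπ : ∀ x, Units.mapEquiv s.toMulEquiv (X.cu w x) = L.π x := fun x => Units.ext (hπ x).symm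
  generalize Units.mapEquiv s.toMulEquiv = σ at hs eπ
  have := L.fin
  have := Fintype.ofFinite (IsLocalRing.ResidueField (Oc w))
  have r := L.rep_loc
  rw [hV.ZK_eq, ← TV_eq hV.uni] at r
  have key : ∀ k ∈ X.U0 w, ∀ z ∈ X.Tq w, k * z ∈ X.Tq w ∧ z * k ∈ X.Tq w := fun k hk z hz => by
    rw [hs.Q, hs.Q, map_mul, map_mul]
    exact (TV_mul ((hs.Q z).1 hz) ((hs.U k).1 hk)).symm
  refine ⟨fun f => ⟨fun u hu x => ?_, fun x u hu => ?_, ?_⟩, ?_, L, hL, fun V hU e => ?_⟩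
  · simp only [QD.fT, Finset.mem_singleton, if_true]
    exact if_congr ⟨fun k => by simpa using (key _ (inv_mem hu) _ k).1,
      fun k => (key _ hu _ k).1⟩ rfl rfl
  · simp only [QD.fT, Finset.mem_singleton, if_true]
    exact if_congr ⟨fun k => by simpa using (key _ (inv_mem hu) _ k).2,
      fun k => (key _ hu _ k).2⟩ rfl rfl
  · refine (Set.finite_range fun i => ((σ.symm (L.tr i) : (X.Dw w)ˣ) : _ ⧸ X.U0 w)).subset
      fun c hc => ?_
    obtain ⟨i, -, k⟩ := r.sur _ ((hs.Q c.out).1 (by simpa [QD.fT] using hc))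
    exact ⟨i, (QuotientGroup.eq.2 ((hs.U _).2 (by simpa using k))).trans c.out_eq'⟩
  · rintro u ⟨c, -, k⟩
    have c0 : c ≠ 0 := fun e => by
      rw [e, zero_smul, nrd_eq, Fuj.nrd_zero, map_zero] at k
      exact WithZero.exp_ne_zero k.symm
    rw [nrd_eq, Fuj.nrd_smul, ← nrd_eq, map_mul, map_pow, v_od c0, v_od (nrd_ne u),
      ← WithZero.exp_nsmul, ← WithZero.exp_add, WithZero.exp_inj] at k
    exact ⟨-od (vw w) c, by
      show od (vw w) _ = _
      simp only [nsmul_eq_mul, Nat.cast_ofNat] at k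
      omega⟩
  have ne : ∀ g v, v ≠ w → X.cu v (L.ι g) = 1 := fun g v hv => by
    obtain ⟨-, -, -, -, -, h2⟩ := hL
    exact Units.ext (h2 g v hv)
  have mem : ∀ x, x ∈ X.PU V ↔ (∀ v, v ≠ w → X.cu v x ∈ V v) ∧ L.π x ∈ ZV (vw w) := fun x => by
    rw [mem_PU, ← eπ, ← hs.U, ← e]
    exact ⟨fun k => ⟨fun v _ => k v, k w⟩, fun k v => if m : v = w then m ▸ k.2 else k.1 v m⟩
  have At : L.At (KK (Oc w) (Fw w)) (X.PU V) :=
    ⟨fun g k => (mem _).2 ⟨fun v m => ne g v m ▸ one_mem _, by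
      rw [L.πι, ← hV.ZK_eq]; exact Subgroup.mem_sup_left k⟩,
      fun u k => hV.ZK_eq ▸ ((mem u).1 k).2⟩
  refine ⟨At, fun x => ?_⟩
  rw [Tw.Lc.To, At.dc hU, hs.Q, eπ, TV_eq hV.uni, mem_dc, hV.ZK_eq]
  simp only [mem, map_mul _ _ x, map_inv, L.πι]
  exact ⟨fun ⟨k, a, b, c⟩ => ⟨fun v m => by simpa [ne _ v m] using b v m, k, a, c⟩,
    fun ⟨b, k, a, c⟩ => ⟨k, a, fun v m => by simpa [ne _ v m] using b v m, c⟩⟩

/-- **ETG** -/
theorem etg : ETG := by
  intro F E _ _ _ _ _ X C Ψ _ kp ε η hC hη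
  have fin : ∀ x : X.G, (Function.mulSupport fun w =>
      QD.ap (η w) (nrd (X.cu w x : X.Dw w))).Finite := fun x =>
    Filter.eventually_cofinite.1 (((finite_dvd (r := (C.D : 𝓞 F))
      (Nat.cast_ne_zero.2 C.D0)).eventually_cofinite_notMem.and (ae x)).mono fun w k =>
        (lcl hC kp hη k.1 ∅).1 _ k.2)
  have one : ∀ w, QD.ap (η w) (nrd (1 : X.Dw w)) = 1 := fun w => by
    simp [nrd_eq, QD.ap]
  let H : X.G →* ℂ :=
    { toFun := fun x => ∏ᶠ w, QD.ap (η w) (nrd (X.cu w x : X.Dw w))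
      map_one' := finprod_eq_one_of_forall_eq_one fun w => by rw [map_one]; exact one w
      map_mul' := fun x y => by
        simp only [map_mul, ap_mul]
        exact finprod_mul_distrib (fin x) (fin y) }
  have all : ∀ x : X.G, (∀ w, QD.ap (η w) (nrd (X.cu w x : X.Dw w)) = 1) → H.toHomUnits x = 1 :=
    fun x k => Units.ext (finprod_eq_one_of_forall_eq_one k)
  refine ⟨H.toHomUnits, fun _ => rfl, fun γ => Units.ext ?_, fun x h1 h2 => all x fun w => ?_,
    fun w x k => finprod_eq_single _ w fun v m => ?_, fun x h1 h2 => all x fun w => ?_⟩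
  · refine (finprod_congr fun w => congrArg _ (nrd_loc w _)).trans (hη.glob _ fun t => ?_)
    by_cases e : t = X.t1
    · exact e ▸ X.mem_G0.1 γ.2
    · obtain ⟨a, b⟩ := X.defi t e
      refine lt_of_le_of_ne ?_ ((map_ne_zero t).2
        ((Fuj.isUnit_iff_nrd _).1 (γ : X.Dˣ).isUnit).ne_zero).symm
      generalize ((X.G0.subtype γ : X.Dˣ) : X.D) = q
      simp only [Fuj.nrd, map_add, map_sub, map_mul, map_pow]
      exact add_nonneg (sub_nonneg.2 ((mul_nonpos_of_nonpos_of_nonneg b.le (sq_nonneg _)).trans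
        (sub_nonneg.2 ((mul_nonpos_of_nonpos_of_nonneg a.le (sq_nonneg _)).trans (sq_nonneg _)))))
        (mul_nonneg (mul_pos_of_neg_of_neg a b).le (sq_nonneg _))
  · rw [ap_ne _ (nrd_ne _), hη.nrm w _ (ev w (x : X.DA).re) (ev w (x : X.DA).imI) (by
      simp [nrd_eq, Fuj.nrd, QD.cu, QD.cw, h1, h2, hC.a]), Units.val_one]
  · exact (congrArg (fun y => QD.ap (η v) (nrd y)) (k v m)).trans (one v)
  · by_cases m : (C.D : 𝓞 F) ∈ w.asIdeal
    · exact h1 w m
    · rw [ap_ne _ (nrd_ne _), hη.off w m, kp w m]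
      split_ifs with g
      · rw [div_self (nr_ne w), one_zpow]
      · rw [neg_div, div_self (nr_ne w)]
        exact (h2 w m g).neg_one_zpow

end Vale.Agent.P022K.Sh
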