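import Vale.Agent.P022K.F0.StS
import Vale.Agent.P022K.F0.Hec
import Vale.Agent.P022K.F0.Cf.Rows

/-!
# P022K, block F0: the rows FIXA and CLS (helper80)
-/

set_option autoImplicit false

open UpperHalfPlane
open scoped MatrixGroups

noncomputable section

namespace Vale.Agent.P022K.Sh

open Vale.Agent.P022 Vale.Agent.P022.H218.L3 Orb Vale.Agent.P022K.F0.Cf Tw

namespace Fxa

variable {G0 G : Type} [Group G0] [Group G] {T : Tw G0 G} {U : Subgroup G} {γ δ : G0} {τ : ℍ}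
  {p q s : ℍ × G × G0} {f η : G → ℂ} {O : Set G}

/-! ## multipliers -/

theorem mu_mul (γ δ : G0) (τ : ℍ) : T.mu (γ * δ) τ = T.mu γ (T.r δ • τ) * T.mu δ τ := by
  rw [← T.dr_rho, ← T.dr_rho, ← T.dr_rho, map_mul, dr_mul]
  rfl

theorem mu_ne (γ : G0) (τ : ℍ) : T.mu γ τ ≠ 0 := T.dr_rho γ τ ▸ dr_ne _ _

theorem mu_z0 (h : γ ∈ T.Z0) (τ : ℍ) : T.mu γ τ = 1 :=
  T.dr_rho γ τ ▸ dr_triv (g := T.rho γ) (mem_Z0.1 h) τ

theorem z0_of_mu (h : T.r γ • τ = τ) (h1 : T.mu γ τ = 1) : γ ∈ T.Z0 :=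
  mem_Z0.2 (triv_of_dr (g := T.rho γ) h ((T.dr_rho γ τ).trans h1))

theorem mem_Sb : γ ∈ T.Sb τ ↔ T.r γ • τ = τ := Iff.rfl

theorem z0_iff : γ * δ⁻¹ ∈ T.Z0 ↔ T.rho γ = T.rho δ := by
  rw [← T.ker_rho, MonoidHom.mem_ker, map_mul, map_inv, mul_inv_eq_one]

theorem mu_congr (h : T.rho γ = T.rho δ) (τ : ℍ) : T.mu γ τ = T.mu δ τ := by
  rw [← T.dr_rho, h, T.dr_rho]

theorem mu_conj (h : T.r γ • τ = τ) (δ : G0) :
    T.mu (δ * γ * δ⁻¹) (T.r δ • τ) = T.mu γ τ := by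
  refine mul_right_cancel₀ (mu_ne (T := T) δ τ) ?_
  rw [← mu_mul, inv_mul_cancel_right, mu_mul, h, mul_comm]

/-- stabilisers are commutative modulo `Z0` -/
theorem sb_comm (h : γ ∈ T.Sb τ) (h' : δ ∈ T.Sb τ) : T.rho (δ * γ * δ⁻¹) = T.rho γ := by
  refine z0_iff.1 (z0_of_mu (τ := τ)
    (mul_mem (mul_mem (mul_mem h' h) (inv_mem h')) (inv_mem h) : _ ∈ T.Sb τ) ?_)
  have e := mu_conj h δ
  have e' : T.r γ⁻¹ • τ = τ := inv_mem h
  rw [mem_Sb.1 h'] at e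
  rw [mu_mul, e', e, ← mu_z0 (T := T) (one_mem _) τ, ← mul_inv_cancel γ, mu_mul, e']

/-! ## equivalence of fixed points -/

theorem fx_iff : T.FxR U p q ↔ ∃ δ, ∃ u ∈ U, q.1 = T.r δ • p.1 ∧ q.2.1 = T.j δ * p.2.1 * u ∧
    T.rho (δ * p.2.2 * δ⁻¹) = T.rho q.2.2 := by
  simp only [FxR, z0_iff]

theorem fx_refl (p : ℍ × G × G0) : T.FxR U p p :=
  fx_iff.2 ⟨1, 1, one_mem _, by simp, by simp, by simp⟩

theorem fx_symm (h : T.FxR U p q) : T.FxR U q p := by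
  obtain ⟨δ, u, hu, h1, h2, h3⟩ := fx_iff.1 h
  refine fx_iff.2 ⟨δ⁻¹, u⁻¹, inv_mem hu, by simp [h1], by simp [h2, mul_assoc], ?_⟩
  simp only [map_mul, map_inv] at h3 ⊢
  rw [← h3]
  group

theorem fx_trans (h : T.FxR U p q) (h' : T.FxR U q s) : T.FxR U p s := by
  obtain ⟨δ, u, hu, h1, h2, h3⟩ := fx_iff.1 h
  obtain ⟨δ', u', hu', h4, h5, h6⟩ := fx_iff.1 h'
  refine fx_iff.2 ⟨δ' * δ, u * u', mul_mem hu hu', by rw [h4, h1, map_mul, mul_smul],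
    by rw [h5, h2, map_mul]; group, ?_⟩
  simp only [map_mul, map_inv] at h3 h6 ⊢
  rw [← h6, ← h3]
  group

theorem fx_fix (h : T.FxR U p q) (h0 : T.r p.2.2 • p.1 = p.1) : T.r q.2.2 • q.1 = q.1 := by
  obtain ⟨δ, u, -, h1, -, h3⟩ := fx_iff.1 h
  rw [← T.rho_smul, ← h3, T.rho_smul, h1]
  simp only [map_mul, map_inv, mul_smul, inv_smul_smul, h0]

theorem fx_mu (h : T.FxR U p q) (h0 : T.r p.2.2 • p.1 = p.1) :
    T.mu q.2.2 q.1 = T.mu p.2.2 p.1 := by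
  obtain ⟨δ, u, -, h1, -, h3⟩ := fx_iff.1 h
  rw [← mu_congr h3, h1, mu_conj h0]

/-- the element of the correspondence -/
def el (T : Tw G0 G) (p : ℍ × G × G0) : G := p.2.1⁻¹ * T.j p.2.2 * p.2.1

theorem fx_el (ok : T.Ok) (hU : U ∈ T.Lev) (h : T.FxR U p q) :
    ∃ u ∈ U, ∃ u' ∈ U, el T q = u * el T p * u' := by
  obtain ⟨δ, u, hu, -, h2, h3⟩ := h
  have hz := (ok.z0 _).1 (inv_mem h3)
  have e : T.j q.2.2 = T.j (δ * p.2.2 * δ⁻¹ * q.2.2⁻¹)⁻¹ * (T.j δ * T.j p.2.2 * (T.j δ)⁻¹) := by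
    simp only [map_mul, map_inv]
    group
  refine ⟨_, mul_mem (Z_le hU hz) (inv_mem hu), u, hu, ?_⟩
  rw [el, el, e, ← mul_assoc q.2.1⁻¹, ok.com hz, h2]
  group

theorem fx_f (ok : T.Ok) (hU : U ∈ T.Lev) (hf : Tf U f) (h : T.FxR U p q) :
    f (el T q) = f (el T p) := by
  obtain ⟨u, hu, u', hu', e⟩ := fx_el ok hU h
  rw [e, hf.right _ _ hu', hf.left _ hu]

theorem eta_j (hη : η ∈ T.H0 (Representation.trivial ℂ G0 ℂ) U) (δ : G0) (x : G) :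
    η (T.j δ * x) = η x := by
  simpa [lt] using (congrFun (hη.2 δ) (T.j δ * x)).symm

theorem fx_eta (hη : η ∈ T.H0 (Representation.trivial ℂ G0 ℂ) U) (h : T.FxR U p q) :
    η q.2.1 = η p.2.1 := by
  obtain ⟨δ, u, hu, -, h2, -⟩ := h
  rw [h2, hη.1 _ u hu, eta_j hη]

theorem fx_same {x x' : G} (h : T.FxR U (τ, x, γ) (τ, x', γ)) :
    ∃ δ ∈ T.Sb τ, ∃ u ∈ U, x' = T.j δ * x * u := by
  obtain ⟨δ, u, hu, h1, h2, -⟩ := h
  exact ⟨δ, h1.symm, u, hu, h2⟩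

theorem fx_of (hγ : γ ∈ T.Sb τ) (hδ : δ ∈ T.Sb τ) (x : G) {u : G} (hu : u ∈ U) :
    T.FxR U (τ, x, γ) (τ, T.j δ * x * u, γ) :=
  fx_iff.2 ⟨δ, u, hu, (mem_Sb.1 hδ).symm, rfl, sb_comm hγ hδ⟩

/-! ## orbital sums -/

theorem mem_Gm (ok : T.Ok) {t : G} (h : t ∈ (T.Sb τ).map T.j ⊔ T.Z) :
    ∃ δ ∈ T.Sb τ, ∃ z ∈ T.Z, t = T.j δ * z := by
  have : T.Z.Normal := ⟨fun n hn g => by rwa [ok.com hn, mul_inv_cancel_right]⟩
  obtain ⟨_, ⟨δ, hδ, rfl⟩, z, hz, rfl⟩ := Subgroup.mem_sup_of_normal_right.1 h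
  exact ⟨δ, hδ, z, hz, rfl⟩

theorem smul_mk (g x : G) : g • (x : G ⧸ U) = ((g * x : G) : G ⧸ U) := rfl

theorem z_smul (ok : T.Ok) (hU : U ∈ T.Lev) {z : G} (hz : z ∈ T.Z) (y : G ⧸ U) : z • y = y := by
  obtain ⟨x, rfl⟩ := QuotientGroup.mk_surjective y
  rw [smul_mk, ← ok.com hz, QuotientGroup.mk_mul_of_mem _ (Z_le hU hz)]

section

variable (ok : T.Ok) (hU : U ∈ T.Lev) (hf : Tf U f)
  (hη : η ∈ T.H0 (Representation.trivial ℂ G0 ℂ) U)
include ok hU hf hη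

theorem oi_fx (hγ : γ ∈ T.Sb τ) {x : G} (h : T.FxR U (τ, x, γ) p) :
    T.oi U η f γ x = η p.2.1 * f (el T p) := by
  have e := fx_of (T := T) hγ (one_mem _) x (out_mk_mem U x)
  rw [map_one, one_mul, mul_inv_cancel_left] at e
  have e' := fx_trans (fx_symm e) h
  rw [fx_eta hη e', fx_f ok hU hf e']
  rfl

theorem oi_mk (hγ : γ ∈ T.Sb τ) (x : G) :
    T.oi U η f γ x = η x * f (x⁻¹ * T.j γ * x) := oi_fx ok hU hf hη hγ (fx_refl _)

theorem oi_iv (hγ : γ ∈ T.Sb τ) : Iv ((T.Sb τ).map T.j ⊔ T.Z) (T.oi U η f γ) := fun t ht y => by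
  obtain ⟨δ, hδ, z, hz, rfl⟩ := mem_Gm ok ht
  rw [mul_smul, z_smul ok hU hz]
  obtain ⟨x, rfl⟩ := QuotientGroup.mk_surjective y
  have e := fx_of hγ hδ x (one_mem U)
  rw [mul_one] at e
  rw [smul_mk, oi_fx ok hU hf hη hγ e, oi_mk ok hU hf hη hγ]
  rfl

variable {R : Finset (ℍ × G × G0)} (hn : T.Neat U) (hR : T.FxRep U {y | f y ≠ 0} R)
include hn hR

open Classical in
theorem orb (hγ : γ ∈ T.Sb τ) : HasOrb ((T.Sb τ).map T.j ⊔ T.Z) T.Z (T.oi U η f γ)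
    (∑ p ∈ R with ∃ x, T.FxR U (τ, x, γ) p, η p.2.1 * f (el T p)) := by
  have ex : ∀ p : ℍ × G × G0, (∃ x, T.FxR U (τ, x, γ) p) → ∃ x, T.FxR U (τ, x, γ) p := fun _ h => h
  choose! X hX using ex
  have uq : ∀ p ∈ R, ∀ q ∈ R, ∀ x, T.FxR U (τ, x, γ) p → T.FxR U (τ, x, γ) q → p = q :=
    fun p hp q hq x h h' => (hR.2 p (hR.1 p hp)).unique ⟨hp, fx_refl p⟩ ⟨hq, fx_trans (fx_symm h) h'⟩
  have uq' : ∀ p ∈ R.filter fun p => ∃ x, T.FxR U (τ, x, γ) p,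
      ∀ q ∈ R.filter fun p => ∃ x, T.FxR U (τ, x, γ) p, ∀ δ ∈ T.Sb τ,
      ((T.j δ * X p : G) : G ⧸ U) = X q → p = q := fun p hp q hq δ hδ e => by
    obtain ⟨a, b⟩ := Finset.mem_filter.1 hp
    obtain ⟨c, d⟩ := Finset.mem_filter.1 hq
    have k := fx_of hγ hδ (X p) (QuotientGroup.eq.1 e)
    rw [mul_inv_cancel_left] at k
    exact uq p a q c _ (hX p b) (fx_trans k (hX q d))
  refine ⟨(R.filter fun p => ∃ x, T.FxR U (τ, x, γ) p).image fun p => (X p : G ⧸ U),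
    fun y hy => ?_, fun t ht r hr => ⟨fun h => ?_, fun h => by rwa [z_smul ok hU h]⟩, ?_⟩
  · obtain ⟨x, rfl⟩ := QuotientGroup.mk_surjective y
    rw [oi_mk ok hU hf hη hγ] at hy
    obtain ⟨p, ⟨hp, h⟩, -⟩ := hR.2 (τ, x, γ) ⟨hγ, right_ne_zero_of_mul hy⟩
    obtain ⟨δ, hδ, u, hu, e⟩ := fx_same (fx_trans h (fx_symm (hX p ⟨x, h⟩)))
    refine ⟨T.j δ, Subgroup.mem_sup_left ⟨δ, hδ, rfl⟩, Finset.mem_image.2
      ⟨p, Finset.mem_filter.2 ⟨hp, x, h⟩, ?_⟩⟩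
    rw [e, smul_mk, QuotientGroup.mk_mul_of_mem _ hu]
  · obtain ⟨δ, hδ, z, hz, rfl⟩ := mem_Gm ok ht
    rw [mul_smul, z_smul ok hU hz] at h
    obtain ⟨p, hp, rfl⟩ := Finset.mem_image.1 hr
    obtain ⟨q, hq, e⟩ := Finset.mem_image.1 h
    obtain rfl := uq' p hp q hq δ hδ e.symm
    refine mul_mem ((ok.z0 δ).1 (hn (X p) δ (T.mem_Gam.2 ?_) τ hδ)) hz
    simpa only [mul_assoc, smul_eq_mul] using QuotientGroup.eq.1 e
  · rw [Finset.sum_image fun p hp q hq e => uq' p hp q hq 1 (one_mem _) (by simpa using e)]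
    exact Finset.sum_congr rfl fun p hp => oi_fx ok hU hf hη hγ (hX p (Finset.mem_filter.1 hp).2)

open Classical in
/-- the fixed points over one orbit -/
theorem sum_orb (v : T.Sb τ ⧸ T.Z0.subgroupOf (T.Sb τ) → ℂ)
    (hv : ∀ γ : T.Sb τ, HasOrb ((T.Sb τ).map T.j ⊔ T.Z) T.Z (T.oi U η f γ) (v γ)) :
    (Function.support v).Finite ∧
      ∑ p ∈ R with ∃ δ, T.r δ • τ = p.1, η p.2.1 * f (el T p) / (T.mu p.2.2 p.1 - 1) =
        ∑ᶠ c, v c / (T.mu (c.out : T.Sb τ) τ - 1) := by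
  have e : ∀ c, v c = ∑ p ∈ R with ∃ x, T.FxR U (τ, x, (c.out : T.Sb τ)) p,
      η p.2.1 * f (el T p) := fun c => by
    have := hv c.out
    rw [QuotientGroup.out_eq'] at this
    exact HasOrb.unique (oi_iv ok hU hf hη c.out.2) (fun z _ hz => z_smul ok hU hz) this
      (orb ok hU hf hη hn hR c.out.2)
  have qe : ∀ a b : T.Sb τ, (a : T.Sb τ ⧸ T.Z0.subgroupOf (T.Sb τ)) = b ↔ T.rho a = T.rho b :=
    fun a b => by
      rw [QuotientGroup.eq, Subgroup.mem_subgroupOf, ← T.ker_rho, MonoidHom.mem_ker,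
        Subgroup.coe_mul, Subgroup.coe_inv, map_mul, map_inv, inv_mul_eq_one]
  have ex : ∀ p ∈ R, (∃ δ, T.r δ • τ = p.1) → ∃ c : T.Sb τ ⧸ T.Z0.subgroupOf (T.Sb τ),
      ∀ c' : T.Sb τ ⧸ T.Z0.subgroupOf (T.Sb τ),
        (∃ x, T.FxR U (τ, x, (c'.out : T.Sb τ)) p) ↔ c = c' := by
    rintro p hp ⟨δ, hδ⟩
    have m : δ⁻¹ * p.2.2 * δ ∈ T.Sb τ := by
      rw [mem_Sb, map_mul, map_mul, mul_smul, mul_smul, hδ, (hR.1 p hp).1, ← hδ, map_inv,
        inv_smul_smul]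
    refine ⟨(⟨_, m⟩ : T.Sb τ), fun c' => ?_⟩
    conv_rhs => rw [← c'.out_eq', qe]
    constructor
    · rintro ⟨x, h⟩
      obtain ⟨δ', u, -, h1, -, h3⟩ := fx_iff.1 h
      have m' : δ⁻¹ * δ' ∈ T.Sb τ := by
        rw [mem_Sb, map_mul, mul_smul, map_inv, inv_smul_eq_iff, hδ, h1]
      rw [← sb_comm c'.out.2 m']
      simp only [map_mul, map_inv, mul_inv_rev, inv_inv] at h3 ⊢
      rw [← h3]
      group
    · intro h
      refine ⟨(T.j δ)⁻¹ * p.2.1, fx_iff.2 ⟨δ, 1, one_mem _, hδ.symm, by simp, ?_⟩⟩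
      simp only [map_mul, map_inv] at h ⊢
      rw [← h]
      group
  choose! κ hκ using ex
  have fib : ∀ c, (R.filter fun p => ∃ δ, T.r δ • τ = p.1).filter (fun p => κ p = c) =
      R.filter fun p => ∃ x, T.FxR U (τ, x, (c.out : T.Sb τ)) p := fun c => by
    ext p
    simp only [Finset.mem_filter]
    refine ⟨fun h => ⟨h.1.1, (hκ p h.1.1 h.1.2 c).2 h.2⟩, fun h => ?_⟩
    have : ∃ δ, T.r δ • τ = p.1 := by
      obtain ⟨x, δ, u, -, h1, -⟩ := h.2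
      exact ⟨δ, h1.symm⟩
    exact ⟨⟨h.1, this⟩, (hκ p h.1 this c).1 h.2⟩
  have sup : Function.support v ⊆ ((R.filter fun p => ∃ δ, T.r δ • τ = p.1).image κ :) :=
    fun c hc => by
      rw [Function.mem_support, e, ← fib] at hc
      obtain ⟨p, hp, -⟩ := Finset.exists_ne_zero_of_sum_ne_zero hc
      exact Finset.mem_coe.2 (Finset.mem_image.2 ⟨p, Finset.mem_filter.1 hp⟩)
  refine ⟨(Finset.finite_toSet _).subset sup, ?_⟩
  rw [finsum_eq_sum_of_support_subset (fun c => v c / (T.mu (c.out : T.Sb τ) τ - 1))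
      (fun c hc => sup (left_ne_zero_of_mul hc)),
    ← Finset.sum_fiberwise_of_maps_to fun p hp => Finset.mem_image_of_mem κ hp]
  refine Finset.sum_congr rfl fun c _ => ?_
  rw [fib, e, Finset.sum_div]
  refine Finset.sum_congr rfl fun p hp => ?_
  obtain ⟨x, h⟩ := (Finset.mem_filter.1 hp).2
  rw [fx_mu h c.out.2]

open Classical in
/-- a sign change kills the contribution of an orbit -/
theorem sum_flip {g : G} (hg : ∀ δ ∈ T.Sb τ, Commute g (T.j δ)) (hη' : ∀ x, η (g * x) = -η x) :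
    ∑ p ∈ R with ∃ δ, T.r δ • τ = p.1, η p.2.1 * f (el T p) / (T.mu p.2.2 p.1 - 1) = 0 := by
  have c : ∀ t ∈ (T.Sb τ).map T.j ⊔ T.Z, g * t = t * g := fun t ht => by
    obtain ⟨δ, hδ, z, hz, rfl⟩ := mem_Gm ok ht
    rw [← mul_assoc, (hg δ hδ).eq, mul_assoc, ok.com hz, mul_assoc]
  have k : ∀ H ≤ (T.Sb τ).map T.j ⊔ T.Z, ∀ t, t ∈ H ↔ g⁻¹ * t * g ∈ H := fun H le t =>
    ⟨fun h => by rwa [mul_assoc, ← c t (le h), inv_mul_cancel_left], fun h => by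
      have := c _ (le h)
      rw [← mul_assoc, mul_inv_cancel_left, mul_left_inj] at this
      rwa [this]⟩
  rw [(sum_orb ok hU hf hη hn hR (fun _ => 0) fun γ => ?_).2]
  · simp
  have h := orb ok hU hf hη hn hR γ.2
  rwa [h.zero_of_flip (oi_iv ok hU hf hη γ.2) (fun z _ hz => z_smul ok hU hz) g (k _ le_rfl)
    (k _ le_sup_right) fun y => ?_] at h
  obtain ⟨x, rfl⟩ := QuotientGroup.mk_surjective y
  rw [smul_mk, oi_mk ok hU hf hη γ.2, oi_mk ok hU hf hη γ.2, hη', neg_mul, mul_inv_rev,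
    mul_assoc _ (T.j γ), ← mul_assoc (T.j γ), ← (hg γ γ.2).eq]
  simp only [mul_assoc, inv_mul_cancel_left]

end

/-! ## the operators -/

/-- the twisted correspondence on one-forms -/
def opO (h : Cor U O U) (hη : η ∈ T.H0 (Representation.trivial ℂ G0 ℂ) U) :
    Module.End ℂ (T.Om U) where
  toFun ω := ⟨fun x => η x • hk O U ω.1 x, fun x => by
      beta_reduce
      rw [hk_eq h]
      exact Hol.smul_mem (sum_mem fun c _ => ω.2.1 _) _,
    fun x u hu => by simp only [hη.1 x u hu, hk_inv h ω.2.2.1 x u hu], fun γ x τ => by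
      simp only [hk_eq h, eta_j hη, Pi.smul_apply, Finset.sum_apply, smul_eq_mul, mul_assoc,
        Finset.sum_mul, ω.2.2.2, Finset.mul_sum, mul_left_comm (η x)]⟩
  map_add' ω ω' := Subtype.ext (funext fun x => by
    simp only [hk_eq h, Submodule.coe_add, Pi.add_apply, Finset.sum_add_distrib, smul_add])
  map_smul' c ω := Subtype.ext (funext fun x => by
    simp only [hk_eq h, Submodule.coe_smul, Pi.smul_apply, ← Finset.smul_sum, RingHom.id_apply,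
      smul_comm c])

/-- the twisted correspondence on the components -/
def opC (h : Cor U O U) (hη : η ∈ T.H0 (Representation.trivial ℂ G0 ℂ) U) :
    Module.End ℂ (T.H0 (Representation.trivial ℂ G0 ℂ) U) where
  toFun k := ⟨fun x => η x * hk O U k.1 x,
    fun x u hu => by simp only [hη.1 x u hu, hk_inv h k.2.1 x u hu], fun γ => funext fun x => by
      simp only [lt, Representation.trivial_apply, ← map_inv, hk_eq h, eta_j hη, mul_assoc,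
        eta_j k.2]⟩
  map_add' k k' := Subtype.ext (funext fun x => by
    simp only [hk_eq h, Submodule.coe_add, Pi.add_apply, Finset.sum_add_distrib, mul_add])
  map_smul' c k := Subtype.ext (funext fun x => by
    simp only [hk_eq h, Submodule.coe_smul, Pi.smul_apply, smul_eq_mul, ← Finset.mul_sum,
      RingHom.id_apply, mul_left_comm c])

theorem cor_lev (hf : Tf U f) {P : ℂ → Prop} (h0 : ¬ P 0) : Cor U {y | P (f y)} U :=
  ⟨fun u hu y hy => by rwa [Set.mem_ofPred_eq, hf.left u hu],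
    fun y hy u hu => by rwa [Set.mem_ofPred_eq, hf.right y u hu],
    hf.fin.subset fun c hc e => h0 (by rwa [Set.mem_ofPred_eq, Set.mem_ofPred_eq, e] at hc)⟩

open Classical in
theorem wk_eq (hf : Tf U f) {B : Type} [AddCommMonoid B] [Module ℂ B] (ω : G → B) (x : G) :
    wk f U ω x = ∑ a ∈ hf.fin.toFinset.image fun c => f c.out, a • hk {y | f y = a} U ω x := by
  rw [wk, finsum_eq_sum_of_support_subset (s := hf.fin.toFinset) _ fun c hc => by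
      simpa using left_ne_zero_of_smul hc,
    ← Finset.sum_fiberwise_of_maps_to fun c hc => Finset.mem_image_of_mem (fun c => f c.out) hc]
  refine Finset.sum_congr rfl fun a ha => ?_
  obtain ⟨c, hc, rfl⟩ := Finset.mem_image.1 ha
  have c0 : f c.out ≠ 0 := by simpa using hc
  rw [hk_eq (cor_lev hf (P := fun b => b = f c.out) c0.symm), Finset.smul_sum]
  refine Finset.sum_congr (Finset.ext fun d => ?_) fun d hd => ?_
  · simp only [Finset.mem_filter, Set.Finite.mem_toFinset, Set.mem_ofPred_eq]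
    exact ⟨fun h => h.2, fun h => ⟨h ▸ c0, h⟩⟩
  · rw [show f d.out = f c.out by simpa using hd]

end Fxa

open Fxa in
/-- **FIXA** -/
theorem fixa (hL : All fun T => T.LEFT) : All fun T => T.FIXA := by
  classical
  intro G0 G _ _ T ok U hU hn f η hf f1 hη τ₀ hfl A A0 hA hA0 v hv
  obtain ⟨fd, fd0, hl⟩ := hL G0 G T ok U hU hn
  obtain ⟨R, hR⟩ := (hl _ (cor_lev hf (P := fun b => b ≠ 0) (by simp)) (by simp [f1])).1
  obtain ⟨h1, h2⟩ := sum_orb ok hU hf hη hn hR v hv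
  refine ⟨h1, ?_⟩
  set S := hf.fin.toFinset.image fun c => f c.out with hS
  have s0 : ∀ a : S, ¬ (0 : ℂ) = a := fun a e => by
    obtain ⟨c, hc, e'⟩ := Finset.mem_image.1 a.2
    exact (hf.fin.mem_toFinset.1 hc) (e'.trans e.symm)
  have co : ∀ a : S, Cor U {y | f y = a} U := fun a => cor_lev hf (P := fun b => b = a) (s0 a)
  have eA : A = ∑ a : S, (a : ℂ) • opO (co a) hη := LinearMap.ext fun ω => Subtype.ext
    (funext fun x => by
      rw [hA, wk_eq hf, ← Finset.sum_coe_sort, Finset.smul_sum, LinearMap.sum_apply,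
        Submodule.coe_sum, Finset.sum_apply]
      exact Finset.sum_congr rfl fun a _ => smul_comm _ _ _)
  have eA0 : A0 = ∑ a : S, (a : ℂ) • opC (co a) hη := LinearMap.ext fun k => Subtype.ext
    (funext fun x => by
      rw [hA0, wk_eq hf, ← Finset.sum_coe_sort, Finset.mul_sum, LinearMap.sum_apply,
        Submodule.coe_sum, Finset.sum_apply]
      exact Finset.sum_congr rfl fun a _ => mul_left_comm _ _ _)
  have tr : ∀ a : S, LinearMap.trace ℂ _ (opO (co a) hη) = LinearMap.trace ℂ _ (opC (co a) hη) +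
      ∑ p ∈ R with f (el T p) = a, η p.2.1 / (T.mu p.2.2 p.1 - 1) := fun a => by
    refine ((hl _ (co a) fun e => s0 a (f1 ▸ e)).2 η hη _ _ (fun _ _ => rfl) (fun _ _ => rfl) _
      ⟨fun p hp => ?_, fun p hp => ?_⟩).2
    · exact ⟨(hR.1 p (Finset.mem_filter.1 hp).1).1, (Finset.mem_filter.1 hp).2⟩
    · obtain ⟨q, ⟨a1, a2⟩, a3⟩ := hR.2 p ⟨hp.1, fun e => s0 a (e.symm.trans hp.2)⟩
      exact ⟨q, ⟨Finset.mem_filter.2 ⟨a1, (fx_f ok hU hf a2).trans hp.2⟩, a2⟩,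
        fun q' h => a3 q' ⟨(Finset.mem_filter.1 h.1).1, h.2⟩⟩
  have mp : ∀ p ∈ R, f (el T p) ∈ S := fun p hp => by
    have e : f ((el T p : G) : G ⧸ U).out = f (el T p) := by
      simpa using (hf.right.eq (out_mk_mem U (el T p)) 1).symm
    exact Finset.mem_image.2 ⟨_, hf.fin.mem_toFinset.2 fun e' => (hR.1 p hp).2 (e.symm.trans e'), e⟩
  have z : ∑ p ∈ R with ¬ ∃ δ, T.r δ • τ₀ = p.1,
      η p.2.1 * f (el T p) / (T.mu p.2.2 p.1 - 1) = 0 := by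
    let r : Setoid (ℍ × G × G0) := ⟨fun a b => ∃ δ, T.r δ • b.1 = a.1, fun a => ⟨1, by simp⟩,
      fun ⟨δ, h⟩ => ⟨δ⁻¹, by rw [← h, map_inv, inv_smul_smul]⟩,
      fun ⟨δ, h⟩ ⟨δ', h'⟩ => ⟨δ * δ', by rw [map_mul, mul_smul, h', h]⟩⟩
    refine Finset.sum_cancels_of_partition_cancels r fun p hp => ?_
    obtain ⟨a1, a2⟩ := Finset.mem_filter.1 hp
    obtain ⟨g, g1, g2⟩ := hfl p.1 p.2.2 (hR.1 p a1).1 (fun h => (hR.1 p a1).2 (by
      have hz := (ok.z0 _).1 h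
      rw [mul_assoc, ← ok.com hz, inv_mul_cancel_left, ← f1, ← hf.left _ (Z_le hU hz) 1, mul_one]))
      fun δ e => a2 ⟨δ, e⟩
    rw [← sum_flip ok hU hf hη hn hR g1 g2]
    refine Finset.sum_congr (Finset.ext fun q => ?_) fun _ _ => rfl
    simp only [Finset.mem_filter]
    exact ⟨fun h => ⟨h.1.1, h.2⟩, fun h => ⟨⟨h.1, fun k => a2 (r.trans (b := q) (r.symm h.2)
      (c := (τ₀, q.2)) k)⟩, h.2⟩⟩
  rw [← h2, ← add_zero (∑ p ∈ R with _, _), ← z, Finset.sum_filter_add_sum_filter_not, eA, eA0,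
    ← Finset.sum_fiberwise_of_maps_to mp, ← Finset.sum_coe_sort S]
  simp only [map_sum, map_smul, tr, smul_eq_mul, mul_add, Finset.sum_add_distrib, Finset.mul_sum]
  refine congrArg _ (Finset.sum_congr rfl fun a _ => Finset.sum_congr rfl fun p hp => ?_)
  rw [(Finset.mem_filter.1 hp).2]
  ring

open Fxa in
/-- **CLS** -/
theorem cls (hL : All fun T => T.LEFT) : All fun T => T.CLS := by
  intro G0 G _ _ T ok U hU τ γ hγ h0 hc
  obtain ⟨W, hW, hn⟩ := ok.neat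
  have hV := ok.inf U hU W hW
  have n : T.Neat (U ⊓ W) := hn.mono inf_le_right
  obtain ⟨R, hR⟩ := ((hL G0 G T ok _ hV n).2.2 _ (cor_dc (ok.fi _ (ok.conj _ hV (T.j γ)) _ hV)) (by
    rintro ⟨u, hu, u', hu', e⟩
    refine h0 (n 1 γ (T.mem_Gam.2 ?_) τ hγ)
    rw [inv_one, one_mul, mul_one, show T.j γ = u⁻¹ * u'⁻¹ by
      rw [← mul_one u⁻¹, e]; group]
    exact mul_mem (inv_mem hu) (inv_mem hu'))).1
  set C := Subgroup.centralizer ((T.Sb τ).map T.j : Set G) with hC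
  have cm : ∀ x ∈ C, ∀ δ ∈ T.Sb τ, T.j δ * x = x * T.j δ := fun x hx δ hδ => hx _ ⟨δ, hδ, rfl⟩
  have ex : ∀ x : C, ∃ q : R, T.FxR (U ⊓ W) (τ, x, γ) q := fun x => by
    obtain ⟨q, h, -⟩ := hR.2 (τ, x, γ) ⟨hγ, 1, one_mem _, 1, one_mem _, by
      simp only [mul_assoc, cm x x.2 γ hγ, inv_mul_cancel_left, one_mul, mul_one]⟩
    exact ⟨⟨q, h.1⟩, h.2⟩
  choose φ hφ using ex
  have : Finite (C ⧸ ((T.Sb τ).map T.j ⊔ (U ⊓ C)).subgroupOf C) := by
    refine Finite.of_injective (fun c => φ c.out) fun c c' e => ?_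
    have e : φ c.out = φ c'.out := e
    obtain ⟨δ, hδ, u, hu, k⟩ := fx_same (fx_trans (hφ c.out) (e ▸ fx_symm (hφ c'.out)))
    rw [← c.out_eq', ← c'.out_eq', QuotientGroup.eq, Subgroup.mem_subgroupOf, Subgroup.coe_mul,
      Subgroup.coe_inv, k, cm _ c.out.2 δ hδ, mul_assoc, inv_mul_cancel_left]
    refine Subgroup.mul_mem_sup ⟨δ, hδ, rfl⟩ ⟨hu.1, ?_⟩
    have m : T.j δ ∈ C := by
      rintro _ ⟨δ', hδ', rfl⟩
      rw [← map_mul, (hc δ' hδ' δ hδ).eq, map_mul]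
    rw [show u = (T.j δ * c.out)⁻¹ * c'.out by rw [k, inv_mul_cancel_left]]
    exact C.mul_mem (C.inv_mem (C.mul_mem m c.out.2)) c'.out.2
  exact Subgroup.index_ne_zero_of_finite

end Vale.Agent.P022K.Sh
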