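import Vale.Agent.P022K.F0.StS
import Vale.Agent.P022K.F0.Apx
import Vale.Agent.P022K.FI.Spl

/-!
# P022K, block F0: the row FLIP (helper80)
-/

set_option autoImplicit false

open UpperHalfPlane NumberField IsDedekindDomain
open scoped MatrixGroups ComplexConjugate

noncomputable section

namespace Vale.Agent.P022K.Sh

open Vale.Agent.P022K.F0 Tor

namespace Flp

/-! ## fixed points of real matrices -/

section mat

variable {M N : Matrix (Fin 2) (Fin 2) ℝ} {τ τ' : ℍ} {c : ℝ}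

/-- `M` fixes `τ` -/
def Fx (M : Matrix (Fin 2) (Fin 2) ℝ) (τ : ℍ) : Prop :=
  M 1 1 = M 0 0 - 2 * M 1 0 * τ.re ∧ M 0 1 = -M 1 0 * (τ.re ^ 2 + τ.im ^ 2)

theorem fx_iff {g : GL (Fin 2) ℝ} (h : 0 < g.val.det) : g • τ = τ ↔ Fx g.val τ := by
  rw [gl_smul_eq_self_iff_quadratic h, Complex.ext_iff]
  simp only [Complex.add_re, Complex.add_im, Complex.mul_re, Complex.mul_im, Complex.sub_re,
    Complex.sub_im, Complex.neg_re, Complex.neg_im, Complex.ofReal_re, Complex.ofReal_im, coe_re,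
    coe_im, Complex.zero_re, Complex.zero_im, Fx]
  constructor
  · rintro ⟨h1, h2⟩
    have e : g.val 1 1 = g.val 0 0 - 2 * g.val 1 0 * τ.re :=
      mul_right_cancel₀ τ.im_ne_zero (by linear_combination h2)
    exact ⟨e, by linear_combination τ.re * e - h1⟩
  · rintro ⟨h1, h2⟩
    exact ⟨by linear_combination τ.re * h1 - h2, by linear_combination τ.im * h1⟩

theorem Fx.lin (h : Fx M τ) (s t : ℝ) : Fx (s • (1 : Matrix (Fin 2) (Fin 2) ℝ) + t • M) τ := by
  constructor <;> simp [h.1, h.2] <;> ring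

theorem Fx.comm (h : Fx M τ) (h' : Fx N τ) : M * N = N * M := by
  ext i j
  fin_cases i <;> fin_cases j <;> simp [Matrix.mul_apply, h.1, h.2, h'.1, h'.2] <;> ring

theorem Fx.uniq (h : Fx M τ) (h' : Fx M τ') (hc : M 1 0 ≠ 0) : τ = τ' := by
  have e : τ.re = τ'.re := mul_left_cancel₀ hc (by linear_combination (h.1 - h'.1) / 2)
  refine UpperHalfPlane.ext_re_im e ((sq_eq_sq₀ τ.im_pos.le τ'.im_pos.le).1
    (mul_left_cancel₀ hc ?_))
  have := h.2
  rw [e] at this
  linear_combination this - h'.2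

theorem sq_ent (h : M * M = algebraMap ℝ _ c) (hc : c < 0) :
    M 1 0 ≠ 0 ∧ M 1 1 = -M 0 0 ∧ M 0 0 ^ 2 + M 0 1 * M 1 0 = c := by
  have e1 := congrFun (congrFun h 0) 0
  have e2 := congrFun (congrFun h 1) 0
  simp only [Matrix.mul_apply, Fin.sum_univ_two, Matrix.algebraMap_matrix_apply] at e1 e2
  simp only [if_true, Algebra.algebraMap_self, RingHom.id_apply, one_ne_zero, if_false] at e1 e2
  have h0 : M 1 0 ≠ 0 := fun e => by
    rw [e] at e1
    nlinarith [mul_self_nonneg (M 0 0)]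
  exact ⟨h0, mul_left_cancel₀ h0 (by linear_combination e2), by linear_combination e1⟩

theorem ex_fx (h : M * M = algebraMap ℝ _ c) (hc : c < 0) : ∃ τ, Fx M τ := by
  obtain ⟨h0, h1, h2⟩ := sq_ent h hc
  refine ⟨⟨⟨M 0 0 / M 1 0, √(-c) / |M 1 0|⟩,
    div_pos (Real.sqrt_pos.2 (neg_pos.2 hc)) (abs_pos.2 h0)⟩, ?_, ?_⟩
  · simp only [mk_re, h1]
    field_simp
    ring
  · simp only [mk_re, mk_im, div_pow, sq_abs, Real.sq_sqrt (neg_pos.2 hc).le]
    rw [← h2]
    field_simp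
    ring

/-- the eigenvalue -/
def lam (M : Matrix (Fin 2) (Fin 2) ℝ) (τ : ℍ) : ℂ := M 1 0 * τ + M 1 1

theorem lam_lin (s t : ℝ) :
    lam (s • (1 : Matrix (Fin 2) (Fin 2) ℝ) + t • M) τ = s + t * lam M τ := by
  simp [lam]
  ring

theorem Fx.lam_sq (h : Fx M τ) (e : M * M = algebraMap ℝ _ c) (hc : c < 0) : lam M τ ^ 2 = c := by
  obtain ⟨-, h1, h2⟩ := sq_ent e hc
  have a : M 0 0 = M 1 0 * τ.re := by linear_combination (h.1 - h1) / (-2)
  rw [← h2, h.2, lam, h1, a, Complex.ext_iff]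
  simp only [sq, Complex.add_re, Complex.add_im, Complex.mul_re, Complex.mul_im, Complex.ofReal_re,
    Complex.ofReal_im, coe_re, coe_im]
  constructor <;> ring

theorem Fx.det (h : Fx M τ) : (M.det : ℂ) = lam M τ * conj (lam M τ) := by
  rw [Complex.mul_conj, Complex.normSq_apply, Matrix.det_fin_two, lam, h.2]
  simp only [Complex.add_re, Complex.add_im, Complex.mul_re, Complex.mul_im, Complex.ofReal_re,
    Complex.ofReal_im, coe_re, coe_im, h.1]
  congr 1
  ring

end mat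

/-! ## quaternions -/

theorem nrd_pure {R : Type} [CommRing R] {a b : R} {η : QuaternionAlgebra R a 0 b} (h : η.re = 0) (s t : R) :
    Fuj.nrd (algebraMap R _ s + t • η) = s ^ 2 + t ^ 2 * Fuj.nrd η := by
  simp [Fuj.nrd, QuaternionAlgebra.algebraMap_eq, h]
  ring

theorem sq_pure {R : Type} [CommRing R] {a b : R} {η : QuaternionAlgebra R a 0 b} (h : η.re = 0) :
    η * η = algebraMap R _ (-Fuj.nrd η) := by
  rw [Fuj.sq_eq, Fuj.trd, h, mul_zero, zero_smul, zero_sub, map_neg]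

variable {F : Type} [Field F] [NumberField F] (X : QD F)

omit [NumberField F] in
theorem s_lin (s t : F) (η : X.D) : X.s (algebraMap F _ s + t • η) =
    X.t1 s • (1 : Matrix (Fin 2) (Fin 2) ℝ) + X.t1 t • X.s η := by
  rw [Algebra.smul_def, map_add, map_mul, X.hs, X.hs, ← Algebra.smul_def,
    Algebra.algebraMap_eq_smul_one]

theorem sb_iff {γ : X.G0} {τ : ℍ} : γ ∈ X.tw.Sb τ ↔ Fx (X.s ((γ : X.Dˣ) : X.D)) τ :=
  fx_iff (g := X.sU γ) γ.2

theorem mu_eq {γ : X.G0} {τ : ℍ} (h : γ ∈ X.tw.Sb τ) : X.tw.mu γ τ =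
    conj (lam (X.s ((γ : X.Dˣ) : X.D)) τ) / lam (X.s ((γ : X.Dˣ) : X.D)) τ := by
  have h0 : lam (X.s ((γ : X.Dˣ) : X.D)) τ ≠ 0 := denom_ne_zero (X.sU γ) τ
  show ((X.s ((γ : X.Dˣ) : X.D)).det : ℂ) / lam (X.s ((γ : X.Dˣ) : X.D)) τ ^ 2 = _
  rw [((sb_iff X).1 h).det]
  field_simp

theorem comm_of {x y : X.D} {τ : ℍ} (h : Fx (X.s x) τ) (h' : Fx (X.s y) τ) : x * y = y * x :=
  X.ovr.inj X.a_ne X.b_ne (by rw [map_mul, map_mul, h.comm h'])

/-- an element of positive norm -/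
def un (x : X.D) (h : 0 < X.t1 (Fuj.nrd x)) : X.G0 :=
  ⟨((Fuj.isUnit_iff_nrd x).2 (IsUnit.mk0 _ fun e => by simp [e] at h)).unit, X.mem_G0.2 h⟩

theorem un_val (x : X.D) (h : 0 < X.t1 (Fuj.nrd x)) : ((un X x h : X.Dˣ) : X.D) = x := rfl

/-- pure quaternions with the same negative square have equivalent fixed points -/
theorem same_orbit {x y : X.D} (hx : x.re = 0) (hy : y.re = 0) (e : Fuj.nrd y = Fuj.nrd x)
    (p : 0 < X.t1 (Fuj.nrd x)) {τ τ' : ℍ} (h : Fx (X.s x) τ) (h' : Fx (X.s y) τ') :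
    ∃ δ, X.tw.r δ • τ = τ' := by
  have key : ∀ y : X.D, y.re = 0 → Fuj.nrd y = Fuj.nrd x → Fx (X.s y) τ' →
      0 < X.t1 (Fuj.nrd (y + x)) → ∃ δ, X.tw.r δ • τ = τ' := fun y hy e h' q => by
    have m : un X y (e ▸ p) * un X _ q = un X _ q * un X x p := Subtype.ext (Units.ext (by
      show y * (y + x) = (y + x) * x
      rw [mul_add, add_mul, sq_pure hx, sq_pure hy, e, add_comm]))
    have k : un X y (e ▸ p) ∈ X.tw.Sb (X.tw.r (un X _ q) • τ) := by
      show X.tw.r _ • _ = _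
      rw [← mul_smul, ← map_mul, m, map_mul, mul_smul,
        show X.tw.r (un X x p) • τ = τ from (sb_iff X).2 h]
    refine ⟨_, ((sb_iff X).1 k).uniq h' (sq_ent (c := X.t1 (-Fuj.nrd y)) ?_ ?_).1⟩
    · rw [un_val, ← map_mul, sq_pure hy, X.hs]
    · rw [e, map_neg, neg_lt_zero]
      exact p
  have sum : X.t1 (Fuj.nrd (y + x)) + X.t1 (Fuj.nrd (-y + x)) = 4 * X.t1 (Fuj.nrd x) := by
    rw [← map_add, ← map_ofNat X.t1 4, ← map_mul]
    congr 1
    simp only [Fuj.nrd, QuaternionAlgebra.re_add, QuaternionAlgebra.imI_add,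
      QuaternionAlgebra.imJ_add, QuaternionAlgebra.imK_add, QuaternionAlgebra.re_neg,
      QuaternionAlgebra.imI_neg, QuaternionAlgebra.imJ_neg, QuaternionAlgebra.imK_neg] at e ⊢
    linear_combination 2 * e
  by_cases q : 0 < X.t1 (Fuj.nrd (y + x))
  · exact key y hy e h' q
  · refine key (-y) (by simp [hy]) (by simpa [Fuj.nrd] using e) ?_ (by linarith)
    simpa using h'.lin 0 (-1)

/-! ## primes -/

variable {E : Type} [Field E] [NumberField E] [Algebra F E] (C : CM F E)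

omit [NumberField E] in
theorem sq_of_gd {w : Pl F} (h : C.Gd w) :
    ∃ x, x ^ 2 = algebraMap F (Fw w) (algebraMap (𝓞 F) F C.a) := by
  obtain ⟨h0, x, hx⟩ := h
  obtain ⟨y, hy, -⟩ := P011.H519.hensel (K := F) (v := w)
    (f := Polynomial.X ^ 2 - Polynomial.C C.a) (Polynomial.monic_X_pow_sub_C _ two_ne_zero)
    (a := x) (by simpa using hx) (by
      intro h
      have h : 2 * x ∈ w.asIdeal := by simpa [one_add_one_eq_two] using h
      rcases w.isPrime.mem_or_mem h with h | h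
      · exact h0 (w.asIdeal.mem_of_dvd (by exact_mod_cast Nat.cast_dvd_cast (α := 𝓞 F) C.D2) h)
      · refine C.aD w h0 ?_
        simpa using sub_mem (w.asIdeal.pow_mem_of_mem h 2 two_pos) hx)
  refine ⟨y, ?_⟩
  have := congrArg Subtype.val hy
  simp [sub_eq_zero] at this
  exact this

omit [NumberField E] in
theorem ex_place {K : Type} [Field K] [NumberField K] [Algebra F K]
    (h : ∀ β : K, β ^ 2 ≠ algebraMap F K (algebraMap (𝓞 F) F C.a)) (B : Finset (Pl F)) :
    ∃ w, w ∉ B ∧ ¬ C.Gd w ∧ Nonempty (K →ₐ[F] Fw w) := by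
  by_contra k
  obtain ⟨β, e⟩ := FI.lgp_rel Nat.prime_two (algebraMap F K (algebraMap (𝓞 F) F C.a)) B
    fun w hw ψ => by
      rw [ψ.commutes]
      exact sq_of_gd C (not_not.1 fun g => k ⟨w, hw, g, ⟨ψ⟩⟩)
  exact h β e

open Classical in
/-- the adele with one special component -/
def upd (w : Pl F) (x : Fw w) (c : 𝓞 F) : AF F :=
  AF.mk (Function.update (fun v => algebraMap (𝓞 F) (Fw v) c) w x)
    ((Filter.eventually_cofinite_ne w).mono fun v hv => by
      rw [Function.update_of_ne hv]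
      exact mem_Ow.1 (algebraMap_mem _ c))

theorem upd_self (w : Pl F) (x : Fw w) (c : 𝓞 F) : ev w (upd w x c) = x := by
  classical
  rw [upd, AF.ev_mk, Function.update_self]

theorem upd_ne {v w : Pl F} (h : v ≠ w) (x : Fw w) (c : 𝓞 F) :
    ev v (upd w x c) = algebraMap _ _ c := by
  classical
  rw [upd, AF.ev_mk, Function.update_of_ne h]

/-- an element of the torus of `η` whose norm is a uniformiser at a split place -/
theorem ex_g {η : X.D} (h : η.re = 0) (h0 : Fuj.nrd η ≠ 0) {w : Pl F} {r : Fw w}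
    (hr : r * r = algebraMap F _ (-Fuj.nrd η)) : ∃ g : X.G, X.Sup w g ∧
      (∀ δ : X.D, δ * η = η * δ → Commute (g : X.DA) (X.jD δ)) ∧ ow (nrd (X.cw w g)) = 1 := by
  obtain ⟨p, hp⟩ := P011.H519.exists_unif F w
  have r0 : r ≠ 0 := fun e => h0 (by simpa [e] using hr.symm)
  let A := upd w (((p : Fw w) + 1) / 2) 1
  let B := upd w (((p : Fw w) - 1) / (2 * r)) 0
  have n : ∀ v, ev v (Fuj.nrd (algebraMap _ X.DA A + B • X.jD η)) =
      ev v A ^ 2 + ev v B ^ 2 * algebraMap F _ (Fuj.nrd η) := fun v => by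
    rw [nrd_pure (by simp [QD.jD, h]), QD.jD, nrd_map, map_add, map_mul, map_pow, map_pow]
    rfl
  have n1 : ev w (Fuj.nrd (algebraMap _ X.DA A + B • X.jD η)) = p := by
    rw [n, upd_self, upd_self, ← neg_neg (Fuj.nrd η), map_neg, ← hr]
    field_simp
    ring
  have n2 : ∀ v, v ≠ w → ev v (Fuj.nrd (algebraMap _ X.DA A + B • X.jD η)) = 1 := fun v hv => by
    rw [n, upd_ne hv, upd_ne hv]
    simp
  have u : IsUnit (algebraMap _ X.DA A + B • X.jD η) := (Fuj.isUnit_iff_nrd _).2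
    (AF.isUnit_iff.2 ⟨fun v => by
      by_cases hv : v = w
      · subst hv
        rw [n1]
        exact (Valuation.ne_zero_iff _).1 (hp ▸ WithZero.exp_ne_zero)
      · rw [n2 v hv]
        exact one_ne_zero, (Filter.eventually_cofinite_ne w).mono fun v hv => by
      rw [n2 v hv, map_one]⟩)
  refine ⟨u.unit, fun v hv => ?_, fun δ e => ?_, ?_⟩
  · rw [u.unit_spec, map_add, QD.cw, qmap_smul, qmap_alg, upd_ne hv, upd_ne hv]
    simp
  · rw [u.unit_spec]
    exact (Algebra.commute_algebraMap_left _ _).add_left (Commute.smul_left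
      (by rw [Commute, SemiconjBy, ← map_mul, ← e, map_mul]) _)
  · rw [u.unit_spec, nrd_eq, QD.cw, nrd_map, n1, ow, vw, hp, WithZero.log_exp, neg_neg]

end Flp

open Flp in
/-- **FLIP** -/
theorem flp : FLIP := by
  intro F E _ _ _ _ _ X C Ψ _ _ ε hC
  set a : F := algebraMap (𝓞 F) F C.a with ha
  let φ := C.sec C.t1
  have φa : ∀ x : F, φ (algebraMap F E x) = X.t1 x := fun x => by rw [C.ovr, hC.t1]; rfl
  have φ2 : φ C.δ ^ 2 = X.t1 a := by rw [← map_pow, C.sq, φa]
  have φc : conj (φ C.δ) = -φ C.δ := by rw [← C.cj, C.cδ, map_neg]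
  have a0 : X.t1 a < 0 := by
    have h1 : 0 < Complex.normSq (φ C.δ) := Complex.normSq_pos.2 ((map_ne_zero φ).2 C.δ0)
    have h2 : (Complex.normSq (φ C.δ) : ℂ) = -X.t1 a := by
      rw [← Complex.mul_conj, φc, ← φ2]
      ring
    have h3 : Complex.normSq (φ C.δ) = -X.t1 a := by exact_mod_cast h2
    linarith
  have ns : ∀ β : F, β ^ 2 ≠ a := fun β e => by
    rw [← e, map_pow] at a0
    exact (sq_nonneg _).not_gt a0
  have i0 : (ε C.δ).re = 0 := by rcases hC.i with h | h <;> rw [h]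
  have i1 : Fuj.nrd (ε C.δ) = -a := by rcases hC.i with h | h <;> simp [h, Fuj.nrd, ha, hC.a]
  have i2 : X.s (ε C.δ) * X.s (ε C.δ) = algebraMap ℝ _ (X.t1 a) := by
    rw [← map_mul, sq_pure i0, i1, neg_neg, X.hs]
  have eε : ∀ s t : F, ε (algebraMap F E s + algebraMap F E t * C.δ) =
      algebraMap F _ s + t • ε C.δ := fun s t => by
    rw [map_add, map_mul, ε.commutes, ε.commutes, Algebra.smul_def]
  obtain ⟨τ₀, h0⟩ := ex_fx i2 a0
  have fx : ∀ x, Fx (X.s (ε x)) τ₀ := fun x => by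
    obtain ⟨s, t, rfl⟩ := C.span x
    rw [eε, s_lin]
    exact h0.lin _ _
  refine ⟨τ₀, fun γ => (sb_iff X).trans ⟨fun h => ?_, ?_⟩, fun γ => X.mem_G0.2 ?_, ?_,
    fun B => (ex_place C (K := F) ns B).imp fun w h => ⟨h.1, h.2.1⟩,
    fun τ γ hγ hz hτ B => ?_⟩
  · have e := comm_of X h h0
    have a1 := X.a_ne
    generalize ((γ : X.Dˣ) : X.D) = x at e
    rcases hC.i with h | h
    · refine ⟨algebraMap F E x.re + algebraMap F E x.imI * C.δ, (eε _ _).trans ?_⟩
      rw [h, QuaternionAlgebra.ext_iff] at e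
      rw [h, QuaternionAlgebra.algebraMap_eq]
      simp at e
      ext <;> simp <;> grind
    · refine ⟨algebraMap F E x.re + algebraMap F E (-x.imI) * C.δ, (eε _ _).trans ?_⟩
      rw [h, QuaternionAlgebra.ext_iff] at e
      rw [h, QuaternionAlgebra.algebraMap_eq]
      simp at e
      ext <;> simp <;> grind
  · rintro ⟨x, e⟩
    exact e ▸ fx x
  · show 0 < X.t1 (Fuj.nrd (ε γ))
    obtain ⟨s, t, e⟩ := C.span γ
    rw [e, eε, nrd_pure i0, i1, map_add, map_mul, map_pow, map_pow, map_neg]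
    by_cases t0 : t = 0
    · have s0 : X.t1 s ≠ 0 := (map_ne_zero _).2 fun s0 => γ.ne_zero (by simp [e, s0, t0])
      simpa [t0] using sq_pos_of_ne_zero s0
    · nlinarith [sq_nonneg (X.t1 s), mul_pos (sq_pos_of_ne_zero ((map_ne_zero X.t1).2 t0))
        (neg_pos.2 a0)]
  · have k : ∀ (γ : X.G0) (s t : F), ((γ : X.Dˣ) : X.D) =
        ε (algebraMap F E s + algebraMap F E t * C.δ) → X.tw.mu γ τ₀ =
        conj (X.t1 s + X.t1 t * lam (X.s (ε C.δ)) τ₀ : ℂ) /
          (X.t1 s + X.t1 t * lam (X.s (ε C.δ)) τ₀) := fun γ s t e => by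
      rw [mu_eq X ((sb_iff X).2 (e ▸ fx _)), e, eε, s_lin, lam_lin]
    rcases sq_eq_sq_iff_eq_or_eq_neg.1 ((h0.lam_sq i2 a0).trans φ2.symm) with h | h
    · refine .inl fun γ x e => ?_
      obtain ⟨s, t, rfl⟩ := C.span x
      rw [k γ s t e, C.cj, h, map_add φ, map_mul φ, φa, φa]
    · refine .inr fun γ x e => ?_
      obtain ⟨s, t, rfl⟩ := C.span x
      rw [k γ s t e, C.cj, h, map_add φ, map_mul φ, φa, φa]
      simp [φc]
  · set x := ((γ : X.Dˣ) : X.D) with hx
    let η : X.D := algebraMap F _ (-x.re) + (1 : F) • x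
    have η0 : η.re = 0 := by simp [η, QuaternionAlgebra.algebraMap_eq]
    have fη : Fx (X.s η) τ := by
      rw [s_lin]
      exact ((sb_iff X).1 hγ).lin _ _
    have η1 : η ≠ 0 := fun e => hz ((X.mem_Z0_iff γ).2 ⟨x.re, by
      rw [← hx]
      exact (neg_add_eq_zero.1 (by simpa [η] using e : -algebraMap F X.D x.re + x = 0)).symm⟩)
    have n0 : 0 < X.t1 (Fuj.nrd η) := by
      have d := fη.det
      rw [X.ovr.det X.a_ne X.b_ne, Complex.mul_conj, Complex.ofReal_inj] at d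
      exact lt_of_le_of_ne (d ▸ Complex.normSq_nonneg _) ((map_ne_zero _).2 (X.div η η1)).symm
    have : Fact (∀ r : F, r ^ 2 ≠ -Fuj.nrd η + 0 * r) := ⟨fun r e => by
      have := congrArg X.t1 e
      rw [zero_mul, add_zero, map_neg, map_pow] at this
      nlinarith [sq_nonneg (X.t1 r)]⟩
    have : NumberField (QuadraticAlgebra F (-Fuj.nrd η) 0) := .of_module_finite F _
    obtain ⟨w, h1, h2, ⟨ψ⟩⟩ := ex_place C (K := QuadraticAlgebra F (-Fuj.nrd η) 0) (fun β e => by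
      have e1 := congrArg QuadraticAlgebra.re e
      have e2 := congrArg QuadraticAlgebra.im e
      simp [sq] at e1 e2
      have b0 : β.im ≠ 0 := fun b => ns β.re (by simpa [b, sq] using e1)
      have b1 : β.re = 0 := mul_right_cancel₀ b0 (by linear_combination e2 / 2)
      obtain ⟨δ, hδ⟩ := same_orbit X (y := algebraMap F _ 0 + β.im • η) i0
        (by simp [η0]) (by rw [nrd_pure η0, i1, ha]; rw [b1] at e1; linear_combination -e1)
        (by rw [i1, map_neg]; linarith) h0 (by rw [s_lin]; exact fη.lin _ _)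
      exact hτ δ hδ) B
    obtain ⟨g, g1, g2, g3⟩ := ex_g X η0 (X.div η η1) (r := ψ QuadraticAlgebra.omega) (by
      rw [← map_mul, QuadraticAlgebra.omega_mul_omega_eq_algebraMap, map_zero, zero_mul,
        add_zero, ψ.commutes])
    exact ⟨w, h1, h2, g, g1, fun δ hδ => Units.ext (g2 _ (comm_of X ((sb_iff X).1 hδ) fη)), g3⟩

end Vale.Agent.P022K.Sh
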