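import Vale.Agent.P022K.F0.Hec

/-! P022K, F0, row FREE: maps on cohomology induced by operators on functions; kernel and cokernel
of the restriction map are killed by every operator that kills the invariant sections. -/

set_option autoImplicit false

noncomputable section

namespace Vale.Agent.P022K.Sh

variable {G0 G : Type} [Group G0] [Group G]

theorem rt_mul {B : Type} (u v : G) (f : G → B) : rt (u * v) f = rt u (rt v f) := by
  funext x; simp only [rt, mul_assoc]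

theorem Inv.rt_eq {B : Type} {U : Subgroup G} {f : G → B} (h : Inv U f) {u : G} (hu : u ∈ U) :
    rt u f = f := funext fun x => h x u hu

theorem inv_of_rt {B : Type} {U : Subgroup G} {f : G → B} (h : ∀ u ∈ U, rt u f = f) : Inv U f :=
  fun x u hu => congrFun (h u hu) x

theorem Inv.rt {B : Type} {U : Subgroup G} {f : G → B} (h : Inv U f) {u : G} (hu : cj u U = U) :
    Inv U (rt u f) := fun x v hv => by
  have := h (x * u) _ (mem_cj.1 (hu.ge hv))
  simpa [Sh.rt, mul_assoc] using this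

theorem Inv.mono {B : Type} {U U' : Subgroup G} {f : G → B} (h : Inv U f) (hU : U' ≤ U) :
    Inv U' f := fun x u hu => h x u (hU hu)

theorem Inv.sub {B : Type} [AddCommGroup B] {U : Subgroup G} {f g : G → B} (h : Inv U f)
    (h' : Inv U g) : Inv U (f - g) := fun x u hu => by
  simp only [Pi.sub_apply, h x u hu, h' x u hu]

theorem rt_sub {B : Type} [AddCommGroup B] (u : G) (f g : G → B) :
    rt u (f - g) = rt u f - rt u g := rfl

theorem rep_one {U : Subgroup G} (u : G) :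
    Rep {y | u⁻¹ * y ∈ U} U (Finset.univ : Finset Unit) fun _ => u where
  right y hy v hv := by simpa [mul_assoc] using U.mul_mem hy hv
  mem _ _ := by simp
  inj _ _ _ _ _ := rfl
  sur y hy := ⟨(), Finset.mem_univ _, hy⟩

theorem hk_one {B : Type} [AddCommMonoid B] {U : Subgroup G} (u : G) {f : G → B} (hf : Inv U f) :
    hk {y | u⁻¹ * y ∈ U} U f = rt u f := funext fun x => by
  rw [(rep_one u).hk hf]; simp [rt]

theorem hk_self {B : Type} [AddCommMonoid B] {U : Subgroup G} {f : G → B} (hf : Inv U f) :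
    hk (U : Set G) U f = f := by
  have := hk_one (1 : G) hf
  simp only [inv_one, one_mul] at this
  exact this.trans (hf.rt_eq U.one_mem)

theorem rep_sub {U U' : Subgroup G} (h : U' ≤ U) [Fintype (U ⧸ U'.subgroupOf U)] :
    Rep (U : Set G) U' (Finset.univ : Finset (U ⧸ U'.subgroupOf U)) fun q => (q.out : U) where
  right _ hy _ hv := U.mul_mem hy (h hv)
  mem q _ := q.out.2
  inj q _ r _ e := q.out_eq'.symm.trans ((QuotientGroup.eq.2 (show q.out⁻¹ * r.out ∈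
    U'.subgroupOf U from e)).trans r.out_eq')
  sur y hy := ⟨((⟨y, hy⟩ : U) : U ⧸ U'.subgroupOf U), Finset.mem_univ _,
    Subgroup.mem_subgroupOf.1
      (QuotientGroup.eq.1 (QuotientGroup.out_eq' ((⟨y, hy⟩ : U) : U ⧸ U'.subgroupOf U)))⟩

theorem cor_tr {U U' : Subgroup G} (h : U' ≤ U) (hf : U'.relIndex U ≠ 0) :
    Cor U (U : Set G) U' := by
  have := Subgroup.index_ne_zero_iff_finite.1 hf
  have := Fintype.ofFinite (U ⧸ U'.subgroupOf U)
  exact ⟨fun _ hu _ hy => U.mul_mem hu hy, (rep_sub h).right, (rep_sub h).fin⟩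

namespace Tw

variable {T : Tw G0 G} {Λ B : Type} [CommRing Λ] [AddCommGroup B] [Module Λ B]
  {ρ : Representation Λ G0 B} {U U' U'' : Subgroup G} {O : Set G}

theorem lt_sub (γ : G0) (f g : G → B) : T.lt ρ γ (f - g) = T.lt ρ γ f - T.lt ρ γ g := by
  funext x; simp [lt]

theorem lt_add (γ : G0) (f g : G → B) : T.lt ρ γ (f + g) = T.lt ρ γ f + T.lt ρ γ g := by
  funext x; simp [lt]

theorem lt_mul (γ δ : G0) (f : G → B) : T.lt ρ (γ * δ) f = T.lt ρ γ (T.lt ρ δ f) := by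
  funext x; simp [lt, mul_assoc]

theorem lt_rt (γ : G0) (u : G) (f : G → B) : T.lt ρ γ (rt u f) = rt u (T.lt ρ γ f) := by
  funext x; simp [lt, rt, mul_assoc]

theorem mk_eq_iff {z z' : T.Z1 ρ U} : (Submodule.Quotient.mk z : T.H1 ρ U) =
    Submodule.Quotient.mk z' ↔ ∃ f, Inv U f ∧ ∀ γ, z.1 γ - z'.1 γ = T.lt ρ γ f - f :=
  Submodule.Quotient.eq _

/-- `φ` is induced by the operator `A` on functions -/
def Ind (φ : T.H1 ρ U → T.H1 ρ U') (A : (G → B) → G → B) : Prop := ∀ z : T.Z1 ρ U,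
  ∃ z' : T.Z1 ρ U', φ (Submodule.Quotient.mk z) = Submodule.Quotient.mk z' ∧
    ∀ γ, z'.1 γ = A (z.1 γ)

theorem ind_hH (h : Cor U' O U) : Ind (T.hH ρ h) (hk O U) := fun z => ⟨T.hZ ρ h z, rfl, fun _ => rfl⟩

theorem Ind.congr {φ : T.H1 ρ U → T.H1 ρ U'} {A A' : (G → B) → G → B} (h : Ind φ A)
    (e : ∀ f, Inv U f → A f = A' f) : Ind φ A' := fun z => by
  obtain ⟨z', h1, h2⟩ := h z
  exact ⟨z', h1, fun γ => (h2 γ).trans (e _ (z.2.1 γ))⟩

theorem Ind.ext {φ φ' : T.H1 ρ U → T.H1 ρ U'} {A : (G → B) → G → B} (h : Ind φ A) (h' : Ind φ' A)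
    (a : T.H1 ρ U) : φ a = φ' a := by
  obtain ⟨z, rfl⟩ := Submodule.Quotient.mk_surjective _ a
  obtain ⟨z1, h1, h2⟩ := h z
  obtain ⟨z2, h3, h4⟩ := h' z
  rw [h1, h3, show z1 = z2 from Subtype.ext (funext fun γ => (h2 γ).trans (h4 γ).symm)]

theorem Ind.comp {φ : T.H1 ρ U' → T.H1 ρ U''} {ψ : T.H1 ρ U → T.H1 ρ U'} {A A' : (G → B) → G → B}
    (h : Ind φ A) (h' : Ind ψ A') : Ind (fun a => φ (ψ a)) fun f => A (A' f) := fun z => by
  obtain ⟨z1, h1, h2⟩ := h' z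
  obtain ⟨z2, h3, h4⟩ := h z1
  exact ⟨z2, by beta_reduce; rw [h1, h3], fun γ => by rw [h4, h2]⟩

theorem ind_id : Ind (fun a : T.H1 ρ U => a) fun f => f := fun z => ⟨z, rfl, fun _ => rfl⟩

theorem Ind.sub {φ ψ : T.H1 ρ U → T.H1 ρ U'} {A A' : (G → B) → G → B}
    (h : Ind φ A) (h' : Ind ψ A') : Ind (fun a => φ a - ψ a) fun f => A f - A' f := fun z => by
  obtain ⟨z1, h1, h2⟩ := h z
  obtain ⟨z2, h3, h4⟩ := h' z
  exact ⟨z1 - z2, by beta_reduce; rw [h1, h3, Submodule.Quotient.mk_sub],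
    fun γ => by beta_reduce; rw [← h2, ← h4]; rfl⟩

theorem Ind.nsmul {φ : T.H1 ρ U → T.H1 ρ U'} {A : (G → B) → G → B} (h : Ind φ A) (n : ℕ) :
    Ind (fun a => n • φ a) fun f => n • A f := fun z => by
  obtain ⟨z1, h1, h2⟩ := h z
  exact ⟨n • z1, by beta_reduce; rw [h1]; exact (map_nsmul (Submodule.mkQ _) n z1).symm,
    fun γ => by beta_reduce; rw [← h2]; rfl⟩

theorem Ind.sum {I : Type} (s : Finset I) {φ : I → T.H1 ρ U → T.H1 ρ U'}
    {A : I → (G → B) → G → B} (h : ∀ i, Ind (φ i) (A i)) :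
    Ind (fun a => ∑ i ∈ s, φ i a) fun f => ∑ i ∈ s, A i f := fun z => by
  choose z1 h1 h2 using fun i => h i z
  refine ⟨∑ i ∈ s, z1 i, ?_, fun γ => ?_⟩
  · simp only [h1]
    exact (map_sum (Submodule.mkQ _) z1 s).symm
  · simp only [← h2, Submodule.coe_sum, Finset.sum_apply]

theorem ind_res (i : Cor U' (U : Set G) U) : Ind (T.hH ρ i) fun f => f :=
  (ind_hH i).congr fun _ => hk_self

theorem ind_dia {u : G} (d : Cor U' {y | u⁻¹ * y ∈ U} U) : Ind (T.hH ρ d) (rt u) :=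
  (ind_hH d).congr fun _ => hk_one u

theorem ind_tr (h : U' ≤ U) [Fintype (U ⧸ U'.subgroupOf U)] (e : O = U) (s : Cor U O U') :
    Ind (T.hH ρ s) fun f => ∑ q : U ⧸ U'.subgroupOf U, rt (q.out : U) f :=
  (ind_hH s).congr fun f hf => funext fun x => by
    rw [e, (rep_sub h).hk hf, Finset.sum_apply]; rfl

variable (T ρ) in
/-- `A` commutes with `G0` and `U` and kills the invariant sections of level `U'` -/
structure Kil (U U' : Subgroup G) (A : (G → B) →+ G → B) : Prop where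
  le : U' ≤ U
  nm : ∀ u ∈ U, cj u U' = U'
  z0 : ∀ γ ∈ T.Z0, ∀ f, Inv U' f → T.lt ρ γ f = f
  lt : ∀ γ f, A (T.lt ρ γ f) = T.lt ρ γ (A f)
  rt : ∀ u ∈ U, ∀ f, Inv U' f → A (rt u f) = rt u (A f)
  kil : ∀ f, Inv U' f → (∀ γ, T.lt ρ γ f = f) → A f = 0

variable {A : (G → B) →+ G → B}

theorem Kil.ker (h : T.Kil ρ U U' A) {i : T.H1 ρ U → T.H1 ρ U'} {t : T.H1 ρ U → T.H1 ρ U}
    (hi : Ind i fun f => f) (ht : Ind t A) (a : T.H1 ρ U) (ha : i a = 0) : t a = 0 := by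
  obtain ⟨z, rfl⟩ := Submodule.Quotient.mk_surjective _ a
  obtain ⟨z1, h1, h2⟩ := hi z
  obtain ⟨z2, h3, h4⟩ := ht z
  beta_reduce at h2
  obtain ⟨f, h5, h6⟩ := (Submodule.Quotient.mk_eq_zero _).1 (h1.symm.trans ha)
  change ∀ γ, z1.1 γ = _ at h6
  rw [h3]
  refine (Submodule.Quotient.mk_eq_zero _).2 ⟨A f, inv_of_rt fun u hu => ?_, fun γ => ?_⟩
  · have := h.kil (Sh.rt u f - f) ((h5.rt (h.nm u hu)).sub h5) fun γ => by
      have e := (z.2.1 γ).rt_eq hu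
      rw [← h2, h6, rt_sub, ← lt_rt] at e
      rw [lt_sub]
      linear_combination (norm := abel) e
    rw [map_sub, h.rt u hu f h5] at this
    exact sub_eq_zero.1 this
  · show z2.1 γ = _
    rw [h4, ← h2, h6, map_sub, h.lt]

theorem Kil.coker (h : T.Kil ρ U U' A) {i : T.H1 ρ U → T.H1 ρ U'} {t : T.H1 ρ U' → T.H1 ρ U'}
    {d : U → T.H1 ρ U' → T.H1 ρ U'} (hi : Ind i fun f => f) (ht : Ind t A)
    (hd : ∀ u, Ind (d u) (Sh.rt (u : G))) (a : T.H1 ρ U') (ha : ∀ u, d u a = a) :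
    ∃ b, i b = t a := by
  obtain ⟨z, rfl⟩ := Submodule.Quotient.mk_surjective _ a
  have h0 : ∀ u : U, ∃ f, Inv U' f ∧ ∀ γ, Sh.rt (u : G) (z.1 γ) - z.1 γ = T.lt ρ γ f - f := fun u => by
    obtain ⟨z1, h1, h2⟩ := hd u z
    obtain ⟨f, h3, h4⟩ := mk_eq_iff.1 (h1.symm.trans (ha u))
    exact ⟨f, h3, fun γ => by rw [← h2, h4]⟩
  choose f h1 h2 using h0
  have h3 : ∀ u v : U, A (f (u * v)) = A (f u) + Sh.rt (u : G) (A (f v)) := fun u v => by
    have := h.kil (f (u * v) - f u - Sh.rt (u : G) (f v))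
      (((h1 _).sub (h1 _)).sub ((h1 v).rt (h.nm _ u.2))) fun γ => by
        have e1 := h2 (u * v) γ
        have e2 := h2 u γ
        have e3 := congrArg (Sh.rt (u : G)) (h2 v γ)
        rw [rt_sub, rt_sub, ← rt_mul, ← lt_rt] at e3
        rw [Subgroup.coe_mul] at e1
        rw [lt_sub, lt_sub]
        linear_combination (norm := abel) e2 + e3 - e1
    rw [map_sub, map_sub, h.rt _ u.2 _ (h1 v)] at this
    linear_combination (norm := abel) this
  have h4 : ∀ v : U, (v : G) ∈ U' → A (f v) = 0 := fun v hv => h.kil _ (h1 v) fun γ => by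
    have := h2 v γ
    rw [(z.2.1 γ).rt_eq hv, sub_self] at this
    exact sub_eq_zero.1 this.symm
  have hm : ∀ x : G, (x : G ⧸ U).out⁻¹ * x ∈ U := fun x => QuotientGroup.eq.1 (QuotientGroup.out_eq' _)
  let g : G → B := fun x => A (f ⟨_, hm x⟩) (x : G ⧸ U).out
  have h5 : ∀ v : U, Sh.rt (v : G) g = g + A (f v) := fun v => funext fun x => by
    have e : ((x * v : G) : G ⧸ U) = x := QuotientGroup.mk_mul_of_mem x v.2
    have e' : (⟨_, hm (x * v)⟩ : U) = ⟨_, hm x⟩ * v := Subtype.ext (by simp [e, mul_assoc])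
    show A (f ⟨_, hm (x * v)⟩) ((x * v : G) : G ⧸ U).out = g x + A (f v) x
    rw [e', h3, e]
    simp [g, Sh.rt]
  have h6 : Inv U' g := inv_of_rt fun v hv => by
    have := h5 ⟨v, h.le hv⟩
    rwa [h4 _ hv, add_zero] at this
  obtain ⟨z2, h7, h8⟩ := ht z
  let y : T.Z1 ρ U := ⟨fun γ => A (z.1 γ) - (T.lt ρ γ g - g), fun γ => inv_of_rt fun u hu => by
      have e := congrArg A (h2 ⟨u, hu⟩ γ)
      rw [map_sub, map_sub, h.lt, h.rt u hu _ (z.2.1 γ)] at e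
      beta_reduce
      rw [rt_sub, rt_sub, ← lt_rt, h5 ⟨u, hu⟩, lt_add]
      linear_combination (norm := abel) e, fun γ δ => by
      beta_reduce
      rw [z.2.2.1, map_add, h.lt, lt_sub, lt_sub, lt_mul]
      abel, fun γ hγ => by
      beta_reduce
      rw [z.2.2.2 γ hγ, h.z0 γ hγ g h6, map_zero, sub_self, sub_self]⟩
  obtain ⟨z3, h9, h10⟩ := hi y
  refine ⟨Submodule.Quotient.mk y, ?_⟩
  rw [h9, h7, eq_comm, mk_eq_iff]
  exact ⟨g, h6, fun γ => by rw [h8, h10]; exact sub_sub_cancel _ _⟩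

/-! ### the Hecke operator -/

section

variable {O K : Type} [CommRing O] [IsDomain O] [IsDiscreteValuationRing O] [Field K]
  [Algebra O K] (w : T.Lc O K) [Fintype (IsLocalRing.ResidueField O)]

/-- `T_w` on functions -/
def Lc.Tf (B : Type) [AddCommGroup B] : (G → B) →+ G → B where
  toFun f x := ∑ i, f (x * w.ι (w.tr i))
  map_zero' := by funext x; simp
  map_add' f g := by funext x; simp [Finset.sum_add_distrib]

/-- `T_w ^ 2 - (q + 1) ^ 2` on functions -/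
def Lc.tf (B : Type) [AddCommGroup B] : (G → B) →+ G → B :=
  (w.Tf B).comp (w.Tf B) - (qq O + 1) ^ 2 • AddMonoidHom.id _

theorem Lc.tf_apply (f : G → B) : w.tf B f = w.Tf B (w.Tf B f) - (qq O + 1) ^ 2 • f := rfl

variable {w}

theorem Lc.At.hk_To (h : w.At (KK O K) U) (hU : U ∈ T.Lev) {f : G → B} (hf : Inv U f) :
    hk (w.To U) U f = w.Tf B f := funext fun x => (h.rep_To hU).hk hf x

theorem Lc.At.ind_To (h : w.At (KK O K) U) (hU : U ∈ T.Lev) (c : Cor U (w.To U) U) :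
    Ind (T.hH ρ c) (w.Tf B) := (ind_hH c).congr fun _ => h.hk_To hU

theorem Lc.At.ind_t (h : w.At (KK O K) U) (hU : U ∈ T.Lev) (c : Cor U (w.To U) U) :
    Ind (T.hH ρ c ∘ₗ T.hH ρ c - (qq O + 1) ^ 2 • 1 : Module.End Λ (T.H1 ρ U)) (w.tf B) :=
  ((h.ind_To hU c).comp (h.ind_To hU c)).sub (ind_id.nsmul _)

theorem Lc.At.inv_Tf (h : w.At (KK O K) U) (hU : U ∈ T.Lev) (c : Cor U (w.To U) U) {f : G → B}
    (hf : Inv U f) : Inv U (w.Tf B f) := h.hk_To hU hf ▸ hk_inv c hf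

theorem Lc.Tf_lt (γ : G0) (f : G → B) : w.Tf B (T.lt ρ γ f) = T.lt ρ γ (w.Tf B f) := by
  funext x
  simp [Lc.Tf, lt, mul_assoc]

theorem Lc.At.Tf_rt (h : w.At (KK O K) U) (h' : w.At (KK O K) U') (hU' : U' ∈ T.Lev)
    (c : Cor U' (w.To U') U') {u : G} (hu : u ∈ U) {f : G → B} (hf : Inv U' f) :
    w.Tf B (rt u f) = rt u (w.Tf B f) := by
  have ha : w.ι (w.π u) ∈ U' := (h'.iff hU').2 (h.2 u hu)
  have hy : w.π (u * (w.ι (w.π u))⁻¹) = 1 := by rw [map_mul, map_inv, w.πι, mul_inv_cancel]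
  have e : u = u * (w.ι (w.π u))⁻¹ * w.ι (w.π u) := by group
  generalize u * (w.ι (w.π u))⁻¹ = y at hy e
  rw [e, rt_mul, rt_mul, hf.rt_eq ha, (h'.inv_Tf hU' c hf).rt_eq ha]
  funext x
  show ∑ i, f (x * w.ι (w.tr i) * y) = ∑ i, f (x * y * w.ι (w.tr i))
  simp only [mul_assoc, (w.com _ y hy).eq]

theorem Lc.At.tf_rt (h : w.At (KK O K) U) (h' : w.At (KK O K) U') (hU' : U' ∈ T.Lev)
    (c : Cor U' (w.To U') U') {u : G} (hu : u ∈ U) {f : G → B} (hf : Inv U' f) :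
    w.tf B (rt u f) = rt u (w.tf B f) := by
  rw [w.tf_apply, w.tf_apply, h.Tf_rt h' hU' c hu hf, h.Tf_rt h' hU' c hu (h'.inv_Tf hU' c hf)]
  rfl

theorem Lc.tf_lt (γ : G0) (f : G → B) : w.tf B (T.lt ρ γ f) = T.lt ρ γ (w.tf B f) := by
  rw [w.tf_apply, w.tf_apply, Lc.Tf_lt, Lc.Tf_lt, lt_sub]
  congr 1
  funext x
  simp [lt]

variable (T) in
/-- the two axioms about the centre -/
structure Ctr : Prop where
  z0 : ∀ γ, γ ∈ T.Z0 ↔ T.j γ ∈ T.Z
  zc : T.Z ≤ Subgroup.center G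

theorem Ok.toCtr (ok : T.Ok) : T.Ctr := ⟨ok.z0, ok.zc⟩

theorem Ctr.lt_Z0 (ok : T.Ctr) (hU : U ∈ T.Lev) {γ : G0} (hγ : γ ∈ T.Z0) (hρ : ρ γ = 1) {f : G → B}
    (hf : Inv U f) : T.lt ρ γ f = f := by
  funext x
  have h1 := inv_mem ((ok.z0 γ).1 hγ)
  simp only [lt, hρ, Module.End.one_apply]
  rw [← Subgroup.mem_center_iff.1 (ok.zc h1) x, hf x _ ((sInf_le hU : T.Z ≤ U) h1)]

theorem Ctr.kil (ok : T.Ctr) (hU' : U' ∈ T.Lev) (le : U' ≤ U) (nm : ∀ u ∈ U, cj u U' = U')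
    (h : w.At (KK O K) U) (h' : w.At (KK O K) U') (E : w.Eis U') (c : Cor U' (w.To U') U') :
    T.Kil (Representation.trivial Λ G0 B) U U' (w.tf B) where
  le := le
  nm := nm
  z0 _ hγ _ hf := ok.lt_Z0 hU' hγ rfl hf
  lt := Lc.tf_lt
  rt _ hu _ hf := h.tf_rt h' hU' c hu hf
  kil f hf hγ := by
    have := E B f ⟨hf, hγ⟩
    rw [h'.hk_To hU' (hk_inv c hf), h'.hk_To hU' hf] at this
    rw [w.tf_apply, this, sub_self]

end

/-! ### change of coefficients -/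

section

variable {Λ' B' : Type} [CommRing Λ'] [AddCommGroup B'] [Module Λ' B'] {l : B →+ B'}

theorem IsCo.unique {a : T.Hc Λ B U} {b b' : T.Hc Λ' B' U} (h : T.IsCo U l a b)
    (h' : T.IsCo U l a b') : b = b' := by
  obtain ⟨z, y, rfl, rfl, h1⟩ := h
  obtain ⟨z', y', e, rfl, h2⟩ := h'
  obtain ⟨f, h3, h4⟩ := mk_eq_iff.1 e.symm
  refine mk_eq_iff.2 ⟨fun x => l (f x), fun x u hu => congrArg l (h3 x u hu), fun γ => ?_⟩
  funext x
  have := congrArg l (congrFun (h4 γ) x)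
  simpa [lt, h1, h2] using this

theorem IsCo.hC {a : T.Hc Λ B U} {b : T.Hc Λ' B' U} (h : T.IsCo U l a b) (c : Cor U' O U) :
    T.IsCo U' l (T.hC Λ B c a) (T.hC Λ' B' c b) := by
  obtain ⟨z, y, rfl, rfl, h1⟩ := h
  refine ⟨T.hZ _ c z, T.hZ _ c y, rfl, rfl, fun γ x => ?_⟩
  show hk O U (y.1 γ) x = l (hk O U (z.1 γ) x)
  simp only [hk_eq c, map_sum, h1]

end

end Tw

end Vale.Agent.P022K.Sh
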