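import Vale.Agent.P022K.F0.FreeA
import Vale.Agent.P022K.F0.FreeB

/-! P022K, F0, row FREE. -/

set_option autoImplicit false

open Module
open scoped TensorProduct

noncomputable section

namespace Vale.Agent.P022K.Sh

open Fre

variable {G0 G : Type} [Group G0] [Group G]

namespace Tw

variable {T : Tw G0 G} {U U' : Subgroup G}

theorem Neat.of_le (h : T.Neat U) (le : U' ≤ U) : T.Neat U' := fun x γ hγ =>
  h x γ (T.mem_Gam.2 (le (T.mem_Gam.1 hγ)))

/-- the map from integral cohomology -/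
theorem LAT.ex_co (lat : T.LAT) (hU : U ∈ T.Lev) (n : T.Neat U) (Λ : Type) [CommRing Λ] :
    ∃ c : T.Hc ℤ ℤ U →+ T.Hc Λ Λ U, Bc Λ c ∧ ∀ a, T.IsCo U (zmultiplesHom Λ 1) a (c a) := by
  obtain ⟨e, he⟩ := (lat U hU n).2.2 Λ Λ
  refine ⟨e.toLinearMap.toAddMonoidHom.comp (TensorProduct.mk ℤ Λ _ 1).toAddMonoidHom,
    fun ι b => ⟨(Algebra.TensorProduct.basis Λ b).map e, fun i => ?_⟩, fun a => he 1 a⟩
  simp [Algebra.TensorProduct.basis_apply]

theorem LAT.finite (lat : T.LAT) (hU : U ∈ T.Lev) (n : T.Neat U) (Λ : Type) [CommRing Λ]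
    [Finite Λ] : Finite (T.Hc Λ Λ U) := by
  obtain ⟨c, hc, -⟩ := lat.ex_co hU n Λ
  have := (lat U hU n).1
  have := (lat U hU n).2.1
  exact hc.finite

section

variable {Λ B : Type} [CommRing Λ] [AddCommGroup B] [Module Λ B] (ρ : Representation Λ G0 B)

/-- the diamond operators -/
def dia (d : ∀ u : U, Cor U' {y | (u : G)⁻¹ * y ∈ U'} U') : U →* End Λ (T.H1 ρ U') where
  toFun u := T.hH ρ (d u)
  map_one' := LinearMap.ext ((ind_dia (d 1)).ext (ind_id.congr fun _ hf => (hf.rt_eq U'.one_mem).symm))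
  map_mul' u v := LinearMap.ext ((ind_dia (d (u * v))).ext
    (((ind_dia (d u)).comp (ind_dia (d v))).congr fun f _ => (rt_mul _ _ f).symm))

theorem dia_eq_one (d : ∀ u : U, Cor U' {y | (u : G)⁻¹ * y ∈ U'} U') {u : U} (hu : (u : G) ∈ U') :
    T.dia ρ d u = 1 :=
  LinearMap.ext ((ind_dia (d u)).ext (ind_id.congr fun _ hf => (hf.rt_eq hu).symm))

theorem normal_of_cj (nm : ∀ u ∈ U, cj u U' = U') : (U'.subgroupOf U).Normal :=
  ⟨fun n hn g => Subgroup.mem_subgroupOf.2 (by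
    have := mem_cj.1 ((nm _ (inv_mem g.2)).ge (Subgroup.mem_subgroupOf.1 hn))
    simpa using this)⟩

variable {O K : Type} [CommRing O] [IsDomain O] [IsDiscreteValuationRing O] [Field K]
  [Algebra O K] {w : T.Lc O K}

/-- the operator `T_w ^ 2 - (q + 1) ^ 2` -/
abbrev Lc.tt (w : T.Lc O K) (c : Cor U (w.To U) U) : End Λ (T.H1 ρ U) :=
  T.hH ρ c ∘ₗ T.hH ρ c - (qq O + 1) ^ 2 • 1

variable {ρ}

theorem Lc.At.res_tt (h : w.At (KK O K) U) (hU : U ∈ T.Lev) (h' : w.At (KK O K) U')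
    (hU' : U' ∈ T.Lev) (c : Cor U (w.To U) U) (c' : Cor U' (w.To U') U') (i : Cor U' (U : Set G) U)
    (a : T.H1 ρ U) : T.hH ρ i (w.tt ρ c a) = w.tt ρ c' (T.hH ρ i a) := by
  have := w.fin
  have := Fintype.ofFinite (IsLocalRing.ResidueField O)
  exact ((ind_res i).comp (h.ind_t hU c)).ext ((h'.ind_t hU' c').comp (ind_res i)) a

theorem Lc.At.dia_tt (h : w.At (KK O K) U) (h' : w.At (KK O K) U') (hU' : U' ∈ T.Lev)
    (c' : Cor U' (w.To U') U') {u : G} (hu : u ∈ U) (d : Cor U' {y | u⁻¹ * y ∈ U'} U')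
    (a : T.H1 ρ U') : T.hH ρ d (w.tt ρ c' a) = w.tt ρ c' (T.hH ρ d a) := by
  have := w.fin
  have := Fintype.ofFinite (IsLocalRing.ResidueField O)
  exact ((ind_dia d).comp (h'.ind_t hU' c')).ext (((h'.ind_t hU' c').comp (ind_dia d)).congr
    fun f hf => h.tf_rt h' hU' c' hu hf) a

theorem res_inv (i : Cor U' (U : Set G) U) {u : G} (hu : u ∈ U)
    (d : Cor U' {y | u⁻¹ * y ∈ U'} U') (a : T.H1 ρ U) : T.hH ρ d (T.hH ρ i a) = T.hH ρ i a :=
  ((ind_dia d).comp (ind_res i)).ext ((ind_res i).congr fun _ hf => (hf.rt_eq hu).symm) a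

theorem res_tr (le : U' ≤ U) [Fintype (U ⧸ U'.subgroupOf U)] {S : Set G} (e : S = U)
    (i : Cor U' (U : Set G) U) (s : Cor U S U') (d : ∀ u : U, Cor U' {y | (u : G)⁻¹ * y ∈ U'} U')
    (a : T.H1 ρ U') :
    T.hH ρ i (T.hH ρ s a) = ∑ q : U ⧸ U'.subgroupOf U, T.hH ρ (d q.out) a :=
  ((ind_res i).comp (ind_tr le e s)).ext (Ind.sum _ fun q => ind_dia (d q.out)) a

theorem hH_congr {S S' : Set G} (e : S = S') (c : Cor U' S U) (c' : Cor U' S' U) :
    T.hH ρ c = T.hH ρ c' := by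
  subst e; rfl

/-- the kernel of the restriction is killed by `t` -/
theorem Ctr.ker_res (ok : T.Ctr) (hU : U ∈ T.Lev) (hU' : U' ∈ T.Lev) (le : U' ≤ U)
    (nm : ∀ u ∈ U, cj u U' = U') (h : w.At (KK O K) U) (h' : w.At (KK O K) U') (E : w.Eis U')
    (c : Cor U (w.To U) U) (c' : Cor U' (w.To U') U') (i : Cor U' (U : Set G) U)
    (a : T.Hc Λ B U) (ha : T.hC Λ B i a = 0) :
    w.tt (Representation.trivial Λ G0 B) c a = 0 := by
  have := w.fin
  have := Fintype.ofFinite (IsLocalRing.ResidueField O)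
  exact (ok.kil hU' le nm h h' E c').ker (ind_res i) (h.ind_t hU c) a ha

/-- the cokernel of the restriction is killed by `t` -/
theorem Ctr.coker_res (ok : T.Ctr) (hU' : U' ∈ T.Lev) (le : U' ≤ U)
    (nm : ∀ u ∈ U, cj u U' = U') (h : w.At (KK O K) U) (h' : w.At (KK O K) U') (E : w.Eis U')
    (c' : Cor U' (w.To U') U') (i : Cor U' (U : Set G) U)
    (d : ∀ u : U, Cor U' {y | (u : G)⁻¹ * y ∈ U'} U')
    (a : T.Hc Λ B U') (ha : ∀ u, T.hC Λ B (d u) a = a) :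
    ∃ b, T.hC Λ B i b = w.tt (Representation.trivial Λ G0 B) c' a := by
  have := w.fin
  have := Fintype.ofFinite (IsLocalRing.ResidueField O)
  exact (ok.kil hU' le nm h h' E c').coker (ind_res i) (h'.ind_t hU' c')
    (fun u => ind_dia (d u)) a ha

theorem Ctr.bij_res (ok : T.Ctr) (hU : U ∈ T.Lev) (hU' : U' ∈ T.Lev) (le : U' ≤ U)
    (nm : ∀ u ∈ U, cj u U' = U') (h : w.At (KK O K) U) (h' : w.At (KK O K) U') (E : w.Eis U')
    (c : Cor U (w.To U) U) (c' : Cor U' (w.To U') U') (i : Cor U' (U : Set G) U)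
    (d : ∀ u : U, Cor U' {y | (u : G)⁻¹ * y ∈ U'} U') [Finite (T.Hc Λ B U)]
    [Finite (T.Hc Λ B U')] : Set.BijOn (T.hC Λ B i)
      (Fit (w.tt (Representation.trivial Λ G0 B) c) : Set _)
      {a | a ∈ Fit (w.tt (Representation.trivial Λ G0 B) c') ∧ ∀ u, T.hC Λ B (d u) a = a} :=
  bij_Fit (h.res_tt hU h' hU' c c' i) (fun a u => res_inv i u.2 (d u) a)
    (fun a ha u => (h.dia_tt h' hU' c' u.2 (d u) a).trans (congrArg _ (ha u)))
    (ok.ker_res hU hU' le nm h h' E c c' i) (ok.coker_res hU' le nm h h' E c' i d)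

end

theorem adj_pow {k V : Type} [CommRing k] [AddCommGroup V] [Module k V] {e : V →ₗ[k] V →ₗ[k] k}
    {t : End k V} (h : ∀ a b, e (t a) b = e a (t b)) (n : ℕ) (a b : V) :
    e ((t ^ n) a) b = e a ((t ^ n) b) := by
  induction n generalizing a b with
  | zero => simp
  | succ n ih => rw [pow_succ', End.mul_apply, h, ih, ← End.mul_apply, ← pow_succ, pow_succ']

theorem Fit_eq {Λ M : Type} [CommRing Λ] [AddCommGroup M] [Module Λ M] {t : End Λ M} {N : ℕ}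
    (N0 : 0 < N) (ht : t ^ N * t ^ N = t ^ N) : Fit t = LinearMap.range (t ^ N) :=
  Submodule.ext fun a => (mem_Fit N0 ht).trans
    ⟨fun h => ⟨a, h⟩, fun ⟨b, hb⟩ => hb ▸ congrArg (fun f : End _ _ => f b) ht⟩

theorem idem_two {A B : Type} [Monoid A] [Monoid B] [Finite A] [Finite B] (x : A) (y : B) :
    ∃ N, 0 < N ∧ x ^ N * x ^ N = x ^ N ∧ y ^ N * y ^ N = y ^ N := by
  obtain ⟨N1, p1, q1⟩ := exists_idem x
  obtain ⟨N2, p2, q2⟩ := exists_idem y
  exact ⟨N1 * N2, by positivity, q1 _ p2, mul_comm N2 N1 ▸ q2 _ p1⟩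

section

variable {O K : Type} [CommRing O] [IsDomain O] [IsDiscreteValuationRing O] [Field K]
  [Algebra O K] {w : T.Lc O K}

/-- on the part where `t` is bijective the trace map is onto (coefficients `ℤ / p`, any `p ≠ 0`) -/
theorem Ctr.tr_onto (ok : T.Ctr) (lat : T.LAT) (weil : T.WEIL) {p : ℕ} [NeZero p]
    (hU : U ∈ T.Lev) (hU' : U' ∈ T.Lev) (n : T.Neat U) (le : U' ≤ U)
    (nm : ∀ u ∈ U, cj u U' = U') (h : w.At (KK O K) U) (h' : w.At (KK O K) U') (E : w.Eis U')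
    (c : Cor U (w.To U) U) (c' : Cor U' (w.To U') U') (i : Cor U' (U : Set G) U)
    (d : ∀ u : U, Cor U' {y | (u : G)⁻¹ * y ∈ U'} U') (s : Cor U (U : Set G)⁻¹ U') :
    ∀ y ∈ Fit (w.tt (Representation.trivial (ZMod p) G0 (ZMod p)) c),
      ∃ b ∈ Fit (w.tt (Representation.trivial (ZMod p) G0 (ZMod p)) c'),
        T.hC (ZMod p) (ZMod p) s b = y := by
  have n' := n.of_le le
  have := lat.finite hU n (ZMod p)
  have := lat.finite hU' n' (ZMod p)
  have : Finite (End (ZMod p) (T.Hc (ZMod p) (ZMod p) U)) :=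
    Finite.of_injective _ DFunLike.coe_injective
  have : Finite (End (ZMod p) (T.Hc (ZMod p) (ZMod p) U')) :=
    Finite.of_injective _ DFunLike.coe_injective
  obtain ⟨N, N0, i2, i3⟩ := idem_two (w.tt (Representation.trivial (ZMod p) G0 (ZMod p)) c)
    (w.tt (Representation.trivial (ZMod p) G0 (ZMod p)) c')
  obtain ⟨e, e1, e2, -⟩ := weil p (NeZero.pos p)
  have sa : ∀ V ∈ T.Lev, T.Neat V → w.At (KK O K) V → ∀ (c : Cor V (w.To V) V) a b,
      e V (w.tt (Representation.trivial (ZMod p) G0 (ZMod p)) c a) b =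
        e V a (w.tt (Representation.trivial (ZMod p) G0 (ZMod p)) c b) := fun V hV nV hw c a b => by
    have k : ∀ a b, e V (T.hC (ZMod p) (ZMod p) c a) b = e V a (T.hC (ZMod p) (ZMod p) c b) :=
        fun a b => by
      have c1 : Cor V (w.To V)⁻¹ V := (hw.To_inv hV).symm ▸ c
      rw [e2 V hV nV V hV nV _ c c1]
      exact congrArg (fun f : End (ZMod p) _ => e V a (f b)) (hH_congr (hw.To_inv hV) c1 c)
    simp only [LinearMap.sub_apply, LinearMap.comp_apply, LinearMap.smul_apply, End.one_apply,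
      map_sub, map_nsmul, k]
  have bp := ok.bij_res (Λ := ZMod p) (B := ZMod p) hU hU' le nm h h' E c c' i d
  intro y hy
  obtain ⟨b, hb⟩ := onto_of_adj (e1 U hU n).1.2 (e1 U' hU' n').1.1 (e2 U hU n U' hU' n' _ i s)
    (adj_pow (sa U hU n h c) N) (adj_pow (sa U' hU' n' h' c') N)
    (pow_comm (h.res_tt hU h' hU' c c' i) N) (fun a ha => bp.injOn
      ((Fit_eq N0 i2).ge ⟨a, rfl⟩) (zero_mem _) (ha.trans (map_zero _).symm)) y
  exact ⟨_, (Fit_eq N0 i3).ge ⟨b, rfl⟩, hb.trans ((mem_Fit N0 i2).1 hy)⟩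

theorem Lc.At.dia_Fit {Λ B : Type} [CommRing Λ] [AddCommGroup B] [Module Λ B]
    {ρ : Representation Λ G0 B} (h : w.At (KK O K) U) (h' : w.At (KK O K) U') (hU' : U' ∈ T.Lev)
    (c' : Cor U' (w.To U') U') {u : G} (hu : u ∈ U) (d : Cor U' {y | u⁻¹ * y ∈ U'} U')
    {a : T.H1 ρ U'} (ha : a ∈ Fit (w.tt ρ c')) : T.hH ρ d a ∈ Fit (w.tt ρ c') :=
  (Submodule.mem_iInf _).2 fun k => by
    obtain ⟨b, rfl⟩ := (Submodule.mem_iInf _).1 ha k
    exact ⟨_, (pow_comm (h.dia_tt h' hU' c' hu d) k b).symm⟩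

theorem Ctr.free_p (ok : T.Ctr) (lat : T.LAT) (weil : T.WEIL) {p : ℕ} [Fact p.Prime]
    (hU : U ∈ T.Lev) (hU' : U' ∈ T.Lev) (n : T.Neat U) (le : U' ≤ U)
    (nm : ∀ u ∈ U, cj u U' = U') (h : w.At (KK O K) U) (h' : w.At (KK O K) U') (E : w.Eis U')
    (c : Cor U (w.To U) U) (c' : Cor U' (w.To U') U') (i : Cor U' (U : Set G) U)
    (d : ∀ u : U, Cor U' {y | (u : G)⁻¹ * y ∈ U'} U') {m : ℕ} (hm : U'.relIndex U = p ^ m) :
    ∃ (r : ℕ) (v : Fin r → T.Hc (ZMod p) (ZMod p) U'),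
      (∀ k, v k ∈ Fit (w.tt (Representation.trivial (ZMod p) G0 (ZMod p)) c')) ∧
      LinearIndependent (ZMod p) (fun x : Fin r × (U ⧸ U'.subgroupOf U) =>
        T.hC (ZMod p) (ZMod p) (d x.2.out) (v x.1)) ∧
      Submodule.span (ZMod p) (Set.range fun x : Fin r × (U ⧸ U'.subgroupOf U) =>
        T.hC (ZMod p) (ZMod p) (d x.2.out) (v x.1)) =
        Fit (w.tt (Representation.trivial (ZMod p) G0 (ZMod p)) c') := by
  have := lat.finite hU n (ZMod p)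
  have := lat.finite hU' (n.of_le le) (ZMod p)
  have hi : U'.relIndex U ≠ 0 := hm ▸ pow_ne_zero _ (Fact.out : p.Prime).ne_zero
  have := Subgroup.index_ne_zero_iff_finite.1 hi
  have := Fintype.ofFinite (U ⧸ U'.subgroupOf U)
  have := normal_of_cj nm
  have hQ : IsPGroup p (U ⧸ U'.subgroupOf U) := IsPGroup.of_card hm
  have eU : (U : Set G)⁻¹ = U := inv_coe_set
  have s : Cor U (U : Set G)⁻¹ U' := eU.symm ▸ cor_tr le hi
  have bp := ok.bij_res (Λ := ZMod p) (B := ZMod p) hU hU' le nm h h' E c c' i d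
  obtain ⟨D, hD, hD'⟩ : ∃ D : U ⧸ U'.subgroupOf U →* End (ZMod p) (T.Hc (ZMod p) (ZMod p) U'),
      (∀ q, D q = T.hC _ _ (d q.out)) ∧ ∀ u : U, D u = T.hC _ _ (d u) := by
    refine ⟨QuotientGroup.lift (U'.subgroupOf U) (T.dia _ d) fun u hu => T.dia_eq_one _ d hu,
      fun q => ?_, fun _ => rfl⟩
    conv_lhs => rw [← q.out_eq']
    rfl
  simp only [← hD]
  refine exists_free hQ D _ (fun q a ha => ?_) fun a ha hq => ?_
  · rw [hD]
    exact h.dia_Fit h' hU' c' q.out.2 _ ha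
  · obtain ⟨y, hy, rfl⟩ := bp.surjOn ⟨ha, fun u => hD' u ▸ hq u⟩
    obtain ⟨b, hb, rfl⟩ := ok.tr_onto lat weil hU hU' n le nm h h' E c c' i d s y hy
    refine ⟨b, hb, ?_⟩
    simp only [hD]
    exact (res_tr le eU i s d b).symm

theorem co_comm {Λ : Type} [CommRing Λ] {f : T.Hc ℤ ℤ U →+ T.Hc Λ Λ U}
    (k : ∀ a, T.IsCo U (zmultiplesHom Λ 1) a (f a)) {S : Set G} (x : Cor U S U) (a : T.Hc ℤ ℤ U) :
    f (T.hC ℤ ℤ x a) = T.hC Λ Λ x (f a) := (k _).unique ((k a).hC x)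

theorem co_tt {Λ : Type} [CommRing Λ] {f : T.Hc ℤ ℤ U →+ T.Hc Λ Λ U}
    (k : ∀ a, T.IsCo U (zmultiplesHom Λ 1) a (f a)) (c : Cor U (w.To U) U) (N : ℕ)
    (a : T.Hc ℤ ℤ U) : f ((w.tt (Representation.trivial ℤ G0 ℤ) c ^ N) a) =
      (w.tt (Representation.trivial Λ G0 Λ) c ^ N) (f a) := by
  refine pow_comm (fun a => ?_) N a
  simp only [LinearMap.sub_apply, LinearMap.comp_apply, LinearMap.smul_apply, End.one_apply,
    map_sub, map_nsmul, co_comm k]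

end

theorem Ctr.free (ok : T.Ctr) (lat : T.LAT) (weil : T.WEIL) : T.FREE := by
  intro p hp Λ _ _ _ hΛ O K _ _ _ _ _ w U hU U' hU' n le nm h h' E c c' i d t t' ht ht'
  have n' := n.of_le le
  have := lat.finite hU n Λ
  have := lat.finite hU' n' Λ
  subst ht ht'
  refine ⟨ok.bij_res hU hU' le nm h h' E c c' i d, fun ⟨m, hm⟩ => ?_⟩
  have : Fact p.Prime := ⟨hp⟩
  have := lat.finite hU' n' (ZMod p)
  have := (lat U' hU' n').1
  have := (lat U' hU' n').2.1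
  have := Subgroup.index_ne_zero_iff_finite.1 (hm ▸ pow_ne_zero _ hp.ne_zero : U'.relIndex U ≠ 0)
  have := Fintype.ofFinite (U ⧸ U'.subgroupOf U)
  have : Finite (End Λ (T.Hc Λ Λ U')) := Finite.of_injective _ DFunLike.coe_injective
  have : Finite (End (ZMod p) (T.Hc (ZMod p) (ZMod p) U')) :=
    Finite.of_injective _ DFunLike.coe_injective
  obtain ⟨N, N0, i1, i3⟩ := idem_two (w.tt (Representation.trivial Λ G0 Λ) c')
    (w.tt (Representation.trivial (ZMod p) G0 (ZMod p)) c')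
  obtain ⟨r, v, v1, v2, v3⟩ := ok.free_p lat weil hU hU' n le nm h h' E c c' i d hm
  obtain ⟨cΛ, b1, k1⟩ := lat.ex_co hU' n' Λ
  obtain ⟨cp, b2, k2⟩ := lat.ex_co hU' n' (ZMod p)
  choose l hl using fun k => b2.onto (v k)
  obtain ⟨y, hy⟩ : ∃ y : Fin r × (U ⧸ U'.subgroupOf U) → T.Hc ℤ ℤ U', ∀ x, y x =
    T.hC ℤ ℤ (d x.2.out) ((w.tt (Representation.trivial ℤ G0 ℤ) c' ^ N) (l x.1)) := ⟨_, fun _ => rfl⟩
  have hv : (fun x => cp (y x)) = fun x => T.hC (ZMod p) (ZMod p) (d x.2.out) (v x.1) := by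
    funext x
    rw [hy, co_comm k2, co_tt k2, hl, (mem_Fit N0 i3).1 (v1 _)]
  obtain ⟨u1, u2⟩ := lift_basis hΛ b1 b2 i1 i3 (co_tt k1 c' N) (co_tt k2 c' N) y (fun x => by
      rw [hy, co_comm k1, co_tt k1]
      exact (mem_Fit N0 i1).1 (h.dia_Fit h' hU' c' x.2.out.2 _ ((Fit_eq N0 i1).ge ⟨_, rfl⟩)))
    (by rw [hv]; exact v2) (by rw [hv, v3, Fit_eq N0 i3])
  refine ⟨r, fun k => cΛ ((w.tt (Representation.trivial ℤ G0 ℤ) c' ^ N) (l k)),
    (Basis.span u1).map (LinearEquiv.ofEq _ _ (u2.trans (Fit_eq N0 i1).symm)), fun k u => ?_⟩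
  rw [Basis.map_apply, LinearEquiv.coe_ofEq_apply, Basis.span_apply]
  show cΛ (y _) = _
  rw [hy, co_comm k1]
  have hu : u⁻¹ * (u : U ⧸ U'.subgroupOf U).out ∈ U'.subgroupOf U := out_mk_mem _ u
  have e := T.dia_eq_one (Representation.trivial Λ G0 Λ) d (Subgroup.mem_subgroupOf.1 hu)
  have e' := congrArg (T.dia (Representation.trivial Λ G0 Λ) d u * ·) e
  simp only [← map_mul, mul_inv_cancel_left, mul_one] at e'
  exact LinearMap.congr_fun e' _

end Tw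

/-- **row FREE** -/
theorem free (lat : All fun T => T.LAT) (weil : All fun T => T.WEIL) : All fun T => T.FREE :=
  fun _ _ _ _ T ok => ok.toCtr.free (lat _ _ T ok) (weil _ _ T ok)

end Vale.Agent.P022K.Sh
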