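import Vale.Agent.P022K.F0.St

/-! P022K, F0, row FREE: the algebra (Fitting parts, modules over `p`-groups, lifting of bases). -/

set_option autoImplicit false

open Module

namespace Vale.Agent.P022K.Sh.Fre

/-! ### Fitting parts -/

theorem exists_idem {M : Type*} [Monoid M] [Finite M] (x : M) :
    ∃ N, 0 < N ∧ ∀ k, 0 < k → x ^ (N * k) * x ^ (N * k) = x ^ (N * k) := by
  obtain ⟨a, b, hab, e⟩ : ∃ a b : ℕ, a < b ∧ x ^ a = x ^ b := by
    obtain ⟨a, b, h, e⟩ := Finite.exists_ne_map_eq_of_infinite fun n : ℕ => x ^ n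
    rcases lt_or_gt_of_ne h with h | h
    · exact ⟨a, b, h, e⟩
    · exact ⟨b, a, h, e.symm⟩
  obtain ⟨d, rfl⟩ := Nat.exists_eq_add_of_lt hab
  have key : ∀ j n, x ^ (a + n + (d + 1) * j) = x ^ (a + n) := fun j n => by
    induction j with
    | zero => simp
    | succ j ih =>
      rw [show a + n + (d + 1) * (j + 1) = (a + d + 1) + (n + (d + 1) * j) by ring, pow_add, ← e,
        ← pow_add, ← add_assoc, ih]
  refine ⟨(d + 1) * (a + 1), by positivity, fun k hk => ?_⟩
  obtain ⟨n, hn⟩ : ∃ n, (d + 1) * (a + 1) * k = a + n :=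
    Nat.exists_eq_add_of_le (by nlinarith [Nat.zero_le (d * (a + 1) * k), Nat.zero_le (a * k)])
  have := key ((a + 1) * k) n
  rwa [← mul_assoc, ← hn, pow_add] at this

section

variable {Λ M M' : Type} [CommRing Λ] [AddCommGroup M] [Module Λ M] [AddCommGroup M'] [Module Λ M']

theorem mem_Fit {t : End Λ M} {N : ℕ} (h0 : 0 < N) (h : t ^ N * t ^ N = t ^ N) {a : M} :
    a ∈ Fit t ↔ (t ^ N) a = a := by
  have key : ∀ k, (t ^ N) ^ (k + 1) = t ^ N := fun k => IsIdempotentElem.pow_succ_eq k h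
  constructor
  · intro ha
    obtain ⟨b, rfl⟩ := (Submodule.mem_iInf _).mp ha N
    exact congrArg (fun f : End Λ M => f b) h
  · intro ha
    refine (Submodule.mem_iInf _).mpr fun k => ?_
    obtain ⟨n, hn⟩ : ∃ n, N * (k + 1) = k + n := Nat.exists_eq_add_of_le (by nlinarith)
    refine ⟨(t ^ n) a, ?_⟩
    rw [← Module.End.mul_apply, ← pow_add, ← hn, pow_mul, key, ha]

omit [Module Λ M'] in
theorem pow_comm {Λ' : Type} [CommRing Λ'] [Module Λ' M'] {t : End Λ M} {t' : End Λ' M'} {F : Type*}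
    [FunLike F M M'] {i : F} (h : ∀ a, i (t a) = t' (i a)) (n : ℕ) (a : M) : i ((t ^ n) a) = (t' ^ n) (i a) := by
  induction n with
  | zero => simp
  | succ n ih => rw [pow_succ', pow_succ', Module.End.mul_apply, Module.End.mul_apply, h, ih]

/-- kernel and cokernel killed by `t` give a bijection on the Fitting parts -/
theorem bij_Fit [Finite M] [Finite M'] {t : End Λ M} {t' : End Λ M'} {i : M →ₗ[Λ] M'}
    (h : ∀ a, i (t a) = t' (i a)) {P : M' → Prop} (hP : ∀ a, P (i a)) (hP' : ∀ a, P a → P (t' a))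
    (hk : ∀ a, i a = 0 → t a = 0) (hc : ∀ a', P a' → ∃ a, i a = t' a') :
    Set.BijOn i (Fit t : Set M) {a | a ∈ Fit t' ∧ P a} := by
  have : Finite (End Λ M) := Finite.of_injective _ DFunLike.coe_injective
  have : Finite (End Λ M') := Finite.of_injective _ DFunLike.coe_injective
  obtain ⟨N, N0, hN⟩ := exists_idem t
  obtain ⟨N', N0', hN'⟩ := exists_idem t'
  have h1 := hN N' N0'
  have h2 := hN' N N0
  rw [mul_comm N' N] at h2
  obtain ⟨n, hn⟩ : ∃ n, N * N' = n + 1 := Nat.exists_eq_succ_of_ne_zero (by positivity)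
  rw [hn] at h1 h2
  refine ⟨fun a ha => ⟨(mem_Fit n.succ_pos h2).mpr ?_, hP a⟩, fun a ha b hb e => ?_,
    fun a' ⟨ha, hb⟩ => ?_⟩
  · rw [← pow_comm h, (mem_Fit n.succ_pos h1).mp ha]
  · have h3 := (mem_Fit n.succ_pos h1).mp (sub_mem ha hb)
    rw [pow_succ, Module.End.mul_apply, hk _ (by rw [map_sub, e, sub_self]), map_zero] at h3
    exact sub_eq_zero.mp h3.symm
  · have h3 := (mem_Fit n.succ_pos h2).mp ha
    have h4 : ∀ k, P ((t' ^ k) a') := fun k => by
      induction k with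
      | zero => simpa using hb
      | succ k ih => rw [pow_succ', Module.End.mul_apply]; exact hP' _ ih
    obtain ⟨a, e⟩ := hc _ (h4 n)
    refine ⟨(t ^ (n + 1)) a, (mem_Fit n.succ_pos h1).mpr (congrArg (fun f : End Λ M => f a) h1), ?_⟩
    rw [pow_comm h, e, ← Module.End.mul_apply t', ← pow_succ', h3, h3]

end

/-! ### representations of `p`-groups in characteristic `p` -/

section

variable {p : ℕ} [Fact p.Prime] {Q V : Type} [Group Q] [AddCommGroup V] [Module (ZMod p) V]

theorem exists_fixed [Finite V] (hQ : IsPGroup p Q) (ρ : Q →* End (ZMod p) V)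
    (S : Submodule (ZMod p) V) (hS : ∀ q, ∀ v ∈ S, ρ q v ∈ S) (h0 : S ≠ ⊥) :
    ∃ v ∈ S, v ≠ 0 ∧ ∀ q, ρ q v = v := by
  let _ : MulAction Q S :=
    { smul := fun q v => ⟨ρ q v, hS q v v.2⟩
      one_smul := fun v => Subtype.ext (by show ρ 1 v = v; simp)
      mul_smul := fun q r v => Subtype.ext (by show ρ (q * r) v = ρ q (ρ r v); simp) }
  have hd : p ∣ Nat.card S := by
    have : Nontrivial S := Submodule.nontrivial_iff_ne_bot.mpr h0
    rw [Module.natCard_eq_pow_finrank (K := ZMod p), Nat.card_zmod]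
    exact dvd_pow_self _ finrank_pos.ne'
  obtain ⟨b, hb, hne⟩ := hQ.exists_fixed_point_of_prime_dvd_card_of_fixed_point S hd (a := 0)
    (fun q => Subtype.ext (map_zero (ρ q)))
  exact ⟨b, b.2, fun h => hne (Subtype.ext h.symm), fun q => congrArg Subtype.val (hb q)⟩

/-- if the norm is onto the invariants, the module is free -/
theorem exists_free [Finite V] [Fintype Q] (hQ : IsPGroup p Q) (ρ : Q →* End (ZMod p) V)
    (W : Submodule (ZMod p) V) (hW : ∀ q, ∀ v ∈ W, ρ q v ∈ W)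
    (hN : ∀ v ∈ W, (∀ q, ρ q v = v) → ∃ v' ∈ W, ∑ q, ρ q v' = v) :
    ∃ (r : ℕ) (e : Fin r → V), (∀ k, e k ∈ W) ∧
      LinearIndependent (ZMod p) (fun x : Fin r × Q => ρ x.2 (e x.1)) ∧
      Submodule.span (ZMod p) (Set.range fun x : Fin r × Q => ρ x.2 (e x.1)) = W := by
  classical
  let F : Submodule (ZMod p) V := W ⊓ ⨅ q, LinearMap.eqLocus (ρ q) LinearMap.id
  have hF : ∀ v, v ∈ F ↔ v ∈ W ∧ ∀ q, ρ q v = v := fun v => by simp [F]
  let f := Module.finBasis (ZMod p) F
  choose e he he' using fun k => hN (f k) ((hF _).mp (f k).2).1 ((hF _).mp (f k).2).2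
  have hli : LinearIndependent (ZMod p) (fun x : Fin (finrank (ZMod p) F) × Q => ρ x.2 (e x.1)) := by
    rw [linearIndependent_iff_injective_fintypeLinearCombination, ← LinearMap.ker_eq_bot]
    by_contra h0
    let σ : Q →* End (ZMod p) (Fin (finrank (ZMod p) F) × Q → ZMod p) :=
      { toFun := fun g => LinearMap.funLeft _ _ fun x => (x.1, g⁻¹ * x.2)
        map_one' := by ext c x; simp
        map_mul' := fun g h => by ext c x; simp [mul_assoc] }
    have hσ : ∀ g c x, σ g c x = c (x.1, g⁻¹ * x.2) := fun _ _ _ => rfl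
    obtain ⟨c, h1, h2, h3⟩ := exists_fixed hQ σ _ (fun g c hc => by
      rw [LinearMap.mem_ker, Fintype.linearCombination_apply] at hc ⊢
      have := congrArg (ρ g) hc
      rw [map_sum, map_zero] at this
      rw [← this]
      refine Fintype.sum_equiv ((Equiv.refl _).prodCongr (Equiv.mulLeft g⁻¹)) _ _ fun x => ?_
      rw [hσ, map_smul, ← Module.End.mul_apply, ← map_mul]
      simp [Prod.map]) h0
    have h4 : ∀ k q, c (k, q) = c (k, 1) := fun k q => by
      have := congrFun (h3 q) (k, q)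
      rw [hσ] at this
      simpa using this.symm
    rw [LinearMap.mem_ker, Fintype.linearCombination_apply, Fintype.sum_prod_type] at h1
    simp only [h4 _, ← Finset.smul_sum, he'] at h1
    have h5 := Fintype.linearIndependent_iff.mp f.linearIndependent (fun k => c (k, 1))
      (Subtype.ext (by simpa using h1))
    exact h2 (funext fun x => (h4 x.1 x.2).trans (h5 x.1))
  refine ⟨_, e, he, hli, Submodule.eq_of_le_of_finrank_le ?_ ?_⟩
  · rw [Submodule.span_le]
    rintro _ ⟨x, rfl⟩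
    exact hW _ _ (he _)
  · rw [finrank_span_eq_card hli]
    obtain ⟨π, hπ⟩ := F.subtype.exists_leftInverse_of_injective F.ker_subtype
    let Ψ : V →ₗ[ZMod p] Q → F := LinearMap.pi fun q => π ∘ₗ ρ q
    have hinj : W ⊓ LinearMap.ker Ψ = ⊥ := by
      by_contra h0
      obtain ⟨v, ⟨h1, h2⟩, h3, h4⟩ := exists_fixed hQ ρ (W ⊓ LinearMap.ker Ψ)
        (fun g v hv => ⟨hW g v hv.1, by
        funext q
        have := congrFun (LinearMap.mem_ker.mp hv.2) (q * g)
        simpa [Ψ] using this⟩) h0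
      have h5 : π v = 0 := by simpa [Ψ] using congrFun (LinearMap.mem_ker.mp h2) 1
      have h6 : π v = ⟨v, (hF v).mpr ⟨h1, h4⟩⟩ :=
        LinearMap.congr_fun hπ ⟨v, (hF v).mpr ⟨h1, h4⟩⟩
      exact h3 (congrArg Subtype.val (h6.symm.trans h5))
    have h7 : Function.Injective (Ψ ∘ₗ W.subtype) := by
      rw [← LinearMap.ker_eq_bot, LinearMap.ker_eq_bot']
      intro v hv
      exact Subtype.ext ((Submodule.eq_bot_iff _).mp hinj v ⟨v.2, hv⟩)
    have := LinearMap.finrank_le_finrank_of_injective h7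
    simpa [Module.finrank_pi_fintype, mul_comm] using this

end

/-! ### change of coefficients -/

section

variable {L : Type} [AddCommGroup L]

/-- `c` identifies `M` with `Λ ⊗ L` -/
def Bc (Λ : Type) {M : Type} [CommRing Λ] [AddCommGroup M] [Module Λ M] (c : L →+ M) : Prop :=
  ∀ (ι : Type) (b : Basis ι ℤ L), ∃ b' : Basis ι Λ M, ∀ i, b' i = c (b i)

theorem det_bc {Λ M ι : Type} [CommRing Λ] [AddCommGroup M] [Module Λ M] [Fintype ι]
    [DecidableEq ι] {c : L →+ M} {b : Basis ι ℤ L} {b' : Basis ι Λ M} (h : ∀ i, b' i = c (b i))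
    (v : ι → L) : b'.det (fun i => c (v i)) = (b.det v : ℤ) := by
  have key : ∀ x i, b'.repr (c x) i = (b.repr x i : ℤ) := fun x i => by
    have : c x = ∑ k, ((b.repr x k : ℤ) : Λ) • b' k := by
      conv_lhs => rw [← b.sum_repr x, map_sum]
      simp only [h, Int.cast_smul_eq_zsmul, map_zsmul]
    rw [this, Basis.repr_sum_self]
  rw [Basis.det_apply, Basis.det_apply, ← eq_intCast (Int.castRingHom Λ), RingHom.map_det]
  congr 1
  ext i k
  simp [Basis.toMatrix_apply, key]

theorem Bc.finite {Λ M : Type} [CommRing Λ] [AddCommGroup M] [Module Λ M] [Module.Free ℤ L]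
    [Module.Finite ℤ L] [Finite Λ] {c : L →+ M} (h : Bc Λ c) : Finite M := by
  obtain ⟨b, -⟩ := h _ (Module.finBasis ℤ L)
  exact Finite.of_equiv _ b.equivFun.toEquiv.symm

theorem Bc.onto {n : ℕ} {M : Type} [AddCommGroup M] [Module (ZMod n) M] [Module.Free ℤ L]
    [Module.Finite ℤ L] {c : L →+ M} (h : Bc (ZMod n) c) : Function.Surjective c := by
  obtain ⟨b, hb⟩ := h _ (Module.finBasis ℤ L)
  intro x
  choose a ha using fun i => ZMod.intCast_surjective (b.repr x i)
  refine ⟨∑ i, a i • Module.finBasis ℤ L i, ?_⟩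
  conv_rhs => rw [← b.sum_repr x]
  simp [← ha, hb, Int.cast_smul_eq_zsmul]

theorem isUnit_int {p : ℕ} [Fact p.Prime] {Λ : Type} [CommRing Λ] (hp : IsNilpotent (p : Λ))
    {d : ℤ} (h : IsUnit (d : ZMod p)) : IsUnit (d : Λ) := by
  obtain ⟨x, hx⟩ := h.exists_right_inv
  obtain ⟨a, rfl⟩ := ZMod.intCast_surjective x
  obtain ⟨k, hk⟩ := (ZMod.intCast_eq_intCast_iff_dvd_sub (d * a) 1 p).mp (by simpa using hx)
  have e : (d : Λ) * a = 1 - p * k := by
    have := congrArg (Int.cast : ℤ → Λ) hk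
    push_cast at this
    linear_combination -this
  have := ((Commute.all (p : Λ) k).isNilpotent_mul_right hp).isUnit_one_sub
  rw [← e] at this
  exact isUnit_of_mul_isUnit_left this

/-- bases of the image of an idempotent lift from characteristic `p` -/
theorem lift_basis {p : ℕ} [Fact p.Prime] {Λ M V J : Type} [CommRing Λ] [AddCommGroup M]
    [Module Λ M] [AddCommGroup V] [Module (ZMod p) V] [Fintype J] [Module.Free ℤ L]
    [Module.Finite ℤ L] (hp : IsNilpotent (p : Λ)) {c : L →+ M} {c' : L →+ V} (h : Bc Λ c)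
    (h' : Bc (ZMod p) c') {ε₀ : L → L} {ε : End Λ M} {ε' : End (ZMod p) V} (hε : ε * ε = ε)
    (hε' : ε' * ε' = ε') (h1 : ∀ l, c (ε₀ l) = ε (c l)) (h2 : ∀ l, c' (ε₀ l) = ε' (c' l))
    (v : J → L) (h3 : ∀ j, ε (c (v j)) = c (v j))
    (h4 : LinearIndependent (ZMod p) fun j => c' (v j))
    (h5 : Submodule.span (ZMod p) (Set.range fun j => c' (v j)) = LinearMap.range ε') :
    LinearIndependent Λ (fun j => c (v j)) ∧
      Submodule.span Λ (Set.range fun j => c (v j)) = LinearMap.range ε := by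
  classical
  have := h'.finite
  have hc : IsCompl (LinearMap.range ε') (LinearMap.ker ε') :=
    (LinearMap.IsIdempotentElem.isProj_range ε' hε').isCompl
  let f := Module.finBasis (ZMod p) (LinearMap.ker ε')
  choose m hm using fun k => h'.onto (f k)
  let u : J ⊕ Fin (finrank (ZMod p) (LinearMap.ker ε')) → L := Sum.elim v fun k => m k - ε₀ (m k)
  have hu : (fun s => c' (u s)) = Sum.elim (fun j => c' (v j)) fun k => (f k : V) := by
    funext s
    rcases s with j | k
    · rfl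
    · simp [u, h2, hm]
  have hf : Submodule.span (ZMod p) (Set.range fun k => (f k : V)) = LinearMap.ker ε' := by
    have := congrArg (Submodule.map (LinearMap.ker ε').subtype) f.span_eq
    rwa [Submodule.map_span, ← Set.range_comp, Submodule.map_subtype_top] at this
  have hb : LinearIndependent (ZMod p) (fun s => c' (u s)) ∧
      Submodule.span (ZMod p) (Set.range fun s => c' (u s)) = ⊤ := by
    rw [hu]
    refine ⟨h4.sum_type (f.linearIndependent.map' _ (Submodule.ker_subtype _)) ?_, ?_⟩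
    · have := hc.disjoint
      rw [← h5, ← hf] at this
      exact this
    · rw [Set.Sum.elim_range, Submodule.span_union, h5, hf, hc.sup_eq_top]
  obtain ⟨b₀, -⟩ := h' _ (Module.finBasis ℤ L)
  let b := (Module.finBasis ℤ L).reindex (b₀.indexEquiv (Basis.mk hb.1 hb.2.ge))
  obtain ⟨b₁, hb₁⟩ := h' _ b
  obtain ⟨b₂, hb₂⟩ := h _ b
  have h6 := b₁.is_basis_iff_det.mp hb
  rw [det_bc hb₁] at h6
  have h7 := isUnit_int hp h6
  rw [← det_bc hb₂] at h7
  obtain ⟨h8, h9⟩ := b₂.is_basis_iff_det.mpr h7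
  refine ⟨h8.comp Sum.inl Sum.inl_injective, le_antisymm ?_ ?_⟩
  · rw [Submodule.span_le]
    rintro _ ⟨j, rfl⟩
    exact ⟨_, h3 j⟩
  · rintro _ ⟨x, rfl⟩
    obtain ⟨a, rfl⟩ := (Submodule.mem_span_range_iff_exists_fun Λ).mp (h9 ▸ Submodule.mem_top : x ∈ _)
    rw [map_sum]
    refine Submodule.sum_mem _ fun s _ => ?_
    rw [map_smul]
    refine Submodule.smul_mem _ _ ?_
    rcases s with j | k
    · exact Submodule.subset_span ⟨j, (h3 j).symm⟩
    · have : ε (c (u (Sum.inr k))) = 0 := by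
        show ε (c (m k - ε₀ (m k))) = 0
        rw [map_sub, map_sub, h1, ← Module.End.mul_apply, hε, sub_self]
      rw [this]
      exact zero_mem _

end

/-- linear forms separate the points of a finite module over `ℤ / n` -/
theorem zmod_sep (n : ℕ) [NeZero n] {M : Type} [AddCommGroup M] [Module (ZMod n) M] [Finite M]
    {a : M} (ha : a ≠ 0) : ∃ f : M →ₗ[ZMod n] ZMod n, f a ≠ 0 := by
  classical
  obtain ⟨ι, _, m, -, ⟨e⟩⟩ := AddCommGroup.equiv_directSum_zmod_of_finite' M
  obtain ⟨i, hi⟩ : ∃ i, e a i ≠ 0 := by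
    by_contra! h
    exact ha (e.map_eq_zero_iff.1 (DFinsupp.ext h))
  obtain ⟨k, hk⟩ : m i ∣ n := by
    have h1 : n • e.symm (DirectSum.of (fun i => ZMod (m i)) i 1) = 0 := by
      rw [← Nat.cast_smul_eq_nsmul (ZMod n), ZMod.natCast_self, zero_smul]
    rw [← map_nsmul, e.symm.map_eq_zero_iff, ← map_nsmul] at h1
    have h2 := congrArg (fun x => x i) h1
    simp only [DirectSum.of_eq_same, nsmul_eq_mul, mul_one, DirectSum.zero_apply] at h2
    exact (ZMod.natCast_eq_zero_iff _ _).1 h2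
  have k0 : (k : ℤ) ≠ 0 := fun h => NeZero.ne n (by rw [hk, Int.natCast_eq_zero.1 h, mul_zero])
  let g : ZMod (m i) →+ ZMod n := ZMod.lift (m i) ⟨zmultiplesHom _ (k : ZMod n), by
    rw [zmultiplesHom_apply, natCast_zsmul, nsmul_eq_mul, ← Nat.cast_mul, ← hk, ZMod.natCast_self]⟩
  have hg : Function.Injective g := (ZMod.lift_injective _).2 fun x hx => by
    rw [zmultiplesHom_apply, zsmul_eq_mul, ← Int.cast_natCast k, ← Int.cast_mul,
      ZMod.intCast_zmod_eq_zero_iff_dvd, hk, Nat.cast_mul, mul_dvd_mul_iff_right k0] at hx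
    exact (ZMod.intCast_zmod_eq_zero_iff_dvd _ _).2 hx
  exact ⟨(g.comp ((DFinsupp.evalAddMonoidHom i).comp e.toAddMonoidHom)).toZModLinearMap n,
    fun h => hi (hg (h.trans (map_zero g).symm))⟩

/-- duality: injective on the image of `ε` implies that the adjoint is onto -/
theorem onto_of_adj {n : ℕ} [NeZero n] {V V' : Type} [AddCommGroup V] [Module (ZMod n) V]
    [Finite V] [AddCommGroup V'] [Module (ZMod n) V'] {e : V →ₗ[ZMod n] V →ₗ[ZMod n] ZMod n}
    {e' : V' →ₗ[ZMod n] V' →ₗ[ZMod n] ZMod n} (he : Function.Surjective e)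
    (he' : Function.Injective e') {i : V →ₗ[ZMod n] V'} {s : V' →ₗ[ZMod n] V}
    (ha : ∀ a b, e' (i a) b = e a (s b)) {ε : End (ZMod n) V} {ε' : End (ZMod n) V'}
    (h1 : ∀ a b, e (ε a) b = e a (ε b)) (h2 : ∀ a b, e' (ε' a) b = e' a (ε' b))
    (h3 : ∀ a, i (ε a) = ε' (i a)) (h4 : ∀ a, i (ε a) = 0 → ε a = 0) (y : V) :
    ∃ b, s (ε' b) = ε y := by
  by_contra hn
  have : Finite (V ⧸ LinearMap.range (s ∘ₗ ε')) :=
    Finite.of_surjective _ (Submodule.mkQ_surjective _)
  obtain ⟨f, h5⟩ := zmod_sep n (a := (LinearMap.range (s ∘ₗ ε')).mkQ (ε y))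
    fun h => hn ((Submodule.Quotient.mk_eq_zero _).1 h)
  obtain ⟨a, h6⟩ := he (f ∘ₗ (LinearMap.range (s ∘ₗ ε')).mkQ)
  apply h5
  rw [← LinearMap.comp_apply, ← h6, ← h1, h4 a (he' ?_), map_zero, LinearMap.zero_apply]
  ext b
  rw [h3, h2, ha, map_zero, h6, LinearMap.comp_apply,
    show (LinearMap.range (s ∘ₗ ε')).mkQ (s (ε' b)) = 0 from
      (Submodule.Quotient.mk_eq_zero _).2 ⟨b, rfl⟩, map_zero, LinearMap.zero_apply]

end Vale.Agent.P022K.Sh.Fre
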