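import Vale.Agent.P022K.F0.FujM

/-! P022K, F0, row FUJ: proper discontinuity modulo the centre. -/

namespace Vale.Agent.P022K.F0.Fuj

open Module NumberField UpperHalfPlane
open scoped Quaternion MatrixGroups Pointwise

theorem exists_SL (g : GL (Fin 2) ℝ) (hg : 0 < g.det.val) :
    ∃ (h : SL(2, ℝ)) (c : ℝˣ), Matrix.SpecialLinearGroup.mapGL ℝ h =
      Matrix.GeneralLinearGroup.scalar (Fin 2) c * g := by
  have h0 : 0 < √(g.det.val) := Real.sqrt_pos.mpr hg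
  refine ⟨⟨(√(g.det.val))⁻¹ • (g : Matrix (Fin 2) (Fin 2) ℝ), ?_⟩,
    Units.mk0 (√(g.det.val))⁻¹ (inv_pos.mpr h0).ne', ?_⟩
  · rw [Matrix.det_smul, Fintype.card_fin, inv_pow, Real.sq_sqrt hg.le]
    exact inv_mul_cancel₀ hg.ne'
  · ext1
    show (√(g.det.val))⁻¹ • (g : Matrix (Fin 2) (Fin 2) ℝ) = _
    simp [Matrix.smul_eq_diagonal_mul]

/-- conjugates of a fixed matrix by elements that move a compact set little are bounded -/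
theorem conj_bound {V : Type*} [NormedAddCommGroup V] [NormedSpace ℝ V]
    (f : Matrix (Fin 2) (Fin 2) ℝ →ₗ[ℝ] V) (Y : Matrix (Fin 2) (Fin 2) ℝ) {K : Set UpperHalfPlane}
    (hK : IsCompact K) : ∃ B : ℝ, ∀ g : GL (Fin 2) ℝ, 0 < g.det.val → (∃ z ∈ K, g • z ∈ K) →
      ‖f (g.val * Y * (g⁻¹).val)‖ ≤ B := by
  have hC := ProperSMul.isCompact_setOfPred_inter_nonempty (G := SL(2, ℝ)) hK hK
  have hf : Continuous f := f.continuous_of_finiteDimensional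
  have hc : Continuous fun h : SL(2, ℝ) => f (h.1 * Y * (h⁻¹).1) := by
    refine hf.comp ?_
    fun_prop
  obtain ⟨B, hB⟩ := hC.exists_bound_of_continuousOn hc.continuousOn
  refine ⟨B, fun g hg ⟨z, hz, hgz⟩ => ?_⟩
  obtain ⟨h, c, e⟩ := exists_SL g hg
  have h1 : h • z = g • z := by
    rw [MulAction.compHom_smul_def, e, mul_smul, glScalar_smul]
  have h2 := hB h ⟨h • z, ⟨z, hz, rfl⟩, h1 ▸ hgz⟩
  have e1 : h.1 = (c : ℝ) • g.val := by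
    simpa [Matrix.smul_eq_diagonal_mul] using congrArg Units.val e
  have e2 : (h⁻¹).1 = ((c⁻¹ : ℝˣ) : ℝ) • (g⁻¹).val := by
    have := congrArg (fun x : GL (Fin 2) ℝ => (x⁻¹).val) e
    simp only [← map_inv, mul_inv_rev] at this
    refine Eq.trans this ?_
    rw [Units.val_mul, Matrix.smul_eq_mul_diagonal]
    rfl
  rw [e1, e2] at h2
  simpa [smul_smul] using h2

section NF

variable {F : Type*} [Field F] [NumberField F] {a b : F} {τ1 : F →+* ℝ}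
  {j : ℍ[F,a,b] →+* Matrix (Fin 2) (Fin 2) ℝ}

/-- the coordinates of a quaternion at a real place -/
def co (τ : F →+* ℝ) (q : ℍ[F,a,b]) : Fin 4 → ℝ := ![τ q.re, τ q.imI, τ q.imJ, τ q.imK]

theorem finite_bdd' [IsTotallyReal F] {m : ℕ} (hm : m ≠ 0) (B : ℝ) :
    {x : F | (m : F) * x ∈ OF F ∧ ∀ τ : F →+* ℝ, |τ x| ≤ B}.Finite := by
  refine Set.Finite.of_finite_image (f := fun x => (m : F) * x)
    ((finite_bdd (F := F) (m * B)).subset ?_)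
    (mul_right_injective₀ (Nat.cast_ne_zero.mpr hm)).injOn
  rintro _ ⟨x, ⟨h1, h2⟩, rfl⟩
  refine ⟨h1, fun τ => ?_⟩
  rw [map_mul, map_natCast, abs_mul, Nat.abs_cast]
  exact mul_le_mul_of_nonneg_left (h2 τ) (Nat.cast_nonneg m)

theorem finite_quat [IsTotallyReal F] (ha : a ∈ OF F) (hb : b ∈ OF F) {m : ℕ} (hm : m ≠ 0) (B : ℝ) :
    {q : ℍ[F,a,b] | (m : ℍ[F,a,b]) * q ∈ ord (OF F) ha hb ∧ ∀ τ : F →+* ℝ, ‖co τ q‖ ≤ B}.Finite := by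
  have h := finite_bdd' (F := F) hm B
  refine Set.Finite.of_finite_image (f := fun q => (q.re, q.imI, q.imJ, q.imK))
    ((h.prod (h.prod (h.prod h))).subset ?_) ?_
  · rintro _ ⟨q, ⟨h1, h2⟩, rfl⟩
    rw [← nsmul_eq_mul, ← Nat.cast_smul_eq_nsmul F] at h1
    obtain ⟨p0, p1, p2, p3⟩ := h1
    have h3 : ∀ τ s, |co τ q s| ≤ B := fun τ s => (norm_le_pi_norm (co τ q) s).trans (h2 τ)
    exact ⟨⟨p0, fun τ => h3 τ 0⟩, ⟨p1, fun τ => h3 τ 1⟩, ⟨p2, fun τ => h3 τ 2⟩, p3,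
      fun τ => h3 τ 3⟩
  · intro p _ q _ e
    simp only [Prod.mk.injEq] at e
    ext <;> tauto

omit [NumberField F] in
theorem definite_bound {τ : F →+* ℝ} (ha : τ a < 0) (hb : τ b < 0) (n : F) :
    ∃ B : ℝ, ∀ q : ℍ[F,a,b], nrd q = n → ‖co τ q‖ ≤ B := by
  have hab : 0 < τ a * τ b := mul_pos_of_neg_of_neg ha hb
  let c : ℝ := min (min 1 (-τ a)) (min (-τ b) (τ a * τ b))
  have c0 : 0 < c := lt_min (lt_min one_pos (neg_pos.mpr ha)) (lt_min (neg_pos.mpr hb) hab)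
  have c1 : c ≤ 1 := (min_le_left _ _).trans (min_le_left _ _)
  have c2 : c ≤ -τ a := (min_le_left _ _).trans (min_le_right _ _)
  have c3 : c ≤ -τ b := (min_le_right _ _).trans (min_le_left _ _)
  have c4 : c ≤ τ a * τ b := (min_le_right _ _).trans (min_le_right _ _)
  refine ⟨√(τ n / c), fun q hq => (pi_norm_le_iff_of_nonneg (Real.sqrt_nonneg _)).mpr fun s => ?_⟩
  have h1 : τ n = τ q.re ^ 2 + (-τ a * τ q.imI ^ 2) + (-τ b * τ q.imJ ^ 2) +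
      τ a * τ b * τ q.imK ^ 2 := by rw [← hq]; simp [nrd]; ring
  have e0 := mul_le_mul_of_nonneg_right c1 (sq_nonneg (τ q.re))
  have e1 := mul_le_mul_of_nonneg_right c2 (sq_nonneg (τ q.imI))
  have e2 := mul_le_mul_of_nonneg_right c3 (sq_nonneg (τ q.imJ))
  have e3 := mul_le_mul_of_nonneg_right c4 (sq_nonneg (τ q.imK))
  have f0 := mul_nonneg c0.le (sq_nonneg (τ q.re))
  have f1 := mul_nonneg c0.le (sq_nonneg (τ q.imI))
  have f2 := mul_nonneg c0.le (sq_nonneg (τ q.imJ))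
  have f3 := mul_nonneg c0.le (sq_nonneg (τ q.imK))
  rw [Real.norm_eq_abs]
  refine Real.abs_le_sqrt ((le_div_iff₀ c0).mpr ?_)
  fin_cases s <;> simp only [co] <;> simp <;> linarith

omit [NumberField F] in
theorem nrd_ne_zero {τ : F →+* ℝ} (ha : τ a < 0) (hb : τ b < 0) (q : ℍ[F,a,b]) (hq : q ≠ 0) :
    0 < τ (nrd q) := by
  have hab : 0 < τ a * τ b := mul_pos_of_neg_of_neg ha hb
  have h1 : τ (nrd q) = τ q.re ^ 2 + (-τ a * τ q.imI ^ 2) + (-τ b * τ q.imJ ^ 2) +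
      τ a * τ b * τ q.imK ^ 2 := by simp [nrd]; ring
  have e1 := mul_nonneg (neg_pos.mpr ha).le (sq_nonneg (τ q.imI))
  have e2 := mul_nonneg (neg_pos.mpr hb).le (sq_nonneg (τ q.imJ))
  have e3 := mul_nonneg hab.le (sq_nonneg (τ q.imK))
  have e0 := sq_nonneg (τ q.re)
  by_contra hn
  apply hq
  have g0 : τ q.re ^ 2 = 0 := by linarith
  have g1 : -τ a * τ q.imI ^ 2 = 0 := by linarith
  have g2 : -τ b * τ q.imJ ^ 2 = 0 := by linarith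
  have g3 : τ a * τ b * τ q.imK ^ 2 = 0 := by linarith
  simp only [mul_eq_zero, neg_eq_zero, ha.ne, hb.ne, false_or, pow_eq_zero_iff two_ne_zero,
    map_eq_zero] at g0 g1 g2 g3
  ext <;> simp [*]

/-- the conjugates of `y` under bounded elements that move a compact set little are finite in
number -/
theorem finite_conj [IsTotallyReal F] (h : Over τ1 j) (ha0 : a ≠ 0) (hb0 : b ≠ 0)
    (ha : a ∈ OF F) (hb : b ∈ OF F) (hdef : ∀ τ : F →+* ℝ, τ ≠ τ1 → τ a < 0 ∧ τ b < 0)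
    {m : ℕ} (hm : m ≠ 0) {K : Set UpperHalfPlane} (hK : IsCompact K) (y : ℍ[F,a,b]) :
    {q : ℍ[F,a,b] | (m : ℍ[F,a,b]) * q ∈ ord (OF F) ha hb ∧ ∃ g : ℍ[F,a,b]ˣ,
      0 < (jG j g).det.val ∧ (∃ z ∈ K, jG j g • z ∈ K) ∧ q = g * y * (g⁻¹ : ℍ[F,a,b]ˣ)}.Finite := by
  obtain ⟨ψ, hψ⟩ := h.exists_equiv ha0 hb0
  have key : ∀ τ : F →+* ℝ, ∃ B : ℝ, ∀ g : ℍ[F,a,b]ˣ, 0 < (jG j g).det.val →
      (∃ z ∈ K, jG j g • z ∈ K) → ‖co τ ((g : ℍ[F,a,b]) * y * (↑g⁻¹ : ℍ[F,a,b]))‖ ≤ B := by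
    intro τ
    by_cases hτ : τ = τ1
    · obtain ⟨B, hB⟩ := conj_bound ψ.symm.toLinearMap (j y) hK
      refine ⟨B, fun g hg hz => ?_⟩
      have h1 := hB _ hg hz
      rw [← map_inv, coe_jG, coe_jG, ← map_mul, ← map_mul, ← hψ] at h1
      rw [hτ]
      rw [LinearEquiv.coe_coe, LinearEquiv.symm_apply_apply] at h1
      exact h1
    · obtain ⟨B, hB⟩ := definite_bound (hdef τ hτ).1 (hdef τ hτ).2 (nrd y)
      exact ⟨B, fun g _ _ => hB _ (nrd_conj g y)⟩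
  choose B hB using key
  obtain ⟨C, hC⟩ := (Set.finite_range B).bddAbove
  refine (finite_quat ha hb hm C).subset ?_
  rintro _ ⟨h1, g, hg, hz, rfl⟩
  exact ⟨h1, fun τ => (hB τ g hg hz).trans (hC ⟨τ, rfl⟩)⟩

/-- proper discontinuity modulo the centre -/
theorem proper_disc [IsTotallyReal F] (h : Over τ1 j) (ha0 : a ≠ 0) (hb0 : b ≠ 0)
    (ha : a ∈ OF F) (hb : b ∈ OF F) (hdef : ∀ τ : F →+* ℝ, τ ≠ τ1 → τ a < 0 ∧ τ b < 0)
    {m : ℕ} (hm : m ≠ 0) {K : Set UpperHalfPlane} (hK : IsCompact K) (A : Set ℍ[F,a,b]ˣ)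
    (hA : ∀ g ∈ A, 0 < (jG j g).det.val ∧ (∃ z ∈ K, jG j g • z ∈ K) ∧ ∀ y ∈ ord (OF F) ha hb,
      (m : ℍ[F,a,b]) * (g * y * (g⁻¹ : ℍ[F,a,b]ˣ)) ∈ ord (OF F) ha hb) :
    ∃ S ⊆ A, S.Finite ∧ ∀ g ∈ A, ∃ s ∈ S, ∃ c : F,
      ((s⁻¹ * g : ℍ[F,a,b]ˣ) : ℍ[F,a,b]) = algebraMap F _ c := by
  let Φ : ℍ[F,a,b]ˣ → ℍ[F,a,b] × ℍ[F,a,b] := fun g =>
    (g * qi a b * (g⁻¹ : ℍ[F,a,b]ˣ), g * qj a b * (g⁻¹ : ℍ[F,a,b]ˣ))
  have hi : qi a b ∈ ord (OF F) ha hb := ⟨zero_mem _, one_mem _, zero_mem _, zero_mem _⟩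
  have hj : qj a b ∈ ord (OF F) ha hb := ⟨zero_mem _, zero_mem _, one_mem _, zero_mem _⟩
  have hfin : (Φ '' A).Finite := by
    refine ((finite_conj h ha0 hb0 ha hb hdef hm hK (qi a b)).prod
      (finite_conj h ha0 hb0 ha hb hdef hm hK (qj a b))).subset ?_
    rintro _ ⟨g, hg, rfl⟩
    obtain ⟨h1, h2, h3⟩ := hA g hg
    exact ⟨⟨h3 _ hi, g, h1, h2, rfl⟩, h3 _ hj, g, h1, h2, rfl⟩
  obtain ⟨S, hS, hfS, himg⟩ := Set.exists_subset_image_finite_and.mp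
    (⟨Φ '' A, subset_rfl, hfin, rfl⟩ : ∃ t ⊆ Φ '' A, t.Finite ∧ t = Φ '' A)
  refine ⟨S, hS, hfS, fun g hg => ?_⟩
  obtain ⟨s, hs, e⟩ : Φ g ∈ Φ '' S := himg ▸ ⟨g, hg, rfl⟩
  simp only [Φ, Prod.mk.injEq] at e
  have key : ∀ y : ℍ[F,a,b], s * y * (s⁻¹ : ℍ[F,a,b]ˣ) = g * y * (g⁻¹ : ℍ[F,a,b]ˣ) →
      ((s⁻¹ * g : ℍ[F,a,b]ˣ) : ℍ[F,a,b]) * y = y * (s⁻¹ * g : ℍ[F,a,b]ˣ) := fun y e => by
    have := congrArg (fun x => ((s⁻¹ : ℍ[F,a,b]ˣ) : ℍ[F,a,b]) * x * (g : ℍ[F,a,b])) e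
    simpa [mul_assoc] using this.symm
  exact ⟨s, hs, _, central ha0 hb0 _ (key _ e.1) (key _ e.2)⟩

omit [NumberField F] in
theorem Over.inj (h : Over τ1 j) (ha0 : a ≠ 0) (hb0 : b ≠ 0) : Function.Injective j := by
  rw [injective_iff_map_eq_zero]
  intro q hq
  rw [h.apply] at hq
  obtain ⟨h0, h1, h2, h3⟩ := h.indep ha0 hb0 _ _ _ _ hq
  simp only [map_eq_zero] at h0 h1 h2 h3
  ext <;> simp [*]

/-- the kernel of the action on the upper half plane -/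
theorem Over.triv_iff (h : Over τ1 j) (ha0 : a ≠ 0) (hb0 : b ≠ 0) (g : ℍ[F,a,b]ˣ) :
    (∀ z : UpperHalfPlane, jG j g • z = z) ↔ ∃ c : F, (g : ℍ[F,a,b]) = algebraMap F _ c := by
  rw [forall_smul_eq_self_iff_mem_center,
    Matrix.GeneralLinearGroup.mem_center_iff_val_mem_range_scalar]
  constructor
  · rintro ⟨c, hc⟩
    have key : ∀ y : ℍ[F,a,b], g * y = y * g := fun y => h.inj ha0 hb0 (by
      rw [map_mul, map_mul, ← coe_jG, ← hc]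
      exact (Matrix.scalar_commute c (fun _ => mul_comm _ _) _).eq)
    exact ⟨_, central ha0 hb0 _ (key _) (key _)⟩
  · rintro ⟨c, hc⟩
    exact ⟨τ1 c, by rw [coe_jG, hc, h]; rfl⟩

end NF

end Vale.Agent.P022K.F0.Fuj
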