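import Vale.Agent.P022K.F0.St
import Vale.Agent.P022K.F0.FujD

/-! P022K, F0, row FUJ: the fields `fin` and `fu` of `Tw.Ok` for the tower of a quaternion
algebra. -/

set_option autoImplicit false

open UpperHalfPlane NumberField IsDedekindDomain
open scoped MatrixGroups Quaternion

noncomputable section

namespace Vale.Agent.P022K.Sh

open Vale.Agent.P022K.F0.Fuj (OF ord Lat Um Over jG)

variable {F : Type} [Field F] [NumberField F]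

theorem mem_qint {R : Type} [CommRing R] [Algebra (𝓞 F) R] {a b : 𝓞 F} {O : Subalgebra (𝓞 F) R}
    {x : Qa a b R} : x ∈ qint a b O ↔ x.re ∈ O ∧ x.imI ∈ O ∧ x.imJ ∈ O ∧ x.imK ∈ O := by
  constructor
  · rintro ⟨y, rfl⟩
    exact ⟨y.re.2, y.imI.2, y.imJ.2, y.imK.2⟩
  · rintro ⟨h0, h1, h2, h3⟩
    exact ⟨⟨⟨_, h0⟩, ⟨_, h1⟩, ⟨_, h2⟩, ⟨_, h3⟩⟩, rfl⟩

theorem mem_OA {x : AF F} : x ∈ OA F ↔ ∀ w : Pl F, x w ∈ w.adicCompletionIntegers F := by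
  simp only [OA, Algebra.mem_iInf]
  rfl

/-- `F ∩ Ô = 𝓞_F` -/
theorem algebraMap_mem_OA {c : F} : algebraMap F (AF F) c ∈ OA F ↔ c ∈ OF F := by
  constructor
  · intro h
    obtain ⟨r, hr⟩ := HeightOneSpectrum.mem_integers_of_valuation_le_one (R := 𝓞 F) F c fun v => by
      rw [← HeightOneSpectrum.valuedAdicCompletion_eq_valuation']
      exact mem_OA.mp h v
    rw [← hr]
    exact r.isIntegral_coe
  · intro h
    exact (OA F).algebraMap_mem (⟨c, h⟩ : 𝓞 F)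

namespace QD

theorem isTotallyReal (X : QD F) : IsTotallyReal F :=
  ⟨fun v => InfinitePlace.isReal_iff.mpr (ComplexEmbedding.isReal_iff.mpr
    (RingHom.ext fun x => Complex.conj_eq_iff_im.mpr (X.real _ x)))⟩

variable (X : QD F)

theorem a_ne : algebraMap (𝓞 F) F X.a ≠ 0 := fun h => X.a0 (by simpa using h)
theorem b_ne : algebraMap (𝓞 F) F X.b ≠ 0 := fun h => X.b0 (by simpa using h)
theorem a_mem : algebraMap (𝓞 F) F X.a ∈ OF F := X.a.isIntegral_coe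
theorem b_mem : algebraMap (𝓞 F) F X.b ∈ OF F := X.b.isIntegral_coe
theorem ovr : Over X.t1 X.s := X.hs

/-- the global order -/
def O0 : Subring X.D := ord (OF F) X.a_mem X.b_mem

theorem div (q : X.D) (hq : q ≠ 0) : F0.Fuj.nrd q ≠ 0 := by
  obtain ⟨t, ht⟩ := X.two
  intro h
  have := F0.Fuj.nrd_ne_zero (X.defi t ht).1 (X.defi t ht).2 q hq
  rw [h, map_zero] at this
  exact lt_irrefl _ this

theorem jD_mem (q : X.D) : X.jD q ∈ X.OD ↔ q ∈ X.O0 :=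
  mem_qint.trans (and_congr algebraMap_mem_OA (and_congr algebraMap_mem_OA
    (and_congr algebraMap_mem_OA algebraMap_mem_OA)))

theorem jD_algebraMap (c : F) :
    X.jD (algebraMap F _ c) = algebraMap (AF F) _ (algebraMap F (AF F) c) := by
  rw [QuaternionAlgebra.algebraMap_eq, QuaternionAlgebra.algebraMap_eq]
  ext <;> simp [jD, qmap]

theorem lat (h1 : ∀ (x : AF F) (N : ℕ), 0 < N → ∃ c : F, ∃ y ∈ OA F, x = algebraMap F _ c + N * y)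
    (h2 : ∀ x : AF F, ∃ N : ℕ, 0 < N ∧ N * x ∈ OA F) : Lat X.jD X.O0 X.OD where
  J1 := X.jD_mem
  J2 x := by
    obtain ⟨n0, p0, q0⟩ := h2 x.re
    obtain ⟨n1, p1, q1⟩ := h2 x.imI
    obtain ⟨n2, p2, q2⟩ := h2 x.imJ
    obtain ⟨n3, p3, q3⟩ := h2 x.imK
    refine ⟨n0 * n1 * n2 * n3, by positivity, ?_⟩
    rw [← nsmul_eq_mul, ← Nat.cast_smul_eq_nsmul (AF F)]
    refine mem_qint.mpr ⟨?_, ?_, ?_, ?_⟩
    · convert mul_mem (natCast_mem (OA F) (n1 * n2 * n3)) q0 using 1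
      simp; ring
    · convert mul_mem (natCast_mem (OA F) (n0 * n2 * n3)) q1 using 1
      simp; ring
    · convert mul_mem (natCast_mem (OA F) (n0 * n1 * n3)) q2 using 1
      simp; ring
    · convert mul_mem (natCast_mem (OA F) (n0 * n1 * n2)) q3 using 1
      simp; ring
  J3 x hx n hn := by
    have key : ∀ t ∈ OA F, ∃ c ∈ OF F, ∃ y ∈ OA F, t = algebraMap F _ c + n * y := fun t ht => by
      obtain ⟨c, y, hy, e⟩ := h1 t n (Nat.pos_of_ne_zero hn)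
      refine ⟨c, algebraMap_mem_OA.mp ?_, y, hy, e⟩
      rw [← sub_eq_iff_eq_add] at e
      rw [← e]
      exact sub_mem ht (mul_mem (natCast_mem _ _) hy)
    obtain ⟨x0, x1, x2, x3⟩ := mem_qint.mp hx
    obtain ⟨c0, p0, y0, q0, e0⟩ := key _ x0
    obtain ⟨c1, p1, y1, q1, e1⟩ := key _ x1
    obtain ⟨c2, p2, y2, q2, e2⟩ := key _ x2
    obtain ⟨c3, p3, y3, q3, e3⟩ := key _ x3
    refine ⟨⟨c0, c1, c2, c3⟩, ⟨p0, p1, p2, p3⟩, ⟨y0, y1, y2, y3⟩, mem_qint.mpr ⟨q0, q1, q2, q3⟩, ?_⟩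
    rw [← nsmul_eq_mul, ← Nat.cast_smul_eq_nsmul (AF F)]
    exact QuaternionAlgebra.ext e0 e1 e2 e3

theorem APX.lat {X : QD F} (h : X.APX) : Lat X.jD X.O0 X.OD := X.lat h.1 h.2.1

theorem Um_le (N : ℕ) : Um X.OD N ≤ X.UN N := by
  rintro u ⟨h1, h2⟩
  exact ⟨1, by simpa [One] using h1, by simpa [One] using h2⟩

theorem scalar_mem_UN (N : ℕ) {x : X.G} {c : (AF F)ˣ} (h : (x : X.DA) = algebraMap _ _ (c : AF F)) :
    x ∈ X.UN N := by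
  have h' : ((x⁻¹ : X.G) : X.DA) = algebraMap _ _ ((c⁻¹ : (AF F)ˣ) : AF F) := by
    refine Units.inv_eq_of_mul_eq_one_right ?_
    rw [h, ← map_mul]; simp
  refine ⟨c⁻¹, ⟨0, zero_mem _, ?_⟩, ⟨0, zero_mem _, ?_⟩⟩
  · rw [h, Algebra.smul_def, ← map_mul]; simp
  · rw [h', Algebra.smul_def, ← map_mul]; simp

theorem coe_j (γ : X.G0) : (X.tw.j γ : X.DA) = X.jD (γ : X.Dˣ) := rfl

theorem r_smul (γ : X.G0) (z : UpperHalfPlane) : X.tw.r γ • z = jG X.s γ • z := rfl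

/-- the kernel of the action on the upper half plane is `Fˣ` -/
theorem mem_Z0_iff (γ : X.G0) :
    γ ∈ X.tw.Z0 ↔ ∃ c : F, ((γ : X.Dˣ) : X.D) = algebraMap F _ c := by
  rw [← X.ovr.triv_iff X.a_ne X.b_ne]
  simp only [Tw.Z0, MonoidHom.mem_ker, Equiv.ext_iff]
  rfl

theorem mem_G0 {g : X.Dˣ} : g ∈ X.G0 ↔ 0 < X.t1 (F0.Fuj.nrd (g : X.D)) := by
  rw [← X.ovr.det X.a_ne X.b_ne]
  rfl

/-- `U` acts on the order with bounded denominators -/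
def Bdd (U : Subgroup X.G) : Prop := ∃ m : ℕ, m ≠ 0 ∧ ∀ u ∈ U, ∀ y ∈ X.OD,
  (m : X.DA) * (u * y * (u⁻¹ : X.G)) ∈ X.OD

theorem conj_UN {N : ℕ} {u : X.G} (hu : u ∈ X.UN N) {y : X.DA} (hy : y ∈ X.OD) :
    u * y * (u⁻¹ : X.G) ∈ X.OD := by
  obtain ⟨c, ⟨v, hv, h1⟩, w, hw, h2⟩ := hu
  have e : (u : X.DA) * y * (u⁻¹ : X.G) = ((c : AF F) • (u : X.DA)) * y *
      (((c⁻¹ : (AF F)ˣ) : AF F) • ((u⁻¹ : X.G) : X.DA)) := by
    simp [smul_smul]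
  rw [e, h1, h2]
  exact mul_mem (mul_mem (add_mem (one_mem _) (mul_mem (natCast_mem _ _) hv)) hy)
    (add_mem (one_mem _) (mul_mem (natCast_mem _ _) hw))

variable {X}

theorem Bdd.cj (hl : Lat X.jD X.O0 X.OD) {U : Subgroup X.G} (h : X.Bdd U) (x : X.G) :
    X.Bdd (cj x U) := by
  obtain ⟨m, m0, hm⟩ := h
  obtain ⟨k, k0, hk⟩ := hl.conj x
  obtain ⟨l, l0, hl⟩ := hl.conj x⁻¹
  refine ⟨l * m * k, mul_ne_zero (mul_ne_zero l0 m0) k0, fun u hu y hy => ?_⟩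
  have := hl _ (hm _ (mem_cj.mp hu) _ (hk y hy))
  convert this using 1
  simp only [← nsmul_eq_mul, smul_mul_assoc, mul_smul_comm, smul_smul]
  congr 1
  · ring
  · simp [mul_assoc]

theorem bdd_of_lev (hl : Lat X.jD X.O0 X.OD) {U : Subgroup X.G} (hU : U ∈ X.tw.Lev) : X.Bdd U := by
  obtain ⟨N, -, -, hN⟩ := hU
  have : ((X.UN N).subgroupOf U).FiniteIndex := ⟨hN⟩
  let _ : Fintype (U ⧸ (X.UN N).subgroupOf U) := Fintype.ofFinite _
  choose k k0 hk using fun q : U ⧸ (X.UN N).subgroupOf U => hl.conj (q.out : X.G)⁻¹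
  refine ⟨∏ q, k q, Finset.prod_ne_zero_iff.mpr fun q _ => k0 q, fun u hu y hy => ?_⟩
  let q : U ⧸ (X.UN N).subgroupOf U := (⟨u, hu⟩ : U)
  have hq0 : q.out⁻¹ * (⟨u, hu⟩ : U) ∈ (X.UN N).subgroupOf U := QuotientGroup.eq.mp q.out_eq'
  have hq : (q.out : X.G)⁻¹ * u ∈ X.UN N := hq0
  obtain ⟨s, hs⟩ := Finset.dvd_prod_of_mem k (Finset.mem_univ q)
  have := mul_mem (natCast_mem X.OD s) (hk q _ (X.conj_UN hq hy))
  convert this using 1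
  rw [hs]
  simp only [← nsmul_eq_mul, smul_smul]
  simp [mul_assoc, mul_comm s]

/-- finiteness of the set of components -/
theorem fin_of_lat (hl : Lat X.jD X.O0 X.OD) : ∀ U ∈ X.tw.Lev, ∃ S : Finset X.G, ∀ x, ∃ s ∈ S, ∃ γ,
    ∃ u ∈ U, x = X.tw.j γ * s * u := by
  classical
  rintro U ⟨N, N0, hN, -⟩
  obtain ⟨e⟩ := F0.Fuj.exists_basis X.a_mem X.b_mem
  have : CharZero X.D := algebraRat.charZero _
  obtain ⟨T, hT, h1⟩ := hl.fin e (F0.Fuj.isUnit_of_div X.div) N0.ne'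
  obtain ⟨δ, hδ⟩ : ∃ δ : X.Dˣ, ∀ g : X.Dˣ, g ∈ X.G0 ∨ g * δ⁻¹ ∈ X.G0 := by
    by_cases h : ∀ g : X.Dˣ, g ∈ X.G0
    · exact ⟨1, fun g => Or.inl (h g)⟩
    · obtain ⟨δ, hδ⟩ := not_forall.mp h
      refine ⟨δ, fun g => or_iff_not_imp_left.mpr fun hg => ?_⟩
      have key : ∀ g : X.Dˣ, g ∉ X.G0 → X.t1 (F0.Fuj.nrd (g : X.D)) < 0 := fun g hg =>
        lt_of_le_of_ne (not_lt.mp (X.mem_G0.not.mp hg))
          ((map_ne_zero _).mpr (X.div _ g.ne_zero))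
      rw [mem_G0, Units.val_mul, F0.Fuj.nrd_mul, map_mul]
      exact mul_pos_of_neg_of_neg (key g hg) (key δ⁻¹ fun h => hδ (by simpa using inv_mem h))
  refine ⟨hT.toFinset ∪ hT.toFinset.image (Units.map X.jD.toMonoidHom δ * ·), fun x => ?_⟩
  obtain ⟨g, t, ht, u, hu, rfl⟩ := h1 x
  rcases hδ g with hg | hg
  · exact ⟨t, by simp [ht], ⟨g, hg⟩, u, hN (X.Um_le N hu), rfl⟩
  · refine ⟨Units.map X.jD.toMonoidHom δ * t, Finset.mem_union_right _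
      (Finset.mem_image_of_mem _ (by simpa using ht)), ⟨_, hg⟩, u, hN (X.Um_le N hu), ?_⟩
    show _ = Units.map X.jD.toMonoidHom (g * δ⁻¹) * _ * _
    rw [map_mul, map_inv]
    group

/-- a deep global congruence subgroup lies in the group of a component -/
theorem exists_Um_le (hl : Lat X.jD X.O0 X.OD) {U : Subgroup X.G} (hU : U ∈ X.tw.Lev) (x : X.G) :
    ∃ m : ℕ, m ≠ 0 ∧ ∀ γ : X.G0, (γ : X.Dˣ) ∈ Um X.O0 m → γ ∈ X.tw.Gam U x := by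
  obtain ⟨N, N0, hN, -⟩ := hU
  obtain ⟨k, k0, hk⟩ := hl.conj x
  have key : ∀ q : X.D, (∃ z ∈ X.O0, q = 1 + (N * k : ℕ) * z) →
      ∃ z ∈ X.OD, ((x⁻¹ : X.G) : X.DA) * X.jD q * x = 1 + N * z := by
    rintro _ ⟨z, hz, rfl⟩
    refine ⟨_, hk _ ((hl.J1 z).mpr hz), ?_⟩
    simp only [← nsmul_eq_mul, map_add, map_one, map_nsmul, mul_add, add_mul, smul_mul_assoc,
      mul_smul_comm, smul_smul, mul_one, Units.inv_mul, mul_comm k N]
  refine ⟨N * k, mul_ne_zero N0.ne' k0, fun γ ⟨h1, h2⟩ => X.tw.mem_Gam.mpr (hN (X.Um_le N ⟨?_, ?_⟩))⟩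
  · exact key _ h1
  · have e : (x⁻¹ * X.tw.j γ * x)⁻¹ = x⁻¹ * X.tw.j γ⁻¹ * x := by rw [map_inv]; group
    rw [e]
    exact key _ h2

/-- the groups of the components are cocompact and discontinuous -/
theorem fu_of_lat (hl : Lat X.jD X.O0 X.OD) : ∀ U ∈ X.tw.Lev, ∀ x, X.tw.Fu (X.tw.Gam U x) := by
  classical
  intro U hU x
  have := X.isTotallyReal
  refine ⟨fun γ hγ => ?_, fun K hK => ?_, ?_⟩
  · obtain ⟨c, hc⟩ := (X.mem_Z0_iff γ).mp hγ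
    obtain ⟨N, -, hN, -⟩ := hU
    have c0 : c ≠ 0 := by
      rintro rfl
      exact (γ : X.Dˣ).ne_zero (by simpa using hc)
    refine X.tw.mem_Gam.mpr (hN (X.scalar_mem_UN N
      (c := Units.map (algebraMap F (AF F)).toMonoidHom (Units.mk0 c c0)) ?_))
    rw [Units.val_mul, Units.val_mul, coe_j, hc, jD_algebraMap, mul_assoc, Algebra.commutes,
      Units.inv_mul_cancel_left]
    rfl
  · obtain ⟨m, m0, hm⟩ := (bdd_of_lev hl hU).cj hl x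
    obtain ⟨S, hS, hf, h1⟩ := F0.Fuj.proper_disc X.ovr X.a_ne X.b_ne X.a_mem X.b_mem X.defi m0 hK
      {g | ∃ hg : g ∈ X.G0, (⟨g, hg⟩ : X.G0) ∈ X.tw.Gam U x ∧ ∃ z ∈ K, jG X.s g • z ∈ K} (by
        rintro g ⟨hg, h1, h2⟩
        refine ⟨hg, h2, fun y hy => (hl.J1 _).mp ?_⟩
        have := hm _ h1 _ ((hl.J1 y).mpr hy)
        rw [← map_inv] at this
        rw [map_mul, map_mul, map_mul, map_natCast]
        exact this)
    refine ⟨(hf.preimage Subtype.val_injective.injOn).toFinset, fun γ hγ hz => ?_⟩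
    obtain ⟨s, hs, hc⟩ := h1 γ ⟨γ.2, hγ, hz⟩
    exact ⟨⟨s, (hS hs).1⟩, by simpa using hs, (X.mem_Z0_iff _).mpr hc⟩
  · obtain ⟨m, m0, hm⟩ := exists_Um_le hl hU x
    obtain ⟨K, hK, h1⟩ := F0.Fuj.cocompact X.ovr X.a_ne X.b_ne X.a_mem X.b_mem X.div m0
    refine ⟨K, hK, fun z => ?_⟩
    obtain ⟨u, hu, hn, hz⟩ := h1 z
    exact ⟨⟨u, X.mem_G0.mpr (by rw [hn, map_one]; exact one_pos)⟩, hm _ hu, hz⟩

theorem fin_of (h : X.APX) : ∀ U ∈ X.tw.Lev, ∃ S : Finset X.G, ∀ x, ∃ s ∈ S, ∃ γ,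
    ∃ u ∈ U, x = X.tw.j γ * s * u := fin_of_lat h.lat

theorem fu_of (h : X.APX) : ∀ U ∈ X.tw.Lev, ∀ x, X.tw.Fu (X.tw.Gam U x) := fu_of_lat h.lat

end QD

end Vale.Agent.P022K.Sh
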