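import Mathlib

/-! P022K, F0, row FUJ: finiteness of the class set of an order in a division algebra, in an
abstract adelic form. -/

namespace Vale.Agent.P022K.F0.Fuj

open Module

section Ord

variable {A : Type*} [Ring A] {κ : Type*} [Fintype κ]

/-- finitely many classes modulo `k` -/
theorem reps_mod (e : Basis κ ℤ A) {k : ℕ} (hk : k ≠ 0) :
    ∃ R : Set A, R.Finite ∧ ∀ y : A, ∃ r ∈ R, ∃ w : A, y = r + (k : A) * w := by
  classical
  refine ⟨Set.range fun c : κ → Fin k => ∑ i, ((c i : ℕ) : ℤ) • e i, Set.finite_range _, fun y => ?_⟩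
  have hk' : (0 : ℤ) < k := by exact_mod_cast Nat.pos_of_ne_zero hk
  have hlt : ∀ i, (e.repr y i % k).toNat < k := fun i => by
    have h1 := Int.emod_nonneg (e.repr y i) hk'.ne'
    have h2 := Int.emod_lt_of_pos (e.repr y i) hk'
    omega
  refine ⟨_, ⟨fun i => ⟨(e.repr y i % k).toNat, hlt i⟩, rfl⟩, ∑ i, (e.repr y i / k) • e i, ?_⟩
  rw [Finset.mul_sum, ← Finset.sum_add_distrib]
  conv_lhs => rw [← e.sum_repr y]
  refine Finset.sum_congr rfl fun i _ => ?_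
  have h1 := Int.emod_nonneg (e.repr y i) hk'.ne'
  have h3 : (k : A) * (e.repr y i / k) • e i = ((k : ℤ) * (e.repr y i / k)) • e i := by
    rw [mul_smul, ← nsmul_eq_mul, natCast_zsmul]
  rw [h3, ← add_smul]
  congr 1
  simp only [Int.toNat_of_nonneg h1]
  exact (Int.emod_add_mul_ediv _ _).symm

/-- a subgroup of finite index contains a non-zero element of norm at most `C` times the index -/
theorem small_elt [Nontrivial A] (e : Basis κ ℤ A) :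
    ∃ C : ℕ, ∀ L : AddSubgroup A, L.index ≠ 0 → ∃ g ∈ L, g ≠ 0 ∧
      (LinearMap.det (LinearMap.mulLeft ℤ g)).natAbs ≤ C * L.index := by
  classical
  set N := Fintype.card κ with hN
  have hN0 : N ≠ 0 := by
    intro h
    have : IsEmpty κ := Fintype.card_eq_zero_iff.mp h
    have := e.sum_repr 1
    simp at this
  let M : κ → Matrix κ κ ℤ := fun k => LinearMap.toMatrix e e (LinearMap.mulLeft ℤ (e k))
  obtain ⟨x, hx⟩ : ∃ x : ℕ, ∀ k i l, |M k i l| ≤ x := by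
    obtain ⟨x, hx⟩ := (Set.finite_range fun p : κ × κ × κ => (M p.1 p.2.1 p.2.2).natAbs).bddAbove
    refine ⟨x, fun k i l => ?_⟩
    have := hx ⟨(k, i, l), rfl⟩
    simp only at this
    rw [← Int.natCast_natAbs]
    exact_mod_cast this
  refine ⟨N.factorial * (N * x) ^ N, fun L hL => ?_⟩
  have hex : ∃ s : ℕ, L.index < (s + 1) ^ N :=
    ⟨L.index, lt_of_lt_of_le (Nat.lt_succ_self _) (Nat.le_self_pow hN0 _)⟩
  set t := Nat.find hex with ht
  have h1 : L.index < (t + 1) ^ N := Nat.find_spec hex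
  have h2 : t ^ N ≤ L.index := by
    rcases Nat.eq_zero_or_pos t with h | h
    · rw [h, zero_pow hN0]; exact Nat.zero_le _
    · have := Nat.find_min hex (m := t - 1) (by omega)
      rw [Nat.sub_add_cancel h] at this
      omega
  have : L.FiniteIndex := ⟨hL⟩
  let _ : Fintype (A ⧸ L) := Fintype.ofFinite _
  obtain ⟨c, c', hne, hc⟩ := Fintype.exists_ne_map_eq_of_card_lt
    (fun c : κ → Fin (t + 1) => ((∑ i, ((c i : ℕ) : ℤ) • e i : A) : A ⧸ L)) (by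
      rw [Fintype.card_fun, Fintype.card_fin, ← Nat.card_eq_fintype_card]
      exact h1)
  let d : κ → ℤ := fun i => ((c' i : ℕ) : ℤ) - ((c i : ℕ) : ℤ)
  have hd : ∀ i, |d i| ≤ t := fun i => by
    have := (c i).2
    have := (c' i).2
    rw [abs_le]
    constructor <;> simp only [d] <;> omega
  refine ⟨∑ i, d i • e i, ?_, ?_, ?_⟩
  · have := QuotientAddGroup.eq.mp hc
    convert this using 1
    simp only [d, sub_smul, Finset.sum_sub_distrib]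
    abel
  · intro h0
    apply hne
    funext i
    have := Fintype.linearIndependent_iff.mp e.linearIndependent d h0 i
    simp only [d] at this
    apply Fin.ext
    omega
  · have hm : LinearMap.toMatrix e e (LinearMap.mulLeft ℤ (∑ i, d i • e i)) = ∑ i, d i • M i := by
      have : LinearMap.mulLeft ℤ (∑ i, d i • e i) = ∑ i, d i • LinearMap.mulLeft ℤ (e i) := by
        ext y
        simp [Finset.sum_mul, mul_assoc]
      rw [this, map_sum]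
      simp only [map_smul, M]
    rw [← LinearMap.det_toMatrix e, hm]
    have hb := Matrix.det_sum_smul_le (abv := AbsoluteValue.abs) Finset.univ (c := d) (A := M)
      (x := (x : ℤ)) (y := (t : ℤ)) hx hd
    rw [AbsoluteValue.abs_apply, Finset.card_univ, ← hN] at hb
    have : ((∑ i, d i • M i).det.natAbs : ℤ) ≤ ((N.factorial * (N * x) ^ N * t ^ N : ℕ) : ℤ) := by
      rw [Int.natCast_natAbs]
      refine hb.trans (le_of_eq ?_)
      push_cast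
      simp only [nsmul_eq_mul]
      ring
    exact (Int.ofNat_le.mp this).trans (Nat.mul_le_mul_left _ h2)

/-- every right ideal `L` of finite index contains `g` with `M L ⊆ g A` -/
theorem ideal_elt [Nontrivial A] (e : Basis κ ℤ A)
    (hA : ∀ g y : A, g ≠ 0 → g * y = 0 → y = 0) :
    ∃ M : ℕ, M ≠ 0 ∧ ∀ L : AddSubgroup A, L.index ≠ 0 → (∀ l ∈ L, ∀ y, l * y ∈ L) →
      ∃ g ∈ L, g ≠ 0 ∧ ∀ l ∈ L, ∃ y, (M : A) * l = g * y := by
  classical
  obtain ⟨C, hC⟩ := small_elt e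
  refine ⟨C.factorial, C.factorial_ne_zero, fun L hL hr => ?_⟩
  obtain ⟨g, hg, g0, hd⟩ := hC L hL
  refine ⟨g, hg, g0, fun l hl => ?_⟩
  have : Module.Free ℤ A := Module.Free.of_basis e
  have : Module.Finite ℤ A := Module.Finite.of_basis e
  let f := LinearMap.mulLeft ℤ g
  have hf : Function.Injective f := by
    rw [← LinearMap.ker_eq_bot, LinearMap.ker_eq_bot']
    exact fun y hy => hA g y g0 hy
  have h1 := Submodule.natAbs_det_equiv (LinearMap.range f) (LinearEquiv.ofInjective f hf)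
  have h2 : (LinearMap.range f).subtype ∘ₗ AddMonoidHom.toIntLinearMap
      (LinearEquiv.ofInjective f hf : A →+ LinearMap.range f) = f := by
    ext y; rfl
  rw [h2] at h1
  let H : AddSubgroup A := (LinearMap.range f).toAddSubgroup
  have h3 : H.index = (LinearMap.det f).natAbs := h1.symm
  have h4 : H ≤ L := by
    rintro _ ⟨y, rfl⟩
    exact hr g hg y
  have h5 := AddSubgroup.relIndex_mul_index h4
  have h6 : LinearMap.det f ≠ 0 := by
    rw [Ne, LinearMap.det_eq_zero_iff_ker_ne_bot, not_not, LinearMap.ker_eq_bot]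
    exact hf
  have h7 : H.relIndex L ≠ 0 := by
    intro h
    rw [h, zero_mul, h3] at h5
    exact h6 (Int.natAbs_eq_zero.mp h5.symm)
  have h8 : H.relIndex L ≤ C := by
    refine Nat.le_of_mul_le_mul_right ?_ (Nat.pos_of_ne_zero hL)
    rw [h5, h3]
    exact hd
  obtain ⟨s, hs⟩ := Nat.dvd_factorial (Nat.pos_of_ne_zero h7) h8
  obtain ⟨y, hy⟩ : H.relIndex L • l ∈ H := AddSubgroup.nsmul_relIndex_mem H hl
  refine ⟨s • y, ?_⟩
  have hy' : g * y = H.relIndex L • l := hy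
  rw [mul_smul_comm, hy', hs, ← nsmul_eq_mul, mul_comm, mul_smul]

end Ord

section Adelic

variable {D Dh : Type*} [Ring D] [Ring Dh]

/-- the principal congruence subgroup of level `m` -/
def Um (Oh : Subring Dh) (m : ℕ) : Subgroup Dhˣ where
  carrier := {u | (∃ z ∈ Oh, (u : Dh) = 1 + m * z) ∧ ∃ z ∈ Oh, (↑u⁻¹ : Dh) = 1 + m * z}
  one_mem' := ⟨⟨0, Oh.zero_mem, by simp⟩, ⟨0, Oh.zero_mem, by simp⟩⟩
  mul_mem' := by
    have key : ∀ x y : Dh, (∃ z ∈ Oh, x = 1 + m * z) → (∃ z ∈ Oh, y = 1 + m * z) →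
        ∃ z ∈ Oh, x * y = 1 + m * z := by
      rintro _ _ ⟨z, hz, rfl⟩ ⟨w, hw, rfl⟩
      refine ⟨z + w + z * (m * w), Oh.add_mem (Oh.add_mem hz hw)
        (Oh.mul_mem hz (Oh.mul_mem (natCast_mem Oh m) hw)), ?_⟩
      noncomm_ring
    rintro u v ⟨h1, h2⟩ ⟨h3, h4⟩
    exact ⟨key _ _ h1 h3, by rw [mul_inv_rev]; exact key _ _ h4 h2⟩
  inv_mem' := by
    rintro u ⟨h1, h2⟩
    exact ⟨h2, by rw [inv_inv]; exact h1⟩

theorem mem_Um {Oh : Subring Dh} {m : ℕ} {u : Dhˣ} : u ∈ Um Oh m ↔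
    (∃ z ∈ Oh, (u : Dh) = 1 + m * z) ∧ ∃ z ∈ Oh, (↑u⁻¹ : Dh) = 1 + m * z := Iff.rfl

theorem Um_mono (Oh : Subring Dh) {m n : ℕ} (h : m ∣ n) : Um Oh n ≤ Um Oh m := by
  obtain ⟨k, rfl⟩ := h
  rintro u ⟨⟨z, hz, h1⟩, ⟨w, hw, h2⟩⟩
  refine ⟨⟨k * z, Oh.mul_mem (natCast_mem Oh k) hz, ?_⟩, ⟨k * w, Oh.mul_mem (natCast_mem Oh k) hw, ?_⟩⟩
  · rw [h1, Nat.cast_mul, mul_assoc]
  · rw [h2, Nat.cast_mul, mul_assoc]

/-- `Oh ⊆ Dh` is the adelic completion of the order `O ⊆ D` -/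
structure Lat (ι : D →+* Dh) (O : Subring D) (Oh : Subring Dh) : Prop where
  J1 : ∀ q, ι q ∈ Oh ↔ q ∈ O
  J2 : ∀ x : Dh, ∃ n : ℕ, n ≠ 0 ∧ (n : Dh) * x ∈ Oh
  J3 : ∀ x ∈ Oh, ∀ n : ℕ, n ≠ 0 → ∃ y ∈ O, ∃ z ∈ Oh, x = ι y + n * z

variable {ι : D →+* Dh} {O : Subring D} {Oh : Subring Dh} {κ : Type*} [Fintype κ]

theorem Lat.den (h : Lat ι O Oh) (q : D) : ∃ n : ℕ, n ≠ 0 ∧ (n : D) * q ∈ O := by
  obtain ⟨n, n0, hn⟩ := h.J2 (ι q)
  exact ⟨n, n0, (h.J1 _).mp (by rwa [map_mul, map_natCast])⟩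

theorem Lat.reps (h : Lat ι O Oh) (e : Basis κ ℤ O) {k : ℕ} (hk : k ≠ 0) :
    ∃ R : Set Dh, R.Finite ∧ ∀ y ∈ Oh, ∃ r ∈ R, ∃ w ∈ Oh, y = r + (k : Dh) * w := by
  obtain ⟨R, hR, h1⟩ := reps_mod e hk
  refine ⟨(fun r : O => ι r) '' R, hR.image _, fun y hy => ?_⟩
  obtain ⟨y', hy', z, hz, rfl⟩ := h.J3 y hy k hk
  obtain ⟨r, hr, w, hw⟩ := h1 ⟨y', hy'⟩
  refine ⟨_, ⟨r, hr, rfl⟩, ι w + z, Oh.add_mem ((h.J1 _).mpr w.2) hz, ?_⟩
  have : y' = (r : D) + (k : D) * w := by simpa using congrArg Subtype.val hw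
  rw [this, map_add, map_mul, map_natCast, mul_add, add_assoc]

/-- conjugating a deep congruence subgroup -/
theorem Lat.conj (h : Lat ι O Oh) (x : Dhˣ) :
    ∃ k : ℕ, k ≠ 0 ∧ ∀ w ∈ Oh, (k : Dh) * ((↑x⁻¹ : Dh) * w * x) ∈ Oh := by
  obtain ⟨n, n0, hn⟩ := h.J2 (x : Dh)
  obtain ⟨n', n0', hn'⟩ := h.J2 (↑x⁻¹ : Dh)
  refine ⟨n' * n, mul_ne_zero n0' n0, fun w hw => ?_⟩
  have := Oh.mul_mem (Oh.mul_mem hn' hw) hn
  convert this using 1
  simp only [← nsmul_eq_mul, mul_smul, smul_mul_assoc, mul_smul_comm]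
  rw [smul_comm]

theorem Lat.bound [CharZero D] (h : Lat ι O Oh) (e : Basis κ ℤ O)
    (hD : ∀ q : D, q ≠ 0 → IsUnit q) :
    ∃ M : ℕ, M ≠ 0 ∧ ∀ x : Dhˣ, ∃ g : Dˣ, (↑x⁻¹ : Dh) * ι g ∈ Oh ∧
      (M : Dh) * (ι (↑g⁻¹ : D) * x) ∈ Oh := by
  have : Nontrivial D := inferInstance
  obtain ⟨M, M0, hM⟩ := ideal_elt e (fun g y g0 hy => by
    have h1 : (g : D) * y = 0 := by simpa using congrArg Subtype.val hy
    have h2 : (g : D) ≠ 0 := fun h => g0 (Subtype.ext h)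
    exact Subtype.ext ((hD _ h2).mul_right_eq_zero.mp h1))
  refine ⟨M, M0, ?_⟩
  suffices H : ∀ x : Dhˣ, (x : Dh) ∈ Oh → ∃ g : Dˣ, (↑x⁻¹ : Dh) * ι g ∈ Oh ∧
      (M : Dh) * (ι (↑g⁻¹ : D) * x) ∈ Oh by
    intro x
    obtain ⟨n, n0, hn⟩ := h.J2 (x : Dh)
    obtain ⟨v, hv⟩ := hD (n : D) (Nat.cast_ne_zero.mpr n0)
    have hv' : ι v = n := by rw [hv, map_natCast]
    obtain ⟨g, h1, h2⟩ := H (Units.map ι.toMonoidHom v * x) (by simpa [hv'] using hn)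
    refine ⟨v⁻¹ * g, ?_, ?_⟩
    · simpa [mul_assoc] using h1
    · simpa [mul_assoc] using h2
  intro x hx
  let L : AddSubgroup O :=
    { carrier := {d | (↑x⁻¹ : Dh) * ι d ∈ Oh}
      zero_mem' := by simp
      add_mem' := fun {p q} hp hq => by
        simpa [mul_add] using Oh.add_mem hp hq
      neg_mem' := fun {p} hp => by simpa using Oh.neg_mem hp }
  have memL : ∀ d : O, d ∈ L ↔ (↑x⁻¹ : Dh) * ι d ∈ Oh := fun d => Iff.rfl
  obtain ⟨m, m0, hm⟩ := h.J2 (↑x⁻¹ : Dh)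
  have hL : L.index ≠ 0 := by
    obtain ⟨R, hR, h1⟩ := reps_mod e m0
    have : Finite (O ⧸ L) := by
      have := hR.to_subtype
      refine Finite.of_surjective (fun r : R => ((r : O) : O ⧸ L)) fun q => ?_
      obtain ⟨y, rfl⟩ := QuotientAddGroup.mk_surjective q
      obtain ⟨r, hr, w, rfl⟩ := h1 y
      refine ⟨⟨r, hr⟩, QuotientAddGroup.eq.mpr ?_⟩
      rw [neg_add_cancel_left, memL]
      have := Oh.mul_mem hm ((h.J1 _).mpr w.2)
      convert this using 1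
      rw [Subring.coe_mul, Subring.coe_natCast, map_mul, map_natCast]
      simp only [← nsmul_eq_mul, smul_mul_assoc, mul_smul_comm]
    exact AddSubgroup.index_ne_zero_of_finite
  obtain ⟨g, hg, g0, hg'⟩ := hM L hL (fun l hl y => by
    rw [memL, Subring.coe_mul, map_mul, ← mul_assoc]
    exact Oh.mul_mem hl ((h.J1 _).mpr y.2))
  obtain ⟨u, hu⟩ := hD (g : D) (fun h => g0 (Subtype.ext h))
  refine ⟨u, by rw [hu]; exact hg, ?_⟩
  obtain ⟨k, k0, hk⟩ := h.J2 (ι (↑u⁻¹ : D))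
  obtain ⟨l, hl, z, hz, hxl⟩ := h.J3 x hx (m * k) (mul_ne_zero m0 k0)
  have hlL : (⟨l, hl⟩ : O) ∈ L := by
    rw [memL]
    have e1 : ι l = x - (m * k : ℕ) * z := by rw [hxl]; abel
    have e2 : (↑x⁻¹ : Dh) * ι l = 1 - ((m : Dh) * ↑x⁻¹) * (k * z) := by
      rw [e1, mul_sub, Units.inv_mul]
      simp only [← nsmul_eq_mul, mul_smul, smul_mul_assoc, mul_smul_comm]
      rw [smul_comm]
    show (↑x⁻¹ : Dh) * ι l ∈ Oh
    rw [e2]
    exact Oh.sub_mem Oh.one_mem (Oh.mul_mem hm (Oh.mul_mem (natCast_mem Oh k) hz))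
  obtain ⟨y, hy⟩ := hg' _ hlL
  have hy' : (M : D) * l = u * y := by rw [hu]; simpa using congrArg Subtype.val hy
  have e3 : (M : Dh) * (ι (↑u⁻¹ : D) * x) = ι y + (M * m : ℕ) * ((k * ι (↑u⁻¹ : D)) * z) := by
    have e4 : (y : D) = ↑u⁻¹ * ((M : D) * l) := by rw [hy', Units.inv_mul_cancel_left]
    rw [hxl, e4]
    simp only [← nsmul_eq_mul, smul_mul_assoc, mul_smul_comm, map_mul, map_nsmul, mul_add,
      smul_smul]
    congr 2
    ring
  rw [e3]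
  exact Oh.add_mem ((h.J1 _).mpr y.2) (Oh.mul_mem (natCast_mem Oh _) (Oh.mul_mem hk hz))

/-- finiteness of the class set of level `m` -/
theorem Lat.fin [CharZero D] (h : Lat ι O Oh) (e : Basis κ ℤ O)
    (hD : ∀ q : D, q ≠ 0 → IsUnit q) {m : ℕ} (hm : m ≠ 0) :
    ∃ T : Set Dhˣ, T.Finite ∧ ∀ x : Dhˣ, ∃ g : Dˣ, ∃ t ∈ T, ∃ u ∈ Um Oh m,
      x = Units.map ι.toMonoidHom g * t * u := by
  classical
  obtain ⟨M, M0, hM⟩ := h.bound e hD
  obtain ⟨R, hR, h1⟩ := h.reps e (mul_ne_zero hm M0)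
  let P : Dh → Dhˣ → Prop := fun r y => (M : Dh) * y ∈ Oh ∧ ∃ w ∈ Oh, (↑y⁻¹ : Dh) = r + (m * M : ℕ) * w
  refine ⟨(fun r => if hr : ∃ y, P r y then hr.choose else 1) '' R, hR.image _, fun x => ?_⟩
  obtain ⟨g, hg1, hg2⟩ := hM x
  let y : Dhˣ := (Units.map ι.toMonoidHom g)⁻¹ * x
  have hy1 : (↑y⁻¹ : Dh) ∈ Oh := by simpa [y] using hg1
  have hy2 : (M : Dh) * y ∈ Oh := by simpa [y] using hg2
  obtain ⟨r, hr, w, hw, hrw⟩ := h1 _ hy1
  have hP : ∃ y, P r y := ⟨y, hy2, w, hw, hrw⟩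
  obtain ⟨ht2, w', hw', hrw'⟩ := hP.choose_spec
  refine ⟨g, hP.choose, ⟨r, hr, by simp only [dif_pos hP]⟩, hP.choose⁻¹ * y, ?_, by simp [y]⟩
  generalize hP.choose = t at *
  have key : ∀ (s s' : Dhˣ) (v v' : Dh), (M : Dh) * s ∈ Oh → v ∈ Oh → v' ∈ Oh →
      (↑s⁻¹ : Dh) = r + (m * M : ℕ) * v → (↑s'⁻¹ : Dh) = r + (m * M : ℕ) * v' →
      ∃ z ∈ Oh, (↑s'⁻¹ : Dh) * s = 1 + m * z := by
    intro s s' v v' hs hv hv' e1 e2
    refine ⟨(v' - v) * (M * s), Oh.mul_mem (Oh.sub_mem hv' hv) hs, ?_⟩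
    have e3 : (↑s'⁻¹ : Dh) = ↑s⁻¹ + (m * M : ℕ) * (v' - v) := by rw [e1, e2, mul_sub]; abel
    rw [e3, add_mul, Units.inv_mul]
    simp only [← nsmul_eq_mul, smul_mul_assoc, mul_smul_comm, smul_smul, mul_comm m M]
  refine ⟨?_, ?_⟩
  · simpa using key y t w w' hy2 hw hw' hrw hrw'
  · simpa using key t y w' w ht2 hw' hw hrw' hrw

end Adelic

end Vale.Agent.P022K.F0.Fuj
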