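import Vale.Agent.P022K.F0.FujQ
import Vale.Agent.P022K.F0.FujL

/-! P022K, F0, row FUJ: cocompactness of the norm one congruence subgroups (Minkowski). -/

namespace Vale.Agent.P022K.F0.Fuj

open Module MeasureTheory NumberField UpperHalfPlane
open scoped Quaternion MatrixGroups

/-- Minkowski, uniformly in a volume preserving linear map -/
theorem mink {W κ : Type*} [NormedAddCommGroup W] [NormedSpace ℝ W] [FiniteDimensional ℝ W]
    [Fintype κ] [Nonempty κ] (b : κ → W) (hb : LinearIndependent ℝ b)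
    (hc : Fintype.card κ = finrank ℝ W) :
    ∃ R : ℝ, ∀ A : W →ₗ[ℝ] W, LinearMap.det A = 1 →
      ∃ c : κ → ℤ, c ≠ 0 ∧ ‖A (∑ k, (c k : ℝ) • b k)‖ < R := by
  classical
  borelize W
  let B := basisOfLinearIndependentOfCardEqFinrank hb hc
  have hB : ∀ k, B k = b k := fun k => by simp [B]
  let μ : Measure W := Measure.addHaar
  have : Nontrivial W := Module.nontrivial_of_finrank_pos (R := ℝ) (hc ▸ Fintype.card_pos)
  have hfin : μ (ZSpan.fundamentalDomain B) * 2 ^ finrank ℝ W < ⊤ :=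
    ENNReal.mul_lt_top (ZSpan.fundamentalDomain_isBounded B).measure_lt_top
      (ENNReal.pow_lt_top ENNReal.ofNat_lt_top)
  obtain ⟨R, hR⟩ : ∃ R : ℕ, μ (ZSpan.fundamentalDomain B) * 2 ^ finrank ℝ W <
      μ (Metric.ball 0 R) := by
    have h1 : Monotone fun n : ℕ => Metric.ball (0 : W) n := fun m n h =>
      Metric.ball_subset_ball (by exact_mod_cast h)
    have h2 := h1.measure_iUnion (μ := μ)
    rw [Metric.iUnion_ball_nat, measure_univ_of_isAddLeftInvariant] at h2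
    rw [h2] at hfin
    exact lt_iSup_iff.mp hfin
  refine ⟨R, fun A hA => ?_⟩
  have : Countable (Submodule.span ℤ (Set.range B)).toAddSubgroup :=
    inferInstanceAs (Countable (Submodule.span ℤ (Set.range B)))
  obtain ⟨x, x0, hx⟩ := exists_ne_zero_mem_lattice_of_measure_mul_two_pow_lt_measure
    (s := A ⁻¹' Metric.ball 0 R) (ZSpan.isAddFundamentalDomain' B μ)
    (fun x hx => by simpa using hx) ((convex_ball _ _).linear_preimage A) (by
      rw [Measure.addHaar_preimage_linearMap μ (by simp [hA]), hA]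
      simpa using hR)
  obtain ⟨c, hc⟩ := (Submodule.mem_span_range_iff_exists_fun ℤ).mp x.2
  have hc' : ∑ k, (c k : ℝ) • b k = x := by
    rw [← hc]
    simp [hB, Int.cast_smul_eq_zsmul]
  refine ⟨c, ?_, ?_⟩
  · rintro rfl
    apply x0
    apply Subtype.ext
    simpa using hc'.symm
  · rw [hc']
    simpa using hx

theorem det_mulRight (g : Matrix (Fin 2) (Fin 2) ℝ) :
    LinearMap.det (LinearMap.mulRight ℝ g) = g.det ^ 2 := by
  have h := LinearMap.det_pi (R := ℝ) (fun _ : Fin 2 => Matrix.toLin' g.transpose)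
  rw [LinearMap.det_toLin', Matrix.det_transpose, Finset.prod_const, Finset.card_univ,
    Fintype.card_fin] at h
  rw [← h]
  refine Eq.trans ?_ (LinearMap.det_conj _ (Matrix.ofLinearEquiv ℝ))
  congr 1
  refine LinearMap.ext fun X => ?_
  ext i l
  simp [Matrix.mul_apply, Matrix.mulVec, dotProduct, mul_comm]

section NF

variable (F : Type*) [Field F] [NumberField F]

/-- the integers of `F` as a subring -/
def OF : Subring F := (integralClosure ℤ F).toSubring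

variable {F}

omit [NumberField F] in
theorem mem_OF {x : F} : x ∈ OF F ↔ IsIntegral ℤ x := Iff.rfl

omit [NumberField F] in
theorem exists_real [IsTotallyReal F] (φ : F →+* ℂ) : ∃ τ : F →+* ℝ, ∀ x, φ x = τ x :=
  ⟨(IsTotallyReal.complexEmbedding_isReal φ).embedding, fun x => by simp⟩

theorem card_real [IsTotallyReal F] : Fintype.card (F →+* ℝ) = finrank ℚ F := by
  rw [← NumberField.Embeddings.card F ℂ]
  refine Fintype.card_congr (Equiv.ofBijective (fun τ => Complex.ofRealHom.comp τ) ⟨?_, ?_⟩)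
  · intro τ τ' h
    ext x
    simpa using RingHom.congr_fun h x
  · intro φ
    obtain ⟨τ, hτ⟩ := exists_real φ
    exact ⟨τ, RingHom.ext fun x => by simp [hτ]⟩

theorem finite_bdd [IsTotallyReal F] (B : ℝ) :
    {x : F | x ∈ OF F ∧ ∀ τ : F →+* ℝ, |τ x| ≤ B}.Finite := by
  refine (NumberField.Embeddings.finite_of_norm_le F ℂ B).subset ?_
  rintro x ⟨h1, h2⟩
  refine ⟨h1, fun φ => ?_⟩
  obtain ⟨τ, hτ⟩ := exists_real φ
  rw [hτ, Complex.norm_real]
  exact h2 τ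

theorem indep_real [IsTotallyReal F] (c : Free.ChooseBasisIndex ℤ (𝓞 F) → ℝ)
    (h : ∀ τ : F →+* ℝ, ∑ i, c i * τ (integralBasis F i) = 0) : c = 0 := by
  have h1 := Fintype.linearIndependent_iff.mp (canonicalEmbedding.latticeBasis F).linearIndependent
    (fun i => (c i : ℂ)) (by
      funext φ
      obtain ⟨τ, hτ⟩ := exists_real φ
      have := congrArg (fun x : ℝ => (x : ℂ)) (h τ)
      simpa [hτ] using this)
  funext i
  simpa using h1 i

theorem exists_den (x : F) : ∃ n : ℕ, n ≠ 0 ∧ (n : F) * x ∈ OF F := by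
  have hx : IsAlgebraic ℤ x :=
    (IsFractionRing.isAlgebraic_iff ℤ ℚ F).mpr (Algebra.IsAlgebraic.isAlgebraic x)
  obtain ⟨m, r, hm, hmr⟩ := hx.exists_nsmul_eq (𝓞 F)
  refine ⟨m, hm, ?_⟩
  rw [← nsmul_eq_mul, hmr]
  exact r.isIntegral_coe

theorem exists_den_finite {S : Set F} (hS : S.Finite) :
    ∃ n : ℕ, n ≠ 0 ∧ ∀ x ∈ S, (n : F) * x ∈ OF F := by
  induction S, hS using Set.Finite.induction_on with
  | empty => exact ⟨1, one_ne_zero, by simp⟩
  | @insert x S _ _ ih =>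
    obtain ⟨n, n0, hn⟩ := ih
    obtain ⟨k, k0, hk⟩ := exists_den x
    refine ⟨n * k, mul_ne_zero n0 k0, ?_⟩
    rintro y (rfl | hy)
    · rw [Nat.cast_mul, mul_assoc]
      exact (OF F).mul_mem (natCast_mem _ _) hk
    · rw [Nat.cast_mul, mul_comm (n : F), mul_assoc]
      exact (OF F).mul_mem (natCast_mem _ _) (hn y hy)

variable {a b : F} {τ1 : F →+* ℝ} {j : ℍ[F,a,b] →+* Matrix (Fin 2) (Fin 2) ℝ}

omit [NumberField F] in
/-- the real coordinates on `M₂(ℝ)` given by a splitting -/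
theorem Over.exists_equiv (h : Over τ1 j) (ha0 : a ≠ 0) (hb0 : b ≠ 0) :
    ∃ ψ : (Fin 4 → ℝ) ≃ₗ[ℝ] Matrix (Fin 2) (Fin 2) ℝ, ∀ q : ℍ[F,a,b],
      ψ ![τ1 q.re, τ1 q.imI, τ1 q.imJ, τ1 q.imK] = j q := by
  let f : (Fin 4 → ℝ) →ₗ[ℝ] Matrix (Fin 2) (Fin 2) ℝ :=
    Fintype.linearCombination ℝ ![1, j (qi a b), j (qj a b), j (qk a b)]
  have hf : ∀ c, f c = c 0 • (1 : Matrix (Fin 2) (Fin 2) ℝ) + c 1 • j (qi a b) +
      c 2 • j (qj a b) + c 3 • j (qk a b) := fun c => by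
    simp [f, Fintype.linearCombination_apply, Fin.sum_univ_four]
  have hinj : Function.Injective f := by
    rw [← LinearMap.ker_eq_bot, LinearMap.ker_eq_bot']
    intro c hc
    rw [hf] at hc
    obtain ⟨h0, h1, h2, h3⟩ := h.indep ha0 hb0 _ _ _ _ hc
    funext i
    fin_cases i <;> assumption
  refine ⟨LinearMap.linearEquivOfInjective f hinj (by simp [Module.finrank_matrix]), fun q => ?_⟩
  rw [LinearMap.linearEquivOfInjective_apply, hf, h.apply q]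
  simp

theorem exists_entry_bound (ψ : (Fin 4 → ℝ) →ₗ[ℝ] Matrix (Fin 2) (Fin 2) ℝ) :
    ∃ C : ℝ, 0 ≤ C ∧ ∀ c i l, |ψ c i l| ≤ C * ‖c‖ := by
  let f : (Fin 4 → ℝ) →L[ℝ] (Fin 2 → Fin 2 → ℝ) :=
    LinearMap.toContinuousLinearMap ((Matrix.ofLinearEquiv ℝ).symm.toLinearMap ∘ₗ ψ)
  refine ⟨‖f‖, norm_nonneg _, fun c i l => ?_⟩
  have h1 := f.le_opNorm c
  have h2 : ‖f c i l‖ ≤ ‖f c‖ := (norm_le_pi_norm (f c i) l).trans (norm_le_pi_norm (f c) i)
  exact h2.trans h1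

theorem exists_small [IsTotallyReal F] (h : Over τ1 j) (ha0 : a ≠ 0) (hb0 : b ≠ 0)
    (ha : a ∈ OF F) (hb : b ∈ OF F) :
    ∃ R : ℝ, ∀ g : Matrix (Fin 2) (Fin 2) ℝ, g.det = 1 → ∃ q ∈ ord (OF F) ha hb, q ≠ 0 ∧
      (∀ i l, |(j q * g) i l| ≤ R) ∧ ∀ τ : F →+* ℝ, |τ (nrd q)| ≤ R := by
  classical
  obtain ⟨ψ, hψ⟩ := h.exists_equiv ha0 hb0
  obtain ⟨C, C0, hC⟩ := exists_entry_bound ψ.toLinearMap
  let β := integralBasis F
  let v : Fin 4 × Free.ChooseBasisIndex ℤ (𝓞 F) → (F →+* ℝ) → Fin 4 → ℝ :=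
    fun k τ s => if s = k.1 then τ (β k.2) else 0
  have hv : ∀ (c : Fin 4 × Free.ChooseBasisIndex ℤ (𝓞 F) → ℝ) τ s,
      (∑ k, c k • v k) τ s = ∑ i, c (s, i) * τ (β i) := fun c τ s => by
    simp [v, Finset.sum_apply, Fintype.sum_prod_type]
  have hli : LinearIndependent ℝ v := by
    refine Fintype.linearIndependent_iff.mpr fun c hc k => ?_
    have := indep_real (fun i => c (k.1, i)) fun τ => by rw [← hv, hc]; rfl
    exact congrFun this k.2
  have hcard : Fintype.card (Free.ChooseBasisIndex ℤ (𝓞 F)) = finrank ℚ F :=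
    (finrank_eq_card_basis β).symm
  have : Nonempty (Free.ChooseBasisIndex ℤ (𝓞 F)) :=
    Fintype.card_pos_iff.mp (hcard ▸ finrank_pos)
  obtain ⟨R, hR⟩ := mink v hli (by
    simp [Module.finrank_pi_fintype, hcard, card_real, mul_comm])
  obtain ⟨B, hB⟩ := (Set.finite_range fun τ : F →+* ℝ =>
    R ^ 2 * (1 + |τ a| + |τ b| + |τ a| * |τ b|)).bddAbove
  refine ⟨max (max (C * R) (2 * (C * R) ^ 2)) B, fun g hg => ?_⟩
  let Ag : (F →+* ℝ) → (Fin 4 → ℝ) →ₗ[ℝ] (Fin 4 → ℝ) := fun τ =>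
    if τ = τ1 then ψ.symm.toLinearMap ∘ₗ LinearMap.mulRight ℝ g ∘ₗ ψ.symm.symm.toLinearMap
    else LinearMap.id
  obtain ⟨c, c0, hc⟩ := hR (LinearMap.pi fun τ => (Ag τ).comp (LinearMap.proj τ)) (by
    rw [LinearMap.det_pi]
    refine Finset.prod_eq_one fun τ _ => ?_
    by_cases hτ : τ = τ1
    · simp only [Ag, if_pos hτ]
      rw [LinearMap.det_conj, det_mulRight, hg, one_pow]
    · simp [Ag, hτ])
  let x : Fin 4 → F := fun s => ∑ i, (c (s, i) : F) * β i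
  have hx : ∀ s, x s ∈ OF F := fun s => Subring.sum_mem _ fun i _ =>
    (OF F).mul_mem (intCast_mem _ _) (by
      rw [mem_OF]; simp only [β, integralBasis_apply]; exact RingOfIntegers.isIntegral_coe _)
  let q : ℍ[F,a,b] := ⟨x 0, x 1, x 2, x 3⟩
  have hq : ∀ τ : F →+* ℝ, (∑ k, (c k : ℝ) • v k) τ = ![τ q.re, τ q.imI, τ q.imJ, τ q.imK] := by
    intro τ
    funext s
    rw [hv]
    fin_cases s <;> simp [q, x]
  have hτ : ∀ τ, ‖Ag τ ![τ q.re, τ q.imI, τ q.imJ, τ q.imK]‖ ≤ R := fun τ => by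
    rw [← hq]
    exact (norm_le_pi_norm _ τ).trans hc.le
  have hent : ∀ i l, |(j q * g) i l| ≤ C * R := fun i l => by
    have h1 := hτ τ1
    have h2 : ψ (Ag τ1 ![τ1 q.re, τ1 q.imI, τ1 q.imJ, τ1 q.imK]) = j q * g := by
      simp [Ag, hψ]
    rw [← h2]
    exact (hC _ i l).trans (mul_le_mul_of_nonneg_left h1 C0)
  refine ⟨q, ⟨hx 0, hx 1, hx 2, hx 3⟩, ?_, fun i l => (hent i l).trans
    ((le_max_left _ _).trans (le_max_left _ _)), fun τ => ?_⟩
  · intro h0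
    apply c0
    have h1 : ∑ k, (c k : ℝ) • v k = 0 := by
      funext τ
      rw [hq, h0]
      funext s
      fin_cases s <;> simp
    funext k
    exact_mod_cast Fintype.linearIndependent_iff.mp hli _ h1 k
  · by_cases hτ1 : τ = τ1
    · refine le_trans ?_ ((le_max_right _ _).trans (le_max_left _ _))
      have h1 : τ (nrd q) = (j q * g).det := by
        rw [Matrix.det_mul, hg, mul_one, h.det ha0 hb0, hτ1]
      rw [h1, Matrix.det_fin_two]
      refine (abs_sub _ _).trans ?_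
      rw [abs_mul, abs_mul]
      have e1 := mul_le_mul (hent 0 0) (hent 1 1) (abs_nonneg _) ((abs_nonneg _).trans (hent 0 0))
      have e2 := mul_le_mul (hent 0 1) (hent 1 0) (abs_nonneg _) ((abs_nonneg _).trans (hent 0 0))
      nlinarith
    · refine le_trans ?_ ((hB ⟨τ, rfl⟩).trans (le_max_right _ _))
      have h1 := hτ τ
      simp only [Ag, if_neg hτ1, LinearMap.id_apply] at h1
      have h2 : ∀ s, (![τ q.re, τ q.imI, τ q.imJ, τ q.imK] s) ^ 2 ≤ R ^ 2 := fun s =>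
        sq_le_sq' (abs_le.mp ((norm_le_pi_norm _ s).trans h1)).1
          (abs_le.mp ((norm_le_pi_norm _ s).trans h1)).2
      have e0 : τ q.re ^ 2 ≤ R ^ 2 := h2 0
      have e1 : τ q.imI ^ 2 ≤ R ^ 2 := h2 1
      have e2 : τ q.imJ ^ 2 ≤ R ^ 2 := h2 2
      have e3 : τ q.imK ^ 2 ≤ R ^ 2 := h2 3
      have h3 : τ (nrd q) = τ q.re ^ 2 + (-τ a * τ q.imI ^ 2) + (-τ b * τ q.imJ ^ 2) +
          τ a * τ b * τ q.imK ^ 2 := by simp [nrd]; ring
      rw [h3]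
      refine ((abs_add_le _ _).trans (add_le_add ((abs_add_three _ _ _)) le_rfl)).trans ?_
      simp only [abs_mul, abs_neg, abs_sq]
      have := mul_le_mul_of_nonneg_left e1 (abs_nonneg (τ a))
      have := mul_le_mul_of_nonneg_left e2 (abs_nonneg (τ b))
      have := mul_le_mul_of_nonneg_left e3 (mul_nonneg (abs_nonneg (τ a)) (abs_nonneg (τ b)))
      nlinarith

omit [NumberField F] in
theorem isUnit_of_div (hD : ∀ q : ℍ[F,a,b], q ≠ 0 → nrd q ≠ 0) (q : ℍ[F,a,b]) (hq : q ≠ 0) :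
    IsUnit q := (isUnit_iff_nrd q).mpr (hD q hq).isUnit

theorem exists_unit [IsTotallyReal F] (h : Over τ1 j) (ha0 : a ≠ 0) (hb0 : b ≠ 0)
    (ha : a ∈ OF F) (hb : b ∈ OF F) (hD : ∀ q : ℍ[F,a,b], q ≠ 0 → nrd q ≠ 0)
    (e : Basis (Fin 4 × Free.ChooseBasisIndex ℤ (𝓞 F)) ℤ (ord (OF F) ha hb)) {m : ℕ} (hm : m ≠ 0) :
    ∃ R : ℝ, ∀ g : Matrix (Fin 2) (Fin 2) ℝ, g.det = 1 → ∃ u : ℍ[F,a,b], nrd u = 1 ∧
      (∃ w ∈ ord (OF F) ha hb, u = 1 + m * w) ∧ ∀ i l, |(j u * g) i l| ≤ R := by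
  classical
  obtain ⟨R, hR⟩ := exists_small h ha0 hb0 ha hb
  have hS := (finite_bdd (F := F) R).image fun x => x⁻¹
  obtain ⟨M, M0, hM⟩ := exists_den_finite hS
  obtain ⟨Q, hQ, h1⟩ := reps_mod e (mul_ne_zero hm M0)
  let P : F × ord (OF F) ha hb → ℍ[F,a,b] → Prop := fun p q => q ∈ ord (OF F) ha hb ∧ nrd q = p.1 ∧
    ∃ w ∈ ord (OF F) ha hb, q = p.2 + ((m * M : ℕ) : ℍ[F,a,b]) * w
  let rep : F × ord (OF F) ha hb → ℍ[F,a,b] := fun p => if hp : ∃ q, P p q then hp.choose else 0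
  let f : F × ord (OF F) ha hb → Matrix (Fin 2) (Fin 2) ℝ := fun p => j (p.1⁻¹ • star (rep p))
  obtain ⟨B, hB⟩ := ((((finite_bdd (F := F) R).prod hQ).prod
    (Set.finite_univ (α := Fin 2 × Fin 2))).image fun p => |f p.1 p.2.1 p.2.2|).bddAbove
  refine ⟨2 * (B * R), fun g hg => ?_⟩
  obtain ⟨q, hq, q0, hent, hn⟩ := hR g hg
  obtain ⟨r, hr, w, hw⟩ := h1 ⟨q, hq⟩
  have hw' : q = r + ((m * M : ℕ) : ℍ[F,a,b]) * w := by simpa using congrArg Subtype.val hw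
  have hP : ∃ q', P (nrd q, r) q' := ⟨q, hq, rfl, w, w.2, hw'⟩
  have hrep : P (nrd q, r) (rep (nrd q, r)) := by
    simp only [rep, dif_pos hP]; exact hP.choose_spec
  have hmem : nrd q ∈ {x : F | x ∈ OF F ∧ ∀ τ : F →+* ℝ, |τ x| ≤ R} := ⟨nrd_mem_ord hq, hn⟩
  have hf : ∀ i l, |j ((nrd q)⁻¹ • star (rep (nrd q, r))) i l| ≤ B := fun i l =>
    hB ⟨((nrd q, r), (i, l)), ⟨⟨hmem, hr⟩, trivial⟩, rfl⟩
  generalize rep (nrd q, r) = q' at hrep hf
  obtain ⟨hq', hn', w', hw1, hw2⟩ := hrep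
  simp only at hn' hw2
  have n0 : nrd q ≠ 0 := hD q q0
  refine ⟨(nrd q)⁻¹ • star q' * q, ?_, ⟨((M : F) * (nrd q)⁻¹) • (star q' * (w - w')), ?_, ?_⟩, ?_⟩
  · rw [nrd_mul, nrd_smul, nrd_star, hn']; field_simp
  · exact smul_mem_ord (hM _ ⟨_, hmem, rfl⟩) (Subring.mul_mem _ (star_mem_ord hq')
      (Subring.sub_mem _ w.2 hw1))
  · have e1 : q = q' + ((m * M : ℕ) : ℍ[F,a,b]) * (w - w') := by
      rw [mul_sub]; conv_lhs => rw [hw']
      conv_rhs => rw [hw2]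
      abel
    have e2 : (nrd q)⁻¹ • star q' * q' = 1 := by
      rw [smul_mul_assoc, star_mul_eq, hn', Algebra.smul_def, ← map_mul, inv_mul_cancel₀ n0, map_one]
    conv_lhs => rw [show (nrd q)⁻¹ • star q' * q = (nrd q)⁻¹ • star q' *
      (q' + ((m * M : ℕ) : ℍ[F,a,b]) * (w - w')) by rw [← e1]]
    rw [mul_add, e2]
    simp only [← nsmul_eq_mul, mul_smul, smul_mul_assoc, mul_smul_comm]
    rw [smul_assoc, smul_comm (nrd q)⁻¹ m, smul_comm M m]
  · intro i l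
    rw [map_mul, mul_assoc, Matrix.mul_apply, Fin.sum_univ_two]
    refine (abs_add_le _ _).trans ?_
    rw [abs_mul, abs_mul]
    have e1 := mul_le_mul (hf i 0) (hent 0 l) (abs_nonneg _) ((abs_nonneg _).trans (hf i 0))
    have e2 := mul_le_mul (hf i 1) (hent 1 l) (abs_nonneg _) ((abs_nonneg _).trans (hf i 0))
    linarith

/-- a `ℤ`-basis of the standard order -/
theorem exists_basis (ha : a ∈ OF F) (hb : b ∈ OF F) :
    Nonempty (Basis (Fin 4 × Free.ChooseBasisIndex ℤ (𝓞 F)) ℤ (ord (OF F) ha hb)) := by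
  let f : ord (OF F) ha hb ≃+ (Fin 4 → 𝓞 F) :=
    { toFun := fun q => ![⟨q.1.re, q.2.1⟩, ⟨q.1.imI, q.2.2.1⟩, ⟨q.1.imJ, q.2.2.2.1⟩,
        ⟨q.1.imK, q.2.2.2.2⟩]
      invFun := fun x => ⟨⟨x 0, x 1, x 2, x 3⟩, (x 0).2, (x 1).2, (x 2).2, (x 3).2⟩
      left_inv := fun q => rfl
      right_inv := fun x => by funext i; fin_cases i <;> rfl
      map_add' := fun p q => by funext i; fin_cases i <;> rfl }
  exact ⟨((Pi.basis fun _ : Fin 4 => RingOfIntegers.basis F).map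
    f.toIntLinearEquiv.symm).reindex (Equiv.sigmaEquivProd _ _)⟩

/-- the action of `Dˣ` on the upper half plane is through this map -/
def jG (j : ℍ[F,a,b] →+* Matrix (Fin 2) (Fin 2) ℝ) : ℍ[F,a,b]ˣ →* GL (Fin 2) ℝ :=
  Units.map j.toMonoidHom

omit [NumberField F] in
@[simp] theorem coe_jG (g : ℍ[F,a,b]ˣ) : (jG j g : Matrix (Fin 2) (Fin 2) ℝ) = j g := rfl

theorem isCompact_SL (R : ℝ) : IsCompact {g : SL(2, ℝ) | ∀ i l, |g i l| ≤ R} := by
  have h1 : IsCompact {m : Matrix (Fin 2) (Fin 2) ℝ | ∀ i l, |m i l| ≤ R} := by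
    have := isCompact_univ_pi fun _ : Fin 2 => isCompact_univ_pi fun _ : Fin 2 =>
      isCompact_Icc (a := -R) (b := R)
    convert! this using 1
    ext m
    exact ⟨fun h i _ l _ => abs_le.mp (h i l), fun h i l => abs_le.mpr (h i trivial l trivial)⟩
  exact Matrix.SpecialLinearGroup.isClosedEmbedding_val.isCompact_preimage h1

theorem smul_I_eq (g : SL(2, ℝ)) (k : GL (Fin 2) ℝ) (z : UpperHalfPlane)
    (h : (g : Matrix (Fin 2) (Fin 2) ℝ) = (k : Matrix (Fin 2) (Fin 2) ℝ) * z.toSL2R.1) :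
    g • I = k • z := by
  have e : Matrix.SpecialLinearGroup.mapGL ℝ g =
      k * Matrix.SpecialLinearGroup.mapGL ℝ z.toSL2R := by
    ext1
    simpa using h
  conv_rhs => rw [← toSL2R_smul_I z]
  rw [MulAction.compHom_smul_def, MulAction.compHom_smul_def, e, mul_smul]

/-- cocompactness of the norm one units congruent to `1` modulo `m` -/
theorem cocompact [IsTotallyReal F] (h : Over τ1 j) (ha0 : a ≠ 0) (hb0 : b ≠ 0)
    (ha : a ∈ OF F) (hb : b ∈ OF F) (hD : ∀ q : ℍ[F,a,b], q ≠ 0 → nrd q ≠ 0) {m : ℕ} (hm : m ≠ 0) :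
    ∃ K : Set UpperHalfPlane, IsCompact K ∧ ∀ z : UpperHalfPlane, ∃ u ∈ Um (ord (OF F) ha hb) m,
      nrd (u : ℍ[F,a,b]) = 1 ∧ jG j u • z ∈ K := by
  obtain ⟨e⟩ := exists_basis ha hb
  obtain ⟨R, hR⟩ := exists_unit h ha0 hb0 ha hb hD e hm
  refine ⟨_, (isCompact_SL R).image (f := fun g : SL(2, ℝ) => g • I) (by fun_prop), fun z => ?_⟩
  obtain ⟨u, hu, ⟨w, hw, huw⟩, hent⟩ := hR (z.toSL2R : Matrix (Fin 2) (Fin 2) ℝ) z.toSL2R.2
  let v : ℍ[F,a,b]ˣ := ⟨u, star u, by rw [mul_star_eq, hu, map_one],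
    by rw [star_mul_eq, hu, map_one]⟩
  refine ⟨v, ⟨⟨w, hw, huw⟩, star w, star_mem_ord hw, ?_⟩, hu,
    ⟨j u * (z.toSL2R : Matrix (Fin 2) (Fin 2) ℝ), ?_⟩, hent, ?_⟩
  · show star u = _
    rw [huw, star_add, star_one, ← nsmul_eq_mul, star_nsmul, nsmul_eq_mul]
  · rw [Matrix.det_mul, h.det ha0 hb0, hu, map_one, one_mul, z.toSL2R.2]
  · refine smul_I_eq _ _ _ ?_
    rfl

end NF

end Vale.Agent.P022K.F0.Fuj
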