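import Mathlib

/-! P022K, F0, row FUJ: quaternion algebra basics (reduced norm and trace, change of ring, the
standard order, splittings into `2 × 2` matrices). -/

namespace Vale.Agent.P022K.F0.Fuj

open scoped Quaternion
open QuaternionAlgebra

section Basic

variable {R S : Type*} [CommRing R] [CommRing S] {a b : R}

/-- reduced norm -/
def nrd (q : ℍ[R,a,b]) : R := q.re ^ 2 - a * q.imI ^ 2 - b * q.imJ ^ 2 + a * b * q.imK ^ 2

/-- reduced trace -/
def trd (q : ℍ[R,a,b]) : R := 2 * q.re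

theorem mul_star_eq (q : ℍ[R,a,b]) : q * star q = algebraMap R _ (nrd q) := by
  rw [algebraMap_eq]
  ext <;> simp [nrd] <;> ring

theorem star_mul_eq (q : ℍ[R,a,b]) : star q * q = algebraMap R _ (nrd q) := by
  rw [algebraMap_eq]
  ext <;> simp [nrd] <;> ring

theorem add_star_eq (q : ℍ[R,a,b]) : q + star q = algebraMap R _ (trd q) := by
  rw [algebraMap_eq]
  ext <;> simp [trd] <;> ring

theorem nrd_mul (p q : ℍ[R,a,b]) : nrd (p * q) = nrd p * nrd q := by
  simp [nrd]; ring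

@[simp] theorem nrd_one : nrd (1 : ℍ[R,a,b]) = 1 := by simp [nrd]

@[simp] theorem nrd_zero : nrd (0 : ℍ[R,a,b]) = 0 := by simp [nrd]

@[simp] theorem nrd_star (q : ℍ[R,a,b]) : nrd (star q) = nrd q := by simp [nrd]

@[simp] theorem trd_star (q : ℍ[R,a,b]) : trd (star q) = trd q := by simp [trd]

theorem nrd_smul (c : R) (q : ℍ[R,a,b]) : nrd (c • q) = c ^ 2 * nrd q := by
  simp [nrd]; ring

theorem trd_smul (c : R) (q : ℍ[R,a,b]) : trd (c • q) = c * trd q := by
  simp [trd]; ring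

theorem nrd_algebraMap (c : R) : nrd (algebraMap R ℍ[R,a,b] c) = c ^ 2 := by
  simp [nrd, algebraMap_eq]

theorem trd_algebraMap (c : R) : trd (algebraMap R ℍ[R,a,b] c) = 2 * c := by
  simp [trd, algebraMap_eq]

theorem trd_mul_comm (p q : ℍ[R,a,b]) : trd (p * q) = trd (q * p) := by
  simp [trd]; ring

theorem trd_add (p q : ℍ[R,a,b]) : trd (p + q) = trd p + trd q := by
  simp [trd]; ring

theorem nrd_add (p q : ℍ[R,a,b]) : nrd (p + q) = nrd p + trd (p * star q) + nrd q := by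
  simp [nrd, trd]; ring

/-- Cayley-Hamilton -/
theorem sq_eq (q : ℍ[R,a,b]) : q * q = trd q • q - algebraMap R _ (nrd q) := by
  rw [algebraMap_eq]
  ext <;> simp [nrd, trd] <;> ring

/-- the reduced norm as a monoid homomorphism -/
def nrdHom (a b : R) : ℍ[R,a,b] →* R where
  toFun := nrd
  map_one' := nrd_one
  map_mul' := nrd_mul

theorem isUnit_iff_nrd (q : ℍ[R,a,b]) : IsUnit q ↔ IsUnit (nrd q) := by
  constructor
  · intro h
    exact h.map (nrdHom a b)
  · rintro ⟨u, hu⟩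
    refine ⟨⟨q, (↑u⁻¹ : R) • star q, ?_, ?_⟩, rfl⟩
    · rw [mul_smul_comm, mul_star_eq, ← hu, Algebra.smul_def, ← map_mul]; simp
    · rw [smul_mul_assoc, star_mul_eq, ← hu, Algebra.smul_def, ← map_mul]; simp

theorem nrd_units_inv (u : ℍ[R,a,b]ˣ) : nrd (u : ℍ[R,a,b]) * nrd (↑u⁻¹ : ℍ[R,a,b]) = 1 := by
  rw [← nrd_mul]; simp

theorem trd_conj (u : ℍ[R,a,b]ˣ) (q : ℍ[R,a,b]) :
    trd ((u : ℍ[R,a,b]) * q * (↑u⁻¹ : ℍ[R,a,b])) = trd q := by
  rw [trd_mul_comm, ← mul_assoc]; simp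

theorem nrd_conj (u : ℍ[R,a,b]ˣ) (q : ℍ[R,a,b]) :
    nrd ((u : ℍ[R,a,b]) * q * (↑u⁻¹ : ℍ[R,a,b])) = nrd q := by
  rw [nrd_mul, nrd_mul, mul_right_comm, nrd_units_inv, one_mul]

/-- change of the ground ring -/
def qmap (f : R →+* S) {a' b' : S} (ha : f a = a') (hb : f b = b') : ℍ[R,a,b] →+* ℍ[S,a',b'] where
  toFun q := ⟨f q.re, f q.imI, f q.imJ, f q.imK⟩
  map_one' := by ext <;> simp
  map_mul' p q := by subst ha hb; ext <;> simp
  map_zero' := by ext <;> simp
  map_add' p q := by ext <;> simp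

section qmap

variable (f : R →+* S) {a' b' : S} (ha : f a = a') (hb : f b = b')

@[simp] theorem qmap_re (q : ℍ[R,a,b]) : (qmap f ha hb q).re = f q.re := rfl
@[simp] theorem qmap_imI (q : ℍ[R,a,b]) : (qmap f ha hb q).imI = f q.imI := rfl
@[simp] theorem qmap_imJ (q : ℍ[R,a,b]) : (qmap f ha hb q).imJ = f q.imJ := rfl
@[simp] theorem qmap_imK (q : ℍ[R,a,b]) : (qmap f ha hb q).imK = f q.imK := rfl

theorem nrd_qmap (q : ℍ[R,a,b]) : nrd (qmap f ha hb q) = f (nrd q) := by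
  subst ha hb; simp [nrd]

theorem trd_qmap (q : ℍ[R,a,b]) : trd (qmap f ha hb q) = f (trd q) := by
  simp [trd, map_ofNat]

theorem qmap_algebraMap (c : R) :
    qmap f ha hb (algebraMap R ℍ[R,a,b] c) = algebraMap S _ (f c) := by
  rw [algebraMap_eq, algebraMap_eq]; ext <;> simp

end qmap

/-- the standard order `T + T i + T j + T k` -/
def ord (T : Subring R) (ha : a ∈ T) (hb : b ∈ T) : Subring ℍ[R,a,b] where
  carrier := {q | q.re ∈ T ∧ q.imI ∈ T ∧ q.imJ ∈ T ∧ q.imK ∈ T}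
  mul_mem' := by
    rintro p q ⟨p1, p2, p3, p4⟩ ⟨q1, q2, q3, q4⟩
    refine ⟨?_, ?_, ?_, ?_⟩ <;> simp only [re_mul, imI_mul, imJ_mul, imK_mul] <;>
      apply_rules (maxDepth := 200) [T.add_mem, T.sub_mem, T.mul_mem, T.zero_mem]
  one_mem' := ⟨T.one_mem, T.zero_mem, T.zero_mem, T.zero_mem⟩
  add_mem' := by
    rintro p q ⟨p1, p2, p3, p4⟩ ⟨q1, q2, q3, q4⟩
    exact ⟨T.add_mem p1 q1, T.add_mem p2 q2, T.add_mem p3 q3, T.add_mem p4 q4⟩
  zero_mem' := ⟨T.zero_mem, T.zero_mem, T.zero_mem, T.zero_mem⟩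
  neg_mem' := by
    rintro p ⟨p1, p2, p3, p4⟩
    exact ⟨T.neg_mem p1, T.neg_mem p2, T.neg_mem p3, T.neg_mem p4⟩

section ord

variable {T : Subring R} {ha : a ∈ T} {hb : b ∈ T}

theorem mem_ord {q : ℍ[R,a,b]} :
    q ∈ ord T ha hb ↔ q.re ∈ T ∧ q.imI ∈ T ∧ q.imJ ∈ T ∧ q.imK ∈ T := Iff.rfl

theorem star_mem_ord {q : ℍ[R,a,b]} (h : q ∈ ord T ha hb) : star q ∈ ord T ha hb := by
  obtain ⟨p1, p2, p3, p4⟩ := h
  refine ⟨?_, ?_, ?_, ?_⟩
  · simpa using p1
  · simpa using p2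
  · simpa using p3
  · simpa using p4

theorem nrd_mem_ord {q : ℍ[R,a,b]} (h : q ∈ ord T ha hb) : nrd q ∈ T := by
  have := ((ord T ha hb).mul_mem h (star_mem_ord h)).1
  rwa [mul_star_eq, algebraMap_eq] at this

theorem trd_mem_ord {q : ℍ[R,a,b]} (h : q ∈ ord T ha hb) : trd q ∈ T := by
  have := ((ord T ha hb).add_mem h (star_mem_ord h)).1
  rwa [add_star_eq, algebraMap_eq] at this

theorem smul_mem_ord {q : ℍ[R,a,b]} {c : R} (hc : c ∈ T) (h : q ∈ ord T ha hb) :
    c • q ∈ ord T ha hb := by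
  obtain ⟨p1, p2, p3, p4⟩ := h
  exact ⟨T.mul_mem hc p1, T.mul_mem hc p2, T.mul_mem hc p3, T.mul_mem hc p4⟩

theorem algebraMap_mem_ord {c : R} (hc : c ∈ T) : algebraMap R ℍ[R,a,b] c ∈ ord T ha hb := by
  rw [algebraMap_eq]
  exact ⟨hc, T.zero_mem, T.zero_mem, T.zero_mem⟩

end ord

/-- the standard generators -/
def qi (a b : R) : ℍ[R,a,b] := ⟨0, 1, 0, 0⟩
/-- the standard generators -/
def qj (a b : R) : ℍ[R,a,b] := ⟨0, 0, 1, 0⟩
/-- the standard generators -/
def qk (a b : R) : ℍ[R,a,b] := ⟨0, 0, 0, 1⟩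

theorem qi_sq : qi a b * qi a b = algebraMap R _ a := by
  rw [algebraMap_eq]; ext <;> simp [qi]
theorem qj_sq : qj a b * qj a b = algebraMap R _ b := by
  rw [algebraMap_eq]; ext <;> simp [qj]
theorem qi_qj : qi a b * qj a b = qk a b := by ext <;> simp [qi, qj, qk]
theorem qj_qi : qj a b * qi a b = -qk a b := by ext <;> simp [qi, qj, qk]

theorem eq_sum (q : ℍ[R,a,b]) : q = algebraMap R _ q.re + algebraMap R _ q.imI * qi a b +
    algebraMap R _ q.imJ * qj a b + algebraMap R _ q.imK * qk a b := by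
  simp only [algebraMap_eq]; ext <;> simp [qi, qj, qk]

/-- an element commuting with `i` and `j` is a scalar -/
theorem central {F : Type*} [Field F] [CharZero F] {a b : F} (ha : a ≠ 0) (hb : b ≠ 0)
    (q : ℍ[F,a,b]) (hi : q * qi a b = qi a b * q) (hj : q * qj a b = qj a b * q) :
    q = algebraMap F _ q.re := by
  have h1 := congrArg QuaternionAlgebra.imK hi
  have h2 := congrArg QuaternionAlgebra.imJ hi
  have h3 := congrArg QuaternionAlgebra.imK hj
  simp [qi, qj] at h1 h2 h3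
  have e1 : q.imJ = 0 := by linear_combination (-1 / 2 : F) * h1
  have e2 : q.imK = 0 := by
    have : a * q.imK = 0 := by linear_combination (-1 / 2 : F) * h2
    exact (mul_eq_zero.mp this).resolve_left ha
  have e3 : q.imI = 0 := by linear_combination (1 / 2 : F) * h3
  rw [algebraMap_eq]
  ext <;> simp [e1, e2, e3]

end Basic

section Split

variable {F k : Type*} [Field F] [Field k] {a b : F} (τ : F →+* k)
  (j : ℍ[F,a,b] →+* Matrix (Fin 2) (Fin 2) k)

/-- `j` is a splitting over `τ` -/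
def Over : Prop := ∀ c : F, j (algebraMap F _ c) = algebraMap k _ (τ c)

variable {τ j}

theorem tr_anti [CharZero k] {X Y : Matrix (Fin 2) (Fin 2) k} {c : k} (hc : c ≠ 0)
    (hY : Y * Y = algebraMap k _ c) (h : X * Y = -(Y * X)) : X.trace = 0 := by
  have h1 : (X * Y * Y).trace = c * X.trace := by
    rw [mul_assoc, hY, ← Algebra.commutes, ← Algebra.smul_def, Matrix.trace_smul, smul_eq_mul]
  have h2 : (X * Y * Y).trace = -(c * X.trace) := by
    rw [Matrix.trace_mul_comm, h, mul_neg, Matrix.trace_neg, ← mul_assoc, hY, ← Algebra.smul_def,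
      Matrix.trace_smul, smul_eq_mul]
  have : c * X.trace = 0 := by linear_combination (1 / 2 : k) * h2 - (1 / 2 : k) * h1
  exact (mul_eq_zero.mp this).resolve_left hc

theorem Over.i_sq (h : Over τ j) : j (qi a b) * j (qi a b) = algebraMap k _ (τ a) := by
  rw [← map_mul, qi_sq, h]

theorem Over.j_sq (h : Over τ j) : j (qj a b) * j (qj a b) = algebraMap k _ (τ b) := by
  rw [← map_mul, qj_sq, h]

theorem j_anti : j (qi a b) * j (qj a b) = -(j (qj a b) * j (qi a b)) := by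
  rw [← map_mul, ← map_mul, qi_qj, qj_qi, map_neg, neg_neg]

theorem Over.apply (h : Over τ j) (q : ℍ[F,a,b]) : j q = τ q.re • (1 : Matrix (Fin 2) (Fin 2) k) +
    τ q.imI • j (qi a b) + τ q.imJ • j (qj a b) + τ q.imK • j (qk a b) := by
  conv_lhs => rw [eq_sum q]
  simp only [map_add, map_mul, h _, Algebra.smul_def, mul_one]

variable [CharZero k]

theorem Over.tr_i (h : Over τ j) (hb : b ≠ 0) : (j (qi a b)).trace = 0 :=
  tr_anti ((map_ne_zero τ).mpr hb) h.j_sq j_anti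

theorem Over.tr_j (h : Over τ j) (ha : a ≠ 0) : (j (qj a b)).trace = 0 :=
  tr_anti ((map_ne_zero τ).mpr ha) h.i_sq (by rw [j_anti, neg_neg])

theorem Over.tr_k (h : Over τ j) : (j (qk a b)).trace = 0 := by
  have h1 : (j (qi a b) * j (qj a b)).trace = -(j (qi a b) * j (qj a b)).trace := by
    conv_lhs => rw [j_anti, Matrix.trace_neg, Matrix.trace_mul_comm]
  rw [← qi_qj, map_mul]
  linear_combination (1 / 2 : k) * h1

theorem Over.trace (h : Over τ j) (ha : a ≠ 0) (hb : b ≠ 0) (q : ℍ[F,a,b]) :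
    (j q).trace = τ (trd q) := by
  rw [h.apply q]
  simp [Matrix.trace_add, Matrix.trace_smul, h.tr_i hb, h.tr_j ha, h.tr_k, trd, map_ofNat,
    mul_comm]

theorem adj_eq (X : Matrix (Fin 2) (Fin 2) k) :
    X.adjugate = algebraMap k _ X.trace - X := by
  rw [Matrix.adjugate_fin_two, Matrix.trace_fin_two]
  ext i l
  fin_cases i <;> fin_cases l <;> simp [Matrix.algebraMap_matrix_apply]

theorem Over.star (h : Over τ j) (ha : a ≠ 0) (hb : b ≠ 0) (q : ℍ[F,a,b]) :
    j (star q) = (j q).adjugate := by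
  rw [adj_eq, h.trace ha hb, ← h, ← add_star_eq, map_add]; abel

theorem Over.det (h : Over τ j) (ha : a ≠ 0) (hb : b ≠ 0) (q : ℍ[F,a,b]) :
    (j q).det = τ (nrd q) := by
  have h1 : j q * (j q).adjugate = algebraMap k _ (τ (nrd q)) := by
    rw [← h.star ha hb, ← map_mul, mul_star_eq, h]
  rw [Matrix.mul_adjugate] at h1
  have := congrFun (congrFun h1 0) 0
  simpa [Matrix.algebraMap_matrix_apply] using this

/-- `1, j i, j j, j k` are linearly independent -/
theorem Over.indep (h : Over τ j) (ha : a ≠ 0) (hb : b ≠ 0) (c0 c1 c2 c3 : k)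
    (e : c0 • (1 : Matrix (Fin 2) (Fin 2) k) + c1 • j (qi a b) + c2 • j (qj a b) +
      c3 • j (qk a b) = 0) : c0 = 0 ∧ c1 = 0 ∧ c2 = 0 ∧ c3 = 0 := by
  have key : ∀ p : ℍ[F,a,b], c0 * τ (trd p) + c1 * τ (trd (qi a b * p)) +
      c2 * τ (trd (qj a b * p)) + c3 * τ (trd (qk a b * p)) = 0 := by
    intro p
    have := congrArg (fun X => (X * j p).trace) e
    simp only [add_mul, smul_mul_assoc, one_mul, ← map_mul, Matrix.trace_add, Matrix.trace_smul,
      h.trace ha hb, smul_eq_mul, zero_mul, Matrix.trace_zero] at this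
    exact this
  have a0 : τ a ≠ 0 := (map_ne_zero τ).mpr ha
  have b0 : τ b ≠ 0 := (map_ne_zero τ).mpr hb
  have k0 := key 1
  have k1 := key (qi a b)
  have k2 := key (qj a b)
  have k3 := key (qk a b)
  simp [trd, qi, qj, qk, map_ofNat, ha, hb] at k0 k1 k2 k3
  exact ⟨k0, k1, k2, k3⟩

end Split

end Vale.Agent.P022K.F0.Fuj
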