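import Mathlib.Analysis.Meromorphic.Order
import Mathlib.Analysis.Complex.CauchyIntegral
import Mathlib.Analysis.Calculus.IteratedDeriv.Lemmas
import Mathlib.Analysis.Calculus.InverseFunctionTheorem.Analytic
import Mathlib.Order.Filter.Germ.Basic
import Mathlib.RingTheory.Derivation.Basic
import Mathlib.RingTheory.Valuation.ValuationSubring
import Mathlib.RingTheory.LaurentSeries
import Mathlib.RingTheory.PowerSeries.Derivative

/-!
# P022K, block F0: the field of germs of meromorphic functions at a point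
-/

set_option autoImplicit false

open Filter Topology
open scoped LaurentSeries PowerSeries

noncomputable section

namespace Vale.Agent.P022K.Sh.Un

/-- germs with a meromorphic representative -/
def MzS (z : ℂ) : Subring (Germ (𝓝[≠] z) ℂ) where
  carrier := {g | ∃ f : ℂ → ℂ, MeromorphicAt f z ∧ (f : Germ (𝓝[≠] z) ℂ) = g}
  mul_mem' := by
    rintro _ _ ⟨f, hf, rfl⟩ ⟨g, hg, rfl⟩
    exact ⟨f * g, hf.mul hg, rfl⟩
  add_mem' := by
    rintro _ _ ⟨f, hf, rfl⟩ ⟨g, hg, rfl⟩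
    exact ⟨f + g, hf.add hg, rfl⟩
  one_mem' := ⟨1, MeromorphicAt.const 1 z, rfl⟩
  zero_mem' := ⟨0, MeromorphicAt.const 0 z, rfl⟩
  neg_mem' := by
    rintro _ ⟨f, hf, rfl⟩
    exact ⟨-f, hf.neg, rfl⟩

/-- the field of germs of meromorphic functions at `z` -/
def Mz (z : ℂ) : Type := MzS z

variable {z z₁ z₂ z₃ : ℂ}

instance Mz.commRing : CommRing (Mz z) := inferInstanceAs (CommRing (MzS z))

/-- the underlying germ -/
def Mz.g (x : Mz z) : Germ (𝓝[≠] z) ℂ := Subtype.val x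

/-- `f` represents `x` -/
def Rp (x : Mz z) (f : ℂ → ℂ) : Prop := (f : Germ (𝓝[≠] z) ℂ) = x.g

theorem exists_rp (x : Mz z) : ∃ f, Rp x f := by
  obtain ⟨f, -, h⟩ := Subtype.property x
  exact ⟨f, h⟩

theorem Rp.eq_iff {x y : Mz z} {f g : ℂ → ℂ} (h : Rp x f) (h' : Rp y g) :
    x = y ↔ f =ᶠ[𝓝[≠] z] g := by
  rw [← Germ.coe_eq, h, h']
  exact ⟨fun e => by rw [e], fun e => Subtype.ext e⟩

theorem Rp.unique {x : Mz z} {f g : ℂ → ℂ} (h : Rp x f) (h' : Rp x g) : f =ᶠ[𝓝[≠] z] g :=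
  (h.eq_iff h').1 rfl

theorem Rp.eq {x y : Mz z} {f : ℂ → ℂ} (h : Rp x f) (h' : Rp y f) : x = y :=
  (h.eq_iff h').2 EventuallyEq.rfl

theorem Rp.congr {x : Mz z} {f g : ℂ → ℂ} (h : Rp x f) (e : f =ᶠ[𝓝[≠] z] g) : Rp x g :=
  (Germ.coe_eq.2 e).symm.trans h

theorem Rp.mero {x : Mz z} {f : ℂ → ℂ} (h : Rp x f) : MeromorphicAt f z := by
  obtain ⟨g, hg, e⟩ := Subtype.property x
  exact hg.congr (Rp.unique (x := x) e h)

theorem Rp.add {x y : Mz z} {f g : ℂ → ℂ} (h : Rp x f) (h' : Rp y g) : Rp (x + y) (f + g) :=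
  show (f : Germ (𝓝[≠] z) ℂ) + g = x.g + y.g by rw [h, h']

theorem Rp.mul {x y : Mz z} {f g : ℂ → ℂ} (h : Rp x f) (h' : Rp y g) : Rp (x * y) (f * g) :=
  show (f : Germ (𝓝[≠] z) ℂ) * g = x.g * y.g by rw [h, h']

theorem Rp.neg {x : Mz z} {f : ℂ → ℂ} (h : Rp x f) : Rp (-x) (-f) :=
  show -(f : Germ (𝓝[≠] z) ℂ) = -x.g by rw [h]

theorem Rp.sub {x y : Mz z} {f g : ℂ → ℂ} (h : Rp x f) (h' : Rp y g) : Rp (x - y) (f - g) := by
  rw [sub_eq_add_neg, sub_eq_add_neg]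
  exact h.add h'.neg

theorem rp_zero : Rp (0 : Mz z) 0 := rfl

theorem rp_one : Rp (1 : Mz z) 1 := rfl

theorem Rp.eq_zero_iff {x : Mz z} {f : ℂ → ℂ} (h : Rp x f) : x = 0 ↔ ∀ᶠ w in 𝓝[≠] z, f w = 0 :=
  h.eq_iff rp_zero

theorem Rp.ne_zero_iff {x : Mz z} {f : ℂ → ℂ} (h : Rp x f) : x ≠ 0 ↔ ∀ᶠ w in 𝓝[≠] z, f w ≠ 0 := by
  rw [Ne, h.eq_zero_iff, ← meromorphicOrderAt_eq_top_iff]
  exact meromorphicOrderAt_ne_top_iff_eventually_ne_zero h.mero

/-- the germ of a meromorphic function -/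
def Mz.mk {f : ℂ → ℂ} (h : MeromorphicAt f z) : Mz z :=
  (⟨f, show ∃ g : ℂ → ℂ, MeromorphicAt g z ∧ _ from ⟨f, h, rfl⟩⟩ : MzS z)

open Classical in
/-- the germ of `f` at `z` -/
def gm (z : ℂ) (f : ℂ → ℂ) : Mz z := if h : MeromorphicAt f z then Mz.mk h else 0

theorem rp_gm {f : ℂ → ℂ} (h : MeromorphicAt f z) : Rp (gm z f) f := by
  rw [gm, dif_pos h]
  rfl

theorem Rp.gm_eq {x : Mz z} {f : ℂ → ℂ} (h : Rp x f) : gm z f = x := (rp_gm h.mero).eq h

/-- a representative -/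
def Mz.out (x : Mz z) : ℂ → ℂ := (exists_rp x).choose

theorem rp_out (x : Mz z) : Rp x x.out := (exists_rp x).choose_spec

instance Mz.field : Field (Mz z) :=
  { Mz.commRing with
    inv := fun x => gm z x.out⁻¹
    exists_pair_ne := ⟨0, 1, fun h => by
      obtain ⟨w, hw⟩ := ((rp_zero.eq_iff rp_one).1 h).exists
      exact zero_ne_one hw⟩
    mul_inv_cancel := fun x hx => by
      refine (((rp_out x).mul (rp_gm (rp_out x).mero.inv)).eq_iff rp_one).2 ?_
      filter_upwards [(rp_out x).ne_zero_iff.1 hx] with w hw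
      exact mul_inv_cancel₀ hw
    inv_zero := by
      refine (rp_gm (rp_out (0 : Mz z)).mero.inv).eq_zero_iff.2 ?_
      filter_upwards [(rp_out (0 : Mz z)).eq_zero_iff.1 rfl] with w hw
      simp [hw]
    nnqsmul := _
    nnqsmul_def := fun _ _ => rfl
    qsmul := _
    qsmul_def := fun _ _ => rfl }

theorem Rp.inv {x : Mz z} {f : ℂ → ℂ} (h : Rp x f) : Rp x⁻¹ f⁻¹ :=
  (rp_gm (rp_out x).mero.inv).congr ((rp_out x).unique h).inv

theorem Rp.div {x y : Mz z} {f g : ℂ → ℂ} (h : Rp x f) (h' : Rp y g) : Rp (x / y) (f / g) := by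
  rw [div_eq_mul_inv, div_eq_mul_inv]
  exact h.mul h'.inv

theorem Rp.pow {x : Mz z} {f : ℂ → ℂ} (h : Rp x f) (n : ℕ) : Rp (x ^ n) (f ^ n) := by
  induction n with
  | zero => simpa using rp_one
  | succ n ih =>
    rw [pow_succ, pow_succ]
    exact ih.mul h

theorem Rp.zpow {x : Mz z} {f : ℂ → ℂ} (h : Rp x f) (n : ℤ) : Rp (x ^ n) (f ^ n) := by
  cases n with
  | ofNat n => simpa using h.pow n
  | negSucc n => simpa using (h.pow (n + 1)).inv

theorem Rp.sum {ι : Type*} (s : Finset ι) {x : ι → Mz z} {f : ι → ℂ → ℂ}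
    (h : ∀ i ∈ s, Rp (x i) (f i)) : Rp (∑ i ∈ s, x i) (∑ i ∈ s, f i) := by
  classical
  induction s using Finset.induction_on with
  | empty => simpa using rp_zero
  | insert a s ha ih =>
    rw [Finset.sum_insert ha, Finset.sum_insert ha]
    exact (h a (by simp)).add (ih fun i hi => h i (by simp [hi]))

theorem Rp.prod {ι : Type*} (s : Finset ι) {x : ι → Mz z} {f : ι → ℂ → ℂ}
    (h : ∀ i ∈ s, Rp (x i) (f i)) : Rp (∏ i ∈ s, x i) (∏ i ∈ s, f i) := by
  classical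
  induction s using Finset.induction_on with
  | empty => simpa using rp_one
  | insert a s ha ih =>
    rw [Finset.prod_insert ha, Finset.prod_insert ha]
    exact (h a (by simp)).mul (ih fun i hi => h i (by simp [hi]))

/-- constants -/
def cstH (z : ℂ) : ℂ →+* Mz z where
  toFun c := gm z fun _ => c
  map_one' := rp_one.gm_eq
  map_zero' := rp_zero.gm_eq
  map_add' a b := ((rp_gm (.const a z)).add (rp_gm (.const b z))).gm_eq
  map_mul' a b := ((rp_gm (.const a z)).mul (rp_gm (.const b z))).gm_eq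

instance Mz.algebra : Algebra ℂ (Mz z) := (cstH z).toAlgebra

theorem rp_cst (c : ℂ) : Rp (algebraMap ℂ (Mz z) c) fun _ => c := rp_gm (.const c z)

instance Mz.charZero : CharZero (Mz z) :=
  charZero_of_injective_algebraMap (algebraMap ℂ (Mz z)).injective

theorem Rp.smul {x : Mz z} {f : ℂ → ℂ} (h : Rp x f) (c : ℂ) : Rp (c • x) (c • f) := by
  rw [Algebra.smul_def]
  exact (rp_cst c).mul h

theorem Rp.aeval {x : Mz z} {f : ℂ → ℂ} (h : Rp x f) (p : Polynomial ℂ) :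
    Rp (Polynomial.aeval x p) fun w => p.eval (f w) := by
  induction p using Polynomial.induction_on' with
  | add p q hp hq => simpa [Pi.add_def] using hp.add hq
  | monomial n c => simpa [Polynomial.aeval_monomial, Pi.mul_def, Pi.pow_def] using
      (rp_cst c).mul (h.pow n)

/-- the germ of the local coordinate -/
def tz (z : ℂ) : Mz z := gm z fun w => w - z

theorem rp_tz : Rp (tz z) fun w => w - z := rp_gm (by fun_prop)

/-! ## the derivation -/

theorem rp_D0 {x : Mz z} {f : ℂ → ℂ} (h : Rp x f) : Rp (gm z (deriv x.out)) (deriv f) :=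
  (rp_gm (rp_out x).mero.deriv).congr ((rp_out x).unique h).nhdsNE_deriv

theorem Rp.ev {x : Mz z} {f : ℂ → ℂ} (h : Rp x f) : ∀ᶠ w in 𝓝[≠] z, DifferentiableAt ℂ f w :=
  h.mero.eventually_analyticAt.mono fun _ hw => hw.differentiableAt

/-- the derivative -/
def Mz.D (z : ℂ) : Derivation ℂ (Mz z) (Mz z) :=
  Derivation.mk'
    { toFun := fun x => gm z (deriv x.out)
      map_add' := fun x y => by
        refine ((rp_D0 ((rp_out x).add (rp_out y))).eq_iff
          ((rp_D0 (rp_out x)).add (rp_D0 (rp_out y)))).2 ?_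
        filter_upwards [(rp_out x).ev, (rp_out y).ev] with w h1 h2
        exact deriv_add h1 h2
      map_smul' := fun c x => by
        refine ((rp_D0 ((rp_out x).smul c)).eq_iff ((rp_D0 (rp_out x)).smul c)).2 ?_
        filter_upwards [(rp_out x).ev] with w h1
        exact deriv_const_smul c h1 }
    fun x y => by
      refine ((rp_D0 ((rp_out x).mul (rp_out y))).eq_iff
        (((rp_out x).mul (rp_D0 (rp_out y))).add ((rp_out y).mul (rp_D0 (rp_out x))))).2 ?_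
      filter_upwards [(rp_out x).ev, (rp_out y).ev] with w h1 h2
      rw [deriv_mul h1 h2]
      simp only [Pi.add_apply, Pi.mul_apply]
      ring

theorem Rp.D {x : Mz z} {f : ℂ → ℂ} (h : Rp x f) : Rp (Mz.D z x) (deriv f) := rp_D0 h

theorem D_tz : Mz.D z (tz z) = 1 := by
  refine (rp_tz.D.eq_iff rp_one).2 (Eventually.of_forall fun w => ?_)
  simp

/-! ## the order -/

/-- the order -/
def od (x : Mz z) : WithTop ℤ := meromorphicOrderAt x.out z

theorem Rp.od {x : Mz z} {f : ℂ → ℂ} (h : Rp x f) : od x = meromorphicOrderAt f z :=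
  meromorphicOrderAt_congr ((rp_out x).unique h)

theorem od_eq_top {x : Mz z} : od x = ⊤ ↔ x = 0 := by
  rw [od, meromorphicOrderAt_eq_top_iff, (rp_out x).eq_zero_iff]

theorem od_zero : od (0 : Mz z) = ⊤ := od_eq_top.2 rfl

theorem od_mul (x y : Mz z) : od (x * y) = od x + od y := by
  rw [((rp_out x).mul (rp_out y)).od, meromorphicOrderAt_mul (rp_out x).mero (rp_out y).mero]
  rfl

theorem od_add (x y : Mz z) : min (od x) (od y) ≤ od (x + y) := by
  rw [((rp_out x).add (rp_out y)).od]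
  exact meromorphicOrderAt_add (rp_out x).mero (rp_out y).mero

theorem od_neg (x : Mz z) : od (-x) = od x := by
  rw [(rp_out x).neg.od, ← meromorphicOrderAt_neg]
  rfl

theorem od_sub (x y : Mz z) : min (od x) (od y) ≤ od (x - y) := by
  rw [sub_eq_add_neg, ← od_neg y]
  exact od_add _ _

theorem od_inv (x : Mz z) : od x⁻¹ = -od x := by
  rw [(rp_out x).inv.od, meromorphicOrderAt_inv]
  rfl

theorem od_cst {c : ℂ} (hc : c ≠ 0) : od (algebraMap ℂ (Mz z) c) = 0 := by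
  classical
  rw [(rp_cst c).od, meromorphicOrderAt_const, if_neg hc]

theorem od_one : od (1 : Mz z) = 0 := by simpa using od_cst (z := z) one_ne_zero

theorem od_cst_nonneg (c : ℂ) : 0 ≤ od (algebraMap ℂ (Mz z) c) := by
  rcases eq_or_ne c 0 with rfl | hc
  · simp [od_zero]
  · rw [od_cst hc]

theorem od_tz : od (tz z) = 1 := by
  rw [rp_tz.od]
  exact meromorphicOrderAt_id_sub_const

theorem tz_ne : tz z ≠ 0 := fun h => by simpa [h, od_zero] using od_tz (z := z)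

theorem od_zpow (x : Mz z) (n : ℤ) : od (x ^ n) = n * od x := by
  rw [((rp_out x).zpow n).od, meromorphicOrderAt_zpow (rp_out x).mero]
  rfl

theorem od_pow (x : Mz z) (n : ℕ) : od (x ^ n) = n * od x := by
  rw [((rp_out x).pow n).od, meromorphicOrderAt_pow (rp_out x).mero]
  rfl

theorem exists_od {x : Mz z} (h : x ≠ 0) : ∃ n : ℤ, od x = n :=
  (WithTop.ne_top_iff_exists.1 (mt od_eq_top.1 h)).imp fun _ e => e.symm

theorem od_D {x : Mz z} {n : ℤ} (hn : n ≠ 0) (h : od x = n) : od (Mz.D z x) = ↑(n - 1) := by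
  rw [(rp_out x).D.od]
  exact meromorphicOrderAt_deriv_eq_sub_one (by exact_mod_cast hn) h

/-- the holomorphic germs -/
def Oz (z : ℂ) : ValuationSubring (Mz z) where
  carrier := {x | 0 ≤ od x}
  mul_mem' {x y} hx hy := by
    simp only [Set.mem_ofPred_eq, od_mul] at *
    exact add_nonneg hx hy
  add_mem' {x y} hx hy := (le_min hx hy).trans (od_add x y)
  one_mem' := od_one.ge
  zero_mem' := by simp [od_zero]
  neg_mem' {x} hx := by simpa only [Set.mem_ofPred_eq, od_neg] using hx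
  mem_or_inv_mem' x := by
    simp only [Set.mem_ofPred_eq, od_inv]
    rcases eq_or_ne x 0 with rfl | hx
    · simp [od_zero]
    · obtain ⟨n, hn⟩ := exists_od hx
      rw [hn, ← WithTop.LinearOrderedAddCommGroup.coe_neg]
      norm_cast
      omega

theorem mem_Oz {x : Mz z} : x ∈ Oz z ↔ 0 ≤ od x := Iff.rfl

theorem Rp.mem_Oz {x : Mz z} {f : ℂ → ℂ} (h : Rp x f) (hf : AnalyticAt ℂ f z) : x ∈ Oz z := by
  rw [Un.mem_Oz, h.od]
  exact hf.meromorphicOrderAt_nonneg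

theorem mem_Oz_iff {x : Mz z} : x ∈ Oz z ↔ ∃ f, AnalyticAt ℂ f z ∧ Rp x f := by
  refine ⟨fun h => ?_, fun ⟨f, hf, h⟩ => h.mem_Oz hf⟩
  rcases eq_or_ne x 0 with rfl | hx
  · exact ⟨0, analyticAt_const, rp_zero⟩
  obtain ⟨n, hn⟩ := exists_od hx
  rw [mem_Oz, hn] at h
  obtain ⟨g, hg, -, e⟩ := (meromorphicOrderAt_eq_int_iff (rp_out x).mero).1 hn
  lift n to ℕ using by exact_mod_cast h
  exact ⟨fun w => (w - z) ^ n • g w, by fun_prop, (rp_out x).congr (e.mono fun w hw => by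
    rw [hw, zpow_natCast])⟩

theorem cst_mem (c : ℂ) : algebraMap ℂ (Mz z) c ∈ Oz z := od_cst_nonneg c

theorem D_mem {x : Mz z} (h : x ∈ Oz z) : Mz.D z x ∈ Oz z := by
  obtain ⟨f, hf, e⟩ := mem_Oz_iff.1 h
  exact e.D.mem_Oz hf.deriv

/-- analytic representatives agree near the point -/
theorem Rp.unique_an {x : Mz z} {f g : ℂ → ℂ} (h : Rp x f) (h' : Rp x g) (hf : AnalyticAt ℂ f z)
    (hg : AnalyticAt ℂ g z) : f =ᶠ[𝓝 z] g :=
  (hf.frequently_eq_iff_eventually_eq hg).1 (h.unique h').frequently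

/-- `x` is holomorphic with the value `c` -/
def Vl (x : Mz z) (c : ℂ) : Prop := 0 < od (x - algebraMap ℂ (Mz z) c)

theorem Rp.vl_iff {x : Mz z} {f : ℂ → ℂ} (h : Rp x f) {c : ℂ} :
    Vl x c ↔ Tendsto f (𝓝[≠] z) (𝓝 c) := by
  have e := h.sub (rp_cst c)
  rw [Vl, e.od, ← tendsto_zero_iff_meromorphicOrderAt_pos e.mero]
  exact tendsto_sub_nhds_zero_iff

theorem Rp.vl {x : Mz z} {f : ℂ → ℂ} (h : Rp x f) (hf : AnalyticAt ℂ f z) : Vl x (f z) :=
  h.vl_iff.2 (hf.continuousAt.tendsto.mono_left nhdsWithin_le_nhds)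

theorem Vl.unique {x : Mz z} {c d : ℂ} (h : Vl x c) (h' : Vl x d) : c = d :=
  tendsto_nhds_unique ((rp_out x).vl_iff.1 h) ((rp_out x).vl_iff.1 h')

theorem mem_Oz_iff_vl {x : Mz z} : x ∈ Oz z ↔ ∃ c, Vl x c := by
  refine ⟨fun h => ?_, fun ⟨c, h⟩ => ?_⟩
  · obtain ⟨f, hf, e⟩ := mem_Oz_iff.1 h
    exact ⟨_, e.vl hf⟩
  · simpa using add_mem (show _ ∈ Oz z from le_of_lt h) (cst_mem c)

theorem vl_iff {x : Mz z} {c : ℂ} : Vl x c ↔ ∃ f, AnalyticAt ℂ f z ∧ Rp x f ∧ f z = c := by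
  refine ⟨fun h => ?_, fun ⟨f, hf, e, e'⟩ => e' ▸ e.vl hf⟩
  obtain ⟨f, hf, e⟩ := mem_Oz_iff.1 (mem_Oz_iff_vl.2 ⟨c, h⟩)
  exact ⟨f, hf, e, (e.vl hf).unique h⟩

theorem vl_zero {x : Mz z} : Vl x 0 ↔ 0 < od x := by simp [Vl]

/-- order one: a local coordinate -/
theorem od_eq_one {x : Mz z} :
    od x = 1 ↔ ∃ f, AnalyticAt ℂ f z ∧ Rp x f ∧ f z = 0 ∧ deriv f z ≠ 0 := by
  constructor
  · intro h
    obtain ⟨f, hf, e, e'⟩ := vl_iff.1 (vl_zero.2 (show 0 < od x by rw [h]; exact zero_lt_one))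
    refine ⟨f, hf, e, e', fun h0 => ?_⟩
    have h1 := od_D (x := x) (n := 1) one_ne_zero h
    have h2 := vl_zero.1 (h0 ▸ e.D.vl hf.deriv)
    simp [h1] at h2
  · rintro ⟨f, hf, e, e', hd⟩
    rw [e.od, hf.meromorphicOrderAt_eq]
    have := hf.analyticOrderAt_sub_eq_one_of_deriv_ne_zero hd
    simp only [e', sub_zero] at this
    rw [show analyticOrderAt f z = 1 from this]
    rfl

/-- a germ with derivative zero is constant -/
theorem D_eq_zero {x : Mz z} : Mz.D z x = 0 ↔ ∃ c, x = algebraMap ℂ (Mz z) c := by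
  refine ⟨fun h => ?_, fun ⟨c, e⟩ => by rw [e, Derivation.map_algebraMap]⟩
  have key : ∀ y : Mz z, Mz.D z y = 0 → od y = 0 ∨ y = 0 := fun y hy => by
    by_contra hc
    rw [not_or] at hc
    obtain ⟨n, hn⟩ := exists_od hc.2
    have := od_D (fun e => hc.1 (by rw [hn, e]; rfl)) hn
    rw [hy, od_zero] at this
    exact WithTop.top_ne_coe this
  have hx : x ∈ Oz z := by
    rcases key x h with e | rfl
    · exact e.ge
    · exact zero_mem _
  obtain ⟨c, hc⟩ := mem_Oz_iff_vl.1 hx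
  rcases key (x - algebraMap ℂ (Mz z) c) (by rw [map_sub, h, Derivation.map_algebraMap, sub_zero])
    with e | e
  · exact absurd e (ne_of_gt hc)
  · exact ⟨c, sub_eq_zero.1 e⟩

/-- a germ that vanishes to every order is zero -/
theorem eq_zero_of_od {x : Mz z} (h : ∀ n : ℕ, (n : WithTop ℤ) ≤ od x) : x = 0 := by
  by_contra hx
  obtain ⟨n, hn⟩ := exists_od hx
  have := h (n.toNat + 1)
  rw [hn] at this
  norm_cast at this
  omega

/-! ## change of coordinate -/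

/-- `h` is a local isomorphism from `z₁` to `z₂` -/
structure Lo (h : ℂ → ℂ) (z₁ z₂ : ℂ) : Prop where
  an : AnalyticAt ℂ h z₁
  dv : deriv h z₁ ≠ 0
  eq : h z₁ = z₂

variable {h k : ℂ → ℂ}

theorem Lo.tendsto (H : Lo h z₁ z₂) : Tendsto h (𝓝[≠] z₁) (𝓝[≠] z₂) := by
  rw [← H.eq]
  refine H.an.map_nhdsNE ?_
  simp [eventuallyConst_iff_analyticOrderAt_sub_eq_top,
    H.an.analyticOrderAt_sub_eq_one_of_deriv_ne_zero H.dv]

theorem Lo.tendsto' (H : Lo h z₁ z₂) : Tendsto h (𝓝 z₁) (𝓝 z₂) :=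
  H.eq ▸ H.an.continuousAt.tendsto

theorem Lo.id (z : ℂ) : Lo id z z := ⟨analyticAt_id, by simp, rfl⟩

theorem Lo.comp (K : Lo k z₂ z₃) (H : Lo h z₁ z₂) : Lo (k ∘ h) z₁ z₃ := by
  obtain ⟨a, b, rfl⟩ := H
  refine ⟨K.an.comp a, ?_, K.eq⟩
  rw [deriv_comp _ K.an.differentiableAt a.differentiableAt]
  exact mul_ne_zero K.dv b

theorem Lo.congr (H : Lo h z₁ z₂) (e : h =ᶠ[𝓝 z₁] k) : Lo k z₁ z₂ :=
  ⟨H.an.congr e, e.deriv_eq ▸ H.dv, e.eq_of_nhds ▸ H.eq⟩

theorem Lo.exists_inv (H : Lo h z₁ z₂) :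
    ∃ k, Lo k z₂ z₁ ∧ h ∘ k =ᶠ[𝓝 z₂] _root_.id ∧ k ∘ h =ᶠ[𝓝 z₁] _root_.id := by
  obtain ⟨a, b, rfl⟩ := H
  have e1 : h ∘ a.hasStrictDerivAt.localInverse _ _ _ b =ᶠ[𝓝 (h z₁)] _root_.id :=
    HasStrictDerivAt.eventually_right_inverse ..
  have e2 : a.hasStrictDerivAt.localInverse _ _ _ b ∘ h =ᶠ[𝓝 z₁] _root_.id :=
    a.hasStrictDerivAt.eventually_left_inverse b
  have a' := a.analyticAt_localInverse b
  refine ⟨_, ⟨a', fun h0 => ?_, e2.eq_of_nhds⟩, e1, e2⟩
  have := e2.deriv_eq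
  rw [deriv_comp _ a'.differentiableAt a.differentiableAt, h0] at this
  simp at this

theorem Lo.mero (H : Lo h z₁ z₂) {f : ℂ → ℂ} (hf : MeromorphicAt f z₂) :
    MeromorphicAt (f ∘ h) z₁ := (H.eq ▸ hf).comp_analyticAt H.an

theorem rp_cmp0 (H : Lo h z₁ z₂) {x : Mz z₂} {f : ℂ → ℂ} (e : Rp x f) :
    Rp (gm z₁ (x.out ∘ h)) (f ∘ h) :=
  (rp_gm (H.mero (rp_out x).mero)).congr (((rp_out x).unique e).comp_tendsto H.tendsto)

/-- composition with `h` -/
def Lo.cmp (H : Lo h z₁ z₂) : Mz z₂ →ₐ[ℂ] Mz z₁ where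
  toFun x := gm z₁ (x.out ∘ h)
  map_one' := (rp_cmp0 H rp_one).eq rp_one
  map_zero' := (rp_cmp0 H rp_zero).eq rp_zero
  map_add' x y := (rp_cmp0 H ((rp_out x).add (rp_out y))).eq
    ((rp_cmp0 H (rp_out x)).add (rp_cmp0 H (rp_out y)))
  map_mul' x y := (rp_cmp0 H ((rp_out x).mul (rp_out y))).eq
    ((rp_cmp0 H (rp_out x)).mul (rp_cmp0 H (rp_out y)))
  commutes' c := (rp_cmp0 H (rp_cst c)).eq (rp_cst c)

theorem Rp.cmp (H : Lo h z₁ z₂) {x : Mz z₂} {f : ℂ → ℂ} (e : Rp x f) : Rp (H.cmp x) (f ∘ h) :=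
  rp_cmp0 H e

theorem Lo.cmp_congr (H : Lo h z₁ z₂) (K : Lo k z₁ z₂) (e : h =ᶠ[𝓝[≠] z₁] k) (x : Mz z₂) :
    H.cmp x = K.cmp x :=
  (((rp_out x).cmp H).eq_iff ((rp_out x).cmp K)).2 (e.fun_comp _)

theorem Lo.cmp_id (x : Mz z) : (Lo.id z).cmp x = x := ((rp_out x).cmp _).eq (rp_out x)

theorem Lo.cmp_comp (K : Lo k z₂ z₃) (H : Lo h z₁ z₂) (x : Mz z₃) :
    (K.comp H).cmp x = H.cmp (K.cmp x) :=
  ((rp_out x).cmp _).eq (((rp_out x).cmp K).cmp H)

theorem Lo.cmp_of_id (H : Lo h z z) (e : h =ᶠ[𝓝 z] _root_.id) (x : Mz z) : H.cmp x = x :=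
  (H.cmp_congr (Lo.id z) (e.filter_mono nhdsWithin_le_nhds) x).trans (Lo.cmp_id x)

theorem Lo.cmp_bij (H : Lo h z₁ z₂) : Function.Bijective H.cmp := by
  refine ⟨H.cmp.toRingHom.injective, fun x => ?_⟩
  obtain ⟨k, K, -, e⟩ := H.exists_inv
  exact ⟨K.cmp x, by rw [← Lo.cmp_comp, Lo.cmp_of_id _ e]⟩

theorem Lo.od_cmp (H : Lo h z₁ z₂) (x : Mz z₂) : od (H.cmp x) = od x := by
  rw [((rp_out x).cmp H).od, meromorphicOrderAt_comp_of_deriv_ne_zero H.an H.dv, H.eq]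
  rfl

theorem Lo.mem_cmp (H : Lo h z₁ z₂) {x : Mz z₂} : H.cmp x ∈ Oz z₁ ↔ x ∈ Oz z₂ := by
  rw [mem_Oz, mem_Oz, H.od_cmp]

theorem Lo.vl_cmp (H : Lo h z₁ z₂) {x : Mz z₂} {c : ℂ} : Vl (H.cmp x) c ↔ Vl x c := by
  rw [Vl, Vl, ← H.od_cmp, map_sub, AlgHom.commutes]

theorem Lo.rp (H : Lo h z₁ z₂) : Rp (gm z₁ h) h := rp_gm H.an.meromorphicAt

/-- the chain rule -/
theorem Lo.D_cmp (H : Lo h z₁ z₂) (x : Mz z₂) :
    Mz.D z₁ (H.cmp x) = H.cmp (Mz.D z₂ x) * Mz.D z₁ (gm z₁ h) := by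
  refine (((rp_out x).cmp H).D.eq_iff (((rp_out x).D.cmp H).mul H.rp.D)).2 ?_
  filter_upwards [H.tendsto.eventually (rp_out x).ev, H.rp.ev] with w h1 h2
  exact deriv_comp w h1 h2

theorem Lo.od_D (H : Lo h z₁ z₂) : od (Mz.D z₁ (gm z₁ h)) = 0 := by
  rw [H.rp.D.od, H.an.deriv.meromorphicOrderAt_eq, analyticOrderAt_eq_zero.2 (.inr H.dv)]
  rfl

theorem Lo.D_ne (H : Lo h z₁ z₂) : Mz.D z₁ (gm z₁ h) ≠ 0 := fun e => by
  simpa [e, od_zero] using H.od_D

theorem Lo.cmp_tz (H : Lo h z₁ z₂) : H.cmp (tz z₂) = gm z₁ h - algebraMap ℂ _ z₂ :=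
  (rp_tz.cmp H).eq (H.rp.sub (rp_cst z₂))

/-! ## expansions -/

/-- the Taylor series -/
def tay (z : ℂ) (f : ℂ → ℂ) : ℂ⟦X⟧ :=
  PowerSeries.mk fun n => ((n.factorial : ℂ))⁻¹ * iteratedDeriv n f z

theorem tay_congr {f g : ℂ → ℂ} (e : f =ᶠ[𝓝 z] g) : tay z f = tay z g := by
  ext n
  simp only [tay, PowerSeries.coeff_mk, e.iteratedDeriv_eq]

theorem tay_mul {f g : ℂ → ℂ} (hf : AnalyticAt ℂ f z) (hg : AnalyticAt ℂ g z) :
    tay z (f * g) = tay z f * tay z g := by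
  ext
  simp only [tay, PowerSeries.coeff_mk, iteratedDeriv_mul hf.contDiffAt hg.contDiffAt,
    Finset.mul_sum, PowerSeries.coeff_mul, Finset.Nat.sum_antidiagonal_eq_sum_range_succ_mk,
    Nat.succ_eq_add_one]
  refine Finset.sum_congr rfl fun i hi => ?_
  rw [Nat.cast_choose _ (by grind)]
  field_simp [Nat.factorial_ne_zero]

theorem tay_add {f g : ℂ → ℂ} (hf : AnalyticAt ℂ f z) (hg : AnalyticAt ℂ g z) :
    tay z (f + g) = tay z f + tay z g := by
  ext
  simp [tay, iteratedDeriv_add hf.contDiffAt hg.contDiffAt, mul_add]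

theorem tay_const (c : ℂ) : tay z (fun _ => c) = PowerSeries.C c := by
  ext n
  rcases n with _ | n
  · simp [tay]
  · simp [tay, iteratedDeriv_const]

theorem tay_deriv (f : ℂ → ℂ) : tay z (deriv f) = PowerSeries.derivative ℂ (tay z f) := by
  ext n
  simp only [tay, PowerSeries.coeff_mk, PowerSeries.coeff_derivative, iteratedDeriv_succ',
    Nat.factorial_succ]
  have : ((n : ℂ) + 1) ≠ 0 := by exact_mod_cast n.succ_ne_zero
  have : (n.factorial : ℂ) ≠ 0 := by exact_mod_cast n.factorial_ne_zero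
  push_cast
  field_simp

theorem tay_zero (f : ℂ → ℂ) : PowerSeries.constantCoeff (tay z f) = f z := by
  simp [tay, ← PowerSeries.coeff_zero_eq_constantCoeff_apply]

theorem tay_tz : tay z (fun w => w - z) = PowerSeries.X := by
  have e : deriv (fun w : ℂ => w - z) = fun _ => 1 := by
    funext w
    simp
  refine PowerSeries.derivative.ext ?_ ?_
  · rw [← tay_deriv, e, tay_const]
    simp
  · simp [tay_zero]

/-- an analytic representative -/
def outA (x : Oz z) : ℂ → ℂ := (mem_Oz_iff.1 x.2).choose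

theorem outA_an (x : Oz z) : AnalyticAt ℂ (outA x) z := (mem_Oz_iff.1 x.2).choose_spec.1

theorem rp_outA (x : Oz z) : Rp x.1 (outA x) := (mem_Oz_iff.1 x.2).choose_spec.2

theorem tay_outA {x : Oz z} {f : ℂ → ℂ} (e : Rp x.1 f) (hf : AnalyticAt ℂ f z) :
    tay z (outA x) = tay z f := tay_congr ((rp_outA x).unique_an e (outA_an x) hf)

/-- the expansion of a holomorphic germ -/
def serO (z : ℂ) : Oz z →+* ℂ⟦X⟧ where
  toFun x := tay z (outA x)
  map_one' := (tay_outA rp_one analyticAt_const).trans (tay_const 1 |>.trans (map_one _))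
  map_zero' := (tay_outA rp_zero analyticAt_const).trans (tay_const 0 |>.trans (map_zero _))
  map_add' x y := (tay_outA ((rp_outA x).add (rp_outA y)) ((outA_an x).add (outA_an y))).trans
    (tay_add (outA_an x) (outA_an y))
  map_mul' x y := (tay_outA ((rp_outA x).mul (rp_outA y)) ((outA_an x).mul (outA_an y))).trans
    (tay_mul (outA_an x) (outA_an y))

theorem serO_eq {x : Oz z} {f : ℂ → ℂ} (e : Rp x.1 f) (hf : AnalyticAt ℂ f z) :
    serO z x = tay z f := tay_outA e hf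

theorem tz_mem : tz z ∈ Oz z := by
  rw [mem_Oz, od_tz]
  exact zero_le_one

/-- `x = t ^ n u` with a unit `u` -/
theorem exists_unit {x : Mz z} {n : ℤ} (h : od x = n) :
    ∃ u : ℂ → ℂ, AnalyticAt ℂ u z ∧ u z ≠ 0 ∧ x = tz z ^ n * gm z u := by
  obtain ⟨g, hg, h0, e⟩ := (meromorphicOrderAt_eq_int_iff (rp_out x).mero).1 h
  exact ⟨g, hg, h0, ((rp_out x).eq_iff ((rp_tz.zpow n).mul (rp_gm hg.meromorphicAt))).2 e⟩

theorem serO_inj : Function.Injective (serO z) := by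
  rw [injective_iff_map_eq_zero]
  intro x hx
  by_contra h0
  obtain ⟨n, hn⟩ := exists_od (x := x.1) fun e => h0 (Subtype.ext e)
  have h1 : 0 ≤ od x.1 := x.2
  rw [hn] at h1
  lift n to ℕ using by exact_mod_cast h1
  obtain ⟨u, hu, u0, e⟩ := exists_unit hn
  have e' : x = ⟨_, tz_mem⟩ ^ n * ⟨_, (rp_gm hu.meromorphicAt).mem_Oz hu⟩ :=
    Subtype.ext (by simpa using e)
  rw [e', map_mul, map_pow, serO_eq rp_tz (by fun_prop), serO_eq (rp_gm hu.meromorphicAt) hu,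
    tay_tz, mul_eq_zero] at hx
  rcases hx with hx | hx
  · exact pow_ne_zero n PowerSeries.X_ne_zero hx
  · exact u0 (by rw [← tay_zero (z := z) u, hx, map_zero])

theorem serO_inj' : Function.Injective ((algebraMap ℂ⟦X⟧ ℂ⸨X⸩).comp (serO z)) :=
  (IsFractionRing.injective ℂ⟦X⟧ ℂ⸨X⸩).comp serO_inj

/-- the expansion in powers of `w - z` -/
def ser (z : ℂ) : Mz z →+* ℂ⸨X⸩ := IsFractionRing.lift (A := Oz z) serO_inj'

theorem ser_coe (x : Oz z) : ser z x = (serO z x : ℂ⸨X⸩) :=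
  IsFractionRing.lift_algebraMap serO_inj' x

theorem Rp.ser {x : Mz z} {f : ℂ → ℂ} (e : Rp x f) (hf : AnalyticAt ℂ f z) :
    ser z x = (tay z f : ℂ⸨X⸩) := by
  rw [← serO_eq (x := ⟨x, e.mem_Oz hf⟩) e hf, ← ser_coe]

theorem ser_inj : Function.Injective (ser z) := (ser z).injective

theorem ser_cst (c : ℂ) : ser z (algebraMap ℂ _ c) = HahnSeries.C c := by
  rw [(rp_cst c).ser analyticAt_const, tay_const]
  exact HahnSeries.ofPowerSeries_C c

theorem ser_tz : ser z (tz z) = HahnSeries.single 1 1 := by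
  rw [rp_tz.ser (by fun_prop), tay_tz]
  exact HahnSeries.ofPowerSeries_X

theorem ser_tz_zpow (n : ℤ) : ser z (tz z ^ n) = HahnSeries.single n 1 := by
  rw [map_zpow₀, ser_tz, ← RatFunc.single_zpow]

theorem coe_derivative (p : ℂ⟦X⟧) :
    ((PowerSeries.derivative ℂ p : ℂ⟦X⟧) : ℂ⸨X⸩) = LaurentSeries.derivative ℂ (p : ℂ⸨X⸩) := by
  ext k
  rw [LaurentSeries.derivative_apply, LaurentSeries.hasseDeriv_coeff]
  rcases lt_trichotomy k (-1) with hk | rfl | hk
  · rw [PowerSeries.coeff_coe, PowerSeries.coeff_coe, if_pos (by omega), if_pos (by omega),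
      smul_zero]
  · simp [PowerSeries.coeff_coe]
  · lift k to ℕ using by omega
    have : (k : ℤ) + (1 : ℕ) = ((k + 1 : ℕ) : ℤ) := by simp
    rw [this, LaurentSeries.coeff_coe_powerSeries, LaurentSeries.coeff_coe_powerSeries,
      PowerSeries.coeff_derivative]
    simp [mul_comm]

/-- the expansion commutes with the derivative -/
theorem ser_D (x : Mz z) : ser z (Mz.D z x) = LaurentSeries.derivative ℂ (ser z x) := by
  rcases eq_or_ne x 0 with rfl | hx
  · simp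
  obtain ⟨n, hn⟩ := exists_od hx
  obtain ⟨u, hu, -, rfl⟩ := exists_unit hn
  have e := rp_gm hu.meromorphicAt
  rw [Derivation.leibniz, Derivation.leibniz_zpow, D_tz, smul_eq_mul, smul_eq_mul, smul_eq_mul,
    mul_one, map_add, map_mul, map_mul, map_mul, map_zsmul, ser_tz_zpow, ser_tz_zpow,
    e.D.ser hu.deriv, e.ser hu, tay_deriv, coe_derivative]
  rw [mul_smul_comm, mul_comm _ (HahnSeries.single (n - 1) 1), ← Int.cast_smul_eq_zsmul ℂ]
  ext k
  simp only [LaurentSeries.derivative_apply, LaurentSeries.hasseDeriv_coeff,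
    HahnSeries.coeff_add, HahnSeries.coeff_single_mul, HahnSeries.coeff_smul,
    Ring.choose_one_right, one_mul]
  rw [show k - n + (1 : ℕ) = k + (1 : ℕ) - n by ring, show k - (n - 1) = k + (1 : ℕ) - n by
    push_cast; ring, Int.cast_smul_eq_zsmul, ← add_smul]
  congr 1
  ring

/-- the order of the expansion -/
theorem ser_order (x : Mz z) : (ser z x).orderTop = od x := by
  rcases eq_or_ne x 0 with rfl | hx
  · simp [od_zero]
  obtain ⟨n, hn⟩ := exists_od hx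
  obtain ⟨u, hu, u0, e⟩ := exists_unit hn
  rw [hn, e, map_mul, ser_tz_zpow, (rp_gm hu.meromorphicAt).ser hu]
  refine HahnSeries.orderTop_eq_of_le ?_ fun k hk => ?_
  · rw [HahnSeries.mem_support, HahnSeries.coeff_single_mul, sub_self, one_mul]
    have := LaurentSeries.coeff_coe_powerSeries (tay z u) 0
    rw [Nat.cast_zero] at this
    rwa [this, PowerSeries.coeff_zero_eq_constantCoeff_apply, tay_zero]
  · by_contra hlt
    rw [HahnSeries.mem_support, HahnSeries.coeff_single_mul, PowerSeries.coeff_coe,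
      if_pos (by omega)] at hk
    exact hk (mul_zero _)

end Vale.Agent.P022K.Sh.Un
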