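import Vale.Agent.P022K.F0.StS2
import Vale.Agent.P022K.F0.Loc
import Vale.Agent.P022K.F0.Hec

/-!
# P022K, block F0: rows GFT, CNV
-/

set_option autoImplicit false

open NumberField IsDedekindDomain
open scoped MatrixGroups

noncomputable section

namespace Vale.Agent.P022K.Sh

open F0

namespace Gf

section abstract

variable {G : Type} [Group G] {U : Subgroup G} {f f1 f2 : G → ℂ}

theorem out_eq (h : Inv U f) (y : G) : f (y : G ⧸ U).out = f y := by
  simpa using (h.eq (out_mk_mem U y) 1).symm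

theorem wk_eq (h : Tf U f) {B : Type} [AddCommMonoid B] [Module ℂ B] (ω : G → B) (x : G) :
    wk f U ω x = ∑ c ∈ h.fin.toFinset, f c.out • ω (x * c.out) :=
  finsum_eq_sum_of_support_subset _ fun c hc => by
    rw [Set.Finite.coe_toFinset]
    exact fun e => hc (by simp only [e, zero_smul])

/-- the convolution of two functions whose supports multiply freely -/
theorem wk_mul (h : Tf U f) (h1 : Tf U f1) (h2 : Tf U f2)
    (mul : ∀ a b, f1 a ≠ 0 → f2 b ≠ 0 → f (a * b) = f1 a * f2 b)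
    (sur : ∀ y, f y ≠ 0 → ∃ a b, f1 a ≠ 0 ∧ f2 b ≠ 0 ∧ y = a * b)
    (inj : ∀ a a' b b', f1 a ≠ 0 → f1 a' ≠ 0 → f2 b ≠ 0 → f2 b' ≠ 0 →
      (a * b)⁻¹ * (a' * b') ∈ U → a⁻¹ * a' ∈ U)
    {B : Type} [AddCommMonoid B] [Module ℂ B] {ω : G → B} (hω : Inv U ω) :
    wk f U ω = wk f1 U (wk f2 U ω) := by
  funext x
  rw [wk_eq h, wk_eq h1]
  simp only [wk_eq h2, Finset.smul_sum]
  rw [← Finset.sum_product']
  symm
  have q : ∀ c c' : G ⧸ U, c.out⁻¹ * c'.out ∈ U → c = c' := fun c c' e =>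
    c.out_eq'.symm.trans ((QuotientGroup.eq.2 e).trans c'.out_eq')
  refine Finset.sum_nbij (fun p => ((p.1.out * p.2.out : G) : G ⧸ U)) ?_ ?_ ?_ ?_
  · intro p hp
    simp only [Finset.mem_product, Set.Finite.mem_toFinset, Set.mem_ofPred_eq] at hp ⊢
    rw [out_eq h.right, mul _ _ hp.1 hp.2]
    exact mul_ne_zero hp.1 hp.2
  · intro p hp p' hp' e
    simp only [Finset.coe_product, Set.mem_prod, Set.Finite.coe_toFinset, Set.mem_ofPred_eq] at hp hp'
    have e1 := QuotientGroup.eq.1 e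
    have e2 := q _ _ (inj _ _ _ _ hp.1 hp'.1 hp.2 hp'.2 e1)
    rw [e2, mul_inv_rev, mul_assoc, inv_mul_cancel_left] at e1
    exact Prod.ext e2 (q _ _ e1)
  · intro c hc
    simp only [Set.Finite.coe_toFinset, Set.mem_ofPred_eq] at hc
    obtain ⟨a, b, ha, hb, e⟩ := sur _ hc
    refine ⟨((a : G ⧸ U), (((a⁻¹ * (a : G ⧸ U).out)⁻¹ * b : G) : G ⧸ U)), ?_, ?_⟩
    · simp only [Finset.coe_product, Set.mem_prod, Set.Finite.coe_toFinset, Set.mem_ofPred_eq]
      rw [out_eq h1.right, out_eq h2.right, h2.left _ (inv_mem (out_mk_mem U a))]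
      exact ⟨ha, hb⟩
    · refine Eq.trans (QuotientGroup.eq.2 ?_) c.out_eq'
      have := inv_mem (out_mk_mem U ((a⁻¹ * (a : G ⧸ U).out)⁻¹ * b))
      rw [e]
      simpa [mul_assoc] using this
  · intro p hp
    simp only [Finset.mem_product, Set.Finite.mem_toFinset, Set.mem_ofPred_eq] at hp
    rw [out_eq h.right, mul _ _ hp.1 hp.2, smul_smul, mul_assoc,
      hω.eq (out_mk_mem U (p.1.out * p.2.out))]

end abstract

variable {F : Type} [Field F] [NumberField F] (X : QD F)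

theorem mem_PU {V : ∀ w, Subgroup (X.Dw w)ˣ} {x : X.G} : x ∈ X.PU V ↔ ∀ w, X.cu w x ∈ V w :=
  Subgroup.mem_iInf

/-- units supported at one place -/
def su (w : Pl F) : (X.Dw w)ˣ →* X.G := Units.map (X.sup w)

theorem cu_su (w : Pl F) (g : (X.Dw w)ˣ) : X.cu w (su X w g) = g := Units.ext (X.cw_sup w _)

theorem cu_su_ne {v w : Pl F} (h : v ≠ w) (g : (X.Dw w)ˣ) : X.cu v (su X w g) = 1 :=
  Units.ext (X.cw_sup_ne h _)

/-- elements with prescribed components at finitely many places -/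
theorem exists_cu (S : Finset (Pl F)) (g : ∀ w, (X.Dw w)ˣ) :
    ∃ x : X.G, (∀ w ∈ S, X.cu w x = g w) ∧ ∀ w, w ∉ S → X.cu w x = 1 := by
  classical
  induction S using Finset.induction_on with
  | empty => exact ⟨1, by simp, fun w _ => map_one _⟩
  | insert w S hw ih =>
    obtain ⟨x, h1, h2⟩ := ih
    refine ⟨su X w (g w) * x, fun v hv => ?_, fun v hv => ?_⟩
    · rcases Finset.mem_insert.1 hv with rfl | hv
      · rw [map_mul, cu_su, h2 v hw, mul_one]
      · rw [map_mul, cu_su_ne X (ne_of_mem_of_not_mem hv hw), h1 v hv, one_mul]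
    · rw [Finset.mem_insert, not_or] at hv
      rw [map_mul, cu_su_ne X hv.1, h2 v hv.2, one_mul]

section gf

variable {X} {S S' : Finset (Pl F)} {V : ∀ w, Subgroup (X.Dw w)ˣ} {g : ∀ w, (X.Dw w)ˣ → ℂ}

theorem gf_pos {x : X.G} (h : ∀ w, w ∉ S → X.cu w x ∈ V w) :
    X.gf S V g x = ∏ w ∈ S, g w (X.cu w x) := if_pos h

theorem gf_ne {x : X.G} : X.gf S V g x ≠ 0 ↔
    (∀ w, w ∉ S → X.cu w x ∈ V w) ∧ ∀ w ∈ S, g w (X.cu w x) ≠ 0 := by
  classical
  rw [QD.gf, ite_ne_right_iff, Finset.prod_ne_zero_iff]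

theorem gf_congr {x y : X.G} (h1 : ∀ w, X.cu w x ∈ V w ↔ X.cu w y ∈ V w)
    (h2 : ∀ w ∈ S, g w (X.cu w x) = g w (X.cu w y)) : X.gf S V g x = X.gf S V g y := by
  classical
  exact if_congr (forall₂_congr fun w _ => h1 w) (Finset.prod_congr rfl h2) rfl

theorem tf_gf (h : ∀ w ∈ S, Tf (V w) (g w)) : Tf (X.PU V) (X.gf S V g) := by
  refine ⟨fun u hu x => gf_congr (fun w => ?_) fun w hw => ?_,
    fun x u hu => gf_congr (fun w => ?_) fun w hw => ?_, ?_⟩
  · rw [map_mul, mul_mem_cancel_left ((mem_PU X).1 hu w)]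
  · rw [map_mul, (h w hw).left _ ((mem_PU X).1 hu w)]
  · rw [map_mul, mul_mem_cancel_right ((mem_PU X).1 hu w)]
  · rw [map_mul, (h w hw).right _ _ ((mem_PU X).1 hu w)]
  · refine Set.Finite.of_finite_image (f := fun c (w : S) => (X.cu w c.out : (X.Dw w)ˣ ⧸ V w))
      ((Set.Finite.pi' fun w : S => (h w w.2).fin).subset ?_) fun c hc c' hc' e => ?_
    · rintro _ ⟨c, hc, rfl⟩ w
      rw [Set.mem_ofPred_eq, out_eq (h w w.2).right]
      exact (gf_ne.1 hc).2 w w.2
    · refine c.out_eq'.symm.trans ((QuotientGroup.eq.2 ((mem_PU X).2 fun w => ?_)).trans c'.out_eq')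
      rw [map_mul, map_inv]
      by_cases hw : w ∈ S
      · exact QuotientGroup.eq.1 (congrFun e ⟨w, hw⟩)
      · exact mul_mem (inv_mem ((gf_ne.1 hc).1 w hw)) ((gf_ne.1 hc').1 w hw)

open Classical in
theorem wk_gf (d : Disjoint S S') (h : ∀ w ∈ S, Tf (V w) (g w)) (h' : ∀ w ∈ S', Tf (V w) (g w))
    {B : Type} [AddCommMonoid B] [Module ℂ B] {ω : X.G → B} (hω : Inv (X.PU V) ω) :
    wk (X.gf (S ∪ S') V g) (X.PU V) ω =
      wk (X.gf S V g) (X.PU V) (wk (X.gf S' V g) (X.PU V) ω) := by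
  refine wk_mul (tf_gf fun w hw => (Finset.mem_union.1 hw).elim (h w) (h' w)) (tf_gf h) (tf_gf h')
    (fun a b ha hb => ?_) (fun y hy => ?_) (fun a a' b b' ha ha' hb hb' e => ?_) hω
  · have ha := (gf_ne.1 ha).1
    have hb := (gf_ne.1 hb).1
    rw [gf_pos ha, gf_pos hb, gf_pos fun w hw => by
      rw [Finset.mem_union, not_or] at hw
      rw [map_mul]
      exact mul_mem (ha w hw.1) (hb w hw.2), Finset.prod_union d]
    congr 1 <;> refine Finset.prod_congr rfl fun w hw => ?_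
    · rw [map_mul, (h w hw).right _ _ (hb w (Finset.disjoint_left.1 d hw))]
    · rw [map_mul, (h' w hw).left _ (ha w (Finset.disjoint_right.1 d hw))]
  · obtain ⟨h1, h2⟩ := gf_ne.1 hy
    obtain ⟨a, a1, a2⟩ := exists_cu X S fun w => X.cu w y
    refine ⟨a, a⁻¹ * y, gf_ne.2 ⟨fun w hw => ?_, fun w hw => ?_⟩,
      gf_ne.2 ⟨fun w hw => ?_, fun w hw => ?_⟩, (mul_inv_cancel_left _ _).symm⟩
    · rw [a2 w hw]
      exact one_mem _
    · rw [a1 w hw]
      exact h2 w (Finset.mem_union_left _ hw)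
    · rw [map_mul, map_inv]
      by_cases hS : w ∈ S
      · rw [a1 w hS, inv_mul_cancel]
        exact one_mem _
      · rw [a2 w hS, inv_one, one_mul]
        exact h1 w fun m => (Finset.mem_union.1 m).elim hS hw
    · rw [map_mul, map_inv, a2 w (Finset.disjoint_right.1 d hw), inv_one, one_mul]
      exact h2 w (Finset.mem_union_right _ hw)
  · refine (mem_PU X).2 fun w => ?_
    by_cases hw : w ∈ S
    · have hw' := Finset.disjoint_left.1 d hw
      have := mul_mem (mul_mem ((gf_ne.1 hb).1 w hw') ((mem_PU X).1 e w))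
        (inv_mem ((gf_ne.1 hb').1 w hw'))
      simpa [mul_assoc] using this
    · rw [map_mul, map_inv]
      exact mul_mem (inv_mem ((gf_ne.1 ha).1 w hw)) ((gf_ne.1 ha').1 w hw)

end gf

end Gf

/-- **GFT** -/
theorem gft : GFT := fun _ _ _ _ _ _ _ h => Gf.tf_gf h

/-- **CNV** -/
theorem cnv : CNV := fun _ _ _ _ _ _ _ _ d h h' _ _ _ _ hω => Gf.wk_gf d h h' hω

end Vale.Agent.P022K.Sh
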