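import Vale.Agent.P022K.F0.Sha
import Vale.Agent.P022K.F0.Cf.Rows

/-!
# P022K, block F0: row LAT (the integral cohomology is a lattice) (helper85)
-/

set_option autoImplicit false

open UpperHalfPlane
open scoped TensorProduct DirectSum

noncomputable section

namespace Vale.Agent.P022K.Sh

open Vale.Agent.P022 Vale.Agent.P022.H218.L3 Vale.Agent.P019P P025H816 Vale.Agent.P022K.F0.Cf

/-- if characters of finite order have roots, the abelianisation is free -/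
theorem ex_basis {Γ : Type} [Group Γ] (Z : Subgroup Γ) (S : Set Γ) (hS : S.Finite)
    (h : Subgroup.closure S ⊔ Z = ⊤)
    (rt : ∀ n : ℕ, 0 < n → ∀ χ : Γ →* ℂˣ, (∀ γ, χ γ ^ n = 1) → (∀ γ ∈ Z, χ γ = 1) →
      ∃ χ' : Γ →* ℂˣ, (∀ γ ∈ Z, χ' γ = 1) ∧ ∀ γ, χ' γ ^ n = χ γ) :
    ∃ (r : ℕ) (g : Fin r → Γ), ∀ (B : Type) [AddCommGroup B],
      (∀ χ : Γ → B, (∀ γ δ, χ (γ * δ) = χ γ + χ δ) → (∀ γ ∈ Z, χ γ = 0) → (∀ i, χ (g i) = 0) →
        ∀ γ, χ γ = 0) ∧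
      ∀ v : Fin r → B, ∃ χ : Γ → B, (∀ γ δ, χ (γ * δ) = χ γ + χ δ) ∧ (∀ γ ∈ Z, χ γ = 0) ∧
        ∀ i, χ (g i) = v i := by
  classical
  obtain ⟨Q, _, π, π1, π2, π3⟩ : ∃ (Q : Type) (_ : CommGroup Q) (π : Γ →* Q),
      Function.Surjective π ∧ (∀ γ ∈ Z, π γ = 1) ∧ ∀ (C : Type) [CommGroup C] (χ : Γ →* C),
        (∀ γ ∈ Z, χ γ = 1) → ∃ L : Q →* C, ∀ γ, L (π γ) = χ γ :=
    ⟨Abelianization Γ ⧸ Z.map Abelianization.of, inferInstance,
      (QuotientGroup.mk' _).comp Abelianization.of,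
      (QuotientGroup.mk'_surjective _).comp QuotientGroup.mk_surjective,
      fun γ hγ => (QuotientGroup.eq_one_iff _).2 ⟨γ, hγ, rfl⟩, fun C _ χ hχ =>
      ⟨QuotientGroup.lift _ (Abelianization.lift χ) (by
        rintro _ ⟨γ, hγ, rfl⟩
        exact hχ γ hγ), fun _ => rfl⟩⟩
  have : Group.FG Q := Group.fg_iff.2 ⟨π '' S, by
    have := congrArg (Subgroup.map π) h
    rwa [Subgroup.map_sup, MonoidHom.map_closure, (Subgroup.map_eq_bot_iff Z).2 π2, sup_bot_eq,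
      Subgroup.map_top_of_surjective π π1] at this, hS.image π⟩
  obtain ⟨r, ι, _, p, hp, k, ⟨e⟩⟩ := AddCommGroup.equiv_free_prod_directSum_zmod (Additive Q)
  have em : ∀ γ δ, e (Additive.ofMul (π (γ * δ))) =
      e (Additive.ofMul (π γ)) + e (Additive.ofMul (π δ)) := fun γ δ => by
    rw [map_mul, ofMul_mul, map_add]
  have ez : ∀ γ ∈ Z, e (Additive.ofMul (π γ)) = 0 := fun γ hγ => by
    rw [π2 γ hγ, ofMul_one, map_zero]
  have es : ∀ y, ∃ γ, e (Additive.ofMul (π γ)) = y := fun y =>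
    (π1 (e.symm y).toMul).imp fun γ q => by rw [q, ofMul_toMul, e.apply_symm_apply]
  have t : ∀ y : ⨁ i, ZMod (p i ^ k i), y = 0 := fun y => DFinsupp.ext fun i => by
    have n0 : 0 < p i ^ k i := pow_pos (hp i).pos _
    obtain ⟨χ', h1, h2⟩ := rt _ n0 (MonoidHom.mk' (fun γ => Units.mk0
      (en _ ((e (Additive.ofMul (π γ))).2 i)) (en_ne _)) fun γ δ => Units.ext (by
        rw [Units.val_mul, Units.val_mk0, Units.val_mk0, Units.val_mk0, em, ← en_add n0]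
        rfl)) (fun γ => Units.ext (en_pow n0 _)) fun γ hγ => Units.ext (by
          show en _ _ = 1
          rw [ez γ hγ]
          exact en_zero _)
    obtain ⟨L, hL⟩ := π3 _ χ' h1
    obtain ⟨γ, hγ⟩ := es (0, DirectSum.of _ i (y i))
    have h3 : π γ ^ (p i ^ k i) = 1 := Additive.ofMul.injective (e.injective (by
      rw [ofMul_pow, map_nsmul, hγ, ofMul_one, map_zero, Prod.smul_mk, smul_zero, ← map_nsmul,
        nsmul_eq_mul, ZMod.natCast_self, zero_mul, map_zero]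
      rfl))
    have h4 := congrArg Units.val (h2 γ)
    rw [← hL, ← map_pow, h3, map_one] at h4
    refine en_inj n0 ?_
    have h5 : (1 : ℂ) = en _ ((e (Additive.ofMul (π γ))).2 i) := h4
    rw [hγ, DirectSum.of_eq_same] at h5
    exact h5.symm.trans (en_zero _).symm
  choose g hg using fun i : Fin r => es (Finsupp.single i 1, 0)
  refine ⟨r, g, fun B _ => ⟨fun χ h1 h2 h3 γ => ?_, fun v =>
    ⟨fun γ => Finsupp.linearCombination ℤ v (e (Additive.ofMul (π γ))).1,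
      fun γ δ => by simp only [em, Prod.fst_add, map_add],
      fun γ hγ => by simp only [ez γ hγ, Prod.fst_zero, map_zero],
      fun i => by simp only [hg, Finsupp.linearCombination_single, one_smul]⟩⟩⟩
  obtain ⟨L, hL⟩ := π3 (Multiplicative B) (MonoidHom.mk' (fun γ => Multiplicative.ofAdd (χ γ))
    fun γ δ => congrArg Multiplicative.ofAdd (h1 γ δ)) fun γ hγ =>
      congrArg Multiplicative.ofAdd (h2 γ hγ)
  let M : (Fin r →₀ ℤ) →+ B := (MonoidHom.toAdditiveLeft L).comp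
    (e.symm.toAddMonoidHom.comp (AddMonoidHom.inl _ _))
  have m : ∀ γ, M (e (Additive.ofMul (π γ))).1 = χ γ := fun γ => by
    show (L (e.symm ((e (Additive.ofMul (π γ))).1, 0)).toMul).toAdd = χ γ
    rw [← t (e (Additive.ofMul (π γ))).2, Prod.mk.eta, e.symm_apply_apply, toMul_ofMul, hL]
    rfl
  have m0 : M = 0 := Finsupp.addHom_ext fun i y => by
    have := m (g i)
    rw [hg, h3] at this
    rw [← mul_one y, ← smul_eq_mul, ← Finsupp.smul_single, map_zsmul, this, smul_zero]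
    simp
  rw [← m, m0, AddMonoidHom.zero_apply]

namespace Tw

variable {G0 G : Type} [Group G0] [Group G] {T : Tw G0 G} {Γ : Subgroup G0} {U : Subgroup G}

/-- characters of finite order have roots -/
theorem Fu.root (h : T.Fu Γ) (hf : T.Fr Γ) (n : ℕ) (hn : 0 < n) (χ : Γ →* ℂˣ)
    (h1 : ∀ γ, χ γ ^ n = 1) (h2 : ∀ γ ∈ T.Z0.subgroupOf Γ, χ γ = 1) :
    ∃ χ' : Γ →* ℂˣ, (∀ γ ∈ T.Z0.subgroupOf Γ, χ' γ = 1) ∧ ∀ γ, χ' γ ^ n = χ γ := by
  obtain ⟨y, y0, hy⟩ := T.poi Γ h n hn χ h1 h2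
  obtain ⟨_, pt, hp⟩ := T.cf Γ h
  have o : ∀ τ (f : T.KF Γ), f ≠ 0 → ord (pt τ) f = od τ f := fun τ f f0 =>
    (mord_iff.1 (hp.ord hf τ f f0)).2.symm
  let f : T.KF Γ := ⟨y ^ n, T.mem_KF.2 fun γ hγ => by
    rw [map_pow, hy ⟨γ, hγ⟩, mul_pow, ← map_pow, ← Units.val_pow_eq_pow_val, h1, Units.val_one,
      map_one, one_mul]⟩
  have f0 : f ≠ 0 := fun q => pow_ne_zero n y0 (congrArg Subtype.val q)
  let D : Plk ℂ (T.KF Γ) →₀ ℤ := (dv ℂ f).mapRange (fun z => z / n) (Int.zero_ediv _)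
  have d : ∀ τ, D (pt τ) = od τ y := fun τ => by
    rw [Finsupp.mapRange_apply, dv_apply, o τ f f0, od_pow,
      Int.mul_ediv_cancel_left _ (by exact_mod_cast hn.ne')]
  obtain ⟨E, -, z, z0, hz⟩ := pic0_div (k := ℂ) (n := n) (by exact_mod_cast hn.ne') D
    (dg_of_tors hn.ne' ⟨f, f0, Finsupp.ext fun P => by
      obtain ⟨τ, rfl⟩ := hp.onto P
      rw [Finsupp.smul_apply, d, dv_apply, o τ f f0, od_pow, nsmul_eq_mul]⟩)
  have z1 : (z : Mer) ≠ 0 := fun q => z0 (Subtype.ext q)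
  obtain ⟨w, w0, hw⟩ := ex_root hn (div_ne_zero y0 z1) fun τ k hk => ⟨E (pt τ), by
    have := congrArg (fun D : Plk ℂ (T.KF Γ) →₀ ℤ => D (pt τ)) hz
    simp only [Finsupp.sub_apply, Finsupp.smul_apply, d, dv_apply, o τ z z0, nsmul_eq_mul] at this
    rw [← (mord_iff.1 hk).2, od_div τ y0 z1, ← this]
    ring⟩
  have k : ∀ γ : Γ, ∃ c : ℂˣ, T.act γ w = algebraMap ℂ Mer c * w ∧ c ^ n = χ γ := fun γ => by
    obtain ⟨c, hc⟩ := IsAlgClosed.exists_pow_nat_eq (χ γ : ℂ) hn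
    have c0 : c ≠ 0 := fun q => (χ γ).ne_zero (by rw [← hc, q, zero_pow hn.ne'])
    have c1 : algebraMap ℂ Mer c * w ≠ 0 := mul_ne_zero ((map_ne_zero _).2 c0) w0
    obtain ⟨a, ha⟩ := ex_eM hn (y := T.act γ w / (algebraMap ℂ Mer c * w)) (by
      rw [div_pow, div_eq_one_iff_eq (pow_ne_zero _ c1), ← map_pow, mul_pow, hw, map_div₀, hy,
        T.mem_KF.1 z.2 γ γ.2, ← map_pow, hc, mul_div_assoc])
    refine ⟨Units.mk0 (en n a * c) (mul_ne_zero (en_ne a) c0), ?_, Units.ext ?_⟩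
    · rw [(div_eq_iff c1).1 ha, Units.val_mk0, map_mul, mul_assoc]
      rfl
    · rw [Units.val_pow_eq_pow_val, Units.val_mk0, mul_pow, en_pow hn, one_mul, hc]
  choose c c1 c2 using k
  have i : ∀ a b : ℂˣ, algebraMap ℂ Mer a * w = algebraMap ℂ Mer b * w → a = b := fun a b q =>
    Units.ext ((algebraMap ℂ Mer).injective (mul_right_cancel₀ w0 q))
  refine ⟨MonoidHom.mk' c fun γ δ => i _ _ ?_, fun γ hγ => i _ _ ?_, c2⟩
  · rw [← c1, Subgroup.coe_mul, act_mul, c1, map_mul, AlgEquiv.commutes, c1, Units.val_mul, map_mul]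
    ring
  · show algebraMap ℂ Mer (c γ) * w = _
    rw [← c1, act_Z0 (show γ.1 ∈ T.Z0 from hγ), Units.val_one, map_one, one_mul]

/-- a basis of the abelianisation modulo `Z0` -/
theorem Fu.basis (h : T.Fu Γ) (hf : T.Fr Γ) : ∃ (r : ℕ) (g : Fin r → G0), (∀ i, g i ∈ Γ) ∧
    ∀ (B : Type) [AddCommGroup B],
      (∀ χ : G0 → B, T.Ch Γ χ → (∀ i, χ (g i) = 0) → ∀ γ ∈ Γ, χ γ = 0) ∧
      ∀ v : Fin r → B, ∃ χ : G0 → B, T.Ch Γ χ ∧ ∀ i, χ (g i) = v i := by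
  classical
  obtain ⟨S, hS⟩ := T.vol Γ h
  have s : (S : Set G0) ⊆ Γ := fun x hx => hS ▸ Subgroup.mem_sup_left (Subgroup.subset_closure hx)
  obtain ⟨r, g, hg⟩ := ex_basis (T.Z0.subgroupOf Γ) (Γ.subtype ⁻¹' S)
    (S.finite_toSet.preimage Subtype.val_injective.injOn) (by
      apply Subgroup.map_injective Γ.subtype_injective
      rw [Subgroup.map_sup, MonoidHom.map_closure, Set.image_preimage_eq_of_subset (by
        simpa using s), Subgroup.map_subgroupOf_eq_of_le h.z0, ← hS, ← MonoidHom.range_eq_map,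
        Subgroup.range_subtype]) (h.root hf)
  refine ⟨r, fun i => g i, fun i => (g i).2, fun B _ => ⟨fun χ c h0 γ hγ => (hg B).1
    (fun γ => χ γ) (fun γ δ => c.1 _ γ.2 _ δ.2) (fun γ hγ => c.2 _ hγ) h0 ⟨γ, hγ⟩, fun v => ?_⟩⟩
  obtain ⟨χ, h1, h2, h3⟩ := (hg B).2 v
  refine ⟨fun γ => if m : γ ∈ Γ then χ ⟨γ, m⟩ else 0, ⟨fun γ hγ δ hδ => ?_, fun γ hγ => ?_⟩,
    fun i => (dif_pos (g i).2).trans (h3 i)⟩
  · beta_reduce
    rw [dif_pos (mul_mem hγ hδ), dif_pos hγ, dif_pos hδ]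
    exact h1 ⟨γ, hγ⟩ ⟨δ, hδ⟩
  · exact (dif_pos (h.z0 hγ)).trans (h2 _ hγ)

/-- coordinates on the cohomology of a neat level -/
theorem Ok.coord (ok : T.Ok) (hU : U ∈ T.Lev) (n : T.Neat U) : T.Coord U := by
  classical
  have := ok.finDC hU
  choose r g h1 h2 using fun c : T.DC U => (ok.fu U hU (rq c)).basis (n (rq c))
  obtain ⟨N, ⟨e⟩⟩ := Finite.exists_equiv_fin (Σ c, Fin (r c))
  refine ⟨N, fun i => g (e.symm i).1 (e.symm i).2, fun i => rq (e.symm i).1, fun i => h1 _ _,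
    fun Λ B _ _ _ => ⟨(injective_iff_map_eq_zero _).2 fun a ha => ?_, fun v => ?_⟩⟩
  · obtain ⟨z, rfl⟩ := mh_surj a
    refine mh_eq_zero.2 (res_inj z.2 fun c => (h2 c B).1 _ (res_ch z.2 _) fun i => ?_)
    have := congrFun ha (e ⟨c, i⟩)
    rwa [evH_mh, e.symm_apply_apply] at this
  · choose χ h3 h4 using fun c => (h2 c B).2 fun i => v (e ⟨c, i⟩)
    obtain ⟨z, h5, h6⟩ := ok.res_surj (Λ := Λ) hU χ h3
    refine ⟨T.mh ⟨z, h5⟩, funext fun i => ?_⟩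
    rw [evH_mh]
    exact (h6 _ _ (h1 _ _)).trans ((h4 _ _).trans (congrArg v (e.apply_symm_apply i)))

theorem Coord.lat (h : T.Coord U) : Module.Free ℤ (T.Hc ℤ ℤ U) ∧
    Module.Finite ℤ (T.Hc ℤ ℤ U) ∧ ∀ (Λ B : Type) [CommRing Λ] [AddCommGroup B] [Module Λ B],
      ∃ e : B ⊗[ℤ] T.Hc ℤ ℤ U ≃ₗ[Λ] T.Hc Λ B U, ∀ b a,
        T.IsCo U (zmultiplesHom B b) a (e (b ⊗ₜ a)) := by
  obtain ⟨r, g, x, h, hb⟩ := h
  let e0 := LinearEquiv.ofBijective _ (hb ℤ ℤ)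
  refine ⟨Module.Free.of_equiv e0.symm, Module.Finite.equiv e0.symm, fun Λ B _ _ _ => ?_⟩
  let e1 := LinearEquiv.ofBijective _ (hb Λ B)
  refine ⟨(TensorProduct.AlgebraTensorModule.congr (LinearEquiv.refl Λ B) e0).trans
    ((TensorProduct.piScalarRight ℤ Λ B (Fin r)).trans e1.symm), fun b a => ?_⟩
  convert isCo_co (Λ' := Λ) (zmultiplesHom B b) a
  rw [LinearEquiv.trans_apply, LinearEquiv.trans_apply, LinearEquiv.symm_apply_eq,
    TensorProduct.AlgebraTensorModule.congr_tmul, TensorProduct.piScalarRight_apply,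
    TensorProduct.piScalarRightHom_tmul]
  exact funext fun i => (evH_co h (zmultiplesHom B b) a i).symm

end Tw

/-- **LAT** -/
theorem lat : All fun T => T.LAT := fun _ _ _ _ _ ok _ hU n => (ok.coord hU n).lat

end Vale.Agent.P022K.Sh
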