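import Vale.Agent.P022K.F0.Sha
import Vale.Agent.P022K.F0.Cf.Rows

/-!
# P022K, block F0, row PER: periods of holomorphic one-forms
-/

set_option autoImplicit false

open UpperHalfPlane Filter Topology Metric
open scoped MatrixGroups

noncomputable section

namespace Vale.Agent.P022K.Sh

open Vale.Agent.P022 Vale.Agent.P022.H218.L3 F0.Cf

namespace PerA

/-- primitives -/
theorem ex_prim (f : Hol) : ∃ P : Hol, dH P = f ∧ P.1 I = 0 := by
  have hb : ∀ r : ℝ, ∃ P : ℂ → ℂ, P (I : ℍ) = 0 ∧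
      ∀ τ ∈ ball (I : ℍ) r, HasDerivAt P (f.1 τ) τ := fun r => by
    have h1 : DifferentiableOn ℂ (f.1 ∘ ofComplex) (ball (I.center r : ℂ) (I.im * Real.sinh r)) := by
      rw [← image_coe_ball]
      rintro _ ⟨τ, -, rfl⟩
      exact (an f τ).differentiableAt.differentiableWithinAt
    obtain ⟨P, h0, hP⟩ := h1.isExactOn_ball.with_val_at (I : ℍ) 0
    refine ⟨P, h0, fun τ hτ => ?_⟩
    have := hP τ (image_coe_ball I r ▸ Set.mem_image_of_mem _ hτ)
    rwa [Function.comp_apply, ofComplex_apply] at this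
  choose P h0 hP using hb
  have he : ∀ r r', r ≤ r' → ∀ τ ∈ ball (I : ℍ) r, P r τ = P r' τ := fun r r' h τ hτ => by
    have hI : I ∈ ball (I : ℍ) r := mem_ball_self (pos_of_mem_ball hτ)
    have hd : ∀ s, r ≤ s → ∀ z ∈ ball (I.center r : ℂ) (I.im * Real.sinh r),
        HasDerivAt (P s) (f.1 (ofComplex z)) z := fun s hs z hz => by
      rw [← image_coe_ball] at hz
      obtain ⟨σ, hσ, rfl⟩ := hz
      rw [ofComplex_apply]
      exact hP s σ (ball_subset_ball hs hσ)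
    refine isOpen_ball.eqOn_of_deriv_eq (convex_ball _ _).isPreconnected
      (fun z hz => (hd r le_rfl z hz).differentiableAt.differentiableWithinAt)
      (fun z hz => (hd r' h z hz).differentiableAt.differentiableWithinAt)
      (fun z hz => (hd r le_rfl z hz).deriv.trans (hd r' h z hz).deriv.symm)
      (image_coe_ball I r ▸ Set.mem_image_of_mem _ hI) ((h0 r).trans (h0 r').symm)
      (image_coe_ball I r ▸ Set.mem_image_of_mem _ hτ)
  have m : ∀ τ : ℍ, τ ∈ ball (I : ℍ) (dist τ I + 1) := fun τ => by simp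
  have loc : ∀ τ : ℍ, ∀ᶠ σ : ℍ in 𝓝 τ, P (dist σ I + 1) σ = P (dist τ I + 1) σ := fun τ => by
    filter_upwards [isOpen_ball.mem_nhds (m τ)] with σ hσ
    rcases le_total (dist σ I + 1) (dist τ I + 1) with h | h
    · exact he _ _ h σ (m σ)
    · exact (he _ _ h σ hσ).symm
  exact ⟨⟨fun τ => P (dist τ I + 1) τ, hol_of_loc fun τ =>
    ⟨_, (hP _ τ (m τ)).differentiableAt, loc τ⟩⟩,
    Subtype.ext (funext fun τ => dH_eq (hP _ τ (m τ)) (loc τ)), h0 _⟩

theorem dH_smul (c : ℂ) (f : Hol) : dH (c • f) = c • dH f := by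
  rw [Algebra.smul_def, dH_mul, dH_const, mul_zero, add_zero, Algebra.smul_def]

theorem prim_ext {P Q : Hol} (h : dH P = dH Q) (h0 : P.1 I = Q.1 I) : P = Q := by
  obtain ⟨c, hc⟩ := const_of_dH (f := P + (-1 : ℂ) • Q) (by rw [dH_add, dH_smul, h]; simp)
  have h1 : c = 0 := by
    have := congrFun (congrArg Subtype.val hc) I
    simpa [h0] using this.symm
  rw [h1, map_zero] at hc
  simpa [add_neg_eq_zero] using hc

/-- the primitive that vanishes at `i` -/
def pH : Hol →ₗ[ℂ] Hol where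
  toFun f := (ex_prim f).choose
  map_add' f g := prim_ext
    (by rw [dH_add, (ex_prim _).choose_spec.1, (ex_prim _).choose_spec.1, (ex_prim _).choose_spec.1])
    (by simp [(ex_prim _).choose_spec.2])
  map_smul' c f := prim_ext
    (by rw [RingHom.id_apply, dH_smul, (ex_prim _).choose_spec.1, (ex_prim _).choose_spec.1])
    (by simp [(ex_prim _).choose_spec.2])

theorem dH_pH (f : Hol) : dH (pH f) = f := (ex_prim f).choose_spec.1

theorem pH_I (f : Hol) : (pH f).1 I = 0 := (ex_prim f).choose_spec.2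

/-- the maximum principle -/
theorem const_of_max {f : Hol} {K : Set ℍ} (hK : IsCompact K) (h : ∀ τ, ∃ σ ∈ K, f.1 σ = f.1 τ) :
    dH f = 0 := by
  obtain ⟨σ, -, hσ⟩ := hK.exists_isMaxOn (let ⟨σ, h, _⟩ := h I; ⟨σ, h⟩) (cont f).norm.continuousOn
  have := Complex.eqOn_of_isPreconnected_of_isMaxOn_norm (f := f.1 ∘ ofComplex)
    (convex_halfSpace_im_gt 0).isPreconnected isOpen_upperHalfPlaneSet
    (UpperHalfPlane.mdifferentiable_iff.1 f.2) σ.im_pos fun z hz => by
      obtain ⟨τ, hτ, e⟩ := h (ofComplex z)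
      simpa [← e] using hσ hτ
  rw [← dH_const (f.1 σ)]
  congr 1
  refine Subtype.ext (funext fun τ => ?_)
  simpa using this τ.im_pos

end PerA

open PerA

namespace Tw

variable {G0 G : Type} [Group G0] [Group G] {T : Tw G0 G} {U U' : Subgroup G}

/-- the value of a form as a holomorphic function -/
def omH (x : G) : T.Om U →ₗ[ℂ] Hol where
  toFun ω := ⟨ω.1 x, ω.2.1 x⟩
  map_add' _ _ := rfl
  map_smul' _ _ := rfl

theorem omH_inv (ω : T.Om U) (x : G) {u : G} (hu : u ∈ U) : omH (x * u) ω = omH x ω :=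
  Subtype.ext (ω.2.2.1 x u hu)

theorem prim_act (ω : T.Om U) (γ : G0) (x : G) (τ : ℍ) : (pH (omH x ω)).1 (T.r γ • τ) =
    (pH (omH x ω)).1 (T.r γ • I) + (pH (omH ((T.j γ)⁻¹ * x) ω)).1 τ := by
  have : acH (T.rho γ)⁻¹ (pH (omH x ω)) =
      algebraMap ℂ Hol ((pH (omH x ω)).1 (T.r γ • I)) + pH (omH ((T.j γ)⁻¹ * x) ω) := by
    refine prim_ext ?_ ?_
    · rw [dH_ac, dH_add, dH_const, zero_add, dH_pH, dH_pH, inv_inv]
      refine Subtype.ext (funext fun σ => ?_)
      have h1 := ω.2.2.2 γ ((T.j γ)⁻¹ * x) σ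
      rw [mul_inv_cancel_left] at h1
      show ω.1 x ((T.rho γ)⁻¹⁻¹ • σ) * (dr (T.rho γ)).1 σ = ω.1 _ σ
      rw [inv_inv, dr_rho, rho_smul, mu, ← mul_div_assoc, h1,
        mul_div_cancel_left₀ _ (pow_ne_zero 2 (denom_ne_zero _ _))]
    · rw [acH_apply, inv_inv]
      simp [pH_I, rho_smul]
  have := congrFun (congrArg Subtype.val this) τ
  rw [acH_apply, inv_inv] at this
  exact this

/-- the cocycle of periods -/
def perZ : T.Om U →ₗ[ℂ] T.Zc U ℂ ℂ where
  toFun ω := ⟨fun γ x => (pH (omH x ω)).1 (T.r γ • I), mem_Zc.2 ⟨fun γ x u hu => by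
      beta_reduce
      rw [omH_inv ω x hu], fun γ δ x => by rw [map_mul, mul_smul, prim_act], fun γ hγ x => by
      rw [T.mem_Z0.1 hγ, pH_I]⟩⟩
  map_add' ω ω' := by
    ext γ x
    simp
  map_smul' c ω := by
    ext γ x
    simp

theorem perZ_apply (ω : T.Om U) (γ : G0) (x : G) :
    (perZ ω).1 γ x = (pH (omH x ω)).1 (T.r γ • I) := rfl

theorem perZ_hk {O : Set G} (h : Cor U' O U) (ω : T.Om U) (ω' : T.Om U')
    (e : ω'.1 = hk O U ω.1) : perZ ω' = T.hZ _ h (perZ ω) := by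
  ext γ x
  have : omH x ω' = ∑ c ∈ h.fin.toFinset, omH (x * c.out) ω := by
    refine Subtype.ext ?_
    rw [AddSubmonoidClass.coe_finsetSum]
    exact (congrFun e x).trans (hk_eq h _ x)
  rw [hZ_val, hk_eq h, perZ_apply, this, map_sum, AddSubmonoidClass.coe_finsetSum,
    Finset.sum_apply]
  rfl

theorem perZ_inj (hc : ∀ x, T.Fu (T.Gam U x)) (ω : T.Om U) (h : (perZ ω).1 ∈ T.Bc U ℂ ℂ) :
    ω = 0 := by
  ext x τ
  obtain ⟨K, hK, h1⟩ := (hc x).cc
  have := const_of_max (f := pH (omH x ω)) hK fun τ => by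
    obtain ⟨γ, hγ, h2⟩ := h1 τ
    refine ⟨_, h2, ?_⟩
    rw [prim_act, ← perZ_apply, res_cob h hγ, zero_add]
    exact congrArg (fun f : Hol => (pH f).1 τ) (Subtype.ext (inv_xm ω.2.2.1 (xm_gam hγ)))
  rw [dH_pH] at this
  exact congrFun (congrArg Subtype.val this) τ

/-- the period map -/
def perH : T.Om U →ₗ[ℂ] T.Hc ℂ ℂ U := (Submodule.mkQ _).comp perZ

theorem perH_apply (ω : T.Om U) : perH ω = T.mh (perZ ω) := rfl

theorem per_of (fu : ∀ U ∈ T.Lev, ∀ x, T.Fu (T.Gam U x)) : T.PER := fun U hU =>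
  ⟨perH, (injective_iff_map_eq_zero _).2 fun ω h => perZ_inj (fu U hU) ω (mh_eq_zero.1 h),
    fun O h ω ω' e => by rw [perH_apply, perH_apply, perZ_hk h ω ω' e, hC_mh]⟩

end Tw

/-- **PER** -/
theorem per : All fun T => T.PER := fun _ _ _ _ _ h => Tw.per_of h.fu

end Vale.Agent.P022K.Sh
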