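import Vale.Agent.P022K.F0.StS3
import Vale.Agent.P022K.F0.Per
import Vale.Agent.P022K.F0.Lat
import Vale.Agent.P022K.F0.OkA

/-!
# P022K, block F0, row JNT: joint eigenclasses over the algebraic numbers
-/

set_option autoImplicit false
set_option linter.all false

open UpperHalfPlane

noncomputable section

namespace Vale.Agent.P022K.Sh

open Vale.Agent.P022 Vale.Agent.P022.H218.L3 Tw

namespace Jn

/-- joint eigenvectors of a commuting family -/
theorem joint {K V I : Type} [Field K] [IsAlgClosed K] [AddCommGroup V] [Module K V]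
    (f : I → V →ₗ[K] V) (n : ℕ) : ∀ (W : Submodule K V) [FiniteDimensional K W],
    Module.finrank K W = n → W ≠ ⊥ → (∀ i, ∀ v ∈ W, f i v ∈ W) →
    (∀ i k, ∀ v ∈ W, f i (f k v) = f k (f i v)) →
    ∃ v ∈ W, v ≠ 0 ∧ ∀ i, ∃ c : K, f i v = c • v := by
  induction n using Nat.strong_induction_on with
  | _ n ih =>
  intro W _ hn h0 hW hc
  by_cases h : ∀ i, ∃ c : K, ∀ v ∈ W, f i v = c • v
  · obtain ⟨v, hv, hv0⟩ := (Submodule.ne_bot_iff W).1 h0
    exact ⟨v, hv, hv0, fun i => (h i).imp fun c hc => hc v hv⟩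
  push Not at h
  obtain ⟨i, hi⟩ := h
  haveI : Nontrivial W := Submodule.nontrivial_iff_ne_bot.2 h0
  obtain ⟨c, hc'⟩ := Module.End.exists_eigenvalue ((f i).restrict (hW i))
  obtain ⟨u, hu⟩ := hc'.exists_hasEigenvector
  have hu1 : f i u = c • (u : V) := congrArg Subtype.val hu.apply_eq_smul
  let W' : Submodule K V := W ⊓ LinearMap.ker (f i - c • LinearMap.id)
  have mem : ∀ v, v ∈ W' ↔ v ∈ W ∧ f i v = c • v := fun v => by
    simp [W', sub_eq_zero]
  haveI : FiniteDimensional K W' := Submodule.finiteDimensional_of_le inf_le_left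
  have hlt : W' < W := lt_of_le_of_ne inf_le_left fun e => by
    obtain ⟨v, hv, h1⟩ := hi c
    exact h1 ((mem v).1 (e ▸ hv)).2
  obtain ⟨v, hv, h1⟩ := ih _ (hn ▸ Submodule.finrank_lt_finrank_of_lt hlt) W' rfl
    ((Submodule.ne_bot_iff _).2 ⟨u, (mem _).2 ⟨u.2, hu1⟩, fun e => hu.2 (Subtype.ext e)⟩)
    (fun k v hv => (mem _).2 ⟨hW k v ((mem v).1 hv).1, by
      rw [hc i k v ((mem v).1 hv).1, ((mem v).1 hv).2, map_smul]⟩)
    fun a b v hv => hc a b v ((mem v).1 hv).1
  exact ⟨v, ((mem v).1 hv).1, h1⟩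

variable {G0 G : Type} [Group G0] [Group G] {T : Tw G0 G} {U : Subgroup G}

section

variable {Λ B B' : Type} [CommRing Λ] [AddCommGroup B] [Module Λ B] [AddCommGroup B'] [Module Λ B']

theorem op_apply (A : G →₀ Λ) (φ : G → B) (x : G) :
    op A φ x = ∑ g ∈ A.support, A g • φ (x * g) := by
  simp only [op, Finsupp.sum, Finset.sum_apply]
  rfl

/-- the operator as a linear map -/
def opL (A : G →₀ Λ) : (G → B) →ₗ[Λ] G → B where
  toFun := op A
  map_add' φ ψ := by
    funext x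
    simp only [op_apply, Pi.add_apply, smul_add, Finset.sum_add_distrib]
  map_smul' c φ := by
    funext x
    simp only [op_apply, Pi.smul_apply, RingHom.id_apply, Finset.smul_sum, smul_comm c]

theorem op_map (A : G →₀ Λ) (l : B →ₗ[Λ] B') (φ : G → B) (x : G) :
    op A (fun y => l (φ y)) x = l (op A φ x) := by
  simp only [op_apply, map_sum, map_smul]

theorem op_Bc (A : G →₀ Λ) (h : ∀ φ : G → B, Inv U φ → Inv U (op A φ)) {z : G0 → G → B}
    (hz : z ∈ T.Bc U Λ B) : (fun γ => op A (z γ)) ∈ T.Bc U Λ B := by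
  obtain ⟨f, hf, e⟩ := mem_Bc.1 hz
  refine mem_Bc.2 ⟨op A f, h f hf, fun γ x => ?_⟩
  simp only [op_apply, e, smul_sub, Finset.sum_sub_distrib, mul_assoc]

end

theorem perZ_op (A : G →₀ ℂ) (ω ω' : T.Om U) (e : ω'.1 = op A ω.1) (γ : G0) :
    (perZ ω').1 γ = op A ((perZ ω).1 γ) := by
  funext x
  have : omH x ω' = ∑ g ∈ A.support, A g • omH (x * g) ω := by
    refine Subtype.ext ?_
    rw [AddSubmonoidClass.coe_finsetSum]
    exact (congrFun e x).trans (op_apply A _ x)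
  rw [perZ_apply, this, map_sum, AddSubmonoidClass.coe_finsetSum, Finset.sum_apply, op_apply]
  refine Finset.sum_congr rfl fun g _ => ?_
  rw [map_smul]
  rfl

theorem alg {k K ι : Type} [Field k] [IsAlgClosed k] [Field K] [Algebra k K] [Finite ι]
    {g : ι → G0} {x : ι → G} (hg : ∀ i, g i ∈ T.Gam U (x i))
    (hco : ∀ (B : Type) [AddCommGroup B] [Module k B], Function.Injective (T.evH k B hg))
    (A : G →₀ k)
    (hI : ∀ (B : Type) [AddCommGroup B] [Module k B] (φ : G → B), Inv U φ → Inv U (op A φ))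
    {z : G0 → G → K} (hz0 : z ∈ T.Zc U k K) {c : K} (hz : ∀ γ, op A (z γ) = c • z γ) {j : ι}
    (hj : z (g j) (x j) ≠ 0) : ∃ b : k, algebraMap k K b = c := by
  let V : Submodule k K := Submodule.span k (Set.range fun i => z (g i) (x i))
  have hV : ∀ i, z (g i) (x i) ∈ V := fun i => Submodule.subset_span ⟨i, rfl⟩
  have hq : (fun γ y => V.mkQ (z γ y)) ∈ T.Bc U k (K ⧸ V) := by
    have h1 : T.mh (T.coZ U k k V.mkQ.toAddMonoidHom ⟨z, hz0⟩) = 0 :=
      hco (K ⧸ V) (by
        rw [map_zero]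
        exact funext fun i => (Submodule.Quotient.mk_eq_zero V).2 (hV i))
    exact mh_eq_zero.1 h1
  have h1 : ∀ i, c • z (g i) (x i) ∈ V := fun i => by
    have h2 := res_cob (op_Bc A (hI _) hq) (hg i)
    rw [op_map, hz] at h2
    exact (Submodule.Quotient.mk_eq_zero V).1 h2
  have h3 : IsIntegral k c := by
    refine isIntegral_of_smul_mem_submodule V ((Submodule.ne_bot_iff V).2 ⟨_, hV j, hj⟩)
      (Submodule.fg_span (Set.finite_range _)) _ fun v hv => ?_
    induction hv using Submodule.span_induction with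
    | mem v hv => obtain ⟨i, rfl⟩ := hv; exact h1 i
    | zero => rw [smul_zero]; exact zero_mem _
    | add a b _ _ ha hb => rw [smul_add]; exact add_mem ha hb
    | smul c a _ ha => rw [smul_comm]; exact V.smul_mem c ha
  exact minpoly.mem_range_of_degree_eq_one k _
    (IsAlgClosed.degree_eq_one_of_irreducible k (minpoly.irreducible h3))

theorem rw_zero {F : Type} [Field F] [NumberField F] (Y : QD F) (s : Y.Sp Qb) :
    Y.rw 0 s = Representation.trivial Qb Y.G0 _ := by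
  classical
  haveI : Subsingleton ((F →+* Qb) → Fin (2 * 0 + 1)) :=
    inferInstanceAs (Subsingleton ((F →+* Qb) → Fin 1))
  refine MonoidHom.ext fun γ => LinearMap.ext fun v => funext fun a => ?_
  show (wm 0 _ γ).mulVec v a = v a
  rw [Matrix.mulVec, dotProduct, Fintype.sum_subsingleton _ a]
  simp [wm, kr, syd, sy_apply, mon]

end Jn

open Jn

/-- **JNT** -/
theorem jnt : JNT := by
  intro F _ _ Y s U hU hn io I A A' W hA hW h0 hst hc hI
  have ok := Y.ok
  obtain ⟨r, g, x, hg, hco⟩ := ok.coord hU hn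
  haveI : FiniteDimensional ℂ (Y.tw.Om U) :=
    FiniteDimensional.of_injective ((Y.tw.evH ℂ ℂ hg).comp perH) ((hco ℂ ℂ).1.comp
      ((injective_iff_map_eq_zero perH).2 fun ω h => perZ_inj (ok.fu U hU) ω (mh_eq_zero.1 h)))
  haveI : FiniteDimensional ℂ W := Submodule.finiteDimensional_of_le hW
  obtain ⟨ω, hω, hω0, hev⟩ := joint (fun i => opL (A' i)) _ W rfl h0 hst hc
  choose lam hlam using hev
  letI : Algebra Qb ℂ := io.toAlgebra
  have hop : ∀ i (φ : Y.G → ℂ), op (A' i) φ = op (A i) φ := fun i φ => by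
    have e : A' i = Finsupp.mapRange io (map_zero io) (A i) := Finsupp.ext (hA i)
    rw [e, op, Finsupp.sum_mapRange_index fun g => zero_smul ℂ (rt g φ)]
    rfl
  let z0 : Y.G0 → Y.G → ℂ := (perZ (⟨ω, hW hω⟩ : Y.tw.Om U)).1
  have hz0 : z0 ∈ Y.tw.Zc U Qb ℂ := mem_Zc.2 (mem_Zc.1 (perZ _).2)
  have hz : ∀ i γ, op (A i) (z0 γ) = lam i • z0 γ := fun i γ => by
    rw [← hop, ← perZ_op (A' i) ⟨ω, hW hω⟩ (lam i • ⟨ω, hW hω⟩) (hlam i).symm, map_smul]
    rfl
  obtain ⟨j, hj⟩ : ∃ j, z0 (g j) (x j) ≠ 0 := by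
    by_contra h
    push Not at h
    have h1 : Y.tw.mh (perZ (⟨ω, hW hω⟩ : Y.tw.Om U)) = 0 :=
      (hco ℂ ℂ).1 (by rw [map_zero]; exact funext h)
    exact hω0 (congrArg Subtype.val (perZ_inj (ok.fu U hU) _ (mh_eq_zero.1 h1)))
  have hb : ∀ i, ∃ b : Qb, io b = lam i := fun i =>
    alg hg (fun B _ _ => (hco Qb B).1) (A i) (hI i) hz0 (hz i) hj
  choose b hb using hb
  obtain ⟨l, hl⟩ : ∃ l : ℂ →ₗ[Qb] Qb, l (z0 (g j) (x j)) ≠ 0 := by
    by_contra h
    push Not at h
    exact hj ((Module.forall_dual_apply_eq_zero_iff Qb _).1 h)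
  let l' : ℂ →ₗ[Qb] Vw Qb (F →+* Qb) 0 := LinearMap.pi fun _ => l
  refine ⟨b, ⟨ω, hω, hω0, fun i => by rw [hb]; exact hlam i⟩, fun γ y => l' (z0 γ y), ?_⟩
  rw [rw_zero]
  refine ⟨(Y.tw.coZ U Qb Qb l'.toAddMonoidHom ⟨z0, hz0⟩).2,
    fun h => hl (congrFun (res_cob h (hg j)) fun _ => 0), fun i => ?_⟩
  have e : (fun γ => op (A i) fun y => l' (z0 γ y)) = b i • fun γ y => l' (z0 γ y) := by
    funext γ y
    rw [op_map, hz, ← hb]
    exact map_smul l' (b i) _
  rw [Tw.Eig, e, sub_self]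
  exact zero_mem _

end Vale.Agent.P022K.Sh
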