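import Vale.Agent.P022K.F0.Eta
import Vale.Agent.P022.H915.NREC
import Vale.Agent.P011.H519.HenselAdic

/-!
# P022K, block F0, row KRON: the Kronecker character of `ℚ(√-Δ)` restricted to `F`
-/

set_option linter.all false

open NumberField IsDedekindDomain WithZero Finset Polynomial

noncomputable section

namespace Vale.Agent.P022K.Sh

open Tor EtaP
open Vale.Agent.P022.C (ordv)

namespace Kr

section fin

variable {k : Type} [Field k] {Δ m : ℕ}

theorem chi_nat [Fintype k] [DecidableEq k] (h : ringChar k ≠ 2) (n : ℕ) : Odd n → (n : k) ≠ 0 →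
    quadraticChar k n = jacobiSym (ZMod.χ₄ (Fintype.card k) * Fintype.card k) n := by
  induction n using Nat.recOnMul with
  | zero => exact fun _ a => absurd Nat.cast_zero a
  | one => intro _ _; simp
  | prime p hp =>
    intro o n
    have := Fact.mk hp
    rw [quadraticChar_odd_prime h (p := p) (by rintro rfl; exact absurd o (by decide))
      fun e => n (e ▸ ringChar.Nat.cast_ringChar), ← jacobiSym.legendreSym.to_jacobiSym,
      legendreSym, Int.cast_mul, Int.cast_natCast]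
  | mul a b ha hb =>
    intro o n
    rw [Nat.odd_mul] at o
    rw [Nat.cast_mul, mul_ne_zero_iff] at n
    rw [Nat.cast_mul, map_mul, ha o.1 n.1, hb o.2 n.2,
      jacobiSym.mul_right' _ o.1.pos.ne' o.2.pos.ne']

theorem j_neg (e : Δ + 1 = 4 * m) : jacobiSym (-1) Δ = -1 := by
  rw [jacobiSym.at_neg_one (Nat.odd_iff.2 (by omega)), ZMod.χ₄_nat_three_mod_four (by omega)]

theorem sq_iff (e : Δ + 1 = 4 * m) (h : (2 : k) ≠ 0) :
    IsSquare (-(Δ : k)) ↔ ∃ x : k, x ^ 2 - x + m = 0 := by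
  have e' : (Δ : k) + 1 = 4 * m := by exact_mod_cast congrArg (Nat.cast : ℕ → k) e
  refine ⟨fun ⟨z, hz⟩ => ⟨(1 + z) / 2, ?_⟩, fun ⟨x, hx⟩ => ⟨2 * x - 1, ?_⟩⟩
  · field_simp
    linear_combination -hz - e'
  · linear_combination -4 * hx - e'

open Classical in
theorem root [Finite k] (e : Δ + 1 = 4 * m) (n : (Δ : k) ≠ 0) :
    jacobiSym (Nat.card k) Δ = if ∃ x : k, x ^ 2 - x + m = 0 then 1 else -1 := by
  have := Fintype.ofFinite k
  have o : Odd Δ := Nat.odd_iff.2 (by omega)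
  rw [Nat.card_eq_fintype_card]
  by_cases h : ringChar k = 2
  · have := ringChar.of_eq h
    obtain ⟨f, -, hf⟩ := FiniteField.card k 2
    have t : (2 : k) = 0 := CharP.cast_eq_zero k 2
    rw [hf, Nat.cast_pow, jacobiSym.pow_left, Nat.cast_ofNat, jacobiSym.at_two o,
      ZMod.χ₈_nat_eq_if_mod_eight, if_neg (by omega)]
    obtain ⟨j, rfl | rfl⟩ := m.even_or_odd'
    · rw [if_pos (by omega), one_pow, if_pos ⟨0, by simp [t]⟩]
    rw [if_neg (by omega)]
    simp only [Nat.cast_add, Nat.cast_mul, Nat.cast_ofNat, t, zero_mul, zero_add, Nat.cast_one]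
    obtain ⟨i, a | a⟩ := (f : ℕ).even_or_odd'
    · have := Fact.mk Nat.prime_three
      obtain ⟨x, hx⟩ := exists_prime_orderOf_dvd_card (G := kˣ) 3 (by
        rw [Fintype.card_units, hf, a, pow_mul]
        simpa using Nat.sub_dvd_pow_sub_pow 4 1 i)
      have b : (x : k) ^ 3 = 1 := by rw [← Units.val_pow_eq_pow_val, ← hx, pow_orderOf_eq_one]; rfl
      have c : (x : k) - 1 ≠ 0 := fun c => by
        rw [show x = 1 from Units.ext (sub_eq_zero.1 c), orderOf_one] at hx
        omega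
      rw [a, pow_mul, neg_one_sq, one_pow, if_pos ⟨x, mul_left_cancel₀ c (by
        linear_combination b - (x - 1) * x * t)⟩]
    · rw [a, pow_succ, pow_mul, neg_one_sq, one_pow, one_mul, if_neg]
      rintro ⟨x, hx⟩
      have b : ∀ i, x ^ 4 ^ i = x := fun i => by
        induction i with
        | zero => simp
        | succ i b =>
          rw [pow_succ, pow_mul, b]
          linear_combination (x ^ 2 + x) * hx - x * t
      have c := FiniteField.pow_card x
      rw [hf, a, pow_succ, pow_mul, pow_mul, show 2 ^ 2 = 4 from rfl, b] at c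
      exact one_ne_zero (α := k) (by linear_combination hx - c)
  · have c : quadraticChar k (-(Δ : k)) = jacobiSym (Fintype.card k) Δ := by
      have d := quadraticChar_dichotomy (F := k) (neg_ne_zero.2 one_ne_zero)
      rw [← neg_one_mul, map_mul, chi_nat h Δ o n, jacobiSym.mul_left, ← quadraticChar_neg_one h]
      rcases d with d | d <;> simp [d, j_neg e]
    rw [← c, ← sq_iff e (Ring.two_ne_zero h)]
    split_ifs with s
    exacts [(quadraticChar_one_iff_isSquare (neg_ne_zero.2 n)).2 s,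
      quadraticChar_neg_one_iff_not_isSquare.2 s]

end fin

variable {F : Type} [Field F] [NumberField F] {Δ m : ℕ}

/-- `X ^ 2 - X + m` has a root modulo `v` -/
def Rt (m : ℕ) (v : Pl F) : Prop := ∃ x : 𝓞 F, x ^ 2 - x + m ∈ v.asIdeal

open Classical in
/-- the Kronecker character -/
def th (m : ℕ) (v : Pl F) : ℂˣ := if Rt m v then 1 else -1

theorem rt_iff (v : Pl F) : Rt m v ↔ ∃ x : 𝓞 F ⧸ v.asIdeal, x ^ 2 - x + m = 0 := by
  rw [Ideal.Quotient.mk_surjective.exists]
  refine exists_congr fun x => ?_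
  rw [← Ideal.Quotient.eq_zero_iff_mem, map_add, map_sub, map_pow, map_natCast]

theorem th_eq (e : Δ + 1 = 4 * m) {v : Pl F} (h : (Δ : 𝓞 F) ∉ v.asIdeal) :
    (jacobiSym (qw v) Δ : ℂ) = th m v := by
  have := v.isMaximal
  letI := Ideal.Quotient.field v.asIdeal
  have := Ideal.finiteQuotientOfFreeOfNeBot _ v.ne_bot
  have a := root (k := 𝓞 F ⧸ v.asIdeal) e fun k => h (by
    rwa [← map_natCast (Ideal.Quotient.mk _), Ideal.Quotient.eq_zero_iff_mem] at k)
  rw [← rt_iff] at a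
  rw [show qw v = Nat.card (𝓞 F ⧸ v.asIdeal) from rfl, a, th]
  split_ifs <;> simp

theorem rt_gd (e : Δ + 1 = 4 * m) {v : Pl F} (h : (2 : 𝓞 F) ∉ v.asIdeal) :
    Rt m v ↔ ∃ x : 𝓞 F, x ^ 2 - -(Δ : 𝓞 F) ∈ v.asIdeal := by
  have := v.isMaximal
  letI := Ideal.Quotient.field v.asIdeal
  rw [rt_iff, ← sq_iff e fun k => h (Ideal.Quotient.eq_zero_iff_mem.1 k), IsSquare,
    Ideal.Quotient.mk_surjective.exists]
  refine exists_congr fun x => ?_
  rw [← Ideal.Quotient.eq, map_neg, map_natCast, sq, map_mul, eq_comm]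

theorem rt_sq (e : Δ + 1 = 4 * m) {w : Pl F} (h : (Δ : 𝓞 F) ∉ w.asIdeal) :
    Rt m w ↔ IsSquare (-(Δ : Fw w)) := by
  have : CharZero (Fw w) := charZero_of_injective_algebraMap (algebraMap F (Fw w)).injective
  have e' : (Δ : 𝓞 F) + 1 = 4 * m := by exact_mod_cast congrArg (Nat.cast : ℕ → 𝓞 F) e
  rw [sq_iff e two_ne_zero]
  constructor
  · rintro ⟨x, hx⟩
    obtain ⟨y, hy, -⟩ := Vale.Agent.P011.H519.hensel (K := F) (v := w)
      (f := X ^ 2 - X + C (m : 𝓞 F)) (by monicity!) (a := x) (by simpa using hx) fun k => h (by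
        have k' : 2 * x - 1 ∈ w.asIdeal := by simpa [one_add_one_eq_two] using k
        rw [show (Δ : 𝓞 F) = 4 * (x ^ 2 - x + m) - (2 * x - 1) * (2 * x - 1) by
          linear_combination e']
        exact sub_mem (Ideal.mul_mem_left _ _ hx) (Ideal.mul_mem_left _ _ k'))
    exact ⟨y, by simpa using congrArg Subtype.val hy⟩
  · rintro ⟨y, hy⟩
    have m1 : vw w (m : Fw w) ≤ 1 := by
      rw [← map_natCast (algebraMap F (Fw w)), val_comp]
      exact_mod_cast val_le w (m : 𝓞 F)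
    have y1 : vw w y ≤ 1 := not_lt.1 fun k => by
      have a : vw w (y - 1) = vw w y := Valuation.map_sub_eq_of_lt_left _ (by rwa [map_one])
      rw [show (m : Fw w) = -(y * (y - 1)) by linear_combination hy, Valuation.map_neg, map_mul,
        a] at m1
      exact (one_lt_mul'' k k).not_ge m1
    obtain ⟨z, hz⟩ := dense_val w y one_ne_zero
    have z1 : w.valuation F z ≤ 1 := by
      rw [← val_comp, ← sub_add_cancel (algebraMap F (Fw w) z) y]
      exact Valuation.map_add_le _ hz.le y1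
    obtain ⟨x, hx⟩ := w.exists_valuation_sub_lt_of_integer z1 1
    rw [← val_comp, map_sub] at hx
    have a := Valuation.map_add_lt _ hx hz
    rw [sub_add_sub_cancel] at a
    refine ⟨x, (mem_iff w _).2 ?_⟩
    rw [← val_comp, show algebraMap F (Fw w) ((x ^ 2 - x + m : 𝓞 F) : F) =
      (algebraMap F (Fw w) (x : F) - y) * (algebraMap F (Fw w) (x : F) - y + y + y - 1) by
        push_cast; linear_combination hy, map_mul]
    exact (mul_le_of_le_one_right' (Valuation.map_sub_le _ (Valuation.map_add_le _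
      (Valuation.map_add_le _ a.le y1) y1) (map_one _).le)).trans_lt a

theorem j_one {n : ℤ} (h : ∀ p : ℕ, p.Prime → p ∣ Δ → (p : ℤ) ∣ n - 1) : jacobiSym n Δ = 1 :=
  List.prod_eq_one fun x hx => by
    obtain ⟨p, hp, rfl⟩ := List.mem_pmap.1 hx
    have := Fact.mk (Nat.prime_of_mem_primeFactorsList hp)
    rw [legendreSym, (ZMod.intCast_eq_intCast_iff_dvd_sub _ _ _).2
      (h p this.out (Nat.dvd_of_mem_primeFactorsList hp)) |>.symm, Int.cast_one, map_one]

theorem p_dvd {M : ℕ} (hM : ∀ v : Pl F, (Δ : 𝓞 F) ∈ v.asIdeal → (M : 𝓞 F) ∈ v.asIdeal) {p : ℕ}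
    (hp : p.Prime) (k : p ∣ Δ) : p ∣ M := by
  have := Fact.mk hp
  obtain ⟨Q, q1, q2⟩ := Ideal.exists_maximal_ideal_liesOver_of_isIntegral (S := 𝓞 F)
    (Ideal.span {(p : ℤ)})
  have a : ∀ n : ℕ, p ∣ n ↔ (n : 𝓞 F) ∈ Q := fun n => by
    rw [← Int.natCast_dvd_natCast, ← Ideal.mem_span_singleton, Q.mem_of_liesOver, map_natCast]
  exact (a M).2 (hM ⟨Q, q1.isPrime, fun z => hp.ne_zero (by
    simpa [z] using (a p).1 dvd_rfl)⟩ ((a Δ).1 k))

theorem pv_th (e : Δ + 1 = 4 * m) {M : ℕ}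
    (hM : ∀ v : Pl F, (Δ : 𝓞 F) ∈ v.asIdeal → (M : 𝓞 F) ∈ v.asIdeal) {x : 𝓞 F} (x0 : x ≠ 0)
    (hx : (M : 𝓞 F) ∣ x - 1) :
    (pv (th m) (x : F) : ℂ) = (SignType.sign (Algebra.norm ℚ (x : F)) : ℚ) := by
  have j : jacobiSym (Algebra.norm ℤ x) Δ = 1 := j_one fun p hp k => by
    have c := Vale.Agent.P022.C.H915.norm_cong hx
    rw [map_one] at c
    exact (Int.natCast_dvd_natCast.2 (p_dvd hM hp k)).trans
      ((ZMod.intCast_eq_intCast_iff_dvd_sub _ _ _).1 c.symm)
  rw [pv_idl (MonoidHom.mk ⟨fun I => (jacobiSym (Ideal.absNorm I) Δ : ℂ), by simp⟩ fun a b => by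
    simp [jacobiSym.mul_left]) (th m) x0 fun v a => th_eq e fun b => v.isPrime.ne_top
      ((Ideal.eq_top_iff_one _).2 (by
        simpa using sub_mem a (Ideal.mem_of_dvd _ hx (hM v b)))), ← Algebra.coe_norm_int]
  change ((jacobiSym (Ideal.absNorm _ : ℕ) Δ : ℤ) : ℂ) = _
  rw [Ideal.absNorm_span_singleton, Int.natCast_natAbs]
  rcases lt_or_gt_of_ne (Algebra.norm_ne_zero_iff (R := ℤ).2 x0) with c | c
  · rw [abs_of_neg c, ← neg_one_mul, jacobiSym.mul_left, j, j_neg e,
      sign_neg (Int.cast_lt_zero.2 c)]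
    simp
  · rw [abs_of_pos c, j, sign_pos (Int.cast_pos.2 c)]
    simp

end Kr

open Kr

theorem kron : KRON := by
  classical
  intro F E _ _ _ _ _ X C Ψ hΨ hK Δ h4 ha w hw hΔ
  obtain ⟨m, e⟩ : ∃ m, Δ + 1 = 4 * m := ⟨(Δ + 1) / 4, by omega⟩
  have hD : ∀ v : Pl F, (Δ : 𝓞 F) ∈ v.asIdeal → (C.D : 𝓞 F) ∈ v.asIdeal := fun v k =>
    by_contra fun a => C.aD v a (ha ▸ neg_mem k)
  have hM : ∀ v : Pl F, (Δ : 𝓞 F) ∈ v.asIdeal → (C.D.gcd Δ : 𝓞 F) ∈ v.asIdeal := fun v k => by
    rw [← Int.cast_natCast, Nat.gcd_eq_gcd_ab]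
    push_cast
    exact add_mem (Ideal.mul_mem_right _ _ (hD v k)) (Ideal.mul_mem_right _ _ k)
  have hp := Nat.minFac_prime (show Δ ≠ 1 by omega)
  have M1 : 1 < C.D.gcd Δ := hp.one_lt.trans_le (Nat.le_of_dvd
    (Nat.gcd_pos_of_pos_left _ (Nat.pos_of_ne_zero C.D0)) (p_dvd hM hp Δ.minFac_dvd))
  have key : Kw C Ψ w (th m w * qw w) := fun l l0 hl => by
    have a : (pv (th m) l : ℂ) = (SignType.sign (Algebra.norm ℚ l) : ℚ) := by
      obtain ⟨x, y, x0, y0, rfl, hx, hy⟩ := Vale.Agent.P022.C.H915.quot M1 l l0 fun v k => by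
        obtain ⟨c, hc⟩ := C.D.gcd_dvd_left Δ
        refine (hl v (fun a => hΔ (a ▸ Ideal.mem_of_dvd _ (Nat.cast_dvd_cast
          (C.D.gcd_dvd_right Δ)) k)) (Ideal.mem_of_dvd _ (Nat.cast_dvd_cast ⟨c, hc⟩) k)).trans ?_
        rw [congrArg (Nat.cast : ℕ → F) hc, Nat.cast_mul, map_mul]
        exact mul_le_of_le_one_right' (by exact_mod_cast val_le v (c : 𝓞 F))
      have y1 : (y : F) ≠ 0 := RingOfIntegers.coe_ne_zero_iff.2 y0
      have b := pv_th e hM x0 hx
      rw [← div_mul_cancel₀ (x : F) y1, pv_mul _ l0 y1, map_mul, sign_mul, Units.val_mul,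
        pv_th e hM y0 hy, SignType.coe_mul, Rat.cast_mul] at b
      refine mul_right_cancel₀ ?_ b
      rcases lt_or_gt_of_ne (Algebra.norm_ne_zero_iff (R := ℚ).2 y1) with c | c
      exacts [by simp [sign_neg c], by simp [sign_pos c]]
    have b : pv (th m) l = pv C.sg l * th m w ^ ordv w l := by
      let θ : Pl F → ℂˣ := fun v => if v = w then th m w else 1
      rw [show th m w = θ w from (if_pos rfl).symm, ← pv_at θ w fun v k => Or.inl (if_neg k),
        ← pv_mul' _ _ l0]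
      refine pv_congr fun v k => ?_
      rw [Pi.mul_apply, CM.sg]
      by_cases c : v = w
      · rw [c, if_pos (Or.inl hw), one_mul]
        exact (if_pos rfl).symm
      have d : (C.D : 𝓞 F) ∉ v.asIdeal := fun d => k (ordv_one (val_of_cong d (hl v c d)))
      rw [show θ v = 1 from if_neg c, mul_one, th, rt_gd e fun z =>
        d (Ideal.mem_of_dvd _ (Nat.cast_dvd_cast (α := 𝓞 F) C.D2) z), CM.Gd, ha]
      simp only [d, false_or, not_false_eq_true, true_and]
    have c := congrArg Units.val (C.pv_sg l0)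
    have d := rho_A C hK hw (l := Units.mk0 l l0) (mem_A.2 hl)
    rw [Units.val_mk0, ← a, b, Units.val_mul, Units.val_zpow_eq_zpow_val] at d
    rw [d, mul_zpow, mul_right_comm (pv C.sg l : ℂ), ← Units.val_mul, c, Units.val_one, one_mul]
  rw [ha, map_neg, map_natCast, ← rt_sq e hΔ]
  unfold th at key
  exact ⟨fun r => by simpa [r] using key, fun r => by simpa [r] using key⟩

end Vale.Agent.P022K.Sh
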