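import Vale.Agent.P022K.F0.StS3
import Vale.Agent.P022K.F0.Kron
import Vale.Agent.P022K.F0.HilbB
import Vale.Agent.P011.Even.Completion

/-!
# P022K, block F0, row KRON2
-/

set_option linter.all false

open NumberField IsDedekindDomain WithZero Finset

noncomputable section

namespace Vale.Agent.P022K.Sh

open Tor EtaP Kr
open Vale.Agent.P022K.Hilb (LN LN_top hilb unif admC_of even_of odd_of real_iff)
open Vale.Agent.P011.Arith (LS NF_mul_sq Sq_le_LS)
open Vale.Agent.P022.C (ordv)

variable {F : Type} [Field F] [NumberField F] {Δ m : ℕ}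

theorem Kr.odd_val (e : Δ + 1 = 4 * m) {v : Pl F} (t : (2 : 𝓞 F) ∈ v.asIdeal) :
    v.valuation F (Δ : F) = 1 := val_nat fun k => v.isPrime.ne_top ((Ideal.eq_top_iff_one _).2 (by
  have e' : (Δ : 𝓞 F) + 1 = 4 * m := by exact_mod_cast congrArg (Nat.cast : ℕ → 𝓞 F) e
  rw [show (1 : 𝓞 F) = 2 * (2 * m) - Δ by linear_combination e']
  exact sub_mem (Ideal.mul_mem_right _ _ t) k))

theorem Kr.val_four {v : Pl F} (t : (2 : 𝓞 F) ∉ v.asIdeal) : v.valuation F (4 : F) = 1 := by
  have : v.valuation F (2 : F) = 1 := val_nat (n := 2) t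
  rw [show (4 : F) = 2 * 2 by norm_num, map_mul, this, one_mul]

/-- the local norms from an unramified extension -/
theorem Kr.ln_iff (e : Δ + 1 = 4 * m) {a : Fˣ} (ha : (a : F) = -Δ) {v : Pl F}
    (h : Even (ordv v (Δ : F))) (x : Fˣ) :
    x ∈ LN a (.inl v) ↔ a ∈ LS (v.valuation F) ∨ Even (ordv v (x : F)) := by
  by_cases s : a ∈ LS (v.valuation F)
  · simp [s, LN_top (p := .inl v) s]
  obtain ⟨y, c, he, hc, h1⟩ : ∃ (y : Fˣ) (c : F), ((a * y ^ 2 : Fˣ) : F) = 1 + 4 * c ∧
      v.valuation F c ≤ 1 ∧ v.valuation F ((a * y ^ 2 : Fˣ) : F) = 1 := by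
    by_cases t : (2 : 𝓞 F) ∈ v.asIdeal
    · have e' : (Δ : F) + 1 = 4 * m := by exact_mod_cast congrArg (Nat.cast : ℕ → F) e
      refine ⟨1, -m, ?_, ?_, ?_⟩
      · rw [one_pow, mul_one, ha]
        linear_combination -e'
      · rw [Valuation.map_neg]
        exact_mod_cast val_le v (m : 𝓞 F)
      · rw [one_pow, mul_one, ha, Valuation.map_neg, odd_val e t]
    obtain ⟨k, hk⟩ := h
    obtain ⟨π, hπ⟩ := unif v
    have a0 : v.valuation F (a : F) ≠ 0 := (Valuation.ne_zero_iff _).2 a.ne_zero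
    have h1 : v.valuation F ((a * (π ^ (-k)) ^ 2 : Fˣ) : F) = 1 := by
      have p0 : v.valuation F (π : F) ≠ 0 := (Valuation.ne_zero_iff _).2 π.ne_zero
      rw [ordv, ← Valuation.map_neg, ← ha] at hk
      rw [Units.val_mul, Units.val_pow_eq_pow_val, Units.val_zpow_eq_zpow_val, map_mul, map_pow,
        map_zpow₀, ← exp_log a0, ← exp_log p0, hπ, ← exp_zsmul, ← exp_nsmul, ← exp_add, ← exp_zero]
      congr 1
      simp only [smul_eq_mul, nsmul_eq_mul]
      omega
    refine ⟨π ^ (-k), ((a * (π ^ (-k)) ^ 2 : Fˣ) - 1) / 4, by ring, ?_, h1⟩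
    rw [map_div₀, val_four t, div_one]
    exact Valuation.map_sub_le _ h1.le (map_one _).le
  have A := admC_of he hc h1 fun k =>
    s ((Subgroup.mul_mem_cancel_right _ (Sq_le_LS _ ⟨y, rfl⟩)).1 k)
  have n : LN a (.inl v) = LN (a * y ^ 2) (.inl v) := by rw [LN, LN, NF_mul_sq]
  rw [or_iff_right s, ordv, even_neg, n]
  exact ⟨even_of he A, fun k => by_contra fun n => Int.not_even_iff_odd.2 (odd_of he A n) k⟩

theorem Kr.sg_pow {p q : Prop} [Decidable p] [Decidable q] {n : ℤ} (h : ¬ q ↔ p ∨ Even n) :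
    (if p then 1 else -1 : ℂˣ) ^ n = if q then -1 else 1 := by
  by_cases a : p
  · rw [if_pos a, if_neg (h.2 (Or.inl a)), one_zpow]
  rw [if_neg a]
  split_ifs with b
  · exact Odd.neg_one_zpow (Int.not_even_iff_odd.1 fun k => h.2 (Or.inr k) b)
  · exact Even.neg_one_zpow ((h.1 b).resolve_left a)

theorem kron2 : KRON2 := by
  classical
  intro F E _ _ _ _ _ X C Ψ hΨ hK Δ h4 ha w hw hΔ
  obtain ⟨m, e⟩ : ∃ m, Δ + 1 = 4 * m := ⟨(Δ + 1) / 4, by omega⟩
  have Δ0 : 0 < Δ := by omega
  let a : Fˣ := Units.mk0 (-(Δ : F)) (neg_ne_zero.2 (Nat.cast_ne_zero.2 Δ0.ne'))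
  have sq : ∀ v : Pl F, IsSquare (-(Δ : Fw v)) ↔ a ∈ LS (v.valuation F) := fun v => by
    rw [← P011.Even.isSquare_iff, Units.val_mk0, map_neg, map_natCast]
  let χ : ℂˣ := if a ∈ LS (w.valuation F) then 1 else -1
  have key : Kw C Ψ w (χ * qw w) := fun l l0 hl => by
    obtain ⟨l, rfl⟩ : ∃ u : Fˣ, (u : F) = l := ⟨Units.mk0 l l0, rfl⟩
    obtain ⟨T, hT, ev⟩ := hilb a l
    replace hT : ∀ p, p ∉ T ↔ l ∈ LN a p := fun p => not_iff_comm.1 (Set.ext_iff.1 hT p)
    have hL : ∀ v, v ∉ T.toLeft ↔ l ∈ LN a (.inl v) := fun v => by rw [mem_toLeft, hT]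
    let θ : Pl F → ℂˣ := fun v => if v = w then χ else 1
    have h1 : ∀ v, (C.sg * θ) v ^ ordv v (l : F) = if v ∈ T.toLeft then -1 else 1 := fun v => by
      rw [Pi.mul_apply, CM.sg]
      by_cases c : v = w
      · rw [c, if_pos (Or.inl hw), one_mul, show θ w = χ from if_pos rfl]
        exact sg_pow ((hL _).trans (ln_iff e rfl hΔ l))
      rw [show θ v = 1 from if_neg c, mul_one]
      by_cases d : (C.D : 𝓞 F) ∈ v.asIdeal
      · rw [if_pos (Or.inl d), one_zpow, if_neg ((hL _).2 ?_)]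
        by_cases t : (2 : 𝓞 F) ∈ v.asIdeal
        · exact (ln_iff e rfl (by rw [ordv_one (odd_val e t)]; exact Even.zero) l).2
            (Or.inr (by rw [ordv_one (val_of_cong d (hl v c d))]; exact Even.zero))
        · exact Subgroup.mem_sup_right ⟨1, by
            simpa [val_four t] using (hl v c d).trans_lt (vDlt d)⟩
      have n : (Δ : 𝓞 F) ∉ v.asIdeal := fun k => C.aD v d (ha ▸ neg_mem k)
      refine sg_pow ((hL _).trans ((ln_iff e rfl
        (by rw [ordv_one (val_nat n)]; exact Even.zero) l).trans (or_congr_left ?_)))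
      rw [← sq, ← rt_sq e n, rt_gd e fun z =>
        d (Ideal.mem_of_dvd _ (Nat.cast_dvd_cast (α := 𝓞 F) C.D2) z), CM.Gd, ha]
      simp only [d, false_or, not_false_eq_true, true_and]
    have h2 : pv C.sg (l : F) * χ ^ ordv w (l : F) = (-1) ^ #T.toLeft := by
      rw [show χ = θ w from (if_pos rfl).symm, ← pv_at θ w fun v k => Or.inl (if_neg k),
        ← pv_mul' _ _ l0, pv, finprod_congr h1, finprod_eq_prod_of_mulSupport_subset
          (s := T.toLeft) _ fun v k => by_contra fun c : v ∉ T.toLeft => k (if_neg c),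
        prod_congr rfl fun v k => if_pos k, prod_const]
    have h3 : (0 : ℚ) < (-1) ^ #T.toRight * Algebra.norm ℚ (l : F) := by
      let _ := Fintype.ofFinite (F →+* ℝ)
      have b : Function.Bijective fun φ : F →+* ℝ => Complex.ofRealHom.comp φ :=
        ⟨fun φ ψ k => RingHom.ext fun x => Complex.ofReal_injective (RingHom.congr_fun k x),
          fun τ => ⟨(C.real τ).embedding, RingHom.ext (C.real τ).coe_embedding_apply⟩⟩
      have c := prod_emb (l : F)
      rw [← b.prod_comp] at c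
      replace c : ∏ φ : F →+* ℝ, φ l = (Algebra.norm ℚ (l : F) : ℚ) :=
        Complex.ofReal_injective (by rw [Complex.ofReal_prod, Complex.ofReal_ratCast]; exact c)
      have d : (0 : ℝ) < ∏ φ : F →+* ℝ, (if φ ∈ T.toRight then -1 else 1) * φ l :=
        prod_pos fun φ _ => by
          have f := (hT (.inr φ)).trans (real_iff.trans (or_iff_right (by simp [a])))
          rw [← mem_toRight] at f
          split_ifs with k
          · have := lt_of_le_of_ne (not_lt.1 fun z => f.2 z k) ((map_ne_zero φ).2 l0)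
            linarith
          · simpa using f.1 k
      rw [prod_mul_distrib, c, prod_ite_mem, univ_inter, prod_const] at d
      exact_mod_cast d
    have h4 : ((SignType.sign (Algebra.norm ℚ (l : F)) : ℚ) : ℂ) = (-1) ^ #T.toLeft := by
      rw [← card_toLeft_add_card_toRight, Nat.even_add] at ev
      rcases Nat.even_or_odd #T.toRight with k | k
      · rw [k.neg_one_pow, one_mul] at h3
        simp [sign_pos h3, (ev.2 k).neg_one_pow]
      · rw [k.neg_one_pow, neg_one_mul, neg_pos] at h3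
        simp [sign_neg h3, (Nat.not_even_iff_odd.1 fun z =>
          Nat.not_even_iff_odd.2 k (ev.1 z)).neg_one_pow]
    have c := congrArg Units.val (C.pv_sg l0)
    replace h2 := congrArg Units.val h2
    rw [Units.val_mul, Units.val_zpow_eq_zpow_val, Units.val_pow_eq_pow_val, Units.val_neg,
      Units.val_one] at h2
    rw [rho_A C hK hw (mem_A.2 hl), h4, ← h2, mul_zpow, mul_right_comm (pv C.sg _ : ℂ),
      ← Units.val_mul, c, Units.val_one, one_mul]
  rw [ha, map_neg, map_natCast, sq]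
  exact ⟨fun r => by simpa [χ, r] using key, fun r => by simpa [χ, r] using key⟩

end Vale.Agent.P022K.Sh
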