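import Vale.Agent.P022K.F0.Lef2

/-!
# The holomorphic Lefschetz formula for a correspondence of function fields
-/

set_option linter.all false

namespace Vale.Agent.P022K.F0.Lef

open Vale.Agent.P019P P025H492 P027M.K IntermediateField Polynomial

variable {k K L : Type*} [Field k] [Field K] [Field L] [Algebra k K] [Algebra k L]
  [CFF k K] [CFF k L] [CharZero k]

theorem sub_aeval {R : Plk k L} {u v : L} (hu : u ∈ Mge R 0) (hv : v ∈ Mge R 0) (m : k[X]) :
    ∃ q ∈ Mge R 0, aeval v m - aeval u m = (v - u) * q := by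
  induction m using Polynomial.induction_on with
  | C c => exact ⟨0, zero_mem _, by simp⟩
  | add p q hp hq =>
    obtain ⟨r, hr, h1⟩ := hp
    obtain ⟨s, hs, h2⟩ := hq
    exact ⟨r + s, add_mem hr hs, by rw [map_add, map_add]; linear_combination h1 + h2⟩
  | monomial n c ih =>
    obtain ⟨r, hr, h1⟩ := ih
    have h2 : aeval u (C c * X ^ n) ∈ Mge R 0 := by
      rcases mem_Mge.1 hu with h | h
      · exact aeval_mem_zero (by rw [h, ord_zero]) _
      · exact aeval_mem_zero h _
    refine ⟨v * r + aeval u (C c * X ^ n), add_mem (mge_mul hv hr le_rfl) h2, ?_⟩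
    rw [pow_succ, ← mul_assoc, map_mul (aeval v), map_mul (aeval u), aeval_X, aeval_X]
    linear_combination v * h1

theorem ord_der_emb (b : K →ₐ[k] L) {δ : Derivation k L L} (hδ : δ ≠ 0) {x : K}
    (hx : ∀ c : k, x ≠ algebraMap k K c) (R : Plk k L) :
    ord R (δ (b x)) = rm b R * (wd x (dn b R) + 1) - 1 + ordD δ R := by
  rw [ord_D_eq_wd hδ (nc_emb b hx), wd_emb b hx]

/-- the kernel restricted to the correspondence -/
noncomputable def ker (a b : K →ₐ[k] L) (δ : Derivation k L L) (x : K) {n : ℕ}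
    (e es : Fin n → K) : L := (∑ i, a (e i) * b (es i)) * δ (b x) / (b x - a x)

variable {a b : K →ₐ[k] L} {δ : Derivation k L L} {D : Plk k K →₀ ℤ} {x : K} {n : ℕ}
  {e es : Fin n → K}

theorem ker_mob (hx : ∀ c : k, x ≠ algebraMap k K c) (hab : b x ≠ a x) (c : k) :
    ker a b δ (x - algebraMap k K c)⁻¹ (fun i => (x - algebraMap k K c)⁻¹ * e i)
      (fun i => (x - algebraMap k K c) * es i) = ker a b δ x e es := by
  have h1 : a x - algebraMap k L c ≠ 0 := sub_ne_zero.2 (nc_emb a hx c)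
  have h2 : b x - algebraMap k L c ≠ 0 := sub_ne_zero.2 (nc_emb b hx c)
  have h3 : b x - a x ≠ 0 := sub_ne_zero.2 hab
  have h4 : ∑ i, a ((x - algebraMap k K c)⁻¹ * e i) * b ((x - algebraMap k K c) * es i) =
      (a x - algebraMap k L c)⁻¹ * (b x - algebraMap k L c) * ∑ i, a (e i) * b (es i) := by
    rw [Finset.mul_sum]
    refine Finset.sum_congr rfl fun i _ => ?_
    simp only [map_mul, map_inv₀, map_sub, AlgHom.commutes]
    ring
  have h5 : (b x - algebraMap k L c)⁻¹ - (a x - algebraMap k L c)⁻¹ =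
      -(b x - a x) / ((a x - algebraMap k L c) * (b x - algebraMap k L c)) := by
    field_simp
    ring
  unfold ker
  rw [h4]
  simp only [map_inv₀, map_sub, AlgHom.commutes, Derivation.leibniz_inv,
    Derivation.map_algebraMap, sub_zero, smul_eq_mul]
  rw [h5]
  field_simp

theorem loc_fin (hD : NC D) (h : Bas D x e es) (hδ : δ ≠ 0) (hab : b x ≠ a x) {R : Plk k L}
    (hne : dn a R ≠ dn b R) (ha : 0 ≤ ord (dn a R) x) (hb : 0 ≤ ord (dn b R) x) :
    ker a b δ x e es ∈
      Mge R (ordD δ R + rm b R * (D (dn b R) + 1) - 1 - rm a R * D (dn a R)) := by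
  classical
  obtain ⟨z, hz0, hz1, hz2, hz3⟩ := strong 0 h.nc {dn b R, dn a R} (by simp [ha, hb])
    (fun T => if T = dn b R then 0 else 1) (P0 := dn b R) (by simp)
  have hz4 : ∀ T : Plk k K, 0 ≤ ord T x → z ∈ Mge T 0 := fun T hT => by
    by_cases h1 : T ∈ ({dn b R, dn a R} : Finset (Plk k K))
    · have h2 := hz2 T h1
      refine mge_of_le ?_
      split_ifs at h2 <;> omega
    · simpa using mge_of_le (hz3 T h1 hT)
  have hz5 := hz2 (dn a R) (by simp)
  simp only [if_true, if_neg hne] at hz1 hz5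
  have hu : b z - a z ≠ 0 ∧ ord R (b z - a z) = 0 := by
    have h1 := val_vl hz1.ge
    have h2 := (val_emb b h1).sub (val_emb a (Val.zero_iff.2 (mge_of_le hz5)))
    rw [sub_zero] at h2
    exact h2.unit (h1.ne_zero hz0 hz1)
  choose m hm using fun i => h.span hD (z := z * e i)
    fun T hT => mge_mul (hz4 T hT) (h.mge i hT) (by omega)
  have hm' : ∀ j, z * es j = ∑ i, aeval x (m i j) * es i := fun j => by
    rw [h.exp (z * es j)]
    refine Finset.sum_congr rfl fun i _ => ?_
    rw [← mul_assoc, mul_comm (e i), hm, h.tr_es]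
  have hax : a x ∈ Mge R 0 := by simpa using mge_emb a (mge_of_le ha)
  have hbx : b x ∈ Mge R 0 := by simpa using mge_emb b (mge_of_le hb)
  choose q hq hq' using fun i j => sub_aeval hax hbx (m i j)
  have h1 : a z * ∑ i, a (e i) * b (es i) =
      ∑ i, ∑ j, aeval (a x) (m i j) * (a (e j) * b (es i)) := by
    rw [Finset.mul_sum]
    refine Finset.sum_congr rfl fun i _ => ?_
    rw [← mul_assoc, ← map_mul, hm, map_sum, Finset.sum_mul]
    exact Finset.sum_congr rfl fun j _ => by rw [map_mul, aeval_algHom_apply, mul_assoc]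
  have h2 : b z * ∑ i, a (e i) * b (es i) =
      ∑ i, ∑ j, aeval (b x) (m i j) * (a (e j) * b (es i)) := by
    rw [Finset.mul_sum, Finset.sum_comm]
    refine Finset.sum_congr rfl fun j _ => ?_
    rw [mul_left_comm, ← map_mul, hm', map_sum, Finset.mul_sum]
    exact Finset.sum_congr rfl fun i _ => by rw [map_mul, aeval_algHom_apply, mul_left_comm]
  have h3 : (b z - a z) * ∑ i, a (e i) * b (es i) =
      (b x - a x) * ∑ i, ∑ j, q i j * (a (e j) * b (es i)) := by
    rw [sub_mul, h1, h2, ← Finset.sum_sub_distrib, Finset.mul_sum]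
    refine Finset.sum_congr rfl fun i _ => ?_
    rw [← Finset.sum_sub_distrib, Finset.mul_sum]
    exact Finset.sum_congr rfl fun j _ => by rw [← sub_mul, hq', mul_assoc]
  have h4 : ker a b δ x e es =
      (∑ i, ∑ j, q i j * (a (e j) * b (es i))) * δ (b x) / (b z - a z) := by
    unfold ker
    rw [div_eq_div_iff (sub_ne_zero.2 hab) hu.1]
    linear_combination δ (b x) * h3
  rw [h4]
  refine mge_div (mge_mul (Submodule.sum_mem _ fun i _ => Submodule.sum_mem _ fun j _ =>
    mul_mem_Mge (hq i j) (mul_mem_Mge (mge_emb a (h.mge j ha)) (mge_emb b (h.es_fin hD i hb))))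
    (mge_ord R _) le_rfl) ?_
  rw [hu.2, ord_der_emb b hδ h.nc]
  linarith

theorem fin_mob (hx : ∀ c : k, x ≠ algebraMap k K c) {P : Plk k K} {c : k} (hc : c ≠ vl P x) :
    0 ≤ ord P (x - algebraMap k K c)⁻¹ := by
  rw [ord_inv]
  rcases le_or_gt 0 (ord P x) with h | h
  · rw [(((val_vl h).sub (Val.const P c)).unit (sub_ne_zero.2 hc.symm)).2, neg_zero]
  · rw [ord_sub_pole h]
    omega

theorem loc (hD : NC D) (h : Bas D x e es) (hδ : δ ≠ 0) (hab : b x ≠ a x) {R : Plk k L}
    (hne : dn a R ≠ dn b R) : ker a b δ x e es ∈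
      Mge R (ordD δ R + rm b R * (D (dn b R) + 1) - 1 - rm a R * D (dn a R)) := by
  classical
  haveI : Infinite k := Infinite.of_injective _ Nat.cast_injective
  obtain ⟨c, hc⟩ := Infinite.exists_notMem_finset ({vl (dn a R) x, vl (dn b R) x} : Finset k)
  rw [Finset.mem_insert, Finset.mem_singleton, not_or] at hc
  rw [← ker_mob h.nc hab c]
  refine loc_fin hD (h.mob c) hδ (fun h1 => hab ?_) hne (fin_mob h.nc hc.1) (fin_mob h.nc hc.2)
  simpa [map_inv₀, map_sub] using h1

theorem res_fix (hD : NC D) (h : Bas D x e es) (hδ : δ ≠ 0) {R : Plk k L} (hR : dn a R = dn b R)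
    (h0 : D (dn b R) = 0) {c u : k} (hc : ord (dn b R) (x - algebraMap k K c) = 1) (hu : u ≠ 1)
    {t : K} (ht : ord (dn b R) t = 1) (hv : Val R (a t / b t) u) :
    Res δ (ker a b δ x e es) R ((rm b R : k) / (1 - u)) := by
  have hfin : 0 ≤ ord (dn b R) x := fin_of_pos (c := c) (by omega)
  have hy0 : x - algebraMap k K c ≠ 0 := sub_ne_zero.2 (h.nc c)
  have ht0 : t ≠ 0 := ne_of_ord (P := dn b R) (by omega)
  have hε : ord (dn b R) ((x - algebraMap k K c) / t) = 0 := by rw [ord_div _ hy0 ht0]; omega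
  obtain ⟨γ, h1⟩ := exists_val (mge_of_le hε.ge)
  have h2 := h1.ne_zero (div_ne_zero hy0 ht0) hε
  have h3 := hv.mul (val_div (val_emb a (hR ▸ h1)) (val_emb b h1) h2)
  have hb0 : b (x - algebraMap k K c) ≠ 0 := (_root_.map_ne_zero b).2 hy0
  have hbt : b t ≠ 0 := (_root_.map_ne_zero b).2 ht0
  have hat : a t ≠ 0 := (_root_.map_ne_zero a).2 ht0
  have h4 : a t / b t * (a ((x - algebraMap k K c) / t) / b ((x - algebraMap k K c) / t)) =
      a (x - algebraMap k K c) / b (x - algebraMap k K c) := by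
    rw [map_div₀, map_div₀]
    field_simp
  rw [h4, div_self h2, mul_one] at h3
  have h5 := val_inv ((Val.one R).sub h3) (sub_ne_zero.2 hu.symm)
  choose α hα using fun i => exists_val (P := dn b R) (z := e i) (by simpa [h0] using h.mge i hfin)
  choose β hβ using fun i => exists_val (P := dn b R) (z := es i) (by
    have h6 := h.es_fin hD i hfin
    rw [h0, wd_of_pos (c := c) (by omega), hc] at h6
    simpa using h6)
  have h6 := Val.sum Finset.univ fun i _ => (hα i).mul (hβ i)
  rw [h.one] at h6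
  have h7 := Val.sum Finset.univ fun i _ => (val_emb a (hR ▸ hα i)).mul (val_emb b (hβ i))
  rw [h6.unique (Val.one _)] at h7
  have h8 : ord R (b (x - algebraMap k K c)) = rm b R := by rw [ord_emb, hc, mul_one]
  have h9 := rm_pos b R
  refine ⟨b (x - algebraMap k K c), 1 * (1 - u)⁻¹, by omega, ?_, by
    rw [h8, one_mul, div_eq_mul_inv, Int.cast_natCast]⟩
  have hd : δ (b x) ≠ 0 := der_ne_zero hδ (nc_emb b h.nc)
  convert h7.mul h5 using 1
  unfold ker
  have h10 : b x - a x = b (x - algebraMap k K c) - a (x - algebraMap k K c) := by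
    simp only [map_sub, AlgHom.commutes]; ring
  have h11 : δ (b (x - algebraMap k K c)) = δ (b x) := by
    simp only [map_sub, AlgHom.commutes, Derivation.map_algebraMap, sub_zero]
  rw [h11, h10, one_sub_div hb0, inv_div]
  field_simp

theorem res_neg (hD : NC D) (h : Bas D x e es) (hδ : δ ≠ 0) {R : Plk k L} {c c' : k}
    (h0 : ord (dn b R) (x - algebraMap k K c) = 1) (h1 : D (dn b R) = -1)
    (h2 : ∀ P, P ≠ dn b R → 0 ≤ D P) (h3 : D (dn a R) = 0) (h4 : Val (dn a R) x c')
    (h5 : c' ≠ c) : Res δ (ker a b δ x e es) R (-(rm b R : k)) := by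
  obtain ⟨β, hβ, hβ'⟩ := h.neg hD h0 h1 h2
  choose α hα using fun i => exists_val (P := dn a R) (z := e i)
    (by simpa [h3] using h.mge i (ord_nonneg_of_sub h4))
  have h6 := Val.sum Finset.univ fun i _ => val_smul (hα i) (β i)
  rw [← hβ] at h6
  have h7 := h6.unique (h4.sub (Val.const _ c))
  have h8 := Val.sum Finset.univ fun i _ => (val_emb b (hβ' i)).mul (val_emb a (hα i))
  rw [h7] at h8
  have h9 := val_div h8 ((val_emb b (val_of_pos (z := x) (c := c) (by omega))).sub (val_emb a h4))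
    (sub_ne_zero.2 h5.symm)
  have h10 : ord R (b (x - algebraMap k K c)) = rm b R := by rw [ord_emb, h0, mul_one]
  have h11 := rm_pos b R
  have h12 : c - c' ≠ 0 := sub_ne_zero.2 h5.symm
  refine ⟨b (x - algebraMap k K c), (c' - c) / (c - c'), by omega, ?_, ?_⟩
  · convert h9 using 1
    have hd : δ (b x) ≠ 0 := der_ne_zero hδ (nc_emb b h.nc)
    have h13 : δ (b (x - algebraMap k K c)) = δ (b x) := by
      simp only [map_sub, AlgHom.commutes, Derivation.map_algebraMap, sub_zero]
    have h14 : ∑ i, b ((x - algebraMap k K c) * es i) * a (e i) =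
        b (x - algebraMap k K c) * ∑ i, a (e i) * b (es i) := by
      rw [Finset.mul_sum]
      exact Finset.sum_congr rfl fun i _ => by rw [map_mul]; ring
    unfold ker
    rw [h13, h14]
    field_simp
  · rw [h10, Int.cast_natCast]
    field_simp
    ring

theorem res_pos (hD : NC D) (h : Bas D x e es) (hδ : δ ≠ 0) {R : Plk k L} {c c' : k}
    (h0 : ord (dn a R) (x - algebraMap k K c) = 1) (h1 : rm a R = 1) (h2 : 0 ≤ D (dn b R))
    (h4 : Val (dn b R) x c') (h5 : c' ≠ c) {α : Fin n → k}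
    (hα : ∀ i, Val (dn a R) ((x - algebraMap k K c) * e i) (α i)) :
    ∃ ν : k, Res δ (ker a b δ x e es) R ν ∧
      Val R (b ((∑ i, α i • es i) / (x - algebraMap k K c)) * δ (b x) / δ (a x)) ν := by
  have hd : δ (a x) ≠ 0 := der_ne_zero hδ (nc_emb a h.nc)
  have h6 := rm_pos b R
  choose ν hν using fun i => exists_val (P := R) (z := b (es i) * δ (b x) / δ (a x))
    (mge_div (mul_mem_Mge (mge_emb b (h.es_fin hD i (ord_nonneg_of_sub h4))) (mge_ord R _)) (by
      rw [ord_der_emb b hδ h.nc, ord_der_emb a hδ h.nc, wd_of_pos (c := c) (P := dn a R) (by omega),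
        h0, h1]
      have h7 : (1 : ℤ) ≤ rm b R := by exact_mod_cast h6
      push_cast
      nlinarith))
  have h7 : ord R (a (x - algebraMap k K c)) = 1 := by rw [ord_emb, h0, h1]; simp
  refine ⟨(∑ i, α i * ν i) / (c' - c), ⟨a (x - algebraMap k K c), _, by omega, ?_, by
    rw [h7, Int.cast_one, one_mul]⟩, ?_⟩
  · have h8 := Val.sum Finset.univ fun i _ => (val_emb a (hα i)).mul (hν i)
    convert val_div h8 ((val_emb b h4).sub (val_emb a (val_of_pos (z := x) (c := c) (by omega))))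
      (sub_ne_zero.2 h5) using 1
    have h13 : δ (a (x - algebraMap k K c)) = δ (a x) := by
      simp only [map_sub, AlgHom.commutes, Derivation.map_algebraMap, sub_zero]
    have h14 : ∑ i, a ((x - algebraMap k K c) * e i) * (b (es i) * δ (b x) / δ (a x)) =
        a (x - algebraMap k K c) * (∑ i, a (e i) * b (es i)) * δ (b x) / δ (a x) := by
      rw [Finset.mul_sum, Finset.sum_mul, Finset.sum_div]
      exact Finset.sum_congr rfl fun i _ => by rw [map_mul]; ring
    unfold ker
    rw [h13, h14]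
    ring
  · have h8 := Val.sum Finset.univ fun i _ => val_smul (hν i) (α i)
    convert val_div h8 ((val_emb b h4).sub (Val.const R c)) (sub_ne_zero.2 h5) using 1
    have h14 : ∑ i, α i • (b (es i) * δ (b x) / δ (a x)) =
        b (∑ i, α i • es i) * δ (b x) / δ (a x) := by
      rw [map_sum, Finset.sum_mul, Finset.sum_div]
      exact Finset.sum_congr rfl fun i _ => by
        rw [map_smul, Algebra.smul_def, Algebra.smul_def]; ring
    rw [h14, map_div₀, map_sub, AlgHom.commutes]
    ring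

theorem mem_om (hx : ∀ c : k, x ≠ algebraMap k K c) {f : K} :
    f ∈ LL k (wdv k x) ↔ ∀ P : Plk k K, f ∈ Mge P (-wd x P) := by
  simp only [mem_LL_iff, wdv_apply hx]

variable (a b) in
/-- the operator `a_* b^*` on regular differentials `f dx` -/
noncomputable def hk (hx : ∀ c : k, x ≠ algebraMap k K c) (hδ : δ ≠ 0) :
    LL k (wdv k x) →ₗ[k] LL k (wdv k x) where
  toFun f := ⟨trc a (b f * δ (b x) / δ (a x)), (mem_om hx).2 fun P => by
    have h1 := trc_mge a P (z := b f * δ (b x) / δ (a x)) (-wd x P - 1) fun R hR =>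
      mge_div (mul_mem_Mge (mge_emb b ((mem_om hx).1 f.2 _)) (mge_ord R _)) (by
        rw [ord_der_emb b hδ hx, ord_der_emb a hδ hx, hR]
        have h7 : (1 : ℤ) ≤ rm b R := by exact_mod_cast rm_pos b R
        nlinarith)
    exact Mge_mono P (by omega) h1⟩
  map_add' f g := Subtype.ext (by
    simp only [Submodule.coe_add, map_add, add_mul, add_div, trc_add])
  map_smul' c f := Subtype.ext (by
    simp only [Submodule.coe_smul, map_smul, RingHom.id_apply, smul_mul_assoc, smul_div_assoc,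
      trc_smul])

theorem hk_val (hx : ∀ c : k, x ≠ algebraMap k K c) (hδ : δ ≠ 0) (f : LL k (wdv k x)) :
    (hk a b hx hδ f : K) = trc a (b f * δ (b x) / δ (a x)) := rfl

/-- change of the reference function -/
theorem trace_hk_chg (hx : ∀ c : k, x ≠ algebraMap k K c) {y : K}
    (hy : ∀ c : k, y ≠ algebraMap k K c) (hδ : δ ≠ 0) :
    ∃ φ : LL k (wdv k y) ≃ₗ[k] LL k (wdv k x), hk a b hx hδ = φ.conj (hk a b hy hδ) := by
  haveI := (finite_of_notMem hx).2
  obtain ⟨d, hd⟩ := P025H133.exists_der x (finite_of_notMem hx).1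
  have hd0 : d ≠ 0 := by
    rintro rfl
    simp at hd
  have hu : d y ≠ 0 := der_ne_zero hd0 hy
  have hw : wdv k y = wdv k x + dv k (d y) := by
    have h1 := dv_D_eq hd0 hx
    have h2 := dv_const (k := k) (F := K) 1
    rw [map_one] at h2
    rw [hd, h2] at h1
    rw [dv_D_eq hd0 hy, add_left_comm, ← h1, add_zero]
  let φ : LL k (wdv k y) ≃ₗ[k] LL k (wdv k x) :=
    { toFun := fun f => ⟨d y * f, by rw [mul_mem_LL_iff hu, ← hw]; exact f.2⟩
      map_add' := fun f g => Subtype.ext (by simp [mul_add])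
      map_smul' := fun c f => Subtype.ext (by simp)
      invFun := fun f => ⟨(d y)⁻¹ * f, by
        rw [hw, ← mul_mem_LL_iff hu, mul_inv_cancel_left₀ hu]; exact f.2⟩
      left_inv := fun f => Subtype.ext (inv_mul_cancel_left₀ hu _)
      right_inv := fun f => Subtype.ext (mul_inv_cancel_left₀ hu _) }
  refine ⟨φ, LinearMap.ext fun f => Subtype.ext ?_⟩
  show trc a (b f * δ (b x) / δ (a x)) = d y * trc a (b ((d y)⁻¹ * f) * δ (b y) / δ (a y))
  rw [← trc_mul, chain a δ hx hd y, chain b δ hx hd y, map_mul, map_inv₀]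
  have h1 : a (d y) ≠ 0 := (_root_.map_ne_zero a).2 hu
  have h2 : b (d y) ≠ 0 := (_root_.map_ne_zero b).2 hu
  congr 1
  field_simp

theorem trace_eq_sum {V ι : Type*} [AddCommGroup V] [Module k V] [FiniteDimensional k V]
    [Fintype ι] (w : ι → V) (φ : ι → V →ₗ[k] k) (h : ∀ v, v = ∑ i, φ i v • w i) (T : V →ₗ[k] V) :
    LinearMap.trace k V T = ∑ i, φ i (T (w i)) := by
  have h1 : T = ∑ i, (φ i).smulRight (T (w i)) := LinearMap.ext fun v => by
    conv_lhs => rw [h v]
    simp
  conv_lhs => rw [h1]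
  simp only [map_sum, LinearMap.trace_smulRight]

/-- the divisor of a finite set of places -/
noncomputable def dvs (s : Finset (Plk k K)) : Plk k K →₀ ℤ := ∑ P ∈ s, Finsupp.single P 1

open Classical in
theorem dvs_apply (s : Finset (Plk k K)) (P : Plk k K) : dvs s P = if P ∈ s then 1 else 0 := by
  simp only [dvs, Finsupp.finsetSum_apply, Finsupp.single_apply, Finset.sum_ite_eq']

theorem dg_dvs (s : Finset (Plk k K)) : dg (dvs s) = s.card := by
  simp [dvs, map_sum, dg_sgl]

theorem exists_nonspecial {B : Set (Plk k K)} (hB : B.Finite) (i : ℕ) :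
    ∃ s : Finset (Plk k K), s.card = i ∧ (∀ P ∈ s, P ∉ B) ∧
      Module.finrank k (LL k (can k K - dvs s)) ≤ gen k K - i := by
  classical
  induction i with
  | zero =>
    refine ⟨∅, rfl, by simp, ?_⟩
    have h1 := RR (0 : Plk k K →₀ ℤ)
    rw [l_zero, map_zero, sub_zero] at h1
    rw [dvs, Finset.sum_empty, sub_zero]
    omega
  | succ i ih =>
    obtain ⟨s, h1, h2, h3⟩ := ih
    have hle : ∀ P, P ∉ s → LL k (can k K - dvs (insert P s)) ≤ LL k (can k K - dvs s) :=
      fun P hP => LL_mono fun Q => by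
        simp only [Finsupp.sub_apply, dvs_apply, Finset.mem_insert]
        split_ifs <;> first | omega | tauto
    have hB' : ∀ P, P ∉ B → ∀ Q ∈ insert P s, Q ∉ B := fun P hP Q hQ => by
      rcases Finset.mem_insert.1 hQ with rfl | hQ
      · exact hP
      · exact h2 Q hQ
    by_cases h0 : Module.finrank k (LL k (can k K - dvs s)) = 0
    · obtain ⟨P, hP⟩ := exists_notMem (hB.union s.finite_toSet)
      rw [Set.mem_union, not_or] at hP
      refine ⟨insert P s, by rw [Finset.card_insert_of_notMem hP.2, h1], hB' P hP.1, ?_⟩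
      have := Submodule.finrank_mono (hle P hP.2)
      omega
    · obtain ⟨f, hf0, hf⟩ := exists_ne_zero_of_l (Nat.pos_of_ne_zero h0)
      obtain ⟨P, hP⟩ := exists_notMem ((hB.union s.finite_toSet).union
        (dv k f + can k K).support.finite_toSet)
      simp only [Set.mem_union, not_or, Finset.mem_coe, Finsupp.mem_support_iff, not_not,
        Finsupp.add_apply, dv_apply] at hP
      refine ⟨insert P s, by rw [Finset.card_insert_of_notMem hP.1.2, h1], hB' P hP.1.1, ?_⟩
      have h4 := Submodule.finrank_lt_finrank_of_lt (lt_of_le_of_ne (hle P hP.1.2) fun h5 => by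
        have h6 : f ∈ LL k (can k K - dvs (insert P s)) := by
          rw [h5]
          refine mem_LL.2 (Or.inr fun Q => ?_)
          have h8 := hf Q
          rw [Finsupp.zero_apply, Finsupp.add_apply, dv_apply] at h8
          omega
        have h7 := le_ord (mem_LL_iff.1 h6 P) hf0
        rw [Finsupp.sub_apply, dvs_apply, if_pos (Finset.mem_insert_self _ _)] at h7
        omega)
      omega

theorem nc_of_nonspecial {s : Finset (Plk k K)} (h1 : s.card = gen k K)
    (h2 : Module.finrank k (LL k (can k K - dvs s)) = 0) {P0 : Plk k K} (h0 : P0 ∉ s) :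
    NC (dvs s - Finsupp.single P0 1) := by
  classical
  refine ⟨?_, by rw [map_sub, dg_dvs, dg_sgl, h1]⟩
  have h3 := RR (dvs s)
  rw [h2, dg_dvs, h1] at h3
  have h4 := Submodule.finrank_lt_finrank_of_lt (lt_of_le_of_ne
    (LL_mono (k := k) (D := dvs s - Finsupp.single P0 1) (E := dvs s)
      (sub_le_self _ (Finsupp.single_nonneg.2 zero_le_one))) fun h5 => by
      have h6 : (1 : K) ∈ LL k (dvs s - Finsupp.single P0 1) := by
        rw [h5]
        refine mem_LL.2 (Or.inr fun P => ?_)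
        rw [ord_one, dvs_apply]
        split_ifs <;> omega
      have h7 := le_ord (mem_LL_iff.1 h6 P0) one_ne_zero
      rw [Finsupp.sub_apply, dvs_apply, if_neg h0, Finsupp.single_eq_same, ord_one] at h7
      omega)
  exact Submodule.finrank_eq_zero.1 (by omega)

theorem exists_coord (Z : Finset (Plk k K)) (hZ : Z.Nonempty) : ∃ (x : K) (c : Plk k K → k),
    (∀ a : k, x ≠ algebraMap k K a) ∧ Set.InjOn c Z ∧
      ∀ P ∈ Z, ord P (x - algebraMap k K (c P)) = 1 := by
  classical
  obtain ⟨x, hx⟩ := weak_appr Z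
    (fun P => algebraMap k K (if h : P ∈ Z then ((Z.equivFin ⟨P, h⟩ : ℕ) : k) else 0) + un P) 2
  have h1 : ∀ P ∈ Z, ord P (x - algebraMap k K
      (if h : P ∈ Z then ((Z.equivFin ⟨P, h⟩ : ℕ) : k) else 0)) = 1 := fun P hP => by
    have h2 := (ord_add_of_lt (P := P) (un P).ne_zero (by rw [ord_un]; exact hx P hP)).2
    rw [ord_un] at h2
    rw [← h2]
    congr 1
    ring
  refine ⟨x, _, fun a ha => ?_, fun P hP Q hQ h => ?_, h1⟩
  · obtain ⟨P, hP⟩ := hZ
    have h2 := h1 P hP
    rw [ha, ← map_sub, ord_const] at h2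
    omega
  · simp only [Finset.mem_coe] at hP hQ
    simp only [dif_pos hP, dif_pos hQ, Nat.cast_inj] at h
    exact congrArg Subtype.val (Z.equivFin.injective (Fin.ext h))

theorem val_om (hx : ∀ c : k, x ≠ algebraMap k K c) {P : Plk k K} (h : wd x P = 0)
    (f : LL k (wdv k x)) : Val P (f : K) (vl P (f : K)) := by
  obtain ⟨c, hc⟩ := exists_val (P := P) (z := (f : K)) (by simpa [h] using (mem_om hx).1 f.2 P)
  rwa [vl_eq hc]

/-- the value of a regular differential at a place where `x` is a coordinate -/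
noncomputable def evl (hx : ∀ c : k, x ≠ algebraMap k K c) {P : Plk k K} (h : wd x P = 0) :
    LL k (wdv k x) →ₗ[k] k where
  toFun f := vl P (f : K)
  map_add' f g := vl_eq ((val_om hx h f).add (val_om hx h g))
  map_smul' c f := vl_eq (val_smul (val_om hx h f) c)

theorem val_evl (hx : ∀ c : k, x ≠ algebraMap k K c) {P : Plk k K} (h : wd x P = 0)
    (f : LL k (wdv k x)) : Val P (f : K) (evl hx h f) := val_om hx h f

/-- the basis of the regular differentials dual to the points of a non special divisor -/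
theorem Bas.dual_basis {s : Finset (Plk k K)} {P0 : Plk k K} (h0 : P0 ∉ s)
    (hD : NC (dvs s - Finsupp.single P0 1)) (h : Bas (dvs s - Finsupp.single P0 1) x e es)
    {c : Plk k K → k} (hc : ∀ P ∈ s, ord P (x - algebraMap k K (c P)) = 1)
    (hc0 : ord P0 (x - algebraMap k K (c P0)) = 1) (hcc : ∀ P ∈ s, c P0 ≠ c P) :
    ∃ (hw : ∀ P : s, wd x (P : Plk k K) = 0) (α : s → Fin n → k) (w : s → LL k (wdv k x)),
      (∀ (P : s) i, Val P.1 ((x - algebraMap k K (c P)) * e i) (α P i)) ∧
      (∀ P : s, (w P : K) = (∑ i, α P i • es i) / (x - algebraMap k K (c P))) ∧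
      (∀ P : s, evl h.nc (hw P) (w P) = 1) ∧
      ∀ f, f = ∑ P : s, evl h.nc (hw P) f • w P := by
  classical
  set D := dvs s - Finsupp.single P0 1 with hDd
  have hD1 : ∀ P ∈ s, D P = 1 := fun P hP => by
    rw [hDd, Finsupp.sub_apply, dvs_apply, if_pos hP,
      Finsupp.single_eq_of_ne (ne_of_mem_of_not_mem hP h0), sub_zero]
  have hD0 : D P0 = -1 := by
    rw [hDd, Finsupp.sub_apply, dvs_apply, if_neg h0, Finsupp.single_eq_same, zero_sub]
  have hD2 : ∀ P, P ≠ P0 → 0 ≤ D P := fun P hP => by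
    rw [hDd, Finsupp.sub_apply, dvs_apply, Finsupp.single_eq_of_ne hP, sub_zero]
    split_ifs <;> omega
  have hD3 : ∀ P, P ∉ s → D P ≤ 0 := fun P hP => by
    rw [hDd, Finsupp.sub_apply, dvs_apply, if_neg hP, Finsupp.single_apply]
    split_ifs <;> omega
  have hw : ∀ P : s, wd x (P : Plk k K) = 0 := fun P => by
    have h1 := hc P P.2
    rw [wd_of_pos (c := c P) (by omega), h1, sub_self]
  choose α hα using fun (P : s) i => exists_val (P := P.1)
    (z := (x - algebraMap k K (c P)) * e i) (by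
      have h1 := hc P P.2
      exact mge_mul (mge_ord _ _) (h.mge i (fin_of_pos (c := c P) (by omega)))
        (by rw [hD1 P P.2]; omega))
  have hpos := fun P : s => h.pos hD (hc P P.2) (hD1 P P.2) (hα P)
  obtain ⟨β, hβ, hβ'⟩ := h.neg hD hc0 hD0 hD2
  have hmem : ∀ P : s, (∑ i, α P i • es i) / (x - algebraMap k K (c P)) ∈ LL k (wdv k x) := by
    intro P
    refine (mem_om h.nc).2 fun Q => ?_
    by_cases h1 : Q = P
    · rw [h1, hw P, neg_zero]
      exact (hpos P).2.mem
    by_cases h2 : Q = P0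
    swap
    · exact Mge_mono Q (by have := hD2 Q h2; omega) ((hpos P).1 Q h1)
    subst h2
    have h3 := Val.sum Finset.univ fun i _ => val_smul (hβ' i) (α P i)
    have h4 := Val.sum Finset.univ fun i _ => val_smul (hα P i) (β i)
    simp only [← mul_smul_comm, ← Finset.mul_sum] at h3 h4
    rw [← hβ] at h4
    have h5 := hc P P.2
    have h6 := h4.unique (Val.zero_iff.2 (mge_mul (mge_ord _ _) (sub_mem (mge_of_le
      (fin_of_pos (c := c P) (by omega))) (const_mem _ _)) (by omega)))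
    rw [Finset.sum_congr rfl fun i _ => mul_comm (α P i) (β i), h6, Val.zero_iff,
      mul_mem_Mge_iff (sub_ne_zero.2 (h.nc _)), hc0] at h3
    have h7 := (((val_of_pos (P := Q) (z := x) (c := c Q) (by omega)).sub
      (Val.const Q (c P))).unit (sub_ne_zero.2 (hcc P P.2))).2
    exact mge_div h3 (by rw [h7, wd_of_pos (c := c Q) (by omega), hc0]; omega)
  have hone : ∀ P : s, evl h.nc (hw P) ⟨_, hmem P⟩ = 1 := fun P =>
    (val_evl h.nc (hw P) ⟨_, hmem P⟩).unique (hpos P).2
  refine ⟨hw, α, fun P => ⟨_, hmem P⟩, hα, fun P => rfl, hone, fun f => ?_⟩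
  rw [← sub_eq_zero]
  refine Subtype.ext (h.inj fun Q => ?_)
  by_cases hQ : Q ∈ s
  · have h3 : evl h.nc (hw ⟨Q, hQ⟩) (f - ∑ P : s, evl h.nc (hw P) f • ⟨_, hmem P⟩) = 0 := by
      rw [map_sub, map_sum, Finset.sum_eq_single ⟨Q, hQ⟩ (fun P _ hP => ?_) (by simp), map_smul,
        hone, smul_eq_mul, mul_one, sub_self]
      have h2 := (hpos P).1 Q fun h3 => hP (Subtype.ext h3.symm)
      rw [hD1 Q hQ, hw ⟨Q, hQ⟩] at h2
      rw [map_smul, (val_evl h.nc (hw ⟨Q, hQ⟩) ⟨_, hmem P⟩).unique (Val.zero_iff.2 h2), smul_zero]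
    have h1 := val_evl h.nc (hw ⟨Q, hQ⟩) (f - ∑ P : s, evl h.nc (hw P) f • ⟨_, hmem P⟩)
    rw [h3, Val.zero_iff] at h1
    rw [hD1 Q hQ, hw ⟨Q, hQ⟩]
    exact h1
  · exact Mge_mono Q (by have := hD3 Q hQ; omega) ((mem_om h.nc).1 (Subtype.property _) Q)

theorem finrank_om (hx : ∀ c : k, x ≠ algebraMap k K c) :
    Module.finrank k (LL k (wdv k x)) = gen k K := by
  classical
  obtain ⟨s, h1, -, h2⟩ := exists_nonspecial (k := k) (K := K) Set.finite_empty (gen k K)
  obtain ⟨P0, h0⟩ := exists_notMem s.finite_toSet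
  have hD := nc_of_nonspecial h1 (by omega) h0
  obtain ⟨y, c, hy, hc, hy1⟩ := exists_coord (insert P0 s) (by simp)
  obtain ⟨n, e, es, h⟩ := hD.exists_bas hy
  obtain ⟨hw, α, w, -, -, h3, h4⟩ := h.dual_basis h0 hD (c := c)
    (fun P hP => hy1 P (by simp [hP])) (hy1 P0 (by simp))
    fun P hP h5 => h0 (by rw [hc (by simp) (by simp [hP]) h5]; exact hP)
  have h5 := trace_eq_sum w (fun P => evl h.nc (hw P)) h4 LinearMap.id
  simp only [LinearMap.trace_id, LinearMap.id_apply, h3, Finset.sum_const, Finset.card_univ,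
    Fintype.card_coe, h1, nsmul_eq_mul, mul_one, Nat.cast_inj] at h5
  haveI := (finite_of_notMem hx).2
  obtain ⟨d, hd⟩ := P025H133.exists_der x (finite_of_notMem hx).1
  obtain ⟨φ, -⟩ := trace_hk_chg (a := AlgHom.id k K) (b := AlgHom.id k K) (δ := d) hx hy (by
    rintro rfl
    simp at hd)
  rw [← φ.finrank_eq, h5]

/-- **the holomorphic Lefschetz formula** -/
theorem lef (a b : K →ₐ[k] L) (hx : ∀ c : k, x ≠ algebraMap k K c) (hδ : δ ≠ 0)
    (S : Finset (Plk k L)) (u : Plk k L → k) (hS : ∀ R, dn a R = dn b R ↔ R ∈ S)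
    (hu : ∀ R ∈ S, u R ≠ 1 ∧ ∃ t, ord (dn b R) t = 1 ∧ Val R (a t / b t) (u R)) :
    LinearMap.trace k _ (hk a b hx hδ) = dgr b - ∑ R ∈ S, (rm b R : k) / (1 - u R) := by
  classical
  obtain ⟨s, h1, hs, h2⟩ := exists_nonspecial (k := k) (K := K)
    ((S.finite_toSet.union (rm_fin a)).image (dn a)) (gen k K)
  have hs1 : ∀ R, dn a R ∈ s → R ∉ S ∧ rm a R = 1 := fun R hR => by
    have h3 := hs _ hR
    by_contra h4
    exact h3 ⟨R, by by_cases h5 : R ∈ S <;> simp_all, rfl⟩
  obtain ⟨P0, h0⟩ := exists_notMem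
    (s ∪ (S ∪ s.biUnion (fb a)).image (dn b)).finite_toSet
  simp only [Finset.mem_coe, Finset.mem_union, Finset.mem_image, Finset.mem_biUnion, mem_fb,
    not_or, not_exists, not_and, exists_eq_right'] at h0
  have hs2 : ∀ R, dn b R = P0 → R ∉ S ∧ dn a R ∉ s ∧ dn a R ≠ P0 := fun R hR =>
    ⟨fun h => h0.2 R (Or.inl h) hR, fun h => h0.2 R (Or.inr h) hR,
      fun h => h0.2 R (Or.inl ((hS R).1 (h.trans hR.symm))) hR⟩
  have hD := nc_of_nonspecial h1 (by omega) h0.1
  set T := S ∪ (fb b P0 ∪ s.biUnion (fb a)) with hT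
  have mT : ∀ R, R ∈ T ↔ R ∈ S ∨ dn b R = P0 ∨ dn a R ∈ s := fun R => by
    simp [hT, mem_fb]
  obtain ⟨y, c, hy, hc, hy1⟩ := exists_coord (insert P0 (s ∪ (T.image (dn a) ∪ T.image (dn b))))
    (by simp)
  set Z := insert P0 (s ∪ (T.image (dn a) ∪ T.image (dn b))) with hZ
  have z0 : P0 ∈ Z := by simp [hZ]
  have zs : ∀ P ∈ s, P ∈ Z := fun P hP => by simp [hZ, hP]
  have za : ∀ R ∈ T, dn a R ∈ Z := fun R hR => by
    simp only [hZ, Finset.mem_insert, Finset.mem_union, Finset.mem_image]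
    exact Or.inr (Or.inr (Or.inl ⟨R, hR, rfl⟩))
  have zb : ∀ R ∈ T, dn b R ∈ Z := fun R hR => by
    simp only [hZ, Finset.mem_insert, Finset.mem_union, Finset.mem_image]
    exact Or.inr (Or.inr (Or.inr ⟨R, hR, rfl⟩))
  have zv : ∀ P ∈ Z, Val P y (c P) := fun P hP => val_of_pos (by rw [hy1 P hP]; exact one_pos)
  obtain ⟨n, e, es, h⟩ := hD.exists_bas hy
  obtain ⟨hw, α, w, hα, hw1, -, h4⟩ := h.dual_basis h0.1 hD (c := c)
    (fun P hP => hy1 P (zs P hP)) (hy1 P0 z0)
    fun P hP h5 => h0.1 (by rw [hc z0 (zs P hP) h5]; exact hP)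
  set D := dvs s - Finsupp.single P0 1 with hDd
  have hD0 : D P0 = -1 := by
    rw [hDd, Finsupp.sub_apply, dvs_apply, if_neg h0.1, Finsupp.single_eq_same, zero_sub]
  have hD2 : ∀ P, P ≠ P0 → 0 ≤ D P := fun P hP => by
    rw [hDd, Finsupp.sub_apply, dvs_apply, Finsupp.single_eq_of_ne hP, sub_zero]
    split_ifs <;> omega
  have hD3 : ∀ P, P ∉ s → D P ≤ 0 := fun P hP => by
    rw [hDd, Finsupp.sub_apply, dvs_apply, if_neg hP, Finsupp.single_apply]
    split_ifs <;> omega
  have hab : b y ≠ a y := fun h5 => by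
    obtain ⟨R, hR⟩ := exists_dn b P0
    have h6 : R ∈ T := (mT R).2 (Or.inr (Or.inl hR))
    have h7 := val_emb b (zv _ (zb R h6))
    rw [h5] at h7
    exact (hs2 R hR).2.2 ((hc (za R h6) (zb R h6) ((val_emb a (zv _ (za R h6))).unique h7)).trans hR)
  have hpos : ∀ R, ∀ hR : dn a R ∈ s, ∃ ν : k, Res δ (ker a b δ y e es) R ν ∧
      Val R (b (w ⟨_, hR⟩) * δ (b y) / δ (a y)) ν := fun R hR => by
    have h6 : R ∈ T := (mT R).2 (Or.inr (Or.inr hR))
    rw [hw1]
    exact res_pos hD h hδ (hy1 _ (za R h6)) (hs1 R hR).2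
      (hD2 _ fun h7 => (hs2 R h7).2.1 hR) (zv _ (zb R h6))
      (fun h7 => (hs1 R hR).1 ((hS R).1 (hc (zb R h6) (za R h6) h7).symm)) (hα ⟨_, hR⟩)
  choose! ν hν using hpos
  have hsum := res_sum hδ (θ := ker a b δ y e es) T
    (fun R => if R ∈ S then (rm b R : k) / (1 - u R) else if dn b R = P0 then -(rm b R : k)
      else ν R) (fun R hR => by
      split_ifs with h5 h6
      · obtain ⟨h7, t, h8, h9⟩ := hu R h5
        have h10 := (hS R).2 h5
        refine res_fix hD h hδ h10 (le_antisymm (hD3 _ fun h11 => (hs1 R (h10 ▸ h11)).1 h5)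
          (hD2 _ fun h11 => (hs2 R h11).1 h5)) (hy1 _ (zb R hR)) h7 h8 h9
      · have h7 := hs2 R h6
        refine res_neg hD h hδ (hy1 _ (zb R hR)) (by rw [h6, hD0]) (by rw [h6]; exact hD2)
          (le_antisymm (hD3 _ h7.2.1) (hD2 _ h7.2.2)) (zv _ (za R hR))
          fun h8 => h7.2.2 ((hc (za R hR) (zb R hR) h8).trans h6)
      · exact (hν R ((((mT R).1 hR).resolve_left h5).resolve_left h6)).1) (fun R hR => by
      rw [mT, not_or, not_or] at hR
      refine res_of_reg hδ (Mge_mono R ?_ (loc hD h hδ hab fun h5 => hR.1 ((hS R).1 h5)))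
      have h5 := hD2 _ hR.2.1
      have h6 := hD3 _ hR.2.2
      have h7 : (1 : ℤ) ≤ rm b R := by exact_mod_cast rm_pos b R
      have h8 : (0 : ℤ) ≤ rm a R := by positivity
      nlinarith)
  rw [hT, Finset.sum_union (by
      rw [Finset.disjoint_left]
      intro R h5 h6
      simp only [Finset.mem_union, Finset.mem_biUnion, mem_fb, exists_eq_right'] at h6
      exact h6.elim (fun h7 => (hs2 R h7).1 h5) fun h7 => (hs1 R h7).1 h5),
    Finset.sum_union (by
      rw [Finset.disjoint_left]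
      intro R h5 h6
      simp only [Finset.mem_biUnion, mem_fb, exists_eq_right'] at h5 h6
      exact (hs2 R h5).2.1 h6),
    Finset.sum_biUnion (fun P _ Q _ hPQ => Finset.disjoint_left.2 fun R h5 h6 =>
      hPQ ((mem_fb.1 h5).symm.trans (mem_fb.1 h6))),
    Finset.sum_congr rfl (fun R hR => if_pos hR),
    Finset.sum_congr rfl (s₁ := fb b P0) (g := fun R => -(rm b R : k)) (fun R hR => by
      rw [if_neg (hs2 R (mem_fb.1 hR)).1, if_pos (mem_fb.1 hR)]),
    Finset.sum_neg_distrib, ← Nat.cast_sum, sum_rm, ← Finset.sum_coe_sort s] at hsum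
  obtain ⟨φ, hφ⟩ := trace_hk_chg (a := a) (b := b) hx hy hδ
  rw [hφ, LinearMap.trace_conj', trace_eq_sum w (fun P => evl h.nc (hw P)) h4]
  have h5 : ∀ P : s, evl h.nc (hw P) (hk a b hy hδ (w P)) =
      ∑ R ∈ fb a P, (if R ∈ S then (rm b R : k) / (1 - u R) else if dn b R = P0 then -(rm b R : k)
        else ν R) := by
    rintro ⟨P, hP⟩
    have h6 := trc_val a P (z := b (w ⟨P, hP⟩) * δ (b y) / δ (a y)) (c := ν) fun R hR => by
      subst hR
      exact (hν R hP).2
    rw [(val_evl h.nc (hw ⟨P, hP⟩) _).unique h6]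
    refine Finset.sum_congr rfl fun R hR => ?_
    have h7 : dn a R ∈ s := by rw [mem_fb.1 hR]; exact hP
    rw [if_neg (hs1 R h7).1, if_neg fun h8 => (hs2 R h8).2.1 h7, (hs1 R h7).2, Nat.cast_one,
      one_mul]
  rw [Finset.sum_congr rfl fun P _ => h5 P]
  linear_combination hsum

end Vale.Agent.P022K.F0.Lef
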