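import Vale.Agent.P025.R2.H492.Genus
import Vale.Agent.P025.R2.H492.HTr
import Vale.Agent.P025.R2.H133.Der
import Vale.Agent.P027M.K.Red

/-!
# Lefschetz formula, file 1: embeddings of function fields, traces, residues at simple poles
-/

set_option linter.all false

namespace Vale.Agent.P022K.F0.Lef

open Vale.Agent.P019P P025H492 P027M.K IntermediateField Polynomial

section basic

variable {k F : Type*} [Field k] [Field F] [Algebra k F] [CFF k F]

theorem mge_ord (P : Plk k F) (z : F) : z ∈ Mge P (ord P z) := mem_Mge.2 (Or.inr le_rfl)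

theorem mge_of_le {P : Plk k F} {z : F} {n : ℤ} (h : n ≤ ord P z) : z ∈ Mge P n :=
  mem_Mge.2 (Or.inr h)

theorem le_ord {P : Plk k F} {z : F} {n : ℤ} (h : z ∈ Mge P n) (hz : z ≠ 0) : n ≤ ord P z :=
  (mem_Mge.1 h).resolve_left hz

theorem mge_mul {P : Plk k F} {z w : F} {m n l : ℤ} (hz : z ∈ Mge P m) (hw : w ∈ Mge P n)
    (h : l ≤ m + n) : z * w ∈ Mge P l := Mge_mono P h (mul_mem_Mge hz hw)

theorem mge_div {P : Plk k F} {z w : F} {m l : ℤ} (hz : z ∈ Mge P m)
    (h : l ≤ m - ord P w) : z / w ∈ Mge P l := by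
  rw [div_eq_mul_inv]
  exact mge_mul hz (mge_ord P _) (by rw [ord_inv]; omega)

theorem ne_of_ord {P : Plk k F} {z : F} (h : ord P z ≠ 0) : z ≠ 0 := by
  rintro rfl
  exact h (ord_zero P)

theorem ord_div (P : Plk k F) {z w : F} (hz : z ≠ 0) (hw : w ≠ 0) :
    ord P (z / w) = ord P z - ord P w := by
  rw [div_eq_mul_inv, ord_mul P hz (inv_ne_zero hw), ord_inv, sub_eq_add_neg]

theorem val_inv {P : Plk k F} {z : F} {c : k} (h : Val P z c) (hc : c ≠ 0) : Val P z⁻¹ c⁻¹ := by
  obtain ⟨h0, h1⟩ := h.unit hc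
  obtain ⟨d, hd⟩ := exists_val (P := P) (z := z⁻¹) (mge_of_le (by rw [ord_inv, h1]; simp))
  have h2 := h.mul hd
  rw [mul_inv_cancel₀ h0] at h2
  have h3 := h2.unique (Val.one P)
  rwa [← eq_inv_of_mul_eq_one_right h3]

theorem val_div {P : Plk k F} {z w : F} {c d : k} (h : Val P z c) (h' : Val P w d) (hd : d ≠ 0) :
    Val P (z / w) (c / d) := by
  rw [div_eq_mul_inv, div_eq_mul_inv]
  exact h.mul (val_inv h' hd)

theorem val_smul {P : Plk k F} {z : F} {c : k} (h : Val P z c) (a : k) :
    Val P (a • z) (a * c) := by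
  rw [Algebra.smul_def]
  exact (Val.const P a).mul h

theorem val_aeval {P : Plk k F} {z : F} {c : k} (h : Val P z c) (q : k[X]) :
    Val P (aeval z q) (q.eval c) := cg_aeval h q

theorem val_of_pos {P : Plk k F} {z : F} {c : k} (h : 0 < ord P (z - algebraMap k F c)) :
    Val P z c := mem_Mge_one_of_pos h

theorem pos_of_val {P : Plk k F} {z : F} {c : k} (hz : ∀ a : k, z ≠ algebraMap k F a)
    (h : Val P z c) : 0 < ord P (z - algebraMap k F c) := by
  have := le_ord h (sub_ne_zero.2 (hz c))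
  omega

theorem ord_sub_pole {P : Plk k F} {z : F} (h : ord P z < 0) (c : k) :
    ord P (z - algebraMap k F c) = ord P z := by
  have h1 := ord_add_of_lt (P := P) (ne_of_ord h.ne) (w := -algebraMap k F c)
    (neg_mem (Mge_mono P (by omega) (const_mem P c)))
  rw [sub_eq_add_neg]
  exact h1.2

theorem eq_zero_of_van {z : F} (h : ∀ P : Plk k F, z ∈ Mge P 0) {P : Plk k F}
    (hP : z ∈ Mge P 1) : z = 0 := by
  obtain ⟨a, rfl⟩ := LL_zero_le (k := k) (z := z) (mem_LL_iff.2 fun Q => by simpa using h Q)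
  rw [const_notMem hP, map_zero]

theorem eq_const_of_val {z : F} (h : ∀ P : Plk k F, z ∈ Mge P 0) {P : Plk k F} {c : k}
    (hP : Val P z c) : z = algebraMap k F c :=
  sub_eq_zero.1 (eq_zero_of_van (fun Q => sub_mem (h Q) (const_mem Q c)) hP)

variable (k F) in
theorem exists_nc : ∃ x : F, ∀ a : k, x ≠ algebraMap k F a := by
  obtain ⟨x, hx, _⟩ := CFF.ex (k := k) (F := F)
  exact ⟨x, fun a h => hx (h ▸ isAlgebraic_algebraMap a)⟩

theorem exists_notMem {B : Set (Plk k F)} (hB : B.Finite) : ∃ P, P ∉ B := by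
  have : IsAlgClosed k := CFF.ac F
  obtain ⟨x, hx⟩ := exists_nc k F
  choose f hf using fun c : k => exists_zero (nc_sub hx c)
  have hinj : Function.Injective f := fun c d h => by
    have h1 := val_of_pos (hf c)
    rw [h] at h1
    exact h1.unique (val_of_pos (hf d))
  have : Infinite (Plk k F) := Infinite.of_injective f hinj
  exact hB.exists_notMem

end basic

section tower

variable {k K L : Type*} [Field k] [Field K] [Field L] [Algebra k K] [Algebra k L]
  [Algebra K L] [IsScalarTower k K L] [CFF k K] [CFF k L] [FiniteDimensional K L] [CharZero k]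

theorem trace_mge (P : Plk k K) (z : L) (m : ℤ)
    (h : ∀ R : Plk k L, down K R = P → z ∈ Mge R (1 + ram K R * m)) :
    Algebra.trace K L z ∈ Mge P (1 + m) := by
  obtain ⟨t, ht0, ht⟩ := exists_unif P
  have h1 := trace_residue P (algebraMap K L (t ^ (-m)) * z) (fun _ => 0) fun R hR => by
    rw [map_zero, sub_zero]
    refine mge_mul (mge_ord R _) (h R hR) ?_
    rw [ord_algebraMap, hR, ord_zpow, ht]
    linarith
  simp only [mul_zero, Finset.sum_const_zero, map_zero, sub_zero] at h1
  rw [← Algebra.smul_def, map_smul, smul_eq_mul, mul_mem_Mge_iff (zpow_ne_zero _ ht0), ord_zpow,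
    ht] at h1
  simpa using h1

end tower

section emb

variable {k K L : Type*} [Field k] [Field K] [Field L] [Algebra k K] [Algebra k L]
  [CFF k K] [CFF k L]

/-- the algebra structure given by an embedding -/
abbrev alg (a : K →ₐ[k] L) : Algebra K L := (a : K →+* L).toAlgebra

theorem tow (a : K →ₐ[k] L) : letI := alg a; IsScalarTower k K L :=
  letI := alg a
  IsScalarTower.of_algebraMap_eq fun c => (a.commutes c).symm

theorem fd (a : K →ₐ[k] L) : letI := alg a; FiniteDimensional K L :=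
  letI := alg a
  haveI := tow a
  finite_of_transcendental (k := k) (CFF.ex (k := k) (F := K)).choose_spec.1

/-- the place below, along an embedding -/
noncomputable def dn (a : K →ₐ[k] L) (R : Plk k L) : Plk k K :=
  letI := alg a
  haveI := tow a
  haveI := fd a
  down K R

/-- the ramification index, along an embedding -/
noncomputable def rm (a : K →ₐ[k] L) (R : Plk k L) : ℕ :=
  letI := alg a
  haveI := tow a
  haveI := fd a
  ram K R

/-- the trace, along an embedding -/
noncomputable def trc (a : K →ₐ[k] L) (z : L) : K :=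
  letI := alg a
  Algebra.trace K L z

/-- the degree of an embedding -/
noncomputable def dgr (a : K →ₐ[k] L) : ℕ :=
  letI := alg a
  Module.finrank K L

theorem mem_dn (a : K →ₐ[k] L) (R : Plk k L) (z : K) : z ∈ (dn a R).1 ↔ a z ∈ R.1 := Iff.rfl

theorem ord_emb (a : K →ₐ[k] L) (R : Plk k L) (z : K) :
    ord R (a z) = rm a R * ord (dn a R) z :=
  letI := alg a
  haveI := tow a
  haveI := fd a
  ord_algebraMap R z

theorem rm_pos (a : K →ₐ[k] L) (R : Plk k L) : 0 < rm a R :=
  letI := alg a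
  haveI := tow a
  haveI := fd a
  ram_pos R

theorem val_emb (a : K →ₐ[k] L) {R : Plk k L} {z : K} {c : k} (h : Val (dn a R) z c) :
    Val R (a z) c :=
  letI := alg a
  haveI := tow a
  haveI := fd a
  Val.up (K := K) h

theorem mge_emb (a : K →ₐ[k] L) {R : Plk k L} {z : K} {n : ℤ} (h : z ∈ Mge (dn a R) n) :
    a z ∈ Mge R (rm a R * n) := by
  rcases mem_Mge.1 h with h | h
  · rw [h, map_zero]; exact zero_mem _
  · refine mge_of_le ?_
    rw [ord_emb]
    exact mul_le_mul_of_nonneg_left h (by positivity)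

theorem nc_emb (a : K →ₐ[k] L) {x : K} (hx : ∀ c : k, x ≠ algebraMap k K c) (c : k) :
    a x ≠ algebraMap k L c := fun h => hx c (a.injective (h.trans (a.commutes c).symm))

theorem fib_fin (a : K →ₐ[k] L) (P : Plk k K) : {R : Plk k L | dn a R = P}.Finite :=
  letI := alg a
  haveI := tow a
  haveI := fd a
  over_finite P

/-- the fibre of a place along an embedding -/
noncomputable def fb (a : K →ₐ[k] L) (P : Plk k K) : Finset (Plk k L) := (fib_fin a P).toFinset

theorem mem_fb {a : K →ₐ[k] L} {P : Plk k K} {R : Plk k L} : R ∈ fb a P ↔ dn a R = P := by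
  rw [fb, Set.Finite.mem_toFinset]
  rfl

theorem sum_rm (a : K →ₐ[k] L) (P : Plk k K) : ∑ R ∈ fb a P, rm a R = dgr a :=
  letI := alg a
  haveI := tow a
  haveI := fd a
  sum_ram P

theorem exists_dn (a : K →ₐ[k] L) (P : Plk k K) : ∃ R : Plk k L, dn a R = P :=
  letI := alg a
  haveI := tow a
  haveI := fd a
  exists_over P

theorem wd_emb (a : K →ₐ[k] L) {x : K} (hx : ∀ c : k, x ≠ algebraMap k K c) (R : Plk k L) :
    wd (a x) R = rm a R * (wd x (dn a R) + 1) - 1 :=
  letI := alg a
  haveI := tow a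
  haveI := fd a
  wd_up hx R

theorem trc_add (a : K →ₐ[k] L) (z w : L) : trc a (z + w) = trc a z + trc a w :=
  letI := alg a
  map_add (Algebra.trace K L) z w

theorem trc_mul (a : K →ₐ[k] L) (y : K) (z : L) : trc a (a y * z) = y * trc a z :=
  letI := alg a
  map_smul (Algebra.trace K L) y z

theorem trc_smul (a : K →ₐ[k] L) (c : k) (z : L) : trc a (c • z) = c • trc a z := by
  rw [Algebra.smul_def, Algebra.smul_def, ← a.commutes, trc_mul]

variable [CharZero k]

theorem rm_fin (a : K →ₐ[k] L) : {R : Plk k L | rm a R ≠ 1}.Finite :=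
  letI := alg a
  haveI := tow a
  haveI := fd a
  ram_finite k K L

theorem trc_val (a : K →ₐ[k] L) (P : Plk k K) {z : L} {c : Plk k L → k}
    (h : ∀ R : Plk k L, dn a R = P → Val R z (c R)) :
    Val P (trc a z) (∑ R ∈ fb a P, (rm a R : k) * c R) :=
  letI := alg a
  haveI := tow a
  haveI := fd a
  trace_residue P z c h

theorem trc_mge (a : K →ₐ[k] L) (P : Plk k K) {z : L} (m : ℤ)
    (h : ∀ R : Plk k L, dn a R = P → z ∈ Mge R (1 + rm a R * m)) : trc a z ∈ Mge P (1 + m) :=
  letI := alg a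
  haveI := tow a
  haveI := fd a
  trace_mge P z m h

/-- the chain rule along an embedding -/
theorem chain (a : K →ₐ[k] L) (D : Derivation k L L) {d : Derivation k K K} {x : K}
    (hx : ∀ c : k, x ≠ algebraMap k K c) (hd : d x = 1) (y : K) :
    D (a y) = a (d y) * D (a x) := by
  letI := alg a
  haveI := tow a
  haveI : FiniteDimensional k⟮x⟯ K := (finite_of_notMem hx).2
  haveI := isSep x hx
  haveI : Algebra.FormallyUnramified k⟮x⟯ K := Algebra.FormallyUnramified.of_isSeparable _ _
  let δ : K → L := fun y => D (a y) - a (d y) * D (a x)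
  have hadd : ∀ y z, δ (y + z) = δ y + δ z := fun y z => by
    simp only [δ, map_add]; ring
  have hmul : ∀ y z, δ (y * z) = a y * δ z + a z * δ y := fun y z => by
    simp only [δ, map_mul, Derivation.leibniz, smul_eq_mul, map_add]; ring
  have hone : δ 1 = 0 := by simp [δ]
  have hpol : ∀ p : k[X], δ (aeval x p) = 0 := fun p => by
    simp only [δ]
    rw [← aeval_algHom_apply, D.map_aeval, d.map_aeval, hd, smul_eq_mul, smul_eq_mul, mul_one,
      ← aeval_algHom_apply, sub_self]
  have h0 : ∀ y ∈ k⟮x⟯, δ y = 0 := by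
    intro y hy
    obtain ⟨p, q, rfl⟩ := (mem_adjoin_simple_iff k y).1 hy
    by_cases hq : aeval x q = 0
    · rw [hq, div_zero]; simp [δ]
    have h1 := hmul (aeval x q) (aeval x p / aeval x q)
    rw [mul_div_cancel₀ _ hq, hpol, hpol, mul_zero, add_zero] at h1
    exact (mul_eq_zero.1 h1.symm).resolve_left ((_root_.map_ne_zero a).2 hq)
  letI : Algebra k⟮x⟯ L := ((a : K →+* L).comp (algebraMap k⟮x⟯ K)).toAlgebra
  haveI : IsScalarTower k⟮x⟯ K L := IsScalarTower.of_algebraMap_eq fun _ => rfl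
  let D' : Derivation k⟮x⟯ K L :=
    { toFun := δ
      map_add' := hadd
      map_smul' := fun c z => by
        rw [Algebra.smul_def, hmul, h0 (algebraMap k⟮x⟯ K c) c.2, mul_zero, add_zero]
        rfl
      map_one_eq_zero' := hone
      leibniz' := hmul }
  have h3 := D'.liftKaehlerDifferential_comp_D y
  rw [Subsingleton.elim (KaehlerDifferential.D k⟮x⟯ K y) 0, map_zero] at h3
  exact sub_eq_zero.1 h3.symm

end emb

section bridge

variable {k K L : Type*} [Field k] [Field K] [Field L] [Algebra k K] [Algebra k L]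
  [Algebra K L] [IsScalarTower k K L] [CFF k K] [CFF k L]

theorem alg_toAlgHom : alg (IsScalarTower.toAlgHom k K L) = ‹Algebra K L› :=
  Algebra.algebra_ext _ _ fun _ => rfl

theorem dn_toAlgHom [Algebra.IsAlgebraic K L] (R : Plk k L) :
    dn (IsScalarTower.toAlgHom k K L) R = down K R := rfl

theorem rm_toAlgHom [Algebra.IsAlgebraic K L] (R : Plk k L) :
    rm (IsScalarTower.toAlgHom k K L) R = ram K R := rfl

theorem trc_toAlgHom (z : L) : trc (IsScalarTower.toAlgHom k K L) z = Algebra.trace K L z := by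
  unfold trc
  rw [alg_toAlgHom]

theorem dgr_toAlgHom : dgr (IsScalarTower.toAlgHom k K L) = Module.finrank K L := by
  unfold dgr
  rw [alg_toAlgHom]

end bridge

section line

variable {k F : Type*} [Field k] [Field F] [Algebra k F] [CFF k F] [CharZero k]

/-- the trace to an intermediate field, as an element of the big field -/
noncomputable def tr (E : IntermediateField k F) (z : F) : F :=
  algebraMap E F (Algebra.trace E F z)

theorem tr_add (E : IntermediateField k F) (z w : F) : tr E (z + w) = tr E z + tr E w := by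
  simp only [tr, map_add]

theorem tr_sum (E : IntermediateField k F) {ι : Type*} (s : Finset ι) (z : ι → F) :
    tr E (∑ i ∈ s, z i) = ∑ i ∈ s, tr E (z i) := by
  simp only [tr, map_sum]

theorem tr_mul (E : IntermediateField k F) {y : F} (hy : y ∈ E) (z : F) :
    tr E (y * z) = y * tr E z := by
  have h := map_smul (Algebra.trace E F) (⟨y, hy⟩ : E) z
  rw [Algebra.smul_def, smul_eq_mul] at h
  unfold tr
  rw [show y * z = algebraMap E F ⟨y, hy⟩ * z from rfl, h, map_mul]
  rfl

theorem aeval_mem (x : F) (q : k[X]) : aeval x q ∈ k⟮x⟯ :=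
  (mem_adjoin_simple_iff k _).2 ⟨q, 1, by simp⟩

variable {x : F}

theorem down_line (hx : ∀ a : k, x ≠ algebraMap k F a) [CFF k k⟮x⟯] [FiniteDimensional k⟮x⟯ F]
    {P P' : Plk k F} (h : 0 < ord P x) : down k⟮x⟯ P' = down k⟮x⟯ P ↔ 0 < ord P' x := by
  obtain ⟨Q, hQ, hu⟩ := line_fib hx 0
  rw [map_zero, sub_zero] at hQ hu
  have h1 : ∀ R : Plk k F, 0 < ord R x ↔ down k⟮x⟯ R = Q := fun R => by
    have h2 := ord_up_pos_iff (K := k⟮x⟯) R (AdjoinSimple.gen k x)
    rw [AdjoinSimple.algebraMap_gen] at h2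
    rw [h2]
    exact ⟨hu _, fun h3 => by rw [h3, hQ]; exact one_pos⟩
  rw [(h1 P).1 h, h1]

theorem ram_line (hx : ∀ a : k, x ≠ algebraMap k F a) [CFF k k⟮x⟯] [FiniteDimensional k⟮x⟯ F]
    {P : Plk k F} (h : 0 < ord P x) : (ram k⟮x⟯ P : ℤ) = ord P x := by
  have h1 := ord_sub_eq_ram hx (P := P) (c := 0) (by rwa [map_zero, sub_zero])
  rw [map_zero, sub_zero] at h1
  exact h1.symm

/-- the zeros of a non-constant function -/
noncomputable def zs (hx : ∀ a : k, x ≠ algebraMap k F a) : Finset (Plk k F) :=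
  (zeros_finite hx).toFinset

theorem mem_zs {hx : ∀ a : k, x ≠ algebraMap k F a} {P : Plk k F} : P ∈ zs hx ↔ 0 < ord P x := by
  rw [zs, Set.Finite.mem_toFinset]
  rfl

theorem tr_val (hx : ∀ a : k, x ≠ algebraMap k F a) {P : Plk k F} (hP : 0 < ord P x) {z : F}
    {c : Plk k F → k} (h : ∀ P' : Plk k F, 0 < ord P' x → Val P' z (c P')) :
    Val P (tr k⟮x⟯ z) (∑ P' ∈ zs hx, (ord P' x : k) * c P') := by
  haveI := cff_adjoin hx
  haveI : FiniteDimensional k⟮x⟯ F := (finite_of_notMem hx).2
  have h1 := trace_residue (down k⟮x⟯ P) z c fun P' hP' => h P' ((down_line hx hP).1 hP')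
  have h2 : (over_finite (L := F) (down k⟮x⟯ P)).toFinset = zs hx := by
    ext P'
    rw [mem_over, down_line hx hP, mem_zs]
  rw [h2, Finset.sum_congr rfl (g := fun P' => (ord P' x : k) * c P') fun P' hP' => by
    rw [← ram_line hx (mem_zs.1 hP'), Int.cast_natCast]] at h1
  exact Val.up (K := k⟮x⟯) h1

theorem tr_mge (hx : ∀ a : k, x ≠ algebraMap k F a) {P : Plk k F} (hP : 0 < ord P x) {z : F}
    (m : ℤ) (h : ∀ P' : Plk k F, 0 < ord P' x → z ∈ Mge P' (1 + ord P' x * m)) :
    tr k⟮x⟯ z ∈ Mge P (ord P x * (1 + m)) := by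
  haveI := cff_adjoin hx
  haveI : FiniteDimensional k⟮x⟯ F := (finite_of_notMem hx).2
  have h1 := trace_mge (down k⟮x⟯ P) z m fun P' hP' => by
    have h2 := (down_line hx hP).1 hP'
    rw [ram_line hx h2]
    exact h P' h2
  rcases mem_Mge.1 h1 with h3 | h3
  · unfold tr
    rw [h3, map_zero]
    exact zero_mem _
  · refine mge_of_le ?_
    unfold tr
    rw [ord_algebraMap, ram_line hx hP]
    exact mul_le_mul_of_nonneg_left h3 hP.le

theorem wd_of_pos {P : Plk k F} {c : k} (h : 0 < ord P (x - algebraMap k F c)) :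
    wd x P = ord P (x - algebraMap k F c) - 1 := by
  have h1 := val_of_pos h
  rw [wd, if_pos (ord_nonneg_of_sub h1), vl_eq h1]

theorem wd_of_neg {P : Plk k F} (h : ord P x < 0) : wd x P = ord P x - 1 := by
  rw [wd, if_neg (by omega)]

/-- the trace of a differential with at most the poles of `dx` at infinity removed -/
theorem tr_fin (hx : ∀ a : k, x ≠ algebraMap k F a) {P : Plk k F} {c : k}
    (hP : 0 < ord P (x - algebraMap k F c)) {z : F}
    (h : ∀ P' : Plk k F, 0 < ord P' (x - algebraMap k F c) → z ∈ Mge P' (-wd x P')) :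
    tr k⟮x⟯ z ∈ Mge P 0 := by
  have h1 := tr_mge (nc_sub hx c) hP (z := z) (-1) fun P' hP' => by
    have h2 := h P' hP'
    rw [wd_of_pos hP'] at h2
    exact Mge_mono P' (by omega) h2
  rw [adjoin_sub_eq] at h1
  simpa using h1

theorem tr_inf (hx : ∀ a : k, x ≠ algebraMap k F a) {P : Plk k F} (hP : ord P x < 0) {z : F}
    (h : ∀ P' : Plk k F, ord P' x < 0 → z ∈ Mge P' 1) : tr k⟮x⟯ z ∈ Mge P 1 := by
  have h1 := tr_mge (nc_inv hx) (P := P) (by rw [ord_inv]; omega) (z := z) 0 fun P' hP' => by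
    rw [ord_inv] at hP'
    simpa using h P' (by omega)
  rw [adjoin_inv_eq, ord_inv] at h1
  exact Mge_mono P (by omega) h1

end line

section res

variable {k F : Type*} [Field k] [Field F] [Algebra k F] [CFF k F] [CharZero k]

/-- the differential with value `θ` on the derivation `D` has at most a simple pole at `R`, with
residue `r` -/
def Res (D : Derivation k F F) (θ : F) (R : Plk k F) (r : k) : Prop :=
  ∃ (s : F) (c : k), 0 < ord R s ∧ Val R (s * θ / D s) c ∧ r = (ord R s : k) * c

theorem Res.val {D : Derivation k F F} (hD : D ≠ 0) {θ : F} {R : Plk k F} {r : k}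
    (h : Res D θ R r) {y : F} (hy : 0 < ord R y) : Val R (y * θ / D y) (r / (ord R y : k)) := by
  obtain ⟨s, c, hs, hv, rfl⟩ := h
  have hDy : D y ≠ 0 := D_ne_zero hD hy.ne'
  have hDs : D s ≠ 0 := D_ne_zero hD hs.ne'
  have hs0 : s ≠ 0 := ne_of_ord hs.ne'
  have h1 : Val R ((y - algebraMap k F 0) * (((D y)⁻¹ • D) s / s))
      ((ord R s : k) / (ord R (y - algebraMap k F 0) : k)) :=
    dlog_res (D := (D y)⁻¹ • D) (x := y) (by simp [hDy]) (by rwa [map_zero, sub_zero]) hs0
  rw [map_zero, sub_zero] at h1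
  have h2 := h1.mul hv
  have h3 : y * (((D y)⁻¹ • D) s / s) * (s * θ / D s) = y * θ / D y := by
    simp only [Derivation.smul_apply, smul_eq_mul]
    field_simp
  rw [h3] at h2
  rwa [mul_div_right_comm (ord R s : k)]

theorem res_of_reg {D : Derivation k F F} (hD : D ≠ 0) {θ : F} {R : Plk k F}
    (h : θ ∈ Mge R (ordD D R)) : Res D θ R 0 := by
  obtain ⟨s, hs0, hs⟩ := exists_unif R
  refine ⟨s, 0, by omega, Val.zero_iff.2 ?_, by simp⟩
  refine mge_div (mge_mul (mge_ord R s) h le_rfl) ?_
  rw [hs, ordD_eq hD hs]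
  omega

/-- **the residue theorem** for differentials with simple poles -/
theorem res_sum {D : Derivation k F F} (hD : D ≠ 0) {θ : F} (S : Finset (Plk k F))
    (r : Plk k F → k) (h : ∀ R ∈ S, Res D θ R (r R)) (h' : ∀ R, R ∉ S → Res D θ R 0) :
    ∑ R ∈ S, r R = 0 := by
  classical
  rcases S.eq_empty_or_nonempty with rfl | ⟨R0, hR0⟩
  · simp
  obtain ⟨y, hy0, hy⟩ := exists_ord_eq S fun _ => 1
  have hyc : ∀ a : k, y ≠ algebraMap k F a := nc_of_ord (P := R0) (by rw [hy R0 hR0]; simp)
  have hDy : D y ≠ 0 := der_ne_zero hD hyc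
  have hv : ∀ R : Plk k F, 0 < ord R y →
      Val R (y * θ / D y) ((if R ∈ S then r R else 0) / (ord R y : k)) := fun R hR => by
    split_ifs with hS
    · exact (h R hS).val hD hR
    · exact (h' R hS).val hD hR
  have hz : ∀ R : Plk k F, 0 < ord R y → Val R (tr k⟮y⟯ (y * θ / D y)) (∑ R ∈ S, r R) := by
    intro R hR
    have h1 := tr_val hyc hR hv
    have h2 : ∑ P' ∈ zs hyc, (ord P' y : k) * ((if P' ∈ S then r P' else 0) / (ord P' y : k)) =
        ∑ R ∈ S, r R := by
      rw [Finset.sum_congr rfl (g := fun P' => if P' ∈ S then r P' else 0) fun P' hP' =>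
        mul_div_cancel₀ _ (by exact_mod_cast (mem_zs.1 hP').ne'), Finset.sum_ite_mem,
        Finset.inter_eq_right.2 fun R hR => mem_zs.2 (by rw [hy R hR]; exact one_pos)]
    rwa [h2] at h1
  have hinf : ∀ R : Plk k F, ord R y < 0 → tr k⟮y⟯ (y * θ / D y) ∈ Mge R 1 := by
    intro R hR
    refine tr_inf hyc hR fun P hP => ?_
    have h1 := (h' P fun hS => by rw [hy P hS] at hP; omega).val hD (y := y⁻¹)
      (by rw [ord_inv]; omega)
    rw [zero_div, Val.zero_iff, D.leibniz_inv] at h1
    have h2 : y * θ / D y = -(y⁻¹ * θ / (-y⁻¹ ^ 2 • D y)) := by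
      rw [smul_eq_mul]
      field_simp
    rw [h2]
    exact neg_mem h1
  have hall : ∀ R : Plk k F, tr k⟮y⟯ (y * θ / D y) ∈ Mge R 0 := by
    intro R
    rcases lt_trichotomy (ord R y) 0 with h0 | h0 | h0
    · exact Mge_mono R (by omega) (hinf R h0)
    · have h1 := val_vl h0.ge
      have hc := h1.ne_zero hy0 h0
      refine tr_fin hyc (pos_of_val hyc h1) fun P hP => ?_
      have h2 := ((val_of_pos hP).unit hc).2
      have h3 := (h' P fun hS => by rw [hy P hS] at h2; omega).val hD hP
      rw [zero_div, Val.zero_iff, map_sub, Derivation.map_algebraMap, sub_zero, mul_div_assoc,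
        mul_mem_Mge_iff (ne_of_ord hP.ne')] at h3
      rw [mul_div_assoc, wd_of_pos hP]
      exact mge_mul (mge_ord P y) h3 (by omega)
    · exact (hz R h0).mem
  obtain ⟨Q, hQ⟩ := exists_pole hyc
  have h0 := eq_zero_of_van hall (hinf Q hQ)
  have h1 := hz R0 (by rw [hy R0 hR0]; exact one_pos)
  rw [h0] at h1
  exact h1.unique (Val.zero_iff.2 (zero_mem _))

end res

end Vale.Agent.P022K.F0.Lef
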