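import Vale.Agent.P022K.F0.Lef1

/-!
# Lefschetz formula, file 2: the kernel attached to a divisor without cohomology
-/

set_option linter.all false

namespace Vale.Agent.P022K.F0.Lef

open Vale.Agent.P019P P025H492 P027M.K IntermediateField Polynomial

variable {k K : Type*} [Field k] [Field K] [Algebra k K] [CFF k K] [CharZero k]

/-- a divisor without cohomology -/
structure NC (D : Plk k K →₀ ℤ) : Prop where
  bot : LL k D = ⊥
  deg : dg D = (gen k K : ℤ) - 1

theorem NC.l {D E : Plk k K →₀ ℤ} (h : NC D) (hE : 0 ≤ E) :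
    (Module.finrank k (LL k (D + E)) : ℤ) = dg E := by
  have h1 := RR D
  rw [h.bot, h.deg, finrank_bot] at h1
  have h2 := RR (D + E)
  have h3 : Module.finrank k (LL k (can k K - (D + E))) ≤ Module.finrank k (LL k (can k K - D)) :=
    l_mono (by rw [← sub_sub]; exact sub_le_self _ hE)
  rw [map_add, h.deg] at h2
  omega

theorem pol_of_nonneg {x : K} {P : Plk k K} (h : 0 ≤ ord P x) : pol k x P = 0 := by
  rw [pol_apply]; omega

theorem pol_of_neg {x : K} {P : Plk k K} (h : ord P x < 0) : pol k x P = -ord P x := by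
  rw [pol_apply]; omega

theorem pow_mul_mem {D : Plk k K →₀ ℤ} {x v : K} (hv : v ∈ LL k (D + pol k x)) {j m : ℕ}
    (h : j < m) : x ^ j * v ∈ LL k (D + m • pol k x) := by
  rw [mem_LL_iff] at hv ⊢
  intro P
  refine mge_mul (mge_ord P _) (hv P) ?_
  rw [ord_pow]
  simp only [Finsupp.add_apply, Finsupp.smul_apply, nsmul_eq_mul]
  rcases le_or_gt 0 (ord P x) with h0 | h0
  · rw [pol_of_nonneg h0]
    have : 0 ≤ (j : ℤ) * ord P x := by positivity
    omega
  · rw [pol_of_neg h0]
    have : (j : ℤ) + 1 ≤ m := by exact_mod_cast h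
    nlinarith

theorem NC.horner {D : Plk k K →₀ ℤ} (h : NC D) {x : K} (hx : x ≠ 0) (v : ℕ → K)
    (hv : ∀ j, v j ∈ LL k (D + pol k x)) (m : ℕ) :
    ∑ j ∈ Finset.range m, x ^ j * v j = 0 → ∀ j < m, v j = 0 := by
  induction m with
  | zero => intro _ j hj; omega
  | succ m ih =>
    intro h0
    rw [Finset.sum_range_succ] at h0
    have h1 : x ^ m * v m ∈ LL k (D + m • pol k x) := by
      rw [eq_neg_of_add_eq_zero_right h0]
      exact neg_mem (Submodule.sum_mem _ fun j hj => pow_mul_mem (hv j) (Finset.mem_range.1 hj))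
    have h2 : v m ∈ LL k D := by
      rw [mem_LL_iff]
      intro P
      rcases le_or_gt 0 (ord P x) with h3 | h3
      · have h4 := mem_LL_iff.1 (hv m) P
        rwa [Finsupp.add_apply, pol_of_nonneg h3, add_zero] at h4
      · have h4 := mem_LL_iff.1 h1 P
        rw [mul_mem_Mge_iff (pow_ne_zero _ hx), ord_pow] at h4
        simp only [Finsupp.add_apply, Finsupp.smul_apply, nsmul_eq_mul, pol_of_neg h3] at h4
        exact Mge_mono P (by linarith) h4
    rw [h.bot, Submodule.mem_bot] at h2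
    rw [h2, mul_zero, add_zero] at h0
    intro j hj
    rcases Nat.lt_succ_iff_lt_or_eq.1 hj with h5 | rfl
    · exact ih h0 j h5
    · exact h2

theorem NC.onto {D : Plk k K →₀ ℤ} (h : NC D) {x : K} (hx : x ≠ 0) {m : ℕ} {z : K}
    (hz : z ∈ LL k (D + m • pol k x)) :
    ∃ v : Fin m → LL k (D + pol k x), z = ∑ j : Fin m, x ^ (j : ℕ) * (v j : K) := by
  let Ψ : (Fin m → LL k (D + pol k x)) →ₗ[k] LL k (D + m • pol k x) :=
    { toFun := fun v => ⟨∑ j : Fin m, x ^ (j : ℕ) * (v j : K),
        Submodule.sum_mem _ fun j _ => pow_mul_mem (v j).2 j.2⟩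
      map_add' := fun v w => Subtype.ext (by simp [mul_add, Finset.sum_add_distrib])
      map_smul' := fun c v => Subtype.ext (by simp [Finset.smul_sum]) }
  have hinj : Function.Injective Ψ := by
    rw [injective_iff_map_eq_zero]
    intro v hv
    have h1 : ∑ j : Fin m, x ^ (j : ℕ) * (v j : K) = 0 := congrArg Subtype.val hv
    have h2 := h.horner hx (fun j => if hj : j < m then (v ⟨j, hj⟩ : K) else 0)
      (fun j => by
        split_ifs with hj
        · exact (v _).2
        · exact zero_mem _) m (by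
        rw [← Fin.sum_univ_eq_sum_range (fun j => x ^ j *
          (if hj : j < m then (v ⟨j, hj⟩ : K) else 0)) m]
        exact (Finset.sum_congr rfl fun j _ => by rw [dif_pos j.2]).trans h1)
    funext j
    have h3 := h2 j j.2
    rw [dif_pos j.2] at h3
    exact Subtype.ext h3
  have hdim : Module.finrank k (Fin m → LL k (D + pol k x)) =
      Module.finrank k (LL k (D + m • pol k x)) := by
    have h1 := h.l (pol_nonneg (k := k) x)
    have h2 := h.l (E := m • pol k x) (nsmul_nonneg (pol_nonneg x) m)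
    rw [map_nsmul, ← h1, nsmul_eq_mul] at h2
    rw [Module.finrank_pi_fintype, Finset.sum_const, Finset.card_univ, Fintype.card_fin,
      smul_eq_mul]
    exact_mod_cast h2.symm
  obtain ⟨v, hv⟩ := (LinearMap.injective_iff_surjective_of_finrank_eq_finrank hdim).1 hinj ⟨z, hz⟩
  exact ⟨v, (congrArg Subtype.val hv).symm⟩

theorem exists_mem_nsmul (D : Plk k K →₀ ℤ) {x z : K}
    (hz : ∀ P, 0 ≤ ord P x → z ∈ Mge P (-D P)) : ∃ m : ℕ, z ∈ LL k (D + m • pol k x) := by
  refine ⟨∑ P ∈ (pol k x).support, (ord P z + D P).natAbs, mem_LL_iff.2 fun P => ?_⟩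
  simp only [Finsupp.add_apply, Finsupp.smul_apply, nsmul_eq_mul]
  rcases le_or_gt 0 (ord P x) with h0 | h0
  · rw [pol_of_nonneg h0]
    simpa using hz P h0
  · refine mge_of_le ?_
    have h1 : P ∈ (pol k x).support := by
      rw [Finsupp.mem_support_iff, pol_of_neg h0]; omega
    have h2 := Finset.single_le_sum (f := fun P => (ord P z + D P).natAbs)
      (fun _ _ => Nat.zero_le _) h1
    rw [pol_of_neg h0]
    generalize (∑ P ∈ (pol k x).support, (ord P z + D P).natAbs) = N at h2 ⊢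
    have h3 : -(ord P z + D P) ≤ (N : ℤ) := by omega
    have h4 : (0 : ℤ) ≤ N := by positivity
    nlinarith

/-- strong approximation -/
theorem strong (D : Plk k K →₀ ℤ) {x : K} (hx : ∀ a : k, x ≠ algebraMap k K a)
    (S : Finset (Plk k K)) (hS : ∀ P ∈ S, 0 ≤ ord P x) (M : Plk k K → ℤ) {P0 : Plk k K}
    (h0 : P0 ∈ S) : ∃ z : K, z ≠ 0 ∧ ord P0 z = M P0 ∧ (∀ P ∈ S, M P ≤ ord P z) ∧
      ∀ P, P ∉ S → 0 ≤ ord P x → -D P ≤ ord P z := by
  classical
  let E0 : Plk k K →₀ ℤ := D + ∑ P ∈ S, Finsupp.single P (-M P - D P)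
  have hE : ∀ P, E0 P = if P ∈ S then -M P else D P := fun P => by
    simp only [E0, Finsupp.add_apply, Finsupp.finsetSum_apply, Finsupp.single_apply,
      Finset.sum_ite_eq']
    split_ifs <;> ring
  have hp : 1 ≤ dg (pol k x) := by
    haveI : FiniteDimensional k⟮x⟯ K := (finite_of_notMem hx).2
    rw [dg_pol hx]
    exact_mod_cast Module.finrank_pos
  obtain ⟨z, hz0, hz, hz1⟩ := exists_exact
    (D := E0 + (2 * (gen k K : ℤ) - dg E0).toNat • pol k x) P0 (by
      rw [map_add, map_nsmul, nsmul_eq_mul]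
      have h1 := Int.self_le_toNat (2 * (gen k K : ℤ) - dg E0)
      have h2 : (0 : ℤ) ≤ ((2 * (gen k K : ℤ) - dg E0).toNat : ℤ) := by positivity
      nlinarith)
  simp only [Finsupp.add_apply (g₁ := E0), Finsupp.smul_apply, nsmul_eq_mul, hE] at hz hz1
  refine ⟨z, hz0, ?_, fun P hP => ?_, fun P hP h => ?_⟩
  · simpa [h0, pol_of_nonneg (hS P0 h0)] using hz1
  · simpa [hP, pol_of_nonneg (hS P hP)] using hz P
  · simpa [hP, pol_of_nonneg h] using hz P

/-- a basis of `L(D + (x)_∞)` and its trace dual -/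
structure Bas (D : Plk k K →₀ ℤ) (x : K) {n : ℕ} (e es : Fin n → K) : Prop where
  nc : ∀ a : k, x ≠ algebraMap k K a
  mem : ∀ i, e i ∈ LL k (D + pol k x)
  gen : ∀ z ∈ LL k (D + pol k x), ∃ c : Fin n → k, z = ∑ i, c i • e i
  dual : ∀ i j, tr k⟮x⟯ (e i * es j) = if i = j then 1 else 0
  exp : ∀ w, w = ∑ i, tr k⟮x⟯ (e i * w) * es i
  one : ∑ i, e i * es i = 1

theorem NC.exists_bas {D : Plk k K →₀ ℤ} (h : NC D) {x : K}
    (hx : ∀ a : k, x ≠ algebraMap k K a) : ∃ (n : ℕ) (e es : Fin n → K), Bas D x e es := by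
  haveI : FiniteDimensional k⟮x⟯ K := (finite_of_notMem hx).2
  haveI := isSep x hx
  have hx0 : x ≠ 0 := by simpa using hx 0
  let β := Module.finBasis k (LL k (D + pol k x))
  have hn : Module.finrank k (LL k (D + pol k x)) = Module.finrank k⟮x⟯ K := by
    have h1 := h.l (pol_nonneg (k := k) x)
    rw [dg_pol hx] at h1
    exact_mod_cast h1
  have hli : LinearIndependent k⟮x⟯ fun i => (β i : K) := by
    refine indep_of_poly (finite_of_notMem hx).1 fun φ hφ i => ?_
    obtain ⟨m, hm⟩ : ∃ m, ∀ i, (φ i).natDegree < m :=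
      ⟨Finset.univ.sup (fun i => (φ i).natDegree) + 1, fun i =>
        Nat.lt_succ_of_le (Finset.le_sup (f := fun i => (φ i).natDegree) (Finset.mem_univ i))⟩
    have h1 := h.horner hx0 (fun j => ((∑ i, (φ i).coeff j • β i : LL k (D + pol k x)) : K))
      (fun j => Subtype.property _) m (by
        rw [← hφ]
        simp only [Submodule.coe_sum, Submodule.coe_smul, Finset.mul_sum]
        rw [Finset.sum_comm]
        refine Finset.sum_congr rfl fun i _ => ?_
        rw [aeval_eq_sum_range' (hm i), Finset.sum_mul]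
        exact Finset.sum_congr rfl fun j _ => by rw [mul_smul_comm, smul_mul_assoc])
    ext j
    rcases lt_or_ge j m with hj | hj
    · have h2 : ∑ i, (φ i).coeff j • β i = 0 := Subtype.ext (h1 j hj)
      exact Fintype.linearIndependent_iff.1 β.linearIndependent _ h2 i
    · exact coeff_eq_zero_of_natDegree_lt (lt_of_lt_of_le (hm i) hj)
  haveI : Nonempty (Fin (Module.finrank k (LL k (D + pol k x)))) :=
    ⟨⟨0, by rw [hn]; exact Module.finrank_pos⟩⟩
  let B := basisOfLinearIndependentOfCardEqFinrank hli (by rw [Fintype.card_fin, hn])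
  have hB : ∀ i, B i = (β i : K) := fun i =>
    congrFun (coe_basisOfLinearIndependentOfCardEqFinrank hli _) i
  have hexp : ∀ w, w = ∑ i, Algebra.trace k⟮x⟯ K (B i * w) • B.traceDual i := fun w => by
    conv_lhs => rw [← B.traceDual.sum_repr w]
    exact Finset.sum_congr rfl fun i _ => by
      rw [B.traceDual_repr_apply, Algebra.traceForm_apply, mul_comm]
  refine ⟨_, fun i => B i, fun i => B.traceDual i, hx, fun i => by rw [hB]; exact (β i).2,
    fun z hz => ⟨fun i => β.repr ⟨z, hz⟩ i, ?_⟩, fun i j => ?_, fun w => ?_, ?_⟩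
  · have h1 := congrArg Subtype.val (β.sum_repr ⟨z, hz⟩)
    simp only [Submodule.coe_sum, Submodule.coe_smul] at h1
    simp only [hB]
    exact h1.symm
  · unfold tr
    rw [B.trace_mul_traceDual]
    split_ifs <;> simp
  · exact hexp w
  · rw [← sub_eq_zero]
    refine (traceForm_nondegenerate k⟮x⟯ K).1 _ fun w => ?_
    rw [Algebra.traceForm_apply, sub_mul, one_mul, map_sub, Finset.sum_mul, map_sum, sub_eq_zero,
      Algebra.trace_eq_matrix_trace B.traceDual w, Matrix.trace]
    refine Finset.sum_congr rfl fun i _ => ?_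
    rw [Matrix.diag_apply, Algebra.leftMulMatrix_eq_repr_mul, B.traceDual_repr_apply,
      Algebra.traceForm_apply]
    congr 1
    ring

variable {D : Plk k K →₀ ℤ} {x : K} {n : ℕ} {e es : Fin n → K}

theorem pol_mob (hx : ∀ a : k, x ≠ algebraMap k K a) (c : k) :
    pol k (x - algebraMap k K c)⁻¹ = pol k x + dv k (x - algebraMap k K c) := by
  ext P
  rw [Finsupp.add_apply, dv_apply, pol_apply, pol_apply, ord_inv]
  rcases le_or_gt 0 (ord P x) with h | h
  · have := le_ord (sub_mem (mge_of_le h) (const_mem P c)) (sub_ne_zero.2 (hx c))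
    omega
  · rw [ord_sub_pole h]
    omega

theorem Bas.mob (h : Bas D x e es) (c : k) :
    Bas D (x - algebraMap k K c)⁻¹ (fun i => (x - algebraMap k K c)⁻¹ * e i)
      (fun i => (x - algebraMap k K c) * es i) := by
  have h0 : x - algebraMap k K c ≠ 0 := sub_ne_zero.2 (h.nc c)
  have hF : k⟮(x - algebraMap k K c)⁻¹⟯ = k⟮x⟯ := by rw [adjoin_inv_eq, adjoin_sub_eq]
  have hm : x - algebraMap k K c ∈ k⟮x⟯ :=
    sub_mem (mem_adjoin_simple_self k x) (IntermediateField.algebraMap_mem _ c)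
  have he : ∀ u v : K, (x - algebraMap k K c)⁻¹ * u * ((x - algebraMap k K c) * v) = u * v :=
    fun u v => by field_simp
  refine ⟨nc_inv (nc_sub h.nc c), fun i => ?_, fun z hz => ?_, fun i j => ?_, fun w => ?_, ?_⟩
  · rw [pol_mob h.nc, ← add_assoc, ← mul_mem_LL_iff h0, mul_inv_cancel_left₀ h0]
    exact h.mem i
  · rw [pol_mob h.nc, ← add_assoc, ← mul_mem_LL_iff h0] at hz
    obtain ⟨γ, hγ⟩ := h.gen _ hz
    refine ⟨γ, ?_⟩
    simp only [← mul_smul_comm, ← Finset.mul_sum, ← hγ]
    rw [inv_mul_cancel_left₀ h0]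
  · rw [hF, he, h.dual]
  · rw [hF]
    conv_lhs => rw [h.exp w]
    refine Finset.sum_congr rfl fun i _ => ?_
    rw [mul_assoc, tr_mul _ (inv_mem hm), he]
  · simp only [he]
    exact h.one

theorem Bas.mge (h : Bas D x e es) (i : Fin n) {P : Plk k K} (hP : 0 ≤ ord P x) :
    e i ∈ Mge P (-D P) := by
  have h1 := mem_LL_iff.1 (h.mem i) P
  rwa [Finsupp.add_apply, pol_of_nonneg hP, add_zero] at h1

theorem Bas.span (hD : NC D) (h : Bas D x e es) {z : K}
    (hz : ∀ P, 0 ≤ ord P x → z ∈ Mge P (-D P)) :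
    ∃ p : Fin n → k[X], z = ∑ i, aeval x (p i) * e i := by
  obtain ⟨m, hm⟩ := exists_mem_nsmul D hz
  obtain ⟨v, rfl⟩ := hD.onto (by simpa using h.nc 0) hm
  choose c hc using fun j => h.gen _ (v j).2
  refine ⟨fun i => ∑ j : Fin m, C (c j i) * X ^ (j : ℕ), ?_⟩
  simp only [hc, map_sum, map_mul, map_pow, aeval_C, aeval_X, Finset.mul_sum, Finset.sum_mul]
  rw [Finset.sum_comm]
  refine Finset.sum_congr rfl fun i _ => Finset.sum_congr rfl fun j _ => ?_
  rw [Algebra.smul_def]
  ring

theorem Bas.tr_es (h : Bas D x e es) (p : Fin n → k[X]) (j : Fin n) :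
    tr k⟮x⟯ ((∑ i, aeval x (p i) * e i) * es j) = aeval x (p j) := by
  rw [Finset.sum_mul, tr_sum]
  simp only [mul_assoc, tr_mul _ (aeval_mem x _), h.dual]
  simp

theorem fin_of_pos {P : Plk k K} {c : k} (h : 0 < ord P (x - algebraMap k K c)) : 0 ≤ ord P x :=
  ord_nonneg_of_sub (val_of_pos h)

/-- duality on a fibre -/
theorem dual_fib (D : Plk k K →₀ ℤ) (hx : ∀ a : k, x ≠ algebraMap k K a) (c : k)
    (N : Plk k K → ℤ) (hN : ∀ P, 0 < ord P (x - algebraMap k K c) → -D P ≤ N P) {v : K}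
    (hv : ∀ z, (∀ P, 0 ≤ ord P x → z ∈ Mge P (-D P)) →
      (∀ P, 0 < ord P (x - algebraMap k K c) → z ∈ Mge P (N P)) →
      ∀ P : Plk k K, 0 < ord P (x - algebraMap k K c) → tr k⟮x⟯ (z * v) ∈ Mge P 1)
    {P : Plk k K} (hP : 0 < ord P (x - algebraMap k K c)) : v ∈ Mge P (1 - N P) := by
  classical
  by_contra hc
  rw [mem_Mge, not_or, not_le] at hc
  obtain ⟨hv0, hlt⟩ := hc
  have hxc := nc_sub hx c
  obtain ⟨z, hz0, hz1, hz2, hz3⟩ := strong D hx (zs hxc) (fun Q hQ => fin_of_pos (mem_zs.1 hQ))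
    (fun Q => if Q = P then -ord P v else max (N Q) (1 - ord Q v)) (mem_zs.2 hP)
  simp only [if_true] at hz1
  have hz4 : ∀ Q, 0 < ord Q (x - algebraMap k K c) → z ∈ Mge Q (N Q) := fun Q hQ => by
    have h1 := hz2 Q (mem_zs.2 hQ)
    refine mge_of_le ?_
    split_ifs at h1 with h2
    · subst h2; omega
    · omega
  have h1 := hv z (fun Q hQ => by
    by_cases h2 : Q ∈ zs hxc
    · exact Mge_mono Q (hN Q (mem_zs.1 h2)) (hz4 Q (mem_zs.1 h2))
    · exact mge_of_le (hz3 Q h2 hQ)) hz4 P hP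
  have h5 : ord P (z * v) = 0 := by rw [ord_mul P hz0 hv0, hz1]; ring
  have h6 := val_vl h5.ge
  have h7 := h6.ne_zero (mul_ne_zero hz0 hv0) h5
  have h8 := tr_val hxc hP (z := z * v) (c := fun Q => if Q = P then vl P (z * v) else 0)
    fun Q hQ => by
      split_ifs with h2
      · rw [h2]; exact h6
      · have h3 := hz2 Q (mem_zs.2 hQ)
        rw [if_neg h2] at h3
        exact Val.zero_iff.2 (mge_mul (mge_ord Q z) (mge_ord Q v) (by omega))
  rw [adjoin_sub_eq] at h8
  have h9 := h8.unique (Val.zero_iff.2 h1)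
  simp only [mul_ite, mul_zero, Finset.sum_ite_eq', mem_zs.2 hP, if_true] at h9
  exact h7 ((mul_eq_zero.1 h9).resolve_left (by exact_mod_cast hP.ne'))

theorem Bas.es_fin (hD : NC D) (h : Bas D x e es) (j : Fin n) {P : Plk k K} (hP : 0 ≤ ord P x) :
    es j ∈ Mge P (D P - wd x P) := by
  have h1 := ord_sub_vl_pos h.nc hP
  have hm : x - algebraMap k K (vl P x) ∈ k⟮x⟯ :=
    sub_mem (mem_adjoin_simple_self k x) (IntermediateField.algebraMap_mem _ _)
  have h2 := dual_fib D h.nc (vl P x) (fun Q => -D Q) (fun _ _ => le_rfl)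
    (v := (x - algebraMap k K (vl P x)) * es j) (fun z hz _ Q hQ => by
      obtain ⟨p, rfl⟩ := h.span hD hz
      rw [mul_left_comm, tr_mul _ hm, h.tr_es]
      exact mge_mul (mge_ord Q _) (aeval_mem_zero (fin_of_pos hQ) _) (by omega)) h1
  rw [mul_mem_Mge_iff (ne_of_ord h1.ne')] at h2
  rw [wd_of_pos h1]
  exact Mge_mono P (by omega) h2

theorem Bas.es_inf (hD : NC D) (h : Bas D x e es) (j : Fin n) {P : Plk k K} (hP : ord P x < 0) :
    es j ∈ Mge P (D P + 1) := by
  have h0 : ord P (x - algebraMap k K 0) = ord P x := ord_sub_pole hP 0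
  have h1 : 0 < ord P ((x - algebraMap k K 0)⁻¹ - algebraMap k K 0) := by
    rw [map_zero, sub_zero, sub_zero, ord_inv]; omega
  have h2 := (h.mob 0).es_fin hD j (fin_of_pos h1)
  rw [wd_of_pos h1, mul_mem_Mge_iff (ne_of_ord (P := P) (by omega)), h0] at h2
  simp only [map_zero, sub_zero, ord_inv] at h2
  exact Mge_mono P (by omega) h2

/-- the residue at the negative point of the divisor -/
theorem Bas.neg (hD : NC D) (h : Bas D x e es) {P0 : Plk k K} {c : k}
    (h0 : ord P0 (x - algebraMap k K c) = 1) (h1 : D P0 = -1) (h2 : ∀ P, P ≠ P0 → 0 ≤ D P) :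
    ∃ β : Fin n → k, x - algebraMap k K c = ∑ i, β i • e i ∧
      ∀ i, Val P0 ((x - algebraMap k K c) * es i) (β i) := by
  classical
  have hxc := nc_sub h.nc c
  obtain ⟨β, hβ⟩ := h.gen (x - algebraMap k K c) (mem_LL_iff.2 fun P => mge_of_le (by
    rw [Finsupp.add_apply]
    by_cases hP : P = P0
    · subst hP
      rw [h0, h1, pol_of_nonneg (fin_of_pos (c := c) (by omega))]
      simp
    have h3 := h2 P hP
    rcases le_or_gt 0 (ord P x) with h4 | h4
    · have := le_ord (sub_mem (mge_of_le h4) (const_mem P c)) (sub_ne_zero.2 (h.nc c))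
      rw [pol_of_nonneg h4]
      omega
    · rw [pol_of_neg h4, ord_sub_pole h4]
      omega))
  refine ⟨β, hβ, fun i => ?_⟩
  have hm : ∀ P, 0 < ord P (x - algebraMap k K c) →
      (x - algebraMap k K c) * es i ∈ Mge P (D P + 1) := fun P hP =>
    mge_mul (mge_ord P _) (h.es_fin hD i (fin_of_pos hP)) (by rw [wd_of_pos hP]; omega)
  obtain ⟨γ, hγ⟩ := exists_val (P := P0) (z := (x - algebraMap k K c) * es i)
    (by simpa [h1] using hm P0 (by omega))
  have h3 := tr_val hxc (P := P0) (by omega) (z := (x - algebraMap k K c) * es i)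
    (c := fun Q => if Q = P0 then γ else 0) fun Q hQ => by
      split_ifs with h4
      · rw [h4]; exact hγ
      · have := h2 Q h4
        exact Val.zero_iff.2 (Mge_mono Q (by omega) (hm Q hQ))
  have h4 : P0 ∈ zs hxc := mem_zs.2 (by omega)
  simp only [mul_ite, mul_zero, Finset.sum_ite_eq', h4, if_true, h0, Int.cast_one, one_mul] at h3
  have h5 := h.tr_es (fun i => C (β i)) i
  simp only [aeval_C, ← Algebra.smul_def, ← hβ] at h5
  rw [adjoin_sub_eq, h5] at h3
  rwa [(Val.const P0 _).unique h3]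

/-- the differential attached to a positive point of the divisor -/
theorem Bas.pos (hD : NC D) (h : Bas D x e es) {P1 : Plk k K} {c : k}
    (h0 : ord P1 (x - algebraMap k K c) = 1) (h1 : D P1 = 1) {α : Fin n → k}
    (hα : ∀ i, Val P1 ((x - algebraMap k K c) * e i) (α i)) :
    (∀ P, P ≠ P1 → (∑ i, α i • es i) / (x - algebraMap k K c) ∈ Mge P (D P - wd x P)) ∧
      Val P1 ((∑ i, α i • es i) / (x - algebraMap k K c)) 1 := by
  classical
  have hxc := nc_sub h.nc c
  have ht0 : x - algebraMap k K c ≠ 0 := sub_ne_zero.2 (h.nc c)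
  have key : ∀ z, (∀ P, 0 ≤ ord P x → z ∈ Mge P (-D P)) → ∃ γ : k,
      Val P1 ((x - algebraMap k K c) * z) γ ∧
      ∀ P : Plk k K, 0 < ord P (x - algebraMap k K c) →
        Val P (tr k⟮x⟯ (z * ∑ i, α i • es i)) γ := by
    intro z hz
    obtain ⟨p, rfl⟩ := h.span hD hz
    refine ⟨∑ i, (p i).eval c * α i, ?_, fun P hP => ?_⟩
    · rw [Finset.mul_sum]
      refine Val.sum _ fun i _ => ?_
      rw [mul_left_comm]
      exact (val_aeval (val_of_pos (by omega)) _).mul (hα i)
    · rw [Finset.mul_sum, tr_sum]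
      refine Val.sum _ fun i _ => ?_
      rw [Algebra.smul_def, mul_left_comm, tr_mul _ (IntermediateField.algebraMap_mem _ _),
        h.tr_es, mul_comm]
      exact (val_aeval (val_of_pos hP) _).mul (Val.const P _)
  have hfib : ∀ P, 0 < ord P (x - algebraMap k K c) →
      ∑ i, α i • es i ∈ Mge P (1 - (if P = P1 then 0 else -D P)) := fun P hP =>
    dual_fib D h.nc c (fun Q => if Q = P1 then 0 else -D Q) (fun Q _ => by
      split_ifs with h2
      · rw [h2]; omega
      · exact le_rfl) (fun z hz hz' Q hQ => by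
      obtain ⟨γ, h2, h3⟩ := key z hz
      have h4 := hz' P1 (by omega)
      rw [if_pos rfl] at h4
      rw [h2.unique (Val.zero_iff.2 (mge_mul (mge_ord P1 _) h4 (by omega)))] at h3
      exact Val.zero_iff.1 (h3 Q hQ)) hP
  constructor
  · intro P hP
    rcases le_or_gt 0 (ord P x) with h2 | h2
    · by_cases h3 : 0 < ord P (x - algebraMap k K c)
      · have h4 := hfib P h3
        rw [if_neg hP] at h4
        exact mge_div h4 (by rw [wd_of_pos h3]; omega)
      · exact mge_div (Submodule.sum_mem _ fun i _ => Submodule.smul_mem _ _ (h.es_fin hD i h2))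
          (by omega)
    · exact mge_div (Submodule.sum_mem _ fun i _ => Submodule.smul_mem _ _ (h.es_inf hD i h2))
        (by rw [wd_of_neg h2, ord_sub_pole h2]; omega)
  · have h2 := hfib P1 (by omega)
    rw [if_pos rfl] at h2
    obtain ⟨δ, hδ⟩ := exists_val (P := P1) (z := (∑ i, α i • es i) / (x - algebraMap k K c))
      (mge_div h2 (by omega))
    obtain ⟨z, hz0, hz1, hz2, hz3⟩ := strong D h.nc (zs hxc)
      (fun Q hQ => fin_of_pos (mem_zs.1 hQ)) (fun Q => -D Q) (P0 := P1) (mem_zs.2 (by omega))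
    obtain ⟨γ, h3, h4⟩ := key z fun Q hQ => by
      by_cases h5 : Q ∈ zs hxc
      · exact mge_of_le (hz2 Q h5)
      · exact mge_of_le (hz3 Q h5 hQ)
    have hγ : γ ≠ 0 := h3.ne_zero (mul_ne_zero ht0 hz0) (by rw [ord_mul _ ht0 hz0]; omega)
    have h5 := tr_val hxc (P := P1) (by omega) (z := z * ∑ i, α i • es i)
      (c := fun Q => if Q = P1 then γ * δ else 0) fun Q hQ => by
        split_ifs with h6
        · have h7 := h3.mul hδ
          rw [h6]
          convert h7 using 1
          field_simp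
        · have h7 := hfib Q hQ
          rw [if_neg h6] at h7
          exact Val.zero_iff.2 (mge_mul (mge_of_le (hz2 Q (mem_zs.2 hQ))) h7 (by omega))
    have h6 : P1 ∈ zs hxc := mem_zs.2 (by omega)
    simp only [mul_ite, mul_zero, Finset.sum_ite_eq', h6, if_true, h0, Int.cast_one,
      one_mul] at h5
    rw [adjoin_sub_eq] at h5
    have h7 := h5.unique (h4 P1 (by omega))
    rw [mul_right_eq_self₀, or_iff_left hγ] at h7
    rwa [h7] at hδ

/-- a regular differential vanishing on the positive part of the divisor is zero -/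
theorem Bas.inj (h : Bas D x e es) {w : K} (hw : ∀ P, w ∈ Mge P (D P - wd x P)) :
    w = 0 := by
  rw [h.exp w]
  refine Finset.sum_eq_zero fun i _ => ?_
  have h1 : ∀ P, ord P x < 0 → tr k⟮x⟯ (e i * w) ∈ Mge P 1 := fun P hP =>
    tr_inf h.nc hP fun Q hQ => mge_mul (mem_LL_iff.1 (h.mem i) Q) (hw Q) (by
      rw [Finsupp.add_apply, pol_of_neg hQ, wd_of_neg hQ]; omega)
  obtain ⟨Q, hQ⟩ := exists_pole h.nc
  rw [eq_zero_of_van (fun P => ?_) (h1 Q hQ), zero_mul]
  rcases le_or_gt 0 (ord P x) with h2 | h2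
  · exact tr_fin h.nc (ord_sub_vl_pos h.nc h2) fun R hR =>
      mge_mul (h.mge i (fin_of_pos hR)) (hw R) (by omega)
  · exact Mge_mono P (by omega) (h1 P h2)

end Vale.Agent.P022K.F0.Lef
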