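import Vale.Agent.P022K.F0.St
import Vale.Agent.P022K.F0.Lef
import Vale.Agent.P022K.F0.Cf.Der

/-!
# P022K, block F0, row LEFT: the Lefschetz formula on one component
-/

set_option autoImplicit false
set_option linter.all false

open UpperHalfPlane
open scoped MatrixGroups

noncomputable section

namespace Vale.Agent.P022K.Sh.Lf

open Vale.Agent.P022 Vale.Agent.P022.H218.L3 Vale.Agent.P019P P025H492 P027M.K
open Vale.Agent.P022K.F0 Vale.Agent.P022K.F0.Lef IntermediateField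
open Vale.Agent.P022K.F0.Cf (Mo jm Reg od DM dr acH)

instance moGP : Mo GP := ⟨fun g => by
  have h : 0 < (g : GL (Fin 2) ℝ).det.val := g.2
  have h1 : Real.sqrt (g : GL (Fin 2) ℝ).det.val ≠ 0 := (Real.sqrt_pos.2 h).ne'
  have h0 : ((Real.sqrt (g : GL (Fin 2) ℝ).det.val)⁻¹ •
      ((g : GL (Fin 2) ℝ) : Matrix (Fin 2) (Fin 2) ℝ)).det = 1 := by
    rw [Matrix.det_smul, Fintype.card_fin, inv_pow, Real.sq_sqrt h.le]
    exact inv_mul_cancel₀ h.ne'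
  refine ⟨⟨_, h0⟩, fun τ => UpperHalfPlane.ext ?_⟩
  · have h2 : ((Real.sqrt (g : GL (Fin 2) ℝ).det.val : ℝ) : ℂ) ≠ 0 := by exact_mod_cast h1
    have h3 := denom_ne_zero (g : GL (Fin 2) ℝ) τ
    refine (coe_smul_of_det_pos h τ).trans (Eq.trans ?_ (coe_specialLinearGroup_apply _ τ).symm)
    simp only [num, denom, Matrix.SpecialLinearGroup.coe_mk, Matrix.smul_apply, smul_eq_mul,
      Algebra.algebraMap_self, RingHom.id_apply, Complex.ofReal_mul, Complex.ofReal_inv] at h3 ⊢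
    rw [mul_assoc, mul_assoc, ← mul_add, ← mul_add, mul_div_mul_left _ _ (inv_ne_zero h2)]⟩

theorem actM_eq (g : GP) : actM g = Cf.ac g := rfl

theorem mval_iff {τ : ℍ} {f : Mer} {c : ℂ} : MVal τ f c ↔ Reg τ f ∧ Cf.ev τ f = c := by
  constructor
  · rintro ⟨g, h, h0, e, e'⟩
    exact ⟨⟨g, h, h0, e⟩, by rw [Cf.ev_eq h0 e, div_eq_iff h0]; exact e'⟩
  · rintro ⟨⟨g, h, h0, e⟩, rfl⟩
    exact ⟨g, h, h0, e, by rw [Cf.ev_eq h0 e, div_mul_cancel₀ _ h0]⟩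

theorem od_jm_eq (τ : ℍ) {g : Hol} (hg : g ≠ 0) : od τ (jm g) = H587.L3.om τ g := by
  obtain ⟨m, u, hu, rfl⟩ := Cf.ex_fac τ hg
  rw [Cf.IsOd.eq (m := m) ⟨u, 1, hu, one_ne_zero, by simp⟩]
  have h1 : analyticOrderAt ((Cf.tz τ ^ m * u : Hol).1 ∘ ofComplex) (τ : ℂ) = m := by
    refine ((Cf.an _ τ).analyticOrderAt_eq_natCast).2 ⟨u.1 ∘ ofComplex, Cf.an u τ, by simpa using hu,
      Cf.ev_coe.2 (Filter.Eventually.of_forall fun σ => ?_)⟩
    simp only [Function.comp_apply, ofComplex_apply, smul_eq_mul]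
    rfl
  unfold H587.L3.om
  rw [analyticOrderNatAt, h1]
  rfl

theorem od_of_mord {τ : ℍ} {f : Mer} {n : ℤ} (h : MOrd τ f n) : od τ f = n := by
  obtain ⟨g, h, g0, h0, e, rfl⟩ := h
  have hf : f ≠ 0 := by
    rintro rfl
    exact Cf.jm_ne g0 (e.symm.trans (zero_mul _))
  rw [← od_jm_eq τ g0, ← od_jm_eq τ h0, show jm g = f * jm h from e.symm,
    Cf.od_mul τ hf (Cf.jm_ne h0)]
  ring

theorem ex_good {ι : Type} [Fintype ι] (z : ι → Mer) {y : Mer} (hy : y ≠ 0) :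
    ∃ τ : ℍ, (∀ i, Reg τ (z i)) ∧ Reg τ y ∧ Cf.ev τ y ≠ 0 := by
  choose g h h0 e using fun i => Cf.ex_frac (z i)
  obtain ⟨u, v, v0, e'⟩ := Cf.ex_frac y
  have u0 : u ≠ 0 := by
    rintro rfl
    exact mul_ne_zero hy (Cf.jm_ne v0) (e'.trans (map_zero _))
  have h1 : (∏ i, h i) * (u * v) ≠ 0 :=
    mul_ne_zero (Finset.prod_ne_zero_iff.2 fun i _ => h0 i) (mul_ne_zero u0 v0)
  obtain ⟨τ, hτ⟩ : ∃ τ, ((∏ i, h i) * (u * v) : Hol).1 τ ≠ 0 := by
    by_contra hc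
    push Not at hc
    exact h1 (Subtype.ext (funext hc))
  have h2 : ((∏ i, h i) * (u * v) : Hol).1 τ = (∏ i, (h i).1 τ) * (u.1 τ * v.1 τ) := by
    simp
  rw [h2, mul_ne_zero_iff, mul_ne_zero_iff, Finset.prod_ne_zero_iff] at hτ
  exact ⟨τ, fun i => ⟨g i, h i, hτ.1 i (Finset.mem_univ i), e i⟩, ⟨u, v, hτ.2.2, e'⟩, by
    rw [Cf.ev_eq hτ.2.2 e']; exact div_ne_zero hτ.2.1 hτ.2.2⟩

theorem mval_add {τ : ℍ} {y z : Mer} {c d : ℂ} (h : MVal τ y c) (h' : MVal τ z d) :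
    MVal τ (y + z) (c + d) := by
  rw [mval_iff] at *
  exact ⟨h.1.add h'.1, by rw [Cf.ev_add h.1 h'.1, h.2, h'.2]⟩

theorem mval_mul {τ : ℍ} {y z : Mer} {c d : ℂ} (h : MVal τ y c) (h' : MVal τ z d) :
    MVal τ (y * z) (c * d) := by
  rw [mval_iff] at *
  exact ⟨h.1.mul h'.1, by rw [Cf.ev_mul h.1 h'.1, h.2, h'.2]⟩

theorem mval_const (τ : ℍ) (c : ℂ) : MVal τ (algebraMap ℂ Mer c) c :=
  mval_iff.2 ⟨Cf.reg_const τ c, Cf.ev_const τ c⟩

theorem mval_sum {τ : ℍ} {ι : Type} (s : Finset ι) {y : ι → Mer} {c : ι → ℂ}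
    (h : ∀ i ∈ s, MVal τ (y i) (c i)) : MVal τ (∑ i ∈ s, y i) (∑ i ∈ s, c i) := by
  classical
  induction s using Finset.induction_on with
  | empty => simpa using mval_const τ 0
  | insert a s ha ih =>
    rw [Finset.sum_insert ha, Finset.sum_insert ha]
    exact mval_add (h a (Finset.mem_insert_self _ _))
      (ih fun i hi => h i (Finset.mem_insert_of_mem hi))

theorem mval_sub {τ : ℍ} {y z : Mer} {c d : ℂ} (h : MVal τ y c) (h' : MVal τ z d) :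
    MVal τ (y - z) (c - d) := by
  have := mval_add h (mval_mul (mval_const τ (-1)) h')
  simpa [sub_eq_add_neg] using this

theorem mval_ac {τ : ℍ} {y : Mer} {c : ℂ} (g : GP) : MVal τ (Cf.ac g y) c ↔ MVal (g⁻¹ • τ) y c := by
  rw [mval_iff, mval_iff, ← Cf.reg_ac g (a := g⁻¹ • τ), ← Cf.ev_ac (g⁻¹ • τ) y g, smul_inv_smul]

theorem od_ac' (τ : ℍ) (y : Mer) (g : GP) : od τ (Cf.ac g y) = od (g⁻¹ • τ) y := by
  rw [← Cf.od_ac (g⁻¹ • τ) y g, smul_inv_smul]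

/-- the multiplier at a fixed point -/
theorem mval_mult {τ : ℍ} {g : GP} (hg : g • τ = τ) {t : Mer} (ht : od τ t = 1) :
    MVal τ (t / Cf.ac g t) ((dr g).1 τ) := by
  have hg' : g⁻¹ • τ = τ := inv_smul_eq_iff.2 hg.symm
  have t0 : t ≠ 0 := fun e => by rw [e, Cf.od_zero] at ht; omega
  have w0 : Cf.ac g t ≠ 0 := (_root_.map_ne_zero _).2 t0
  have hw : od τ (Cf.ac g t) = 1 := by rw [od_ac', hg', ht]
  have h1 : Reg τ (t / Cf.ac g t) := Cf.reg_iff.2 (Or.inr (by rw [Cf.od_div τ t0 w0]; omega))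
  have rt : Reg τ t := Cf.reg_iff.2 (Or.inr (by omega))
  have rw' : Reg τ (Cf.ac g t) := Cf.reg_iff.2 (Or.inr (by omega))
  have h2 : DM t = t / Cf.ac g t * DM (Cf.ac g t) + Cf.ac g t * DM (t / Cf.ac g t) := by
    rw [← Cf.DM_mul, div_mul_cancel₀ _ w0]
  have h3 : Cf.ev τ (DM t) ≠ 0 := by
    have h4 := Cf.isOd_D (a := τ) (y := t) (by omega)
    rw [Ne, Cf.ev_eq_zero h4.ne rt.D, h4.eq]
    omega
  have h4 : Cf.ev τ (Cf.ac g (DM t)) = Cf.ev τ (DM t) := by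
    conv_lhs => rw [← hg]
    exact Cf.ev_ac τ _ g
  have h5 : Reg τ (Cf.ac g (DM t)) := by
    conv => lhs; rw [← hg]
    exact rt.D.ac g
  have h6 := congrArg (Cf.ev τ) h2
  rw [Cf.ev_add (h1.mul rw'.D) (rw'.mul h1.D), Cf.ev_mul h1 rw'.D, Cf.ev_mul rw' h1.D,
    (Cf.ev_eq_zero w0 rw').2 (by omega), zero_mul, add_zero, Cf.DM_ac,
    Cf.ev_mul h5 (Cf.reg_jm _ _), h4, Cf.ev_jm] at h6
  have h7 := Cf.dr_mul g g⁻¹ τ
  rw [mul_inv_cancel, Cf.dr_one, hg'] at h7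
  refine mval_iff.2 ⟨h1, mul_right_cancel₀ (mul_ne_zero h3 (Cf.dr_ne g⁻¹ τ)) ?_⟩
  rw [← h6, mul_left_comm, ← h7, mul_one]

/-- the action on forms -/
def SL (g : GP) (y : Mer) : Mer := Cf.ac g y * jm (dr g⁻¹)

theorem dr_inv_mul (g h : GP) : dr (g * h)⁻¹ = acH g (dr h⁻¹) * dr g⁻¹ :=
  Subtype.ext (funext fun τ => by
    rw [mul_inv_rev, Cf.dr_mul]
    rfl)

theorem SL_mul (g h : GP) (y : Mer) : SL (g * h) y = SL g (SL h y) := by
  rw [SL, SL, SL, dr_inv_mul, Cf.ac_mul, map_mul (Cf.ac g), Cf.ac_jm, jm, map_mul, mul_assoc]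

theorem SL_mul_left (g : GP) (y w : Mer) : SL g (y * w) = Cf.ac g y * SL g w := by
  simp only [SL, map_mul, mul_assoc]

theorem SL_DM (g : GP) (y : Mer) : SL g (DM y) = DM (Cf.ac g y) := (Cf.DM_ac g y).symm

/-- the action on holomorphic forms -/
def slR : Representation ℂ GP Hol where
  toFun g :=
    { toFun := fun f => acH g f * dr g⁻¹
      map_add' := fun f f' => by rw [map_add, add_mul]
      map_smul' := fun c f => by rw [map_smul, smul_mul_assoc]; rfl }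
  map_one' := LinearMap.ext fun f => Subtype.ext (funext fun τ => by
    show f.1 ((1 : GP)⁻¹ • τ) * (dr (1 : GP)⁻¹).1 τ = f.1 τ
    rw [inv_one, one_smul, Cf.dr_one, mul_one])
  map_mul' g h := LinearMap.ext fun f => by
    show acH (g * h) f * dr (g * h)⁻¹ = acH g (acH h f * dr h⁻¹) * dr g⁻¹
    rw [dr_inv_mul, map_mul acH, map_mul (acH g), mul_assoc]
    rfl

theorem jm_slR (g : GP) (f : Hol) : jm (slR g f) = SL g (jm f) := by
  show jm (acH g f * dr g⁻¹) = _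
  rw [SL, Cf.ac_jm, jm, map_mul]

theorem slR_val (g : GP) (f : Hol) (τ : ℍ) : (slR g f).1 τ = f.1 (g⁻¹ • τ) * (dr g⁻¹).1 τ := rfl

theorem dr_eq (g : GP) (τ : ℍ) :
    (dr g).1 τ = ((g : GL (Fin 2) ℝ).det.val : ℂ) / denom (g : GL (Fin 2) ℝ) τ ^ 2 :=
  Cf.dr_gl (g := g) g.2 (fun _ => rfl) τ

theorem fix_unique {g : GP} {τ τ' : ℍ} (h : g • τ = τ) (h' : g • τ' = τ') (hne : τ ≠ τ') (σ : ℍ) :
    g • σ = σ := by
  by_cases hc : (g : GL (Fin 2) ℝ) ∈ Subgroup.center _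
  · exact forall_smul_eq_self_iff_mem_center.2 hc σ
  · have h0 : 0 < (g : GL (Fin 2) ℝ).val.det := g.2
    have he := isElliptic_of_exists_smul_eq_self h0 hc ⟨τ, h⟩
    exact absurd (((gl_smul_eq_self_iff_eq_fixedPt h0 he).1 h).trans
      ((gl_smul_eq_self_iff_eq_fixedPt h0 he).1 h').symm) hne

theorem chain' {k K M : Type*} [Field k] [Field K] [Field M] [Algebra k K] [Algebra k M]
    [CFF k K] [CharZero k] (a : K →ₐ[k] M) (D : Derivation k M M) {d : Derivation k K K} {x : K}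
    (hx : ∀ c : k, x ≠ algebraMap k K c) (hd : d x = 1) (y : K) :
    D (a y) = a (d y) * D (a x) := by
  letI : Algebra K M := (a : K →+* M).toAlgebra
  haveI : FiniteDimensional k⟮x⟯ K := (finite_of_notMem hx).2
  haveI := isSep x hx
  haveI : Algebra.FormallyUnramified k⟮x⟯ K := Algebra.FormallyUnramified.of_isSeparable _ _
  let δ : K → M := fun y => D (a y) - a (d y) * D (a x)
  have hadd : ∀ y z, δ (y + z) = δ y + δ z := fun y z => by
    simp only [δ, map_add]; ring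
  have hmul : ∀ y z, δ (y * z) = a y * δ z + a z * δ y := fun y z => by
    simp only [δ, map_mul, Derivation.leibniz, smul_eq_mul, map_add]; ring
  have hone : δ 1 = 0 := by simp [δ]
  have hpol : ∀ p : Polynomial k, δ (Polynomial.aeval x p) = 0 := fun p => by
    simp only [δ]
    rw [← Polynomial.aeval_algHom_apply, D.map_aeval, d.map_aeval, hd, smul_eq_mul, smul_eq_mul,
      mul_one, ← Polynomial.aeval_algHom_apply, sub_self]
  have h0 : ∀ y ∈ k⟮x⟯, δ y = 0 := by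
    intro y hy
    obtain ⟨p, q, rfl⟩ := (mem_adjoin_simple_iff k y).1 hy
    by_cases hq : Polynomial.aeval x q = 0
    · rw [hq, div_zero]; simp [δ]
    have h1 := hmul (Polynomial.aeval x q) (Polynomial.aeval x p / Polynomial.aeval x q)
    rw [mul_div_cancel₀ _ hq, hpol, hpol, mul_zero, add_zero] at h1
    exact (mul_eq_zero.1 h1.symm).resolve_left ((_root_.map_ne_zero a).2 hq)
  letI : Algebra k⟮x⟯ M := ((a : K →+* M).comp (algebraMap k⟮x⟯ K)).toAlgebra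
  haveI : IsScalarTower k⟮x⟯ K M := IsScalarTower.of_algebraMap_eq fun _ => rfl
  let D' : Derivation k⟮x⟯ K M :=
    { toFun := δ
      map_add' := hadd
      map_smul' := fun c z => by
        rw [Algebra.smul_def, hmul, h0 (algebraMap k⟮x⟯ K c) c.2, mul_zero, add_zero]
        rfl
      map_one_eq_zero' := hone
      leibniz' := hmul }
  have h3 := D'.liftKaehlerDifferential_comp_D y
  rw [Subsingleton.elim (KaehlerDifferential.D k⟮x⟯ K y) 0, map_zero] at h3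
  exact sub_eq_zero.1 h3.symm

theorem exists_der1 {k K : Type*} [Field k] [Field K] [Algebra k K] [CFF k K] [CharZero k] {x : K}
    (hx : ∀ c : k, x ≠ algebraMap k K c) : ∃ d : Derivation k K K, d x = 1 :=
  haveI := (finite_of_notMem hx).2
  P025H133.exists_der x (finite_of_notMem hx).1

theorem fix_finite {k K L : Type*} [Field k] [Field K] [Field L] [Algebra k K] [Algebra k L]
    [CFF k K] [CFF k L] {a b : K →ₐ[k] L} {y : K} (h : a y ≠ b y) :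
    {R : Plk k L | dn a R = dn b R}.Finite := by
  have hy : y ≠ 0 := by
    rintro rfl
    simp at h
  refine ((dv_finite ((_root_.map_ne_zero a).2 hy)).union (dv_finite (sub_ne_zero.2 h))).subset
    fun R hR => ?_
  by_contra hc
  simp only [Set.mem_union, Set.mem_setOf_eq, not_or, not_not] at hc hR
  have h1 := hc.1
  rw [ord_emb, mul_eq_zero] at h1
  have h2 := rm_pos a R
  have h3 := val_vl (h1.resolve_left (by omega)).ge
  have h4 := (val_emb a h3).sub (val_emb b (c := vl (dn a R) y) (by rw [← hR]; exact h3))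
  rw [sub_self, Val.zero_iff] at h4
  have := le_ord h4 (sub_ne_zero.2 h)
  omega

theorem dgr_eq {k K L : Type*} [Field k] [Field K] [Field L] [Algebra k K] [Algebra k L]
    [CFF k K] [CFF k L] [CharZero k] {a : K →ₐ[k] L} (h : ∀ R, rm a R = 1) :
    2 * (gen k L : ℤ) - 2 = dgr a * (2 * (gen k K : ℤ) - 2) :=
  letI := alg a
  haveI := tow a
  haveI := fd a
  IsUnr.genus (k := k) (K := K) (L := L) h

variable {G0 G : Type} [Group G0] [Group G] (T : Tw G0 G)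

theorem act_eq (γ : G0) : T.act γ = Cf.ac (T.r γ) := rfl

theorem mu_eq (γ : G0) (τ : ℍ) : T.mu γ τ = (dr (T.r γ)).1 τ := (dr_eq _ τ).symm

theorem mem_Z0 {γ : G0} : γ ∈ T.Z0 ↔ ∀ τ : ℍ, T.r γ • τ = τ := by
  simp only [Tw.Z0, MonoidHom.mem_ker, MonoidHom.comp_apply, Equiv.ext_iff,
    MulAction.toPermHom_apply, MulAction.toPerm_apply, Equiv.Perm.coe_one, id]

instance : T.Z0.Normal := MonoidHom.normal_ker _

/-- the action of `G0` on holomorphic forms -/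
def sl : Representation ℂ G0 Hol := slR.comp T.r

/-- the invariants of a subgroup -/
def iv {B : Type} [AddCommGroup B] [Module ℂ B] (ρ : Representation ℂ G0 B) (Γ : Subgroup G0) :
    Submodule ℂ B where
  carrier := {f | ∀ γ ∈ Γ, ρ γ f = f}
  add_mem' h h' γ hγ := by rw [map_add, h γ hγ, h' γ hγ]
  zero_mem' γ _ := map_zero _
  smul_mem' c f h γ hγ := by rw [map_smul, h γ hγ]

variable {T}

section one

variable {Γ Γ' : Subgroup G0} [CFF ℂ (T.KF Γ)] [CFF ℂ (T.KF Γ')] {pt : ℍ → Plk ℂ (T.KF Γ)}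
  {pt' : ℍ → Plk ℂ (T.KF Γ')}

theorem ord_pt (h : T.Pts Γ pt) (hF : T.Fr Γ) (τ : ℍ) (f : T.KF Γ) : ord (pt τ) f = od τ f := by
  by_cases hf : f = 0
  · rw [hf, ord_zero, ZeroMemClass.coe_zero, Cf.od_zero]
  · exact (od_of_mord (h.ord hF τ f hf)).symm

theorem mem_pt (h : T.Pts Γ pt) (τ : ℍ) (f : T.KF Γ) : f ∈ (pt τ).1 ↔ Reg τ f := by
  rw [mem_iff_ord, ← mem_Mge]
  exact ⟨fun h1 => (mval_iff.1 ((h.val τ f _).1 (exists_val h1).choose_spec)).1,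
    fun h1 => ((h.val τ f _).2 (mval_iff.2 ⟨h1, rfl⟩)).mem⟩

theorem dn_pt (h : T.Pts Γ pt) (h' : T.Pts Γ' pt') {b : T.KF Γ →ₐ[ℂ] T.KF Γ'} {γ : G0}
    (hb : ∀ f, (b f : Mer) = T.act γ f) (τ : ℍ) : dn b (pt' τ) = pt (T.r γ⁻¹ • τ) :=
  Plk.eq_of_le fun z hz => by
    rw [mem_dn, mem_pt h', hb, act_eq, ← smul_inv_smul (T.r γ) τ, Cf.reg_ac] at hz
    rwa [mem_pt h, map_inv]

theorem rm_pt (h : T.Pts Γ pt) (h' : T.Pts Γ' pt') (hF : T.Fr Γ) (hF' : T.Fr Γ')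
    {b : T.KF Γ →ₐ[ℂ] T.KF Γ'} {γ : G0} (hb : ∀ f, (b f : Mer) = T.act γ f) (R : Plk ℂ (T.KF Γ')) :
    rm b R = 1 := by
  obtain ⟨τ, rfl⟩ := h'.onto R
  obtain ⟨t, -, ht⟩ := exists_unif (dn b (pt' τ))
  have h1 := ord_emb b (pt' τ) t
  rw [ht, mul_one, ord_pt h' hF', hb, act_eq, od_ac', ← map_inv, ← ord_pt h hF, ← dn_pt h h' hb,
    ht] at h1
  exact_mod_cast h1.symm

theorem DM_ne {x : T.KF Γ} (hx : ∀ c : ℂ, x ≠ algebraMap ℂ _ c) : DM (x : Mer) ≠ 0 := fun h => by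
  obtain ⟨c, hc⟩ := Cf.const_of_DM h
  exact hx c (Subtype.ext hc)

theorem od_DM (h : T.Pts Γ pt) (hF : T.Fr Γ) {x : T.KF Γ} (hx : ∀ c : ℂ, x ≠ algebraMap ℂ _ c)
    (τ : ℍ) : od τ (DM (x : Mer)) = wd x (pt τ) := by
  rcases le_or_gt 0 (ord (pt τ) x) with h0 | h0
  · have h1 := ord_sub_vl_pos hx h0
    rw [wd_of_pos h1]
    rw [ord_pt h hF] at h1 ⊢
    rw [← Cf.od_D h1.ne']
    congr 1
    show _ = DM ((x : Mer) - algebraMap ℂ Mer _)
    rw [map_sub, Derivation.map_algebraMap, sub_zero]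
  · rw [wd_of_neg h0]
    rw [ord_pt h hF] at h0 ⊢
    exact Cf.od_D h0.ne

theorem SL_DM_fix {x : T.KF Γ} {γ : G0} (hγ : γ ∈ Γ) : SL (T.r γ) (DM (x : Mer)) = DM (x : Mer) := by
  rw [SL_DM, ← act_eq, (T.mem_KF.1 x.2) γ hγ]

/-- regular differentials are holomorphic forms of weight two -/
theorem exists_dict (h : T.Pts Γ pt) (hF : T.Fr Γ) {x : T.KF Γ}
    (hx : ∀ c : ℂ, x ≠ algebraMap ℂ _ c) : ∃ Φ : LL ℂ (wdv ℂ x) ≃ₗ[ℂ] iv (sl T) Γ,
      ∀ f, jm (Φ f).1 = ((f : T.KF Γ) : Mer) * DM (x : Mer) := by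
  have hD := DM_ne hx
  have key : ∀ f : T.KF Γ, f ∈ LL ℂ (wdv ℂ x) ↔ ∀ τ, Reg τ ((f : Mer) * DM (x : Mer)) := by
    intro f
    rw [mem_om hx, h.onto.forall]
    refine forall_congr' fun τ => ?_
    by_cases hf : f = 0
    · simp [hf, Cf.reg_iff]
    · have hf' : (f : Mer) ≠ 0 := fun e => hf (Subtype.ext e)
      rw [mem_Mge, Cf.reg_iff, or_iff_right hf, or_iff_right (mul_ne_zero hf' hD),
        Cf.od_mul τ hf' hD, od_DM h hF hx, ord_pt h hF]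
      omega
  choose F hF1 _ using fun f : LL ℂ (wdv ℂ x) => Cf.ex_hol ((key f).1 f.2)
  have hmem : ∀ f, F f ∈ iv (sl T) Γ := fun f γ hγ => Cf.jm_inj (by
    rw [show sl T γ (F f) = slR (T.r γ) (F f) from rfl, jm_slR, ← hF1, SL_mul_left, SL_DM_fix hγ,
      ← act_eq, (T.mem_KF.1 (f : T.KF Γ).2) γ hγ])
  let Φ : LL ℂ (wdv ℂ x) →ₗ[ℂ] iv (sl T) Γ :=
    { toFun := fun f => ⟨F f, hmem f⟩
      map_add' := fun f g => Subtype.ext (Cf.jm_inj (by
        show jm (F (f + g)) = jm (F f + F g)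
        rw [jm, jm, map_add, ← jm, ← jm, ← jm, ← hF1, ← hF1, ← hF1, ← add_mul]
        rfl))
      map_smul' := fun c f => Subtype.ext (Cf.jm_inj (by
        show jm (F (c • f)) = jm (c • F f)
        rw [Algebra.smul_def c (F f), jm, jm, map_mul, ← jm, ← jm, ← jm, Cf.jm_const, ← hF1, ← hF1,
          ← mul_assoc, ← Algebra.smul_def]
        rfl)) }
  refine ⟨LinearEquiv.ofBijective Φ ⟨(injective_iff_map_eq_zero Φ).2 fun f hf => ?_, fun g => ?_⟩,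
    fun f => (hF1 f).symm⟩
  · have h1 := hF1 f
    rw [show F f = 0 from congrArg Subtype.val hf, jm, map_zero, mul_eq_zero, or_iff_left hD] at h1
    exact Subtype.ext (Subtype.ext h1)
  · have h1 : jm g.1 / DM (x : Mer) ∈ T.KF Γ := T.mem_KF.2 fun γ hγ => by
      refine mul_right_cancel₀ hD ?_
      have h2 := SL_mul_left (T.r γ) (jm g.1 / DM (x : Mer)) (DM (x : Mer))
      rw [SL_DM_fix hγ, div_mul_cancel₀ _ hD, ← jm_slR] at h2
      rw [div_mul_cancel₀ _ hD]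
      exact h2.symm.trans (congrArg jm (g.2 γ hγ))
    refine ⟨⟨⟨_, h1⟩, (key _).2 fun τ => ?_⟩, Subtype.ext (Cf.jm_inj ?_)⟩
    · rw [div_mul_cancel₀ _ hD]
      exact Cf.reg_jm τ _
    · exact (hF1 _).symm.trans (div_mul_cancel₀ _ hD)

end one

/-- the embedding of function fields given by `γ` -/
def emb (γ : G0) {Γ Γ' : Subgroup G0} (h : ∀ δ ∈ Γ', γ⁻¹ * δ * γ ∈ Γ) : T.KF Γ →ₐ[ℂ] T.KF Γ' :=
  ((T.act γ).toAlgHom.comp (T.KF Γ).val).codRestrict (T.KF Γ').toSubalgebra fun f =>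
    T.mem_KF.2 fun δ hδ => by
      show T.act δ (T.act γ f) = T.act γ f
      rw [← AlgEquiv.mul_apply, ← map_mul, show δ * γ = γ * (γ⁻¹ * δ * γ) by group, map_mul,
        AlgEquiv.mul_apply, T.mem_KF.1 f.2 _ (h δ hδ)]

theorem emb_val (γ : G0) {Γ Γ' : Subgroup G0} (h : ∀ δ ∈ Γ', γ⁻¹ * δ * γ ∈ Γ) (f : T.KF Γ) :
    (emb γ h f : Mer) = T.act γ f := rfl

variable (T) in
/-- the same fixed point for `Γ` -/
def Rl (Γ : Subgroup G0) (p q : ℍ × G0) : Prop :=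
  ∃ δ ∈ Γ, q.1 = T.r δ • p.1 ∧ δ * p.2 * δ⁻¹ * q.2⁻¹ ∈ T.Z0

variable (T) in
/-- representatives of the fixed points of `Δ` -/
def Rp (Γ : Subgroup G0) (Δ : Set G0) (R : Finset (ℍ × G0)) : Prop :=
  (∀ p ∈ R, T.r p.2 • p.1 = p.1 ∧ p.2 ∈ Δ) ∧
    ∀ p : ℍ × G0, T.r p.2 • p.1 = p.1 → p.2 ∈ Δ → ∃! q, q ∈ R ∧ Rl T Γ p q

variable (T) in
/-- the Lefschetz formula for `Δ` -/
def Lf1 (Γ : Subgroup G0) (Δ : Set G0) (C : Finset (G0 ⧸ Γ)) : Prop :=
  ∃ (A : Module.End ℂ (iv (sl T) Γ)) (R : Finset (ℍ × G0)),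
    (∀ f, (A f).1 = ∑ c ∈ C, sl T c.out f.1) ∧ Rp T Γ Δ R ∧
    LinearMap.trace ℂ _ A = C.card + ∑ p ∈ R, 1 / (T.mu p.2 p.1 - 1)

theorem fin_iv (hCF : T.CF) {Γ : Subgroup G0} (hΓ : T.Fu Γ) (hF : T.Fr Γ) :
    FiniteDimensional ℂ (iv (sl T) Γ) := by
  obtain ⟨_, pt, h⟩ := hCF Γ hΓ
  obtain ⟨x, hx⟩ := exists_nc ℂ (T.KF Γ)
  obtain ⟨Φ, -⟩ := exists_dict h hF hx
  exact Φ.finiteDimensional

theorem finrank_iv {Γ : Subgroup G0} [CFF ℂ (T.KF Γ)] {pt : ℍ → Plk ℂ (T.KF Γ)} (h : T.Pts Γ pt)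
    (hF : T.Fr Γ) : Module.finrank ℂ (iv (sl T) Γ) = gen ℂ (T.KF Γ) := by
  obtain ⟨x, hx⟩ := exists_nc ℂ (T.KF Γ)
  obtain ⟨Φ, -⟩ := exists_dict h hF hx
  rw [← Φ.finrank_eq, finrank_om hx]

end Vale.Agent.P022K.Sh.Lf
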