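import Vale.Agent.P022K.F0.LefA

/-!
# P022K, block F0, row LEFT: the Lefschetz formula on one component, second part
-/

set_option autoImplicit false
set_option linter.all false

open UpperHalfPlane
open scoped MatrixGroups

noncomputable section

namespace Vale.Agent.P022K.Sh.Lf

open Vale.Agent.P022 Vale.Agent.P022.H218.L3 Vale.Agent.P019P P025H492 P027M.K
open Vale.Agent.P022K.F0 Vale.Agent.P022K.F0.Lef IntermediateField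
open Vale.Agent.P022K.F0.Cf (Mo jm Reg od DM dr acH)

variable {G0 G : Type} [Group G0] [Group G] {T : Tw G0 G}

section dc

variable {Γ Γ' : Subgroup G0} [CFF ℂ (T.KF Γ)] [CFF ℂ (T.KF Γ')] {pt : ℍ → Plk ℂ (T.KF Γ)}
  {pt' : ℍ → Plk ℂ (T.KF Γ')} {γ : G0} {a b : T.KF Γ →ₐ[ℂ] T.KF Γ'} {C : Finset (G0 ⧸ Γ)}
  {d e : G0 ⧸ Γ → G0}

theorem fib_sum (h : T.Pts Γ pt) (h' : T.Pts Γ' pt') (hF : T.Fr Γ) (z0 : T.Z0 ≤ Γ')
    (mΓ : ∀ δ, δ ∈ Γ' ↔ δ ∈ Γ ∧ γ⁻¹ * δ * γ ∈ Γ) (da : ∀ τ, dn a (pt' τ) = pt τ)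
    (hC : ∀ c, c ∈ C ↔ c.out ∈ dc Γ γ Γ) (hd : ∀ c ∈ C, d c ∈ Γ) (he : ∀ c ∈ C, e c ∈ Γ)
    (hde : ∀ c ∈ C, c.out = d c * γ * e c) (τ : ℍ) (F : Plk ℂ (T.KF Γ') → ℂ) :
    ∑ c ∈ C, F (pt' (T.r (d c)⁻¹ • τ)) = ∑ R ∈ fb a (pt τ), F R := by
  refine Finset.sum_bij (fun c _ => pt' (T.r (d c)⁻¹ • τ)) (fun c hc => ?_)
    (fun c hc c' hc' hcc => ?_) (fun R hR => ?_) fun _ _ => rfl
  · rw [mem_fb, da]
    exact ((h.eq _ _).2 ⟨_, inv_mem (hd c hc), rfl⟩).symm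
  · obtain ⟨ε, hε, h2⟩ := (h'.eq _ _).1 hcc
    have h3 : d c' * ε * (d c)⁻¹ ∈ T.Z0 := hF _
      (mul_mem (mul_mem (hd c' hc') ((mΓ ε).1 hε).1) (inv_mem (hd c hc))) τ (by
        rw [map_mul, map_mul, mul_smul, mul_smul, h2, map_inv, smul_inv_smul])
    have h4 := ((mΓ _).1 (mul_mem (inv_mem hε) (z0 (Subgroup.Normal.conj_mem inferInstance _ h3
      (d c')⁻¹)))).2
    rw [← c.out_eq', ← c'.out_eq', QuotientGroup.eq, hde c hc, hde c' hc']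
    convert mul_mem (mul_mem (inv_mem (he c hc)) h4) (he c' hc') using 1
    group
  · obtain ⟨σ, rfl⟩ := h'.onto R
    rw [mem_fb, da] at hR
    obtain ⟨ε, hε, h2⟩ := (h.eq _ _).1 hR
    obtain ⟨w, hw⟩ := QuotientGroup.mk_out_eq_mul Γ (ε * γ)
    have hc : ((ε * γ : G0) : G0 ⧸ Γ) ∈ C := (hC _).2 ⟨ε, hε, w, w.2, hw⟩
    refine ⟨_, hc, (h'.eq _ _).2 ⟨ε⁻¹ * d _, (mΓ _).2 ⟨mul_mem (inv_mem hε) (hd _ hc), ?_⟩, ?_⟩⟩
    · have h3 := hde _ hc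
      rw [hw] at h3
      convert mul_mem w.2 (inv_mem (he _ hc)) using 1
      rw [eq_mul_inv_iff_mul_eq]
      calc _ = (ε * γ)⁻¹ * (d (ε * γ : G0) * γ * e (ε * γ : G0)) := by group
        _ = w := by rw [← h3]; group
    · rw [← h2, map_mul, mul_smul, map_inv, map_inv, smul_inv_smul, inv_smul_smul]

theorem trc_eq (h : T.Pts Γ pt) (h' : T.Pts Γ' pt') (ra : ∀ R, rm a R = 1)
    (hfib : ∀ (τ : ℍ) (F : Plk ℂ (T.KF Γ') → ℂ),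
      ∑ c ∈ C, F (pt' (T.r (d c)⁻¹ • τ)) = ∑ R ∈ fb a (pt τ), F R) (z : T.KF Γ') :
    ((trc a z : T.KF Γ) : Mer) = ∑ c ∈ C, T.act (d c) z := by
  classical
  by_contra hne
  obtain ⟨τ, h2, -, h3⟩ := ex_good (fun c : C => T.act (d c) z) (sub_ne_zero.2 hne)
  have h0 : ∀ c ∈ C, MVal τ (T.act (d c) z) (Cf.ev τ (T.act (d c) z)) := fun c hc =>
    mval_iff.2 ⟨h2 ⟨c, hc⟩, rfl⟩
  have h4 : ∀ c ∈ C, MVal (T.r (d c)⁻¹ • τ) z (Cf.ev τ (T.act (d c) z)) := fun c hc => by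
    rw [map_inv, ← mval_ac]
    exact h0 c hc
  have h5 : ∀ c ∈ C, vl (pt' (T.r (d c)⁻¹ • τ)) z = Cf.ev τ (T.act (d c) z) := fun c hc =>
    vl_eq ((h'.val _ _ _).2 (h4 c hc))
  have h6 := trc_val a (pt τ) (z := z) (c := fun R => vl R z) fun R hR => by
    by_contra h7
    have h8 := hfib τ fun R' => if R' = R then 1 else 0
    rw [Finset.sum_ite_eq', if_pos (mem_fb.2 hR), Finset.sum_eq_zero fun c hc => if_neg
      fun h9 => h7 (by rw [← h9, h5 c hc]; exact (h'.val _ _ _).2 (h4 c hc))] at h8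
    exact zero_ne_one h8
  simp only [ra, Nat.cast_one, one_mul] at h6
  rw [← hfib, Finset.sum_congr rfl h5, h.val] at h6
  have h7 := mval_sub h6 (mval_sum C h0)
  rw [sub_self] at h7
  exact h3 (mval_iff.1 h7).2

theorem rp_dc (h' : T.Pts Γ' pt') (hF : T.Fr Γ) (z0 : T.Z0 ≤ Γ)
    (mΓ : ∀ δ, δ ∈ Γ' ↔ δ ∈ Γ ∧ γ⁻¹ * δ * γ ∈ Γ) {S : Finset (Plk ℂ (T.KF Γ'))}
    (hS : ∀ τ, (∃ ε ∈ Γ, T.r (γ * ε) • τ = τ) → pt' τ ∈ S) {τ : Plk ℂ (T.KF Γ') → ℍ}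
    (hτ : ∀ R, pt' (τ R) = R) {ε : Plk ℂ (T.KF Γ') → G0} (hε : ∀ R ∈ S, ε R ∈ Γ)
    (hε' : ∀ R ∈ S, T.r (γ * ε R) • τ R = τ R) [DecidableEq (ℍ × G0)] :
    Rp T Γ (dc Γ γ Γ) (S.image fun R => (τ R, γ * ε R)) := by
  refine ⟨fun p hp => ?_, fun p hp hp' => ?_⟩
  · obtain ⟨R, hR, rfl⟩ := Finset.mem_image.1 hp
    exact ⟨hε' R hR, 1, one_mem _, ε R, hε R hR, by rw [one_mul]⟩
  · obtain ⟨u, hu, v, hv, huv⟩ := hp'
    have h2 : T.r (γ * (v * u)) • T.r u⁻¹ • p.1 = T.r u⁻¹ • p.1 := by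
      rw [← mul_smul, ← map_mul, show γ * (v * u) * u⁻¹ = u⁻¹ * p.2 by rw [huv]; group, map_mul,
        mul_smul, hp]
    have h3 := hS _ ⟨_, mul_mem hv hu, h2⟩
    obtain ⟨R, hRd⟩ : ∃ R, R = pt' (T.r u⁻¹ • p.1) := ⟨_, rfl⟩
    rw [← hRd] at h3
    obtain ⟨w, hw, h4⟩ := (h'.eq _ _).1 (hRd.symm.trans (hτ R).symm)
    obtain ⟨hw1, hw2⟩ := (mΓ w).1 hw
    refine ⟨(τ R, γ * ε R), ⟨Finset.mem_image.2 ⟨R, h3, rfl⟩, w * u⁻¹, mul_mem hw1 (inv_mem hu),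
      by rw [map_mul, mul_smul, h4], ?_⟩, ?_⟩
    · have h5 : (ε R)⁻¹ * (γ⁻¹ * w * γ) * (v * u) * w⁻¹ ∈ T.Z0 := hF _
        (mul_mem (mul_mem (mul_mem (inv_mem (hε R h3)) hw2) (mul_mem hv hu)) (inv_mem hw1)) (τ R) (by
          rw [show (ε R)⁻¹ * (γ⁻¹ * w * γ) * (v * u) * w⁻¹ =
            (γ * ε R)⁻¹ * (w * (γ * (v * u) * w⁻¹)) by group, map_mul, map_mul, map_mul _ _ w⁻¹,
            mul_smul, mul_smul, mul_smul, map_inv _ w, inv_smul_eq_iff.2 h4.symm, h2, h4, map_inv,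
            inv_smul_eq_iff, hε' R h3])
      convert Subgroup.Normal.conj_mem inferInstance _ h5 (γ * ε R) using 1
      rw [huv]
      group
    · rintro q ⟨hq, w', hw', h5, h6⟩
      obtain ⟨R', hR', rfl⟩ := Finset.mem_image.1 hq
      suffices R' = R by rw [this]
      rw [← hτ R', hRd]
      refine ((h'.eq _ _).2 ⟨w' * u, (mΓ _).2 ⟨mul_mem hw' hu, ?_⟩, ?_⟩).symm
      · have h7 := z0 (Subgroup.Normal.conj_mem inferInstance _ h6 γ⁻¹)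
        convert mul_mem (mul_mem (mul_mem h7 (hε R' hR')) hw') (inv_mem hv) using 1
        rw [huv]
        group
      · rw [← mul_smul, ← map_mul, mul_inv_cancel_right]
        exact h5.symm

theorem ex_ne [Countable G0] (hnz : ∀ ε ∈ Γ, γ * ε ∉ T.Z0)
    (hfix : ∀ τ, dn a (pt' τ) = dn b (pt' τ) → ∃ ε ∈ Γ, T.r (γ * ε) • τ = τ) : ∃ y, a y ≠ b y := by
  by_contra hc
  push Not at hc
  choose ε hε hε' using fun τ => hfix τ (by rw [show a = b from AlgHom.ext hc])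
  have h2 : Function.Injective ε := fun τ τ' h3 => by
    by_contra h4
    exact hnz _ (hε τ) ((mem_Z0 T).2 (fix_unique (hε' τ) (h3 ▸ hε' τ') h4))
  have h3 : Function.Injective fun t : ℝ => ε (t +ᵥ I) := fun t t' h4 => by
    simpa using congrArg UpperHalfPlane.re (h2 h4)
  exact not_countable h3.countable

theorem sl_apply (γ : G0) (f : Hol) : sl T γ f = slR (T.r γ) f := rfl

theorem jm_sl (γ : G0) (f : Hol) : jm (sl T γ f) = SL (T.r γ) (jm f) := jm_slR _ _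

theorem DM_der {x : T.KF Γ} (hx : ∀ c : ℂ, x ≠ algebraMap ℂ _ c)
    {δ : Derivation ℂ (T.KF Γ') (T.KF Γ')} (hδ : δ (a x) = 1) (ha : ∀ f, (a f : Mer) = f)
    (y : T.KF Γ') : DM (y : Mer) = (δ y : Mer) * DM (x : Mer) := by
  have h2 := chain' (T.KF Γ').val DM (nc_emb a hx) hδ y
  rwa [show (T.KF Γ').val (a x) = x from ha x] at h2

theorem jm_sum {ι : Type} (s : Finset ι) (f : ι → Hol) : jm (∑ c ∈ s, f c) = ∑ c ∈ s, jm (f c) :=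
  map_sum (algebraMap Hol Mer) _ _

theorem sum_aux {ι : Type} (s : Finset ι) (y : ι → Mer) (w : Mer) (f : ι → Hol)
    (h : ∀ c ∈ s, y c * w = jm (f c)) : (∑ c ∈ s, y c) * w = jm (∑ c ∈ s, f c) := by
  rw [jm_sum, Finset.sum_mul]
  exact Finset.sum_congr rfl h

theorem hk_term {x f : T.KF Γ} {δ : Derivation ℂ (T.KF Γ') (T.KF Γ')}
    (hch : ∀ y : T.KF Γ', DM (y : Mer) = (δ y : Mer) * DM (x : Mer))
    (hb : ∀ f, (b f : Mer) = T.act γ f) {u v : G0} (hu : u ∈ Γ) (hv : v ∈ Γ) :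
    T.act u ((b f * δ (b x) : T.KF Γ') : Mer) * DM (x : Mer) =
      SL (T.r (u * γ * v)) ((f : Mer) * DM (x : Mer)) := by
  have h3 : ((b f * δ (b x) : T.KF Γ') : Mer) = (b f : Mer) * (δ (b x) : Mer) := rfl
  have h4 : SL (T.r v) ((f : Mer) * DM (x : Mer)) = (f : Mer) * DM (x : Mer) := by
    rw [SL_mul_left, SL_DM_fix hv, ← act_eq, T.mem_KF.1 f.2 v hv]
  have h5 : SL (T.r γ) ((f : Mer) * DM (x : Mer)) =
      (b f : Mer) * (δ (b x) : Mer) * DM (x : Mer) := by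
    rw [SL_mul_left, SL_DM, ← act_eq, ← hb, ← hb, hch, ← mul_assoc]
  rw [T.r.map_mul, T.r.map_mul, SL_mul, SL_mul, h4, h5, SL_mul_left, SL_DM_fix hu, h3, act_eq]

theorem conj_ap {M N : Type} [AddCommMonoid M] [AddCommMonoid N] [Module ℂ M] [Module ℂ N]
    (Φ : M ≃ₗ[ℂ] N) (A : Module.End ℂ M) (f : M) : Φ.conj A (Φ f) = Φ (A f) := by
  rw [LinearEquiv.conj_apply_apply, Φ.symm_apply_apply]

theorem hk_val1 {K L : Type} [Field K] [Field L] [Algebra ℂ K] [Algebra ℂ L] [CFF ℂ K] [CFF ℂ L]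
    (a b : K →ₐ[ℂ] L) {x : K} (hx : ∀ c : ℂ, x ≠ algebraMap ℂ _ c) {δ : Derivation ℂ L L}
    (hδ : δ (a x) = 1) (hδ0 : δ ≠ 0) (f : LL ℂ (wdv ℂ x)) :
    (Lef.hk a b hx hδ0 f : K) = trc a (b f * δ (b x)) := by
  rw [hk_val, hδ, div_one]

theorem hk_term2 {x f : T.KF Γ} (hx : ∀ c : ℂ, x ≠ algebraMap ℂ _ c)
    {δ : Derivation ℂ (T.KF Γ') (T.KF Γ')} (hδ : δ (a x) = 1)
    (ha : ∀ f, (a f : Mer) = f) (hb : ∀ f, (b f : Mer) = T.act γ f)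
    (hd : ∀ c ∈ C, d c ∈ Γ) (he : ∀ c ∈ C, e c ∈ Γ) (hde : ∀ c ∈ C, c.out = d c * γ * e c)
    {g : Hol} (hg : jm g = (f : Mer) * DM (x : Mer)) :
    (∑ c ∈ C, T.act (d c) ((b f * δ (b x) : T.KF Γ') : Mer)) * DM (x : Mer) =
      jm (∑ c ∈ C, sl T c.out g) :=
  sum_aux C _ _ _ fun c hc => by
    rw [jm_sl, hg, hde c hc]
    exact hk_term (DM_der hx hδ ha) hb (hd c hc) (he c hc)

theorem hk_dict {x : T.KF Γ} (hx : ∀ c : ℂ, x ≠ algebraMap ℂ _ c)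
    {Φ : LL ℂ (wdv ℂ x) ≃ₗ[ℂ] iv (sl T) Γ}
    (hΦ : ∀ f, jm (Φ f).1 = ((f : T.KF Γ) : Mer) * DM (x : Mer))
    {δ : Derivation ℂ (T.KF Γ') (T.KF Γ')} (hδ : δ (a x) = 1) (hδ0 : δ ≠ 0)
    (ha : ∀ f, (a f : Mer) = f) (hb : ∀ f, (b f : Mer) = T.act γ f)
    (hd : ∀ c ∈ C, d c ∈ Γ) (he : ∀ c ∈ C, e c ∈ Γ) (hde : ∀ c ∈ C, c.out = d c * γ * e c)
    (htr : ∀ z : T.KF Γ', ((trc a z : T.KF Γ) : Mer) = ∑ c ∈ C, T.act (d c) z)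
    (f : iv (sl T) Γ) : (Φ.conj (Lef.hk a b hx hδ0) f).1 = ∑ c ∈ C, sl T c.out f.1 := by
  refine Cf.jm_inj ?_
  obtain ⟨f, rfl⟩ := Φ.surjective f
  refine (congrArg (fun g : iv (sl T) Γ => jm g.1) (conj_ap Φ _ f)).trans ((hΦ _).trans ?_)
  refine Eq.trans ?_ (hk_term2 hx hδ ha hb hd he hde (hΦ f))
  exact congrArg (· * DM (x : Mer))
    ((congrArg Subtype.val (hk_val1 a b hx hδ hδ0 f)).trans (htr _))

theorem deg_eq (hg : 2 ≤ gen ℂ (T.KF Γ)) (ra : ∀ R, rm a R = 1) (rb : ∀ R, rm b R = 1)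
    (hfib : ∀ (τ : ℍ) (F : Plk ℂ (T.KF Γ') → ℂ),
      ∑ c ∈ C, F (pt' (T.r (d c)⁻¹ • τ)) = ∑ R ∈ fb a (pt τ), F R) : (dgr b : ℂ) = C.card := by
  have h2 := dgr_eq ra
  rw [dgr_eq rb] at h2
  have h4 : dgr b = dgr a := by
    exact_mod_cast mul_right_cancel₀ (by omega : 2 * (gen ℂ (T.KF Γ) : ℤ) - 2 ≠ 0) h2
  have h5 := hfib I fun R => (rm a R : ℂ)
  rw [← Nat.cast_sum, ← Nat.cast_sum, sum_rm] at h5
  simp only [ra, Finset.sum_const, smul_eq_mul, mul_one] at h5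
  rw [h4, h5]

theorem val_mult (h : T.Pts Γ pt) (h' : T.Pts Γ' pt') (hF : T.Fr Γ)
    (ha : ∀ f, (a f : Mer) = f) (hb : ∀ f, (b f : Mer) = T.act γ f) {τ : ℍ} {ε : G0} (hε : ε ∈ Γ)
    (hε' : T.r (γ * ε) • τ = τ) {t : T.KF Γ} (ht : ord (pt τ) t = 1) :
    Val (pt' τ) (a t / b t) (T.mu (γ * ε) τ) := by
  rw [ord_pt h hF] at ht
  have h2 := mval_mult hε' ht
  have h3 : ((a t / b t : T.KF Γ') : Mer) = (t : Mer) / Cf.ac (T.r (γ * ε)) t := by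
    rw [← act_eq, map_mul, AlgEquiv.mul_apply, T.mem_KF.1 t.2 _ hε, ← hb, ← ha]
    rfl
  rw [h'.val, h3, mu_eq]
  exact h2

end dc

theorem lf_dc [Countable G0] (hCF : T.CF) (hG : T.GEN) {Γ : Subgroup G0} (hΓ : T.Fu Γ)
    (hF : T.Fr Γ) {γ : G0} (h1 : γ ∉ Γ) {Γ' : Subgroup G0} (hΓ' : T.Fu Γ')
    (mΓ : ∀ δ, δ ∈ Γ' ↔ δ ∈ Γ ∧ γ⁻¹ * δ * γ ∈ Γ) (C : Finset (G0 ⧸ Γ))
    (hC : ∀ c, c ∈ C ↔ c.out ∈ dc Γ γ Γ) : Lf1 T Γ (dc Γ γ Γ) C := by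
  classical
  obtain ⟨_, pt, h⟩ := hCF Γ hΓ
  obtain ⟨_, pt', h'⟩ := hCF _ hΓ'
  have hF' : T.Fr Γ' := fun δ hδ => hF δ ((mΓ δ).1 hδ).1
  obtain ⟨x, hx⟩ := exists_nc ℂ (T.KF Γ)
  obtain ⟨Φ, hΦ⟩ := exists_dict h hF hx
  obtain ⟨a, ha⟩ : ∃ a : T.KF Γ →ₐ[ℂ] T.KF Γ', ∀ f, (a f : Mer) = T.act 1 f :=
    ⟨emb 1 fun δ hδ => by simpa using ((mΓ δ).1 hδ).1, emb_val _ _⟩
  obtain ⟨b, hb⟩ : ∃ b : T.KF Γ →ₐ[ℂ] T.KF Γ', ∀ f, (b f : Mer) = T.act γ f :=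
    ⟨emb γ fun δ hδ => ((mΓ δ).1 hδ).2, emb_val _ _⟩
  have ha' : ∀ f, (a f : Mer) = f := fun f => by rw [ha, map_one, AlgEquiv.one_apply]
  have da : ∀ τ, dn a (pt' τ) = pt τ := fun τ => by
    rw [dn_pt h h' ha, inv_one, map_one, one_smul]
  have db : ∀ τ, dn b (pt' τ) = pt (T.r γ⁻¹ • τ) := dn_pt h h' hb
  have ra := rm_pt h h' hF hF' ha
  have rb := rm_pt h h' hF hF' hb
  obtain ⟨δ, hδ⟩ := exists_der1 (nc_emb a hx)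
  have hδ0 : δ ≠ 0 := by
    rintro rfl
    simp at hδ
  choose! d hd e he hde using fun c (hc : c ∈ C) => (hC c).1 hc
  have hfib := fib_sum h h' hF hΓ'.z0 mΓ da hC hd he hde
  have hdeg := deg_eq (hG Γ hΓ hF) ra rb hfib
  have hfix : ∀ τ, dn a (pt' τ) = dn b (pt' τ) ↔ ∃ ε ∈ Γ, T.r (γ * ε) • τ = τ := fun τ => by
    rw [da, db, h.eq]
    refine exists_congr fun ε => and_congr_right fun _ => ?_
    rw [map_mul, mul_smul, map_inv, eq_inv_smul_iff]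
  have hnz : ∀ ε ∈ Γ, γ * ε ∉ T.Z0 := fun ε hε h2 =>
    h1 (by simpa using mul_mem (hΓ.z0 h2) (inv_mem hε))
  obtain ⟨y, hy⟩ := ex_ne hnz fun τ => (hfix τ).1
  obtain ⟨S, hS⟩ : ∃ S : Finset (Plk ℂ (T.KF Γ')), ∀ R, dn a R = dn b R ↔ R ∈ S :=
    ⟨(fix_finite hy).toFinset, fun R => by rw [Set.Finite.mem_toFinset]; rfl⟩
  choose τ hτ using h'.onto
  choose! ε hε hε' using fun R (hR : R ∈ S) => (hfix (τ R)).1 (by rw [hτ]; exact (hS R).2 hR)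
  have hL := lef a b hx hδ0 S (fun R => T.mu (γ * ε R) (τ R)) hS fun R hR => ⟨fun h2 => ?_, ?_⟩
  rotate_left
  · rw [mu_eq] at h2
    exact hnz _ (hε R hR) ((mem_Z0 T).2 (Cf.triv_of_dr (hε' R hR) h2))
  · obtain ⟨t, -, ht⟩ := exists_unif (dn b R)
    refine ⟨t, ht, ?_⟩
    rw [← (hS R).2 hR, ← hτ R, da] at ht
    have h3 := val_mult h h' hF ha' hb (hε R hR) (hε' R hR) ht
    rwa [hτ R] at h3
  have hinj : Set.InjOn (fun R => (τ R, γ * ε R)) S := fun R _ R' _ h2 => by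
    rw [← hτ R, ← hτ R', show τ R = τ R' from (Prod.ext_iff.1 h2).1]
  refine ⟨Φ.conj (Lef.hk a b hx hδ0), S.image fun R => (τ R, γ * ε R),
    hk_dict hx hΦ hδ hδ0 ha' hb hd he hde (trc_eq h h' ra hfib),
    rp_dc h' hF hΓ.z0 mΓ (fun τ h2 => (hS _).1 ((hfix τ).2 h2)) hτ hε hε', ?_⟩
  refine (LinearMap.trace_conj' (R := ℂ) (M := LL ℂ (wdv ℂ x)) (N := iv (sl T) Γ) _ Φ).trans ?_
  rw [hL, hdeg, Finset.sum_image hinj, sub_eq_add_neg,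
    ← Finset.sum_neg_distrib]
  congr 1
  refine Finset.sum_congr rfl fun R _ => ?_
  rw [rb, Nat.cast_one, ← div_neg, neg_sub]

theorem lf_all [Countable G0] (hCF : T.CF) (hG : T.GEN) {Γ : Subgroup G0} (hΓ : T.Fu Γ)
    (hF : T.Fr Γ) (n : ℕ) : ∀ (Δ : Set G0) (C : Finset (G0 ⧸ Γ)), C.card = n →
      (∀ u ∈ Γ, ∀ y ∈ Δ, u * y ∈ Δ) → (∀ y ∈ Δ, ∀ u ∈ Γ, y * u ∈ Δ) → (1 : G0) ∉ Δ →
      (∀ γ ∈ Δ, T.Fu (Γ ⊓ cj γ Γ)) → (∀ c, c ∈ C ↔ c.out ∈ Δ) → Lf1 T Γ Δ C := by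
  classical
  induction n using Nat.strong_induction_on with
  | _ n ih =>
  intro Δ C hn hl hr h1 hfu hC
  rcases Δ.eq_empty_or_nonempty with rfl | ⟨γ, hγ⟩
  · have h2 : C = ∅ := Finset.eq_empty_of_forall_notMem fun c hc => (hC c).1 hc
    exact ⟨0, ∅, by simp [h2], ⟨by simp, by simp⟩, by simp [h2]⟩
  have hsub : dc Γ γ Γ ⊆ Δ := by
    rintro _ ⟨u, hu, v, hv, rfl⟩
    exact hr _ (hl u hu γ hγ) v hv
  have dl : ∀ u ∈ Γ, ∀ y ∈ dc Γ γ Γ, u * y ∈ dc Γ γ Γ := by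
    rintro w hw _ ⟨u, hu, v, hv, rfl⟩
    exact ⟨w * u, mul_mem hw hu, v, hv, by group⟩
  have dr : ∀ y ∈ dc Γ γ Γ, ∀ u ∈ Γ, y * u ∈ dc Γ γ Γ := by
    rintro _ ⟨u, hu, v, hv, rfl⟩ w hw
    exact ⟨u, hu, v * w, mul_mem hv hw, by group⟩
  have hrel : ∀ p q : ℍ × G0, Rl T Γ p q → (p.2 ∈ dc Γ γ Γ ↔ q.2 ∈ dc Γ γ Γ) := by
    rintro p q ⟨δ, hδ, -, h2⟩
    have h3 := hΓ.z0 h2
    constructor
    · intro h4
      convert dl _ (inv_mem h3) _ (dr _ (dl δ hδ _ h4) _ (inv_mem hδ)) using 1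
      group
    · intro h4
      convert dl _ (inv_mem hδ) _ (dr _ (dl _ h3 _ h4) _ hδ) using 1
      group
  obtain ⟨A1, R1, a1, ⟨r1, r1'⟩, t1⟩ := lf_dc hCF hG hΓ hF
    (fun h2 : γ ∈ Γ => h1 (by simpa using hr γ hγ _ (inv_mem h2))) (hfu γ hγ)
    (fun δ => by rw [Subgroup.mem_inf, mem_cj]) (C.filter fun c => c.out ∈ dc Γ γ Γ) fun c => by
      rw [Finset.mem_filter, hC]
      exact ⟨fun h => h.2, fun h => ⟨hsub h, h⟩⟩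
  obtain ⟨w, hw⟩ := QuotientGroup.mk_out_eq_mul Γ γ
  have hm : (γ : G0 ⧸ Γ).out ∈ dc Γ γ Γ := ⟨1, one_mem _, w, w.2, by rw [hw, one_mul]⟩
  obtain ⟨A2, R2, a2, ⟨r2, r2'⟩, t2⟩ := ih _ (hn ▸ Finset.card_lt_card
    (Finset.filter_ssubset.2 ⟨(γ : G0 ⧸ Γ), (hC _).2 (hsub hm), not_not.2 hm⟩))
    (Δ \ dc Γ γ Γ) (C.filter fun c => c.out ∉ dc Γ γ Γ) rfl
    (fun u hu y hy => ⟨hl u hu y hy.1, fun h2 => hy.2 (by simpa using dl _ (inv_mem hu) _ h2)⟩)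
    (fun y hy u hu => ⟨hr y hy.1 u hu, fun h2 => hy.2 (by simpa using dr _ h2 _ (inv_mem hu))⟩)
    (fun h2 => h1 h2.1) (fun γ' h2 => hfu γ' h2.1) fun c => by
      rw [Finset.mem_filter, hC]; rfl
  refine ⟨A1 + A2, R1 ∪ R2, fun f => ?_, ⟨fun p hp => ?_, fun p hp hp' => ?_⟩, ?_⟩
  · rw [LinearMap.add_apply, Submodule.coe_add, a1, a2, Finset.sum_filter_add_sum_filter_not]
  · rcases Finset.mem_union.1 hp with h2 | h2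
    · exact ⟨(r1 p h2).1, hsub (r1 p h2).2⟩
    · exact ⟨(r2 p h2).1, (r2 p h2).2.1⟩
  · by_cases h2 : p.2 ∈ dc Γ γ Γ
    · obtain ⟨q, ⟨h3, h4⟩, h5⟩ := r1' p hp h2
      refine ⟨q, ⟨Finset.mem_union_left _ h3, h4⟩, fun q' h6 => h5 q' ⟨?_, h6.2⟩⟩
      exact (Finset.mem_union.1 h6.1).resolve_right fun h7 =>
        (r2 q' h7).2.2 ((hrel p q' h6.2).1 h2)
    · obtain ⟨q, ⟨h3, h4⟩, h5⟩ := r2' p hp ⟨hp', h2⟩
      refine ⟨q, ⟨Finset.mem_union_right _ h3, h4⟩, fun q' h6 => h5 q' ⟨?_, h6.2⟩⟩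
      exact (Finset.mem_union.1 h6.1).resolve_left fun h7 =>
        h2 ((hrel p q' h6.2).2 (r1 q' h7).2)
  · rw [map_add, t1, t2, Finset.sum_union (Finset.disjoint_left.2 fun p h2 h3 =>
      (r2 p h3).2.2 (r1 p h2).2),
      ← Finset.card_filter_add_card_filter_not (s := C) fun c => c.out ∈ dc Γ γ Γ]
    push_cast
    ring

end Vale.Agent.P022K.Sh.Lf
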