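import Vale.Agent.P022K.F0.LefB
import Vale.Agent.P022K.F0.Fixa

/-!
# P022K, block F0, row LEFT: the Lefschetz formula on the tower
-/

set_option autoImplicit false
set_option linter.all false

open UpperHalfPlane
open scoped MatrixGroups

noncomputable section

namespace Vale.Agent.P022K.Sh.Lf

open Vale.Agent.P022 Vale.Agent.P022.H218.L3 Fxa

theorem trace_blocks {M ι : Type} [AddCommGroup M] [Module ℂ M] (S : Finset ι) {N : ι → Type}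
    [∀ i, AddCommGroup (N i)] [∀ i, Module ℂ (N i)] [∀ i, FiniteDimensional ℂ (N i)]
    (p : ∀ i, M →ₗ[ℂ] N i) (e : ∀ i, N i →ₗ[ℂ] M) (h : ∀ m, ∑ i ∈ S, e i (p i m) = m) :
    FiniteDimensional ℂ M ∧ ∀ A : Module.End ℂ M,
      LinearMap.trace ℂ _ A = ∑ i ∈ S, LinearMap.trace ℂ _ (p i ∘ₗ A ∘ₗ e i) := by
  have fd : FiniteDimensional ℂ M := FiniteDimensional.of_injective
    (LinearMap.pi fun i : S => p i) ((injective_iff_map_eq_zero _).2 fun m hm => by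
      rw [← h m]
      exact Finset.sum_eq_zero fun i hi => by
        rw [show p i m = 0 from congrFun hm ⟨i, hi⟩, map_zero])
  refine ⟨fd, fun A => ?_⟩
  have h1 : A = ∑ i ∈ S, (A ∘ₗ e i) ∘ₗ p i := LinearMap.ext fun m => by
    simp only [LinearMap.sum_apply, LinearMap.comp_apply, ← map_sum, h]
  conv_lhs => rw [h1, map_sum]
  exact Finset.sum_congr rfl fun i _ => LinearMap.trace_comp_comm' _ _

variable {G0 G : Type} [Group G0] [Group G] {T : Tw G0 G} {U : Subgroup G} {O : Set G}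

variable (T U) in
/-- the same component -/
def Cm (x y : G) : Prop := ∃ γ, ∃ u ∈ U, y = T.j γ * x * u

variable (T U) in
/-- the components -/
def cmS : Setoid G := ⟨Cm T U, fun x => ⟨1, 1, one_mem _, by simp⟩,
  fun ⟨γ, u, hu, e⟩ => ⟨γ⁻¹, u⁻¹, inv_mem hu, by rw [e, map_inv]; group⟩,
  fun ⟨γ, u, hu, e⟩ ⟨γ', u', hu', e'⟩ => ⟨γ' * γ, u * u', mul_mem hu hu', by
    rw [e', e, map_mul]; group⟩⟩

theorem ex_reps (ok : T.Ok) (hU : U ∈ T.Lev) :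
    ∃ S : Finset G, ∀ y, ∃! x, x ∈ S ∧ Cm T U x y := by
  classical
  obtain ⟨S, hS⟩ := ok.fin U hU
  refine ⟨S.image fun s => (Quotient.mk (cmS T U) s).out, fun y => ?_⟩
  obtain ⟨s, hs, h⟩ := hS y
  refine ⟨_, ⟨Finset.mem_image_of_mem _ hs, (cmS T U).trans (Quotient.mk_out s) h⟩, ?_⟩
  rintro x ⟨hx, h'⟩
  obtain ⟨s', -, rfl⟩ := Finset.mem_image.1 hx
  rw [Quotient.sound (s := cmS T U) ((cmS T U).trans ((cmS T U).trans
    ((cmS T U).symm (Quotient.mk_out s')) h') ((cmS T U).symm h))]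

section

variable {B : Type} [AddCommGroup B] [Module ℂ B] {ρ : Representation ℂ G0 B}

theorem mem_H0 {f : G → B} :
    f ∈ T.H0 ρ U ↔ ∀ γ x, ∀ u ∈ U, f (T.j γ * x * u) = ρ γ (f x) := by
  constructor
  · intro h γ x u hu
    have e := congrFun (h.2 γ) (T.j γ * x)
    rw [h.1 _ u hu, ← e, Tw.lt, inv_mul_cancel_left]
  · refine fun h => ⟨fun x u hu => by simpa using h 1 x u hu, fun γ => funext fun x => ?_⟩
    simpa [Tw.lt] using (h γ ((T.j γ)⁻¹ * x) 1 (one_mem _)).symm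

variable (T U ρ) in
/-- restriction to a component -/
def pr (x : G) : T.H0 ρ U →ₗ[ℂ] iv ρ (T.Gam U x) where
  toFun f := ⟨f.1 x, fun γ hγ => by
    rw [← mem_H0.1 f.2 γ x _ (inv_mem (T.mem_Gam.1 hγ))]
    congr 1
    group⟩
  map_add' _ _ := rfl
  map_smul' _ _ := rfl

open Classical in
variable (T U ρ) in
/-- extension by zero -/
def ex0 (x : G) (b : B) (y : G) : B := if h : Cm T U x y then ρ h.choose b else 0

theorem ex0_eq {x : G} (b : iv ρ (T.Gam U x)) (γ : G0) {u : G} (hu : u ∈ U) :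
    ex0 T U ρ x b.1 (T.j γ * x * u) = ρ γ b.1 := by
  have h : Cm T U x (T.j γ * x * u) := ⟨γ, u, hu, rfl⟩
  obtain ⟨u', hu', e⟩ := h.choose_spec
  have h1 : γ⁻¹ * h.choose ∈ T.Gam U x := T.mem_Gam.2 (by
    convert mul_mem hu (inv_mem hu') using 1
    rw [map_mul, map_inv, eq_mul_inv_iff_mul_eq]
    calc _ = (T.j γ * x)⁻¹ * (T.j h.choose * x * u') := by group
      _ = u := by rw [← e]; group)
  rw [ex0, dif_pos h]
  conv_rhs => rw [← b.2 _ h1]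
  rw [← Module.End.mul_apply, ← map_mul, mul_inv_cancel_left]

theorem ex0_zero {x y : G} (b : B) (h : ¬ Cm T U x y) : ex0 T U ρ x b y = 0 := dif_neg h

variable (T U ρ) in
/-- extension by zero as a linear map -/
def ex (x : G) : iv ρ (T.Gam U x) →ₗ[ℂ] T.H0 ρ U where
  toFun b := ⟨ex0 T U ρ x b.1, mem_H0.2 fun γ y u hu => by
    by_cases h : Cm T U x y
    · obtain ⟨δ, v, hv, rfl⟩ := h
      rw [ex0_eq b δ hv, show T.j γ * (T.j δ * x * v) * u = T.j (γ * δ) * x * (v * u) by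
        rw [map_mul]; group, ex0_eq b _ (mul_mem hv hu), map_mul, Module.End.mul_apply]
    · rw [ex0_zero _ h, map_zero, ex0_zero]
      exact fun h' => h ((cmS T U).trans h' ((cmS T U).symm ⟨γ, u, hu, rfl⟩))⟩
  map_add' b b' := Subtype.ext (funext fun y => by
    show ex0 T U ρ x (b.1 + b'.1) y = ex0 T U ρ x b.1 y + ex0 T U ρ x b'.1 y
    unfold ex0
    split_ifs
    · rw [map_add]
    · rw [add_zero])
  map_smul' c b := Subtype.ext (funext fun y => by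
    show ex0 T U ρ x (c • b.1) y = c • ex0 T U ρ x b.1 y
    unfold ex0
    split_ifs
    · rw [map_smul]
    · rw [smul_zero])

theorem sum_ex_pr {S : Finset G} (hS : ∀ y, ∃! x, x ∈ S ∧ Cm T U x y) (f : T.H0 ρ U) :
    ∑ x ∈ S, ex T U ρ x (pr T U ρ x f) = f := Subtype.ext (funext fun y => by
  obtain ⟨x, ⟨hx, γ, u, hu, e⟩, h⟩ := hS y
  rw [Submodule.coe_sum, Finset.sum_apply, Finset.sum_eq_single_of_mem x hx fun x' hx' hne =>
    ex0_zero _ fun h' => hne (h x' ⟨hx', h'⟩), e, mem_H0.1 f.2 γ x u hu]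
  exact ex0_eq _ γ hu)

variable (T O) in
/-- the correspondence on the component of `x` -/
def Dl (x : G) : Set G0 := {γ | x⁻¹ * T.j γ * x ∈ O}

theorem inj_cs (x : G) : Function.Injective
    fun c : G0 ⧸ T.Gam U x => ((x⁻¹ * T.j c.out * x : G) : G ⧸ U) := fun c c' h => by
  rw [← c.out_eq', ← c'.out_eq', QuotientGroup.eq, T.mem_Gam]
  convert QuotientGroup.eq.1 h using 1
  rw [map_mul, map_inv]
  group

theorem mem_out (h : Cor U O U) (y : G) : (y : G ⧸ U).out ∈ O ↔ y ∈ O :=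
  ⟨fun h1 => by simpa using h.right _ h1 _ (inv_mem (out_mk_mem U y)),
    fun h1 => by simpa using h.right _ h1 _ (out_mk_mem U y)⟩

theorem ex_cs (h : Cor U O U) (x : G) :
    ∃ C : Finset (G0 ⧸ T.Gam U x), ∀ c, c ∈ C ↔ c.out ∈ Dl T O x :=
  ⟨(h.fin.preimage (inj_cs x).injOn).toFinset, fun c => by
    rw [Set.Finite.mem_toFinset]
    exact mem_out h _⟩

theorem hk_ex (h : Cor U O U) {x : G} {C : Finset (G0 ⧸ T.Gam U x)}
    (hC : ∀ c, c ∈ C ↔ c.out ∈ Dl T O x) (b : iv ρ (T.Gam U x)) :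
    hk O U (ex T U ρ x b).1 x = ∑ c ∈ C, ρ c.out b.1 := by
  rw [hk_eq h]
  refine (Finset.sum_of_injOn _ (inj_cs x).injOn (fun c hc => ?_) (fun c hc h1 => ?_)
    fun c _ => ?_).symm
  · exact h.fin.mem_toFinset.2 ((mem_out h _).2 ((hC c).1 hc))
  · refine ex0_zero _ ?_
    rintro ⟨γ, u, hu, e⟩
    have h2 : ((x⁻¹ * T.j (γ : G0 ⧸ T.Gam U x).out * x : G) : G ⧸ U) = c := by
      rw [← c.out_eq', QuotientGroup.eq, eq_inv_mul_iff_mul_eq.2 e]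
      convert mul_mem (T.mem_Gam.1 (inv_mem (out_mk_mem (T.Gam U x) γ))) hu using 1
      simp only [mul_inv_rev, map_mul, map_inv, inv_inv]
      group
    exact h1 ⟨γ, (hC _).2 ((mem_out h _).1 (h2 ▸ h.fin.mem_toFinset.1 hc)), h2⟩
  · rw [← ex0_eq b c.out (out_mk_mem U (x⁻¹ * T.j c.out * x))]
    congr 1
    group

theorem fin_H0 {S : Finset G} (hS : ∀ y, ∃! x, x ∈ S ∧ Cm T U x y)
    [∀ x, FiniteDimensional ℂ (iv ρ (T.Gam U x))] : FiniteDimensional ℂ (T.H0 ρ U) :=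
  (trace_blocks S (pr T U ρ) (ex T U ρ) (sum_ex_pr hS)).1

theorem trace_H0 {S : Finset G} (hS : ∀ y, ∃! x, x ∈ S ∧ Cm T U x y)
    [∀ x, FiniteDimensional ℂ (iv ρ (T.Gam U x))] (h : Cor U O U)
    {C : ∀ x, Finset (G0 ⧸ T.Gam U x)} (hC : ∀ x c, c ∈ C x ↔ c.out ∈ Dl T O x) {η : G → ℂ}
    {A : Module.End ℂ (T.H0 ρ U)} (hA : ∀ f x, (A f).1 x = η x • hk O U f.1 x)
    {A' : ∀ x, Module.End ℂ (iv ρ (T.Gam U x))}
    (hA' : ∀ x f, (A' x f).1 = ∑ c ∈ C x, ρ c.out f.1) :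
    LinearMap.trace ℂ _ A = ∑ x ∈ S, η x * LinearMap.trace ℂ _ (A' x) := by
  rw [(trace_blocks S (pr T U ρ) (ex T U ρ) (sum_ex_pr hS)).2 A]
  refine Finset.sum_congr rfl fun x _ => ?_
  rw [← smul_eq_mul, ← map_smul]
  congr 1
  refine LinearMap.ext fun b => Subtype.ext ?_
  show (A (ex T U ρ x b)).1 x = η x • (A' x b).1
  rw [hA, hA', hk_ex h (hC x)]

end

theorem sl_iff (γ : G0) (f g : Hol) : sl T γ f = g ↔ ∀ τ, g.1 (T.r γ • τ) *
    ((T.r γ : GL (Fin 2) ℝ).det.val : ℂ) = denom (T.r γ : GL (Fin 2) ℝ) τ ^ 2 * f.1 τ := by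
  have h0 : ((T.r γ : GL (Fin 2) ℝ).det.val : ℂ) ≠ 0 := by exact_mod_cast Units.ne_zero _
  have h1 : ∀ τ, (sl T γ f).1 (T.r γ • τ) * ((T.r γ : GL (Fin 2) ℝ).det.val : ℂ) =
      denom (T.r γ : GL (Fin 2) ℝ) τ ^ 2 * f.1 τ := fun τ => by
    have h2 := mu_mul (T := T) γ⁻¹ γ τ
    have h3 := pow_ne_zero 2 (denom_ne_zero (T.r γ : GL (Fin 2) ℝ) τ)
    rw [inv_mul_cancel, mu_z0 (one_mem _), show T.mu γ τ = _ / _ from rfl, ← mul_div_assoc, eq_div_iff h3, one_mul] at h2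
    rw [sl_apply, slR_val, inv_smul_smul, ← map_inv, ← mu_eq, mul_assoc, ← h2, mul_comm]
  refine ⟨fun e => e ▸ h1, fun e => Subtype.ext (funext fun τ => ?_)⟩
  rw [← smul_inv_smul (T.r γ) τ]
  exact mul_right_cancel₀ h0 ((h1 _).trans (e _).symm)

variable (T U) in
/-- one-forms as sections -/
def omE : T.Om U ≃ₗ[ℂ] T.H0 (sl T) U where
  toFun ω := ⟨fun x => ⟨ω.1 x, ω.2.1 x⟩, mem_H0.2 fun γ x u hu =>
    ((sl_iff γ _ _).2 fun τ => by
      show ω.1 (T.j γ * x * u) _ * _ = _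
      rw [ω.2.2.1 _ u hu]
      exact ω.2.2.2 γ x τ).symm⟩
  invFun f := ⟨fun x => (f.1 x).1, fun x => (f.1 x).2, fun x u hu => congrArg _ (f.2.1 x u hu),
    fun γ x => (sl_iff γ _ _).1 (by simpa using (mem_H0.1 f.2 γ x 1 (one_mem _)).symm)⟩
  map_add' _ _ := rfl
  map_smul' _ _ := rfl
  left_inv _ := rfl
  right_inv _ := rfl

theorem iv_triv (Γ : Subgroup G0) : Module.finrank ℂ (iv (Representation.trivial ℂ G0 ℂ) Γ) = 1 := by
  rw [show iv (Representation.trivial ℂ G0 ℂ) Γ = ⊤ from eq_top_iff.2 fun _ _ _ _ => rfl,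
    finrank_top, Module.finrank_self]

theorem fx_rl {x : G} {p q : ℍ × G0} :
    T.FxR U (p.1, x, p.2) (q.1, x, q.2) ↔ Rl T (T.Gam U x) p q := by
  constructor
  · rintro ⟨δ, u, hu, h1, h2, h3⟩
    refine ⟨δ, T.mem_Gam.2 ?_, h1, h3⟩
    convert inv_mem hu using 1
    rw [eq_inv_iff_mul_eq_one, mul_assoc, mul_assoc, ← mul_assoc (T.j δ), ← h2, inv_mul_cancel]
  · rintro ⟨δ, hδ, h1, h3⟩
    exact ⟨δ, _, inv_mem (T.mem_Gam.1 hδ), h1, by simp only []; group, h3⟩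

theorem sum_rep {R R' : Finset (ℍ × G × G0)} (h : T.FxRep U O R) (h' : T.FxRep U O R')
    {F : ℍ × G × G0 → ℂ} (hF : ∀ p q, T.IsFx O p → T.FxR U p q → F p = F q) :
    ∑ p ∈ R, F p = ∑ p ∈ R', F p := by
  choose! κ hκ hκ' using h'.2
  refine Finset.sum_nbij κ (fun p hp => (hκ p (h.1 p hp)).1) (fun p hp q hq e => ?_)
    (fun q hq => ?_) fun p hp => hF p _ (h.1 p hp) (hκ p (h.1 p hp)).2
  · exact (h.2 p (h.1 p hp)).unique ⟨hp, fx_refl p⟩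
      ⟨hq, fx_trans (hκ p (h.1 p hp)).2 (fx_symm (e ▸ (hκ q (h.1 q hq)).2))⟩
  · obtain ⟨p, ⟨hp, h1⟩, -⟩ := h.2 q (h'.1 q hq)
    exact ⟨p, hp, (hκ' p (h.1 p hp) q ⟨hq, fx_symm h1⟩).symm⟩

theorem fx_rep (h : Cor U O U) {S : Finset G} (hS : ∀ y, ∃! x, x ∈ S ∧ Cm T U x y)
    {R : G → Finset (ℍ × G0)} (hR : ∀ x, Rp T (T.Gam U x) (Dl T O x) (R x))
    [DecidableEq (ℍ × G × G0)] :
    T.FxRep U O ((S.sigma R).image fun q => (q.2.1, q.1, q.2.2)) := by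
  refine ⟨fun p hp => ?_, fun p hp => ?_⟩
  · obtain ⟨q, hq, rfl⟩ := Finset.mem_image.1 hp
    exact (hR q.1).1 q.2 (Finset.mem_sigma.1 hq).2
  · obtain ⟨x, ⟨hx, δ, u, hu, e⟩, hx'⟩ := hS p.2.1
    have h1 : T.FxR U p (T.r δ⁻¹ • p.1, x, δ⁻¹ * p.2.2 * δ) :=
      ⟨δ⁻¹, u⁻¹, inv_mem hu, rfl, by simp [e, mul_assoc], by
        convert one_mem T.Z0 using 1
        group⟩
    have h9 : x⁻¹ * T.j (δ⁻¹ * p.2.2 * δ) * x ∈ O := by
      have h4 := h.right _ (h.left u hu _ hp.2) _ (inv_mem hu)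
      rwa [e, show u * ((T.j δ * x * u)⁻¹ * T.j p.2.2 * (T.j δ * x * u)) * u⁻¹ =
        x⁻¹ * T.j (δ⁻¹ * p.2.2 * δ) * x by rw [map_mul, map_mul, map_inv]; group] at h4
    have h10 := fx_fix h1 hp.1
    obtain ⟨q, ⟨hq, h2⟩, h3⟩ := (hR x).2 (T.r δ⁻¹ • p.1, δ⁻¹ * p.2.2 * δ) h10 h9
    refine ⟨(q.1, x, q.2), ⟨Finset.mem_image.2 ⟨⟨x, q⟩, Finset.mem_sigma.2 ⟨hx, hq⟩, rfl⟩,
      fx_trans h1 (fx_rl (p := (T.r δ⁻¹ • p.1, δ⁻¹ * p.2.2 * δ)) (q := q) |>.2 h2)⟩, ?_⟩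
    rintro _ ⟨hq', h4⟩
    obtain ⟨⟨x', q'⟩, h5, rfl⟩ := Finset.mem_image.1 hq'
    obtain ⟨h6, h7⟩ := Finset.mem_sigma.1 h5
    obtain rfl : x' = x := by
      obtain ⟨δ', u', hu', -, h8, -⟩ := h4
      exact hx' x' ⟨h6, (cmS T U).symm ⟨δ', u', hu', h8⟩⟩
    have h11 := fx_trans (fx_symm h1) h4
    rw [h3 q' ⟨h7, (fx_rl (p := (T.r δ⁻¹ • p.1, δ⁻¹ * p.2.2 * δ)) (q := q')).1 h11⟩]

theorem ex_lf (ok : T.Ok) (hU : U ∈ T.Lev) (hn : T.Neat U) (h : Cor U O U) (h1 : (1 : G) ∉ O)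
    (x : G) {C : Finset (G0 ⧸ T.Gam U x)} (hC : ∀ c, c ∈ C ↔ c.out ∈ Dl T O x) :
    Lf1 T (T.Gam U x) (Dl T O x) C := by
  have := ok.cnt
  refine lf_all T.cf T.gen (ok.fu U hU x) (hn x) _ _ C rfl (fun u hu y hy => ?_)
    (fun y hy u hu => ?_) (by simpa [Dl] using h1) (fun γ _ => ?_) hC
  · have h2 := h.left _ (T.mem_Gam.1 hu) _ hy
    simpa [Dl, mul_assoc] using h2
  · have h2 := h.right _ hy _ (T.mem_Gam.1 hu)
    simpa [Dl, mul_assoc] using h2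
  · convert ok.fu _ (ok.inf U hU _ (ok.conj U hU (x⁻¹ * T.j γ * x))) x using 1
    ext δ
    simp [Tw.mem_Gam, mem_cj, mul_assoc]

theorem trace_om {S : Finset G} (hS : ∀ y, ∃! x, x ∈ S ∧ Cm T U x y)
    [∀ x, FiniteDimensional ℂ (iv (sl T) (T.Gam U x))] (h : Cor U O U)
    {C : ∀ x, Finset (G0 ⧸ T.Gam U x)} (hC : ∀ x c, c ∈ C x ↔ c.out ∈ Dl T O x) {η : G → ℂ}
    {A : Module.End ℂ (T.Om U)} (hA : ∀ f x, (A f).1 x = η x • hk O U f.1 x)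
    {A' : ∀ x, Module.End ℂ (iv (sl T) (T.Gam U x))}
    (hA' : ∀ x f, (A' x f).1 = ∑ c ∈ C x, sl T c.out f.1) :
    LinearMap.trace ℂ _ A = ∑ x ∈ S, η x * LinearMap.trace ℂ _ (A' x) := by
  refine (LinearMap.trace_conj' (R := ℂ) (M := T.Om U) (N := T.H0 (sl T) U) A (omE T U)).symm.trans
    (trace_H0 hS h hC (fun f x => Subtype.ext ?_) hA')
  refine (hA _ x).trans ?_
  rw [hk_eq h, hk_eq h, Subalgebra.coe_smul, AddSubmonoidClass.coe_finset_sum]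
  rfl

theorem trace_triv {S : Finset G} (hS : ∀ y, ∃! x, x ∈ S ∧ Cm T U x y) (h : Cor U O U)
    {C : ∀ x, Finset (G0 ⧸ T.Gam U x)} (hC : ∀ x c, c ∈ C x ↔ c.out ∈ Dl T O x) {η : G → ℂ}
    {A : Module.End ℂ (T.H0 (Representation.trivial ℂ G0 ℂ) U)}
    (hA : ∀ f x, (A f).1 x = η x * hk O U f.1 x) :
    LinearMap.trace ℂ _ A = ∑ x ∈ S, η x * (C x).card := by
  rw [trace_H0 hS h hC hA (A' := fun x => ((C x).card : ℂ) • LinearMap.id) fun x f => by simp]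
  simp only [map_smul, LinearMap.trace_id, iv_triv, Nat.cast_one, smul_eq_mul, mul_one]

theorem sum_sig (S : Finset G) (R : G → Finset (ℍ × G0)) (F : ℍ × G × G0 → ℂ)
    [DecidableEq (ℍ × G × G0)] : ∑ p ∈ (S.sigma R).image fun q => (q.2.1, q.1, q.2.2), F p =
      ∑ x ∈ S, ∑ p ∈ R x, F (p.1, x, p.2) := by
  rw [Finset.sum_image, Finset.sum_sigma]
  rintro ⟨x, τ, γ⟩ - ⟨x', τ', γ'⟩ - e
  simp only [Prod.mk.injEq] at e
  obtain ⟨rfl, rfl, rfl⟩ := e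
  rfl

theorem mu_ne_one (ok : T.Ok) (hU : U ∈ T.Lev) (h : Cor U O U) (h1 : (1 : G) ∉ O)
    {p : ℍ × G × G0} (hp : T.IsFx O p) : T.mu p.2.2 p.1 ≠ 1 := fun e => h1 (by
  have hz := (ok.z0 _).1 (z0_of_mu hp.1 e)
  have h2 := hp.2
  rw [mul_assoc, ← ok.com hz, inv_mul_cancel_left] at h2
  simpa using h.right _ h2 _ (inv_mem (Tw.Z_le hU hz)))

theorem fin_om (ok : T.Ok) (hU : U ∈ T.Lev) (hn : T.Neat U) : FiniteDimensional ℂ (T.Om U) := by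
  obtain ⟨S, hS⟩ := ex_reps ok hU
  have fd : ∀ x, FiniteDimensional ℂ (iv (sl T) (T.Gam U x)) := fun x =>
    fin_iv T.cf (ok.fu U hU x) (hn x)
  have fd1 : FiniteDimensional ℂ (T.H0 (sl T) U) := fin_H0 hS
  exact Module.Finite.equiv (omE T U).symm

end Lf

open Lf Fxa in
/-- **LEFT** -/
theorem left : All fun T => T.LEFT := by
  classical
  intro G0 G _ _ T ok U hU hn
  obtain ⟨S, hS⟩ := ex_reps ok hU
  have fd : ∀ x, FiniteDimensional ℂ (iv (sl T) (T.Gam U x)) := fun x =>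
    fin_iv T.cf (ok.fu U hU x) (hn x)
  refine ⟨fin_om ok hU hn, fin_H0 hS, fun O h h1 => ?_⟩
  choose C hC using ex_cs (T := T) h
  choose A' R hA' hR ht using fun x => ex_lf ok hU hn h h1 x (hC x)
  have hR0 := fx_rep h hS hR
  refine ⟨⟨_, hR0⟩, fun η hη A A0 hA hA0 R' hR' =>
    ⟨fun p hp => mu_ne_one ok hU h h1 (hR'.1 p hp), ?_⟩⟩
  rw [trace_om hS h hC hA hA', trace_triv hS h hC hA0, sum_rep hR' hR0 fun p q hp hq => by
    rw [fx_eta hη hq, fx_mu hq hp.1], sum_sig, ← Finset.sum_add_distrib]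
  refine Finset.sum_congr rfl fun x _ => ?_
  rw [ht, mul_add, Finset.mul_sum]
  simp only [mul_one_div]

end Vale.Agent.P022K.Sh
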