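import Vale.Agent.P022K.F0.Aut

/-!
# P022K, block F0: forms with complex multiplication, second list of rows
-/

set_option autoImplicit false

open UpperHalfPlane NumberField IsDedekindDomain
open scoped MatrixGroups

noncomputable section

namespace Vale.Agent.P022K.Sh

open Vale.Agent.P022 Orb Tor

variable {F : Type} [Field F] [NumberField F]

namespace QD

variable (X : QD F)

open Classical in
/-- the maximal level at a place where `D` splits and `E` is unramified -/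
structure TyS (w : Pl F) (κ : ℂ) (V : Subgroup (X.Dw w)ˣ) (f φ : (X.Dw w)ˣ → ℂ) : Prop where
  ex : ∃ (s : X.Dw w ≃ₐ[Fw w] Matrix (Fin 2) (Fin 2) (Fw w)) (ω : Matrix (Fin 2) (Fin 2) (Fw w))
    (x y : Fw w), Et (vw w) ω ∧ y ≠ 0 ∧ s ⟨0, 1, 0, 0⟩ = x • 1 + y • ω ∧
    (∀ u, u ∈ V ↔ Units.map s.toRingEquiv.toMonoidHom u ∈ ZV (vw w)) ∧
    (∀ u, f u = if u ∈ V then 1 else 0) ∧ (∀ u, φ u = 1) ∧
    ((κ = qw w ∧ IsSquare (algebraMap (𝓞 F) (Fw w) X.a)) ∨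
      (κ = -(qw w : ℂ) ∧ ¬ IsSquare (algebraMap (𝓞 F) (Fw w) X.a)))

/-- the support of the Hecke operator -/
def Tq (w : Pl F) : Set (X.Dw w)ˣ := {u | ∃ c : Fw w, c • (u : X.Dw w) ∈ X.ODw w ∧
  vw w (nrd (c • (u : X.Dw w))) = WithZero.exp (-1)}

open Classical in
/-- the local functions: the Hecke operator at the places of `W`, `f` elsewhere -/
def fT (W : Finset (Pl F)) (f : ∀ w, (X.Dw w)ˣ → ℂ) (w : Pl F) (u : (X.Dw w)ˣ) : ℂ :=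
  if w ∈ W then (if u ∈ X.Tq w then 1 else 0) else f w u

/-- the adelic torus of `F(√a)` -/
def IsTA (T : Subgroup X.G) : Prop := ∀ x, x ∈ T ↔ (x : X.DA).imJ = 0 ∧ (x : X.DA).imK = 0

/-- `h` is the product of the `η w ∘ nrd` -/
def IsH (η : ∀ w : Pl F, (Fw w)ˣ →* ℂˣ) (h : X.G →* ℂˣ) : Prop :=
  ∀ x, (h x : ℂ) = ∏ᶠ w, ap (η w) (nrd (X.cw w x))

/-- the elements of `V` are scalars modulo the maximal ideal, and `w` is not ramified over a prime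
`l ≥ 5` -/
def Sm (w : Pl F) (V : Subgroup (X.Dw w)ˣ) : Prop :=
  (∃ l : ℕ, l.Prime ∧ 5 ≤ l ∧ (l : 𝓞 F) ∈ w.asIdeal ∧ (l : 𝓞 F) ∉ w.asIdeal ^ 2) ∧
    ∀ u ∈ V, vw w (4 * nrd (u : X.Dw w) - (2 * (u : X.Dw w).re) ^ 2) < vw w (nrd (u : X.Dw w))

variable {E : Type} [Field E] [NumberField E] [Algebra F E]

/-- an eigenform in the image of `f` -/
def Se (C : CM F E) (Ψ : Pl E → ℂˣ) (U : Subgroup X.G) (f : X.G → ℂ) : Prop :=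
  ∃ ω₀ ∈ X.tw.Om U, wk f U ω₀ ≠ 0 ∧ ∃ Z : Finset (Pl F), ∀ w, C.Gd w → w ∉ Z →
    ∃ L : X.tw.Lc (Oc w) (Fw w), X.IsPl w L ∧ L.At (KK (Oc w) (Fw w)) U ∧
      hk (L.To U) U (wk f U ω₀) = Tor.tw Ψ w • wk f U ω₀

/-- the local data of the trace formula -/
structure Ld (C : CM F E) (η : ∀ w : Pl F, (Fw w)ˣ →* ℂˣ) (S : Finset (Pl F))
    (V : ∀ w, Subgroup (X.Dw w)ˣ) (f φ : ∀ w, (X.Dw w)ˣ → ℂ) (T1 : ∀ w, Subgroup (X.Dw w)ˣ) :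
    Prop where
  mem : ∀ w, w ∈ S ↔ (C.D : 𝓞 F) ∈ w.asIdeal
  off : ∀ w, w ∉ S → V w = X.U0 w
  tr : ∀ w ∈ S, X.Tr w C.D (η w) (V w) (f w) (φ w) (T1 w)

end QD

/-- strong approximation (a part of `GOOD`) -/
def SAQ : Prop := AllQ fun {_} _ _ X => X.tw.AllL fun {_ _} _ _ _ _ _ L => ∀ w, X.IsPl w L → L.SA

/-- **LVP**: products of local levels are levels -/
def LVP : Prop := AllQ fun {F} _ _ X => ∀ (S : Finset (Pl F)) (V : ∀ w, Subgroup (X.Dw w)ˣ),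
  (∀ w ∈ S, ∃ M, 0 < M ∧ X.U1 w M ≤ V w ∧ (X.U1 w M).relIndex (V w) ≠ 0) →
  (∀ w, w ∉ S → V w = X.U0 w) → X.PU V ∈ X.tw.Lev

/-- **GFT**: products of test functions -/
def GFT : Prop := AllQ fun {F} _ _ X => ∀ (S : Finset (Pl F)) (V : ∀ w, Subgroup (X.Dw w)ˣ)
  (g : ∀ w, (X.Dw w)ˣ → ℂ), (∀ w ∈ S, Tf (V w) (g w)) → Tf (X.PU V) (X.gf S V g)

open Classical in
/-- **CNV**: convolution of functions at different places -/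
def CNV : Prop := AllQ fun {F} _ _ X => ∀ (S S' : Finset (Pl F)) (V : ∀ w, Subgroup (X.Dw w)ˣ)
  (g : ∀ w, (X.Dw w)ˣ → ℂ), Disjoint S S' → (∀ w ∈ S, Tf (V w) (g w)) →
  (∀ w ∈ S', Tf (V w) (g w)) → ∀ (B : Type) [AddCommMonoid B] [Module ℂ B] (ω : X.G → B),
    Inv (X.PU V) ω → wk (X.gf (S ∪ S') V g) (X.PU V) ω =
      wk (X.gf S V g) (X.PU V) (wk (X.gf S' V g) (X.PU V) ω)

/-- **HKT**: the Hecke operator at a standard place -/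
def HKT : Prop := AllQ fun {F} _ _ X => ∀ w : Pl F, 2 * X.a * X.b ∉ w.asIdeal →
  (∀ f, Tf (X.U0 w) (X.fT {w} f w)) ∧ (∀ u ∈ X.Tq w, Odd (ow (nrd (u : X.Dw w)))) ∧
  ∃ L : X.tw.Lc (Oc w) (Fw w), X.IsPl w L ∧ ∀ V : ∀ v, Subgroup (X.Dw v)ˣ, X.PU V ∈ X.tw.Lev →
    V w = X.U0 w → L.At (KK (Oc w) (Fw w)) (X.PU V) ∧
      ∀ x, x ∈ L.To (X.PU V) ↔ (∀ v, v ≠ w → X.cu v x ∈ V v) ∧ X.cu w x ∈ X.Tq w

/-- **ETG**: the global quadratic character -/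
def ETG : Prop := AllC fun {F _} _ _ _ _ _ X C Ψ => ∀ ε η, X.Cm C ε → Eta C Ψ η →
  ∃ h, X.IsH η h ∧ (∀ γ, h (X.tw.j γ) = 1) ∧
    (∀ x : X.G, (x : X.DA).imJ = 0 → (x : X.DA).imK = 0 → h x = 1) ∧
    (∀ w x, X.Sup w x → (h x : ℂ) = QD.ap (η w) (nrd (X.cw w x))) ∧
    ∀ x : X.G, (∀ w : Pl F, (C.D : 𝓞 F) ∈ w.asIdeal → QD.ap (η w) (nrd (X.cw w x)) = 1) →
      (∀ w : Pl F, (C.D : 𝓞 F) ∉ w.asIdeal → ¬ C.Gd w → Even (ow (nrd (X.cw w x)))) → h x = 1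

/-- **DIC**: units and congruences in `E` and in the local tori -/
def DIC : Prop := AllC fun {F E} _ _ _ _ _ X C _ => ∀ ε : E →ₐ[F] X.D, X.Cm C ε →
  (∀ w γ, X.lc ε w γ ∈ X.Tl w) ∧
  (∀ w : Pl F, (C.D : 𝓞 F) ∈ w.asIdeal → (∀ γ : C.G, QD.Un (X.lc ε w γ)) ∧
    ∀ u ∈ C.G1 {P | Ab w P}, QD.Cg C.D (X.lc ε w (u : C.G))) ∧
  ∀ T : Subgroup X.G, ∀ Γ : Subgroup X.G0,
    (∀ γ : X.G0, γ ∈ Γ ↔ ((γ : X.Dˣ) : X.D) ∈ ε.range) →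
    (∀ γ : Eˣ, Units.map ε.toRingHom.toMonoidHom γ ∈ X.G0) →
    T = Subgroup.centralizer (Γ.map X.tw.j) → X.IsTA T

open Classical in
/-- **PRD**: the global orbital sums -/
def PRD : Prop := AllC fun {F E} _ _ _ _ _ X C Ψ => ∀ (ε : E →ₐ[F] X.D) η S V f φ T1 h T,
  X.Cm C ε → Eta C Ψ η → X.Ld C η S V f φ T1 → X.IsH η h → X.IsTA T →
  ∃ T' : Subgroup X.G, T' ≤ T ∧ T ⊓ X.PU V ≤ T' ∧ (X.PU V).relIndex T' ≠ 0 ∧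
    ∀ W : Finset (Pl F), (∀ w ∈ W, C.Gd w) → ∀ (x : Eˣ) (γ : X.G0), ((γ : X.Dˣ) : X.D) = ε x →
      (∀ t : F, t ≠ 0 → (ε x).imI = t → x ∈ C.G →
        HasOrb T T' (X.tw.oi (X.PU V) (fun y => h y) (X.gf (S ∪ W) V (X.fT W f)) γ)
          ((∏ w ∈ S, φ w (X.lc ε w x)) * C.rho Ψ t *
            ∏ᶠ (v : Pl F) (_ : (C.D : 𝓞 F) ∉ v.asIdeal), C.Ov Ψ W (ε x).re t v)) ∧
      ((∀ x' : C.G, ((x' : Eˣ) : TF F E) ≠ x) →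
        ∀ y, X.gf (S ∪ W) V (X.fT W f) (y⁻¹ * X.tw.j γ * y) = 0)

/-- **TRS**: transfer of the unit -/
def TRS : Prop := AllC fun {F _} _ _ _ _ _ X C Ψ => ∀ ε η, X.Cm C ε → Eta C Ψ η → ∀ w : Pl F,
  (C.D : 𝓞 F) ∈ w.asIdeal → ∀ V f φ κ, X.TyS w κ V f φ → Ur (η w) κ →
    ∃ (T1 : _) (c : ℂ), c ≠ 0 ∧ X.Tr w C.D (η w) V f (fun u => c * φ u) T1

/-- **NTW2**: neatness from a level `K(w)` -/
def NTW2 : Prop := AllQ fun {_} _ _ X => ∀ V w, X.PU V ∈ X.tw.Lev → X.Sm w (V w) →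
  X.tw.Neat (X.PU V)

/-- **TWN**: the eigenvalues of a form with complex multiplication -/
def TWN : Prop := AllC fun {F _} _ _ _ _ _ _ C Ψ =>
  (∀ Z : Finset (Pl F), ∃ w, C.Gd w ∧ w ∉ Z ∧ Tor.tw Ψ w ≠ 0) ∧
    ∀ w, C.Gd w → Tor.tw Ψ w ^ 2 ≠ (qw w + 1) ^ 2

open Classical in
/-- **TORN**: `TOR` without the empty set, in the image of `P` -/
def TORN : Prop := AllC fun {F E} _ _ _ _ _ _ C Ψ => ∀ (φ : C.G → ℂ) (Z : Finset (Pl F))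
  (wt : Finset (Pl F) → TF F E → ℂ), C.Geo Ψ φ Z wt →
  ∀ (M : Type) [AddCommGroup M] [Module ℂ M] [FiniteDimensional ℂ M] (T : Pl F → Module.End ℂ M)
    (TW : Finset (Pl F) → Module.End ℂ M) (P H : Module.End ℂ M),
    (∀ w w', Commute (T w) (T w')) → (∀ w, Commute (T w) P) → TW ∅ = P →
    (∀ W w, w ∉ W → (∀ v ∈ insert w W, C.Gd v ∧ v ∉ Z) → TW (insert w W) = T w * TW W) →
    (∀ W : Finset (Pl F), W.Nonempty → (∀ w ∈ W, C.Gd w ∧ w ∉ Z) →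
      LinearMap.trace ℂ M (H * TW W) = ∑ᶠ q, wt W q) →
    ∃ y, P y ≠ 0 ∧ ∃ Z' : Finset (Pl F), ∀ w, C.Gd w → w ∉ Z' → T w (P y) = Tor.tw Ψ w • P y

/-- **SEEDB**: forms with complex multiplication from local transfers -/
def SEEDB : Prop := AllC fun {_ _} _ _ _ _ _ X C Ψ => ∀ η S V f φ T1, Eta C Ψ η →
  X.Ld C η S V f φ T1 → X.tw.Neat (X.PU V) → (∃ ε, X.Cm C ε) →
  (∀ ε, X.Cm C ε → ∀ w ∈ S, Nl C Ψ w fun γ => φ w (X.lc ε w γ)) →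
  X.PU V ∈ X.tw.Lev ∧ X.Se C Ψ (X.PU V) (X.gf S V f)

/-- **SEED2**: forms with complex multiplication with prescribed depth zero types or maximal level
at `S`; the level at the places of `S'` is deep -/
def SEED2 : Prop := AllC fun {F _} _ _ _ _ _ X C Ψ => ∀ (S S' : Finset (Pl F))
  (V : ∀ w, Subgroup (X.Dw w)ˣ) (f φ : ∀ w, (X.Dw w)ˣ → ℂ), Disjoint S S' →
  (S'.Nonempty ∨ ∃ w ∈ S, X.Sm w (V w)) →
  (∀ w, (w ∈ S ∨ w ∈ S') ↔ (C.D : 𝓞 F) ∈ w.asIdeal) → (∀ w ∈ S', X.Spl w) → (∃ ε, X.Cm C ε) →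
  (∀ w ∈ S, ((∃ κ, (X.TyM w κ (V w) (f w) (φ w) ∨ X.TyS w κ (V w) (f w) (φ w)) ∧ Kw C Ψ w κ) ∨
      (X.TyR w (V w) (f w) (φ w) ∧ Kw C Ψ w (-(qw w : ℂ)))) ∧
    ∀ ε, X.Cm C ε → Nl C Ψ w fun γ => φ w (X.lc ε w γ)) →
  ∃ V' : ∀ w, Subgroup (X.Dw w)ˣ, (∀ w ∈ S, V' w = V w) ∧
    (∀ w, w ∉ S → w ∉ S' → V' w = X.U0 w) ∧ X.PU V' ∈ X.tw.Lev ∧ X.tw.Neat (X.PU V') ∧
    (∀ w ∈ S, Tf (V w) (f w)) ∧ X.Se C Ψ (X.PU V') (X.gf S V' f)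

end Vale.Agent.P022K.Sh
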