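import Vale.Agent.P022K.F0.Ntw
import Vale.Agent.P022K.F0.StS2

/-!
# P022K, block F0, rows NTW2 and LVP: product levels
-/

set_option autoImplicit false

open NumberField IsDedekindDomain IsDedekindDomain.HeightOneSpectrum
open scoped Quaternion MatrixGroups

noncomputable section

namespace Vale.Agent.P022K.Sh

open F0
open Vale.Agent.P022K.F0.Fuj (OF trd qi qj qk Um)

namespace LvpA

open Polynomial

theorem exists_poly {l : ℕ} (hl : l.Prime) :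
    ∃ R : ℤ[X], (1 + X) ^ l = 1 + X ^ l + (l : ℤ[X]) * X * (1 + X * R) := by
  obtain ⟨r, hr⟩ := exists_add_pow_prime_eq hl (1 : ℤ[X]) X
  have h1 := congrArg (fun p => p.coeff 1) hr
  simp only [coeff_one_add_X_pow, Nat.choose_one_right, one_pow, mul_one, coeff_add, coeff_one,
    coeff_X_pow, mul_assoc, coeff_natCast_mul, if_neg hl.one_lt.ne, one_ne_zero, if_false,
    zero_add] at h1
  have h3 : (X * r).coeff 1 = r.coeff 0 := coeff_X_mul r 0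
  rw [h3] at h1
  have h2 : r.coeff 0 = 1 := by
    refine mul_left_cancel₀ (Nat.cast_ne_zero.2 hl.ne_zero : (l : ℤ) ≠ 0) ?_
    rw [mul_one]
    exact h1.symm
  refine ⟨r.divX, ?_⟩
  rw [hr, add_comm 1 (X * r.divX), ← C_1, ← h2, X_mul_divX_add, h2, C_1, one_pow, mul_one]

variable {K Γ : Type} [Field K] [LinearOrderedCommGroupWithZero Γ] (v : Valuation K Γ) {a b : K}

theorem lam {y : ℍ[K,a,b]} {c : K} (hc : v c ≤ 1) (hy : y * y = -(c • (1 + y))) (R : ℤ[X]) :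
    ∃ α β : K, v α ≤ 1 ∧ v β ≤ 1 ∧ aeval y R = α • 1 + β • y := by
  induction R using Polynomial.induction_on with
  | C n =>
    exact ⟨n, 0, (Valuation.integer.integers v).map_le_one (n : v.integer), by simp, by
      simp [Algebra.smul_def]⟩
  | add p q hp hq =>
    obtain ⟨α, β, h1, h2, e⟩ := hp
    obtain ⟨α', β', h1', h2', e'⟩ := hq
    exact ⟨α + α', β + β', v.map_add_le h1 h1', v.map_add_le h2 h2', by
      rw [map_add, e, e']; module⟩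
  | monomial n m h =>
    obtain ⟨α, β, h1, h2, e⟩ := h
    have h3 : v (β * c) ≤ 1 := by rw [map_mul]; exact mul_le_one' h2 hc
    refine ⟨-(β * c), α - β * c, by rwa [v.map_neg], v.map_sub_le h1 h3, ?_⟩
    rw [pow_succ, ← mul_assoc, map_mul, e, aeval_X, add_mul, smul_mul_assoc, smul_mul_assoc, hy,
      one_mul]
    module

theorem step {l : ℕ} (hl : l.Prime) (h5 : 5 ≤ l) (h0 : (l : K) ≠ 0)
    (hv : ∀ c, v c < 1 → v (c ^ 2) < v l) {q : ℍ[K,a,b]} (h1 : Fuj.nrd q = 1)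
    (h2 : v (Fuj.nrd (q - 1)) < 1) :
    v (Fuj.nrd (q ^ l - 1)) = v (Fuj.nrd (q - 1)) * v l ^ 2 := by
  obtain ⟨y, rfl⟩ : ∃ y, q = 1 + y := ⟨q - 1, by abel⟩
  rw [add_sub_cancel_left] at h2 ⊢
  obtain ⟨c, hc⟩ : ∃ c, c = Fuj.nrd y := ⟨_, rfl⟩
  rw [← hc] at h2 ⊢
  have t : trd y = -c := by
    rw [Fuj.nrd_add, one_mul, Fuj.trd_star, Fuj.nrd_one, ← hc] at h1
    linear_combination h1
  have hy : y * y = -(c • (1 + y)) := by
    rw [Fuj.sq_eq, t, ← hc, Algebra.algebraMap_eq_smul_one]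
    module
  obtain ⟨R, hR⟩ := exists_poly hl
  obtain ⟨m, rfl⟩ : ∃ m, l = 2 * (m + 2) + 1 := by
    obtain ⟨k, hk⟩ := hl.odd_of_ne_two (by omega)
    exact ⟨k - 2, by omega⟩
  obtain ⟨α, β, a1, a2, e1⟩ := lam v h2.le hy R
  obtain ⟨α', β', b1, b2, e2⟩ := lam v h2.le hy ((1 + X) ^ (m + 2))
  have e3 := congrArg (aeval y : ℤ[X] →ₐ[ℤ] ℍ[K,a,b]) hR
  simp only [map_pow, map_add, map_one, aeval_X, map_mul, map_natCast] at e2 e3
  generalize hL : 2 * (m + 2) + 1 = L at *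
  obtain ⟨d, hd⟩ : ∃ d, d = (-c) ^ (m + 2) / (L : K) := ⟨_, rfl⟩
  have d1 : v d < 1 := by
    rw [hd, map_div₀, div_lt_one₀ (zero_lt_iff.2 ((v.ne_zero_iff).2 h0)), pow_add, map_mul,
      neg_sq]
    refine lt_of_le_of_lt (mul_le_of_le_one_left' ?_) (hv c h2)
    rw [map_pow, v.map_neg]
    exact pow_le_one' h2.le m
  have e4 : y ^ L = (L : K) • (y * (d • (α' • 1 + β' • y))) := by
    rw [← hL, pow_succ', pow_mul, sq, hy, ← neg_smul, _root_.smul_pow, e2, hL, ← mul_smul_comm, smul_smul,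
      hd, mul_div_cancel₀ _ h0]
  have e5 : (1 + y) ^ L - 1 = (L : K) • (y * ((1 + (d * α' - β * c)) • (1 : ℍ[K,a,b]) +
      (α - β * c + d * β') • y)) := by
    rw [e3, e4, e1, mul_assoc, ← nsmul_eq_mul, ← Nat.cast_smul_eq_nsmul K, add_assoc,
      add_sub_cancel_left, ← smul_add, ← mul_add]
    congr 2
    rw [mul_add, mul_smul_comm, mul_smul_comm, hy, mul_one]
    module
  have s1 : v (d * α' - β * c) < 1 := v.map_sub_lt
    (by rw [map_mul]; exact (mul_le_of_le_one_right' b1).trans_lt d1)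
    (by rw [map_mul]; exact (mul_le_of_le_one_left' a2).trans_lt h2)
  have s2 : v (α - β * c + d * β') ≤ 1 := v.map_add_le (v.map_sub_le a1
    (by rw [map_mul]; exact mul_le_one' a2 h2.le)) (by rw [map_mul]; exact mul_le_one' d1.le b2)
  generalize d * α' - β * c = s at *
  generalize α - β * c + d * β' = r at *
  have e6 : Fuj.nrd ((1 + s) • (1 : ℍ[K,a,b]) + r • y) =
      1 + (s * (2 + s) + c * (r * (r - (1 + s)))) := by
    rw [Fuj.nrd_add, Fuj.nrd_smul, Fuj.nrd_smul, smul_mul_assoc, one_mul, Fuj.trd_smul,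
      Fuj.trd_star, Fuj.trd_smul, t, ← hc, Fuj.nrd_one]
    ring
  have two : v 2 ≤ 1 := (Valuation.integer.integers v).map_le_one (2 : v.integer)
  rw [e5, Fuj.nrd_smul, Fuj.nrd_mul, e6, ← hc, map_mul, map_mul, v.map_one_add_of_lt, mul_one,
    map_pow, mul_comm]
  refine v.map_add_lt ?_ ?_
  · rw [map_mul]
    exact (mul_le_of_le_one_right' (v.map_add_le two s1.le)).trans_lt s1
  · rw [map_mul, map_mul]
    exact (mul_le_of_le_one_right' (mul_le_one' s2 (v.map_sub_le s2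
      (v.map_add_le v.map_one.le s1.le)))).trans_lt h2

/-- the quotient of `g` by its conjugate -/
def zt (g : ℍ[K,a,b]ˣ) : ℍ[K,a,b] := Fuj.nrd (g⁻¹).1 • (g.1 * g.1)

theorem nrd_zt (g : ℍ[K,a,b]ˣ) : Fuj.nrd (zt g) = 1 := by
  rw [zt, Fuj.nrd_smul, Fuj.nrd_mul]
  linear_combination (Fuj.nrd g.1 * Fuj.nrd (g⁻¹).1 + 1) * Fuj.nrd_units_inv g

theorem zt_pow (g : ℍ[K,a,b]ˣ) (n : ℕ) : zt (g ^ n) = zt g ^ n := by
  rw [zt, zt, _root_.smul_pow, ← inv_pow, Units.val_pow_eq_pow_val, Units.val_pow_eq_pow_val,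
    (Commute.refl g.1).mul_pow]
  exact congrArg (· • _) (map_pow (Fuj.nrdHom a b) _ n)

theorem nrd_zt_sub (g : ℍ[K,a,b]ˣ) : Fuj.nrd (zt g - 1) = 4 - tau g := by
  have h1 := nrd_zt g
  have h2 : trd (zt g) = tau g - 2 := by
    rw [zt, Fuj.trd_smul, trd_sq]
    linear_combination (tau g - 2) * Fuj.nrd_units_inv g - Fuj.nrd (g⁻¹).1 * tau_mul g
  generalize zt g = z at *
  simp [Fuj.nrd, trd] at h1 h2 ⊢
  linear_combination h1 - h2

theorem key {l : ℕ} (hl : l.Prime) (h5 : 5 ≤ l) (h0 : (l : K) ≠ 0)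
    (hv : ∀ c, v c < 1 → v (c ^ 2) < v l) (g : ℍ[K,a,b]ˣ) (hs : ∀ n, v (4 - tau (g ^ n)) < 1)
    (k : ℕ) : v (4 - tau (g ^ l ^ k)) = v (4 - tau g) * (v l ^ 2) ^ k := by
  induction k with
  | zero => simp
  | succ k ih =>
    have h := step v hl h5 h0 hv (nrd_zt (g ^ l ^ k)) (by rw [nrd_zt_sub]; exact hs _)
    rw [← zt_pow, ← pow_mul, nrd_zt_sub, nrd_zt_sub, ih] at h
    rw [pow_succ, h, pow_succ _ k, mul_assoc]

theorem inj {l : ℕ} (hl : l.Prime) (h5 : 5 ≤ l) (h0 : (l : K) ≠ 0) (l1 : v l < 1)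
    (hv : ∀ c, v c < 1 → v (c ^ 2) < v l) (g : ℍ[K,a,b]ˣ) (hs : ∀ n, v (4 - tau (g ^ n)) < 1)
    (h : 4 - tau g ≠ 0) : Function.Injective fun k : ℕ => 4 - tau (g ^ l ^ k) := fun k k' e => by
  have e1 := congrArg v e
  simp only [key v hl h5 h0 hv g hs] at e1
  have p := zero_lt_iff.2 (v.ne_zero_iff.2 h0)
  exact (pow_right_injective₀ (pow_pos p 2) (pow_lt_one₀ p.le l1 two_ne_zero).ne)
    (mul_left_cancel₀ (v.ne_zero_iff.2 h) e1)

end LvpA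

open LvpA

variable {F : Type} [Field F] [NumberField F]

theorem le_exp_of_lt {γ : WithZero (Multiplicative ℤ)} (h : γ < 1) : γ ≤ WithZero.exp (-1) := by
  by_cases h0 : γ = 0
  · rw [h0]; exact zero_le
  rw [← WithZero.exp_log h0, ← WithZero.exp_zero, WithZero.exp_lt_exp] at h
  rw [← WithZero.exp_log h0, WithZero.exp_le_exp]
  omega

namespace QD

variable (X : QD F)

theorem small {V : ∀ w, Subgroup (X.Dw w)ˣ} {w : Pl F}
    (h : ∀ u ∈ V w, vw w (4 * nrd u.1 - (2 * u.1.re) ^ 2) < vw w (nrd u.1)) {x : X.G}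
    {δ : X.G0} (hδ : δ ∈ X.tw.Gam (X.PU V) x) :
    w.valuation F (4 - tau (δ : X.Dˣ)) < 1 := by
  have h1 := h _ (Subgroup.mem_iInf.1 (X.tw.mem_Gam.1 hδ) w)
  have h2 : tau (X.cu w (x⁻¹ * X.tw.j δ * x)) = algebraMap F (Fw w) (tau (δ : X.Dˣ)) := by
    rw [tau_cu, tau_conj, ← ev_alg, ← tau_j]
    rfl
  generalize X.cu w (x⁻¹ * X.tw.j δ * x) = u at *
  have h3 := tau_mul u
  have h4 : vw w (Fuj.nrd u.1) ≠ 0 := (Valuation.ne_zero_iff _).2
    ((Fuj.isUnit_iff_nrd _).1 u.isUnit).ne_zero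
  rw [nrd_eq, show 2 * u.1.re = trd u.1 from rfl, ← h3, ← sub_mul, map_mul,
    mul_lt_iff_lt_one_left (zero_lt_iff.2 h4), h2] at h1
  rwa [← v_alg, map_sub, map_ofNat]

theorem ntw2 (V : ∀ w, Subgroup (X.Dw w)ˣ) (w : Pl F) (hU : X.PU V ∈ X.tw.Lev)
    (h : X.Sm w (V w)) : X.tw.Neat (X.PU V) := by
  obtain ⟨⟨l, hl, h5, m1, m2⟩, h⟩ := h
  intro x γ hγ τ hτ
  have := X.isTotallyReal
  have l0 : (l : F) ≠ 0 := Nat.cast_ne_zero.2 hl.ne_zero
  have vl : w.valuation F l = w.intValuation l := by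
    rw [← valuation_of_algebraMap (K := F)]; rfl
  have l1 : w.valuation F l < 1 := by rwa [vl, intValuation_lt_one_iff_mem]
  have hv : ∀ c, w.valuation F c < 1 → w.valuation F (c ^ 2) < w.valuation F l := fun c hc => by
    rw [← intValuation_le_pow_iff_mem, not_le, ← vl] at m2
    refine lt_of_le_of_lt ?_ m2
    rw [map_pow, show (-((2 : ℕ) : ℤ)) = 2 • (-1) from rfl, WithZero.exp_nsmul]
    exact pow_le_pow_left' (le_exp_of_lt hc) 2
  have h0 : 4 - tau (γ : X.Dˣ) = 0 := by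
    by_contra h0
    have c : ∀ n : ℕ, ((γ ^ n : X.G0) : X.Dˣ) = (γ : X.Dˣ) ^ n := fun n => Subgroup.coe_pow _ _ _
    refine Set.infinite_of_injective_forall_mem (inj _ hl h5 l0 l1 hv (γ : X.Dˣ)
      (fun n => by rw [← c]; exact X.small h (pow_mem hγ n)) h0) (fun k => ?_)
      (Fuj.finite_bdd (F := F) 4)
    rw [← c]
    refine ⟨(isIntegral_natCast 4).sub (X.tau_int hU (pow_mem hγ (l ^ k))), fun t => ?_⟩
    have e : ∀ n, X.tw.r (γ ^ n) • τ = τ := fun n => by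
      rw [map_pow]
      induction n with
      | zero => rw [pow_zero, one_smul]
      | succ n ih => rw [pow_succ, mul_smul, hτ, ih]
    have := X.tau_bdd (γ ^ l ^ k) (e _) t
    rwa [← neg_sub, map_neg, abs_neg] at this
  refine (X.mem_Z0_iff _).2 ⟨_, X.scalar_of_disc ?_⟩
  rw [← tau_mul, ← sub_eq_zero.1 h0, sub_self]

/-! ## local levels -/

theorem coe_cu (w : Pl F) (x : X.G) : (X.cu w x : X.Dw w) = X.cw w x := rfl

theorem mem_PU {V : ∀ w, Subgroup (X.Dw w)ˣ} {x : X.G} : x ∈ X.PU V ↔ ∀ w, X.cu w x ∈ V w :=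
  Subgroup.mem_iInf

theorem mem_center_Dw {w : Pl F} {u : (X.Dw w)ˣ} :
    u ∈ Subgroup.center (X.Dw w)ˣ ↔ ∃ c : (Fw w)ˣ, (u : X.Dw w) = algebraMap _ _ (c : Fw w) := by
  constructor
  · intro h
    have ha := LocA.alg_ne (w := w) X.a0
    have hb := LocA.alg_ne (w := w) X.b0
    obtain ⟨i, hi⟩ : IsUnit (qi _ _ : X.Dw w) :=
      (Fuj.isUnit_iff_nrd _).2 (IsUnit.mk0 _ (by simpa [Fuj.nrd, qi] using ha))
    obtain ⟨j, hj⟩ : IsUnit (qj _ _ : X.Dw w) :=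
      (Fuj.isUnit_iff_nrd _).2 (IsUnit.mk0 _ (by simpa [Fuj.nrd, qj] using hb))
    have e := Fuj.central ha hb u.1
      (hi ▸ (congrArg Units.val (Subgroup.mem_center_iff.1 h i)).symm)
      (hj ▸ (congrArg Units.val (Subgroup.mem_center_iff.1 h j)).symm)
    exact ⟨Units.mk0 u.1.re fun h0 => u.ne_zero (by rw [e, h0, map_zero]), e⟩
  · rintro ⟨c, hc⟩
    refine Subgroup.mem_center_iff.2 fun g => Units.ext ?_
    rw [Units.val_mul, Units.val_mul, hc, Algebra.commutes]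

theorem mem_U1 {w : Pl F} {N : ℕ} {u : (X.Dw w)ˣ} : u ∈ X.U1 w N ↔ ∃ c : (Fw w)ˣ,
    (∃ y ∈ X.ODw w, (c : Fw w) • (u : X.Dw w) = 1 + N * y) ∧
      ∃ y ∈ X.ODw w, ((c⁻¹ : (Fw w)ˣ) : Fw w) • ((u⁻¹ : (X.Dw w)ˣ) : X.Dw w) = 1 + N * y := by
  constructor
  · rintro ⟨x, ⟨c, h1, h2⟩, rfl⟩
    obtain ⟨y, hy, e⟩ := X.one_iff.1 h1 w
    obtain ⟨y', hy', e'⟩ := X.one_iff.1 h2 w
    exact ⟨Units.map (ev w).toRingHom.toMonoidHom c, ⟨y, hy, (qmap_smul _ _ _).symm.trans e⟩,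
      y', hy', (qmap_smul _ _ _).symm.trans e'⟩
  · rintro ⟨c, h1, h2⟩
    let z : (X.Dw w)ˣ := Units.map (algebraMap (Fw w) (X.Dw w)).toMonoidHom c
    have hz : Units.map (X.sup w) z ∈ X.tw.Z := X.mem_Z_of_cw fun v => by
      by_cases hv : v = w
      · subst hv; exact ⟨c, X.cw_sup v _⟩
      · exact ⟨1, (X.cw_sup_ne hv _).trans (map_one _).symm⟩
    have hu : Units.map (X.sup w) (z * u) ∈ Um X.OD N := by
      refine ⟨X.one_of_sup (fun v hv => X.cw_sup_ne hv _) ?_,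
        X.one_of_sup (fun v hv => X.cw_sup_ne hv _) ?_⟩
      · rw [Algebra.smul_def] at h1
        exact (X.cw_sup w _).symm ▸ h1
      · rw [Algebra.smul_def, Algebra.commutes] at h2
        exact (X.cw_sup w _).symm ▸ h2
    refine ⟨Units.map (X.sup w) u, ?_, Units.ext (X.cw_sup w _)⟩
    simpa using mul_mem (inv_mem (X.Z_le_UN N hz)) (X.Um_le N hu)

/-- the principal level is the product of its components -/
theorem mem_UN_loc {N : ℕ} {x : X.G} : x ∈ X.UN N ↔ ∀ w, X.cu w x ∈ X.U1 w N := by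
  refine ⟨fun h w => ⟨x, h, rfl⟩, fun h => ?_⟩
  choose c h1 h2 using fun w => X.mem_U1.1 (h w)
  have key : ∀ (w) (d : Fw w) (u : (X.Dw w)ˣ), (∃ y ∈ X.ODw w, d • (u : X.Dw w) = 1 + N * y) →
      ((u⁻¹ : (X.Dw w)ˣ) : X.Dw w) ∈ X.ODw w → Valued.v d ≤ 1 := by
    rintro w d u ⟨y, hy, e⟩ hu
    have := mul_mem (add_mem (one_mem _) (mul_mem (natCast_mem _ N) hy)) hu
    rwa [← e, smul_mul_assoc, Units.mul_inv, ← Algebra.algebraMap_eq_smul_one, ODw,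
      alg_mem_qint] at this
  refine ⟨⟨AF.mk (fun w => c w) ((X.int_cw (x⁻¹ : X.G)).mono fun w hw => key w _ _ (h1 w) hw),
    AF.mk (fun w => ((c w)⁻¹ : (Fw w)ˣ)) ((X.int_cw x).mono fun w hw => key w _ _ (h2 w) hw),
    AF.ext fun w => (c w).mul_inv, AF.ext fun w => (c w).inv_mul⟩, X.one_iff.2 fun w => ?_,
    X.one_iff.2 fun w => ?_⟩
  · obtain ⟨y, hy, e⟩ := h1 w
    exact ⟨y, hy, (qmap_smul _ _ _).trans e⟩
  · obtain ⟨y, hy, e⟩ := h2 w
    exact ⟨y, hy, (qmap_smul _ _ _).trans e⟩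

theorem mem_U0 {w : Pl F} {u : (X.Dw w)ˣ} : u ∈ X.U0 w ↔ ∃ c : (Fw w)ˣ,
    (c : Fw w) • (u : X.Dw w) ∈ X.ODw w ∧
      ((c⁻¹ : (Fw w)ˣ) : Fw w) • ((u⁻¹ : (X.Dw w)ˣ) : X.Dw w) ∈ X.ODw w := by
  rw [U0, Subgroup.mem_sup_of_normal_left]
  constructor
  · rintro ⟨z, hz, k, hk, rfl⟩
    obtain ⟨c, hc⟩ := X.mem_center_Dw.1 hz
    have hc' : ((z⁻¹ : (X.Dw w)ˣ) : X.Dw w) = algebraMap _ _ ((c⁻¹ : (Fw w)ˣ) : Fw w) :=
      Units.inv_eq_of_mul_eq_one_right (by rw [hc, ← map_mul, Units.mul_inv, map_one])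
    refine ⟨c⁻¹, ?_, ?_⟩
    · rw [Algebra.smul_def, ← hc', Units.val_mul, Units.inv_mul_cancel_left]
      exact hk.1
    · rw [inv_inv, Algebra.smul_def, Algebra.commutes, ← hc, mul_inv_rev, Units.val_mul,
        Units.inv_mul_cancel_right]
      exact hk.2
  · rintro ⟨c, h1, h2⟩
    let z : (X.Dw w)ˣ := Units.map (algebraMap (Fw w) (X.Dw w)).toMonoidHom c
    refine ⟨z⁻¹, inv_mem (X.mem_center_Dw.2 ⟨c, rfl⟩), z * u, ⟨?_, ?_⟩, by simp⟩
    · rwa [Algebra.smul_def] at h1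
    · rwa [Algebra.smul_def, Algebra.commutes] at h2

theorem U1_mono (w : Pl F) {M N : ℕ} (h : M ∣ N) : X.U1 w N ≤ X.U1 w M :=
  Subgroup.map_mono (X.UN_mono h)

theorem U1_le (w : Pl F) (N : ℕ) : X.U1 w N ≤ X.U0 w := fun u hu => by
  obtain ⟨c, ⟨y, hy, e⟩, ⟨y', hy', e'⟩⟩ := X.mem_U1.1 hu
  exact X.mem_U0.2 ⟨c, e ▸ add_mem (one_mem _) (mul_mem (natCast_mem _ N) hy),
    e' ▸ add_mem (one_mem _) (mul_mem (natCast_mem _ N) hy')⟩

theorem U1_eq {w : Pl F} {N : ℕ} (h : (N : 𝓞 F) ∉ w.asIdeal) : X.U1 w N = X.U0 w := by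
  refine le_antisymm (X.U1_le w N) fun u hu => ?_
  obtain ⟨c, h1, h2⟩ := X.mem_U0.1 hu
  have h4 := LocA.inv_mem_Ow h
  have h5 : algebraMap (𝓞 F) (Fw w) N ≠ 0 := LocA.alg_ne fun e => h (e ▸ zero_mem _)
  rw [map_natCast] at h4 h5
  have key : ∀ q ∈ X.ODw w, ∃ y ∈ X.ODw w, q = 1 + N * y := fun q hq =>
    ⟨_, smul_mem_qint h4 (sub_mem hq (one_mem _)), by
      rw [nat_mul_eq, smul_smul, mul_inv_cancel₀ h5, one_smul, add_sub_cancel]⟩
  exact X.mem_U1.2 ⟨c, key _ h1, key _ h2⟩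

theorem U1_one (w : Pl F) : X.U1 w 1 = X.U0 w :=
  X.U1_eq (by simpa using w.isPrime.ne_top ∘ (Ideal.eq_top_iff_one _).2)

theorem lvp (S : Finset (Pl F)) (V : ∀ w, Subgroup (X.Dw w)ˣ)
    (h1 : ∀ w ∈ S, ∃ M, 0 < M ∧ X.U1 w M ≤ V w ∧ (X.U1 w M).relIndex (V w) ≠ 0)
    (h2 : ∀ w, w ∉ S → V w = X.U0 w) : X.PU V ∈ X.tw.Lev := by
  choose! M M0 hM hM' using h1
  refine X.mem_Lev'.2 ⟨⟨∏ w ∈ S, M w, Finset.prod_pos M0, fun x hx => X.mem_PU.2 fun w => ?_⟩, ?_⟩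
  · by_cases hw : w ∈ S
    · exact hM w hw (X.U1_mono w (Finset.dvd_prod_of_mem M hw) ⟨x, hx, rfl⟩)
    · exact h2 w hw ▸ X.U1_le w _ ⟨x, hx, rfl⟩
  · have h3 : (⨅ w : S, (X.U0 w.1).comap (X.cu w.1)).relIndex (X.PU V) ≠ 0 := by
      refine Subgroup.relIndex_iInf_ne_zero fun w h0 => hM' w.1 w.2 ?_
      rw [Subgroup.relIndex_comap] at h0
      exact Subgroup.relIndex_eq_zero_of_le_left (X.U1_le w.1 _)
        (Subgroup.relIndex_eq_zero_of_le_right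
          (Subgroup.map_le_iff_le_comap.2 fun x hx => X.mem_PU.1 hx w.1) h0)
    rw [← Subgroup.inf_relIndex_right] at h3
    refine fun h0 => h3 (Subgroup.relIndex_eq_zero_of_le_left ?_ h0)
    rintro x ⟨h4, h5⟩
    refine X.mem_UN_loc.2 fun w => ?_
    rw [U1_one]
    by_cases hw : w ∈ S
    · exact Subgroup.mem_iInf.1 h4 ⟨w, hw⟩
    · exact h2 w hw ▸ X.mem_PU.1 h5 w

end QD

/-- **NTW2** -/
theorem ntw2 : NTW2 := fun _ _ _ X => X.ntw2

/-- **LVP** -/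
theorem lvp : LVP := fun _ _ _ X => X.lvp

end Vale.Agent.P022K.Sh
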