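import Vale.Agent.P022K.F0.ModaA
import Vale.Agent.P022K.F0.Hec

/-!
# P022K, block F0, row MODA: special points and functions with finite orbit (helper63)
-/

set_option autoImplicit false
set_option linter.unusedSectionVars false

open UpperHalfPlane Filter Topology
open scoped MatrixGroups

noncomputable section

namespace Vale.Agent.P022K.Sh.Md

open Vale.Agent.P022.H218.L3 Vale.Agent.P022K.F0.Cf Tw

theorem reg_iff' {a : ℍ} {y : Mer} : Reg a y ↔ 0 ≤ od a y :=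
  reg_iff.trans (or_iff_right_of_imp fun e => by rw [e, od_zero])

theorem reg_pow_iff {a : ℍ} {y : Mer} {n : ℕ} : Reg a (jm (tz a) ^ n * y) ↔ -(n : ℤ) ≤ od a y := by
  by_cases y0 : y = 0
  · simp [y0, reg_iff', od_zero]
  · rw [reg_iff', od_mul a (pow_ne_zero _ (jt_ne a)) y0, od_pow, od_tz]
    omega

theorem MVal.reg {τ : ℍ} {f : Mer} {c : ℂ} (h : MVal τ f c) : Reg τ f := (mval_iff.1 h).1

theorem mval_ev {τ : ℍ} {f : Mer} (h : Reg τ f) : MVal τ f (F0.Cf.ev τ f) := mval_iff.2 ⟨h, rfl⟩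

theorem MVal.sub {τ : ℍ} {f f' : Mer} {c c' : ℂ} (h : MVal τ f c) (h' : MVal τ f' c') :
    MVal τ (f - f') (c - c') := by
  simpa [sub_eq_add_neg] using h.add ((MVal.const τ (-1)).mul h')

section

variable {G : Type*} [Group G] [MulAction G ℍ] [Mo G] {Γ : Subgroup G} {K : Set ℍ}

theorem orb_fin (h : F0.Cf.Fu Γ) (hK : IsCompact K) (a : ℍ) :
    {τ ∈ K | ∃ γ ∈ Γ, γ • a = τ}.Finite := by
  obtain ⟨r, hr⟩ := hK.isBounded.subset_closedBall I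
  refine ((h.disc' a I r).image fun γ => γ • a).subset ?_
  rintro _ ⟨h1, γ, hγ, rfl⟩
  exact ⟨γ, ⟨hγ, hr h1⟩, rfl⟩

theorem fix_fin (h : F0.Cf.Fu Γ) (hK : IsCompact K) (m : G) :
    {τ ∈ K | ∃ γ ∈ Γ, (m * γ) • τ = τ ∧ ¬ ∀ z : ℍ, (m * γ) • z = z}.Finite := by
  obtain ⟨r, hr⟩ := hK.isBounded.subset_closedBall I
  refine ((h.disc' I (m⁻¹ • I) (2 * r)).biUnion (t := fun γ =>
    {τ | (m * γ) • τ = τ ∧ ¬ ∀ z : ℍ, (m * γ) • z = z}) fun γ _ => ?_).subset ?_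
  · refine Set.Subsingleton.finite fun a ha b hb => ?_
    by_contra e
    exact ha.2 (triv_of_two ha.1 hb.1 e)
  · rintro τ ⟨h1, γ, hγ, h2⟩
    refine Set.mem_biUnion (show γ ∈ {γ : G | γ ∈ Γ ∧ dist (γ • I) (m⁻¹ • I) ≤ 2 * r} from
      ⟨hγ, ?_⟩) h2
    have h3 := dist_triangle (γ • I) (γ • τ) (m⁻¹ • I)
    have h4 : dist (γ • τ) (m⁻¹ • I) = dist τ I := by
      rw [← dist_sm m, smul_inv_smul, smul_smul, h2.1]
    rw [dist_sm, h4, dist_comm I τ] at h3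
    linarith [Metric.mem_closedBall.1 (hr h1)]

end

theorem fd_pi {K M G : Type} [Field K] [AddCommGroup M] [Module K M] (L : Submodule K (G → M))
    {X : Set G} (hX : X.Finite) (W : G → Submodule K M) (hW : ∀ x, FiniteDimensional K (W x))
    (h1 : ∀ ψ ∈ L, ∀ x, ψ x ∈ W x) (h2 : ∀ ψ ∈ L, (∀ x ∈ X, ψ x = 0) → ψ = 0) :
    FiniteDimensional K L := by
  have := hX.to_subtype
  let f : L →ₗ[K] ∀ x : X, W x := LinearMap.pi fun x =>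
    ((LinearMap.proj x.1).domRestrict L).codRestrict (W x) fun ψ => h1 _ ψ.2 x
  refine Module.Finite.of_injective f ((injective_iff_map_eq_zero f).2 fun ψ h => Subtype.ext ?_)
  exact h2 _ ψ.2 fun x hx => congrArg Subtype.val (congrFun h ⟨x, hx⟩)

variable {G0 G : Type} [Group G0] [Group G] (T : Tw G0 G)

/-- the value of a function at a point -/
def V (p : ℍ × G) (φ : G → Mer) (c : ℂ) : Prop := MVal p.1 (φ p.2) c

/-- the same point in level `U` -/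
def E (U : Subgroup G) (p q : ℍ × G) : Prop :=
  ∃ γ, ∃ u ∈ U, q.1 = T.r γ • p.1 ∧ q.2 = T.j γ * p.2 * u

/-- special points -/
def Sp (τ : ℍ) : Prop := ∃ γ, γ ∉ T.Z0 ∧ T.r γ • τ = τ

/-- semilinear automorphisms -/
def H : Type := {a : (ℂ ≃+* ℂ) × ((G → Mer) → G → Mer) // T.Sl a.1 a.2}

/-- locally finite sets of points -/
def LF (A : Set (ℍ × G)) : Prop := ∀ x K, IsCompact K → {τ ∈ K | (τ, x) ∈ A}.Finite

/-- saturated sets of points -/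
def Sat (U : Subgroup G) (A : Set (ℍ × G)) : Prop := ∀ p q, E T U p q → p ∈ A → q ∈ A

variable {T}

/-- `a` maps `p` to `q` -/
def H.P (a : H T) (p q : ℍ × G) : Prop := T.Pt a.1.1 a.1.2 p.1 p.2 q.1 q.2

variable (T)

/-- the orbits of the special points in `A` -/
def Orb (U : Subgroup G) (A : Set (ℍ × G)) : Set (ℍ × G) :=
  {q | ∃ p ∈ A, Sp T p.1 ∧ ∃ (a : H T) (q' : ℍ × G), a.P p q' ∧ E T U q' q}

/-- functions with a finite orbit -/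
def R0 (U : Subgroup G) : Set (G → Mer) :=
  {φ | φ ∈ T.RU U ∧ (Set.range fun a : H T => a.1.2 φ).Finite}

variable {T} {U U' : Subgroup G} {p q q' : ℍ × G} {φ ψ : G → Mer} {c : ℂ} {A B : Set (ℍ × G)}

theorem E.refl (p : ℍ × G) : E T U p p := ⟨1, 1, one_mem _, by simp, by simp⟩

theorem E.symm (h : E T U p q) : E T U q p := by
  obtain ⟨γ, u, hu, h1, h2⟩ := h
  exact ⟨γ⁻¹, u⁻¹, inv_mem hu, by rw [h1, map_inv, inv_smul_smul], by rw [h2, map_inv]; group⟩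

theorem E.trans (h : E T U p q) (h' : E T U q q') : E T U p q' := by
  obtain ⟨γ, u, hu, h1, h2⟩ := h
  obtain ⟨δ, v, hv, h3, h4⟩ := h'
  exact ⟨δ * γ, u * v, mul_mem hu hv, by rw [h3, h1, map_mul, mul_smul],
    by rw [h4, h2, map_mul]; group⟩

theorem E.mono (h : E T U p q) (le : U ≤ U') : E T U' p q := by
  obtain ⟨γ, u, hu, h1⟩ := h
  exact ⟨γ, u, le hu, h1⟩

theorem E.gam {x : G} {γ : G0} (h : γ ∈ T.Gam U x) (τ : ℍ) : E T U (τ, x) (T.r γ • τ, x) :=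
  ⟨γ, _, inv_mem (T.mem_Gam.1 h), rfl, by group⟩

theorem E.of_eq {x : G} {τ τ' : ℍ} (h : E T U (τ, x) (τ', x)) : ∃ γ ∈ T.Gam U x, T.r γ • τ = τ' := by
  obtain ⟨γ, u, hu, h1, h2⟩ := h
  refine ⟨γ, T.mem_Gam.2 ?_, h1.symm⟩
  have : x⁻¹ * T.j γ * x = u⁻¹ := by
    rw [eq_inv_iff_mul_eq_one, mul_assoc, mul_assoc, ← mul_assoc (T.j γ), ← show x = _ from h2,
      inv_mul_cancel]
  exact this ▸ inv_mem hu

theorem E.od (h : E T U p q) (hφ : φ ∈ T.RU U) : od q.1 (φ q.2) = od p.1 (φ p.2) := by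
  obtain ⟨γ, u, hu, h1, h2⟩ := h
  rw [h1, h2, RU_val hφ γ _ hu]
  exact od_ac p.1 _ (T.r γ)

theorem E.val (h : E T U p q) (hφ : φ ∈ T.RU U) : V q φ c ↔ V p φ c := by
  obtain ⟨γ, u, hu, h1, h2⟩ := h
  rw [V, h1, h2, RU_val hφ γ _ hu]
  exact Tw.mval_act γ

theorem z0_conj {γ δ : G0} (h : δ * γ * δ⁻¹ ∈ T.Z0) : γ ∈ T.Z0 := by
  have := (MonoidHom.normal_ker _).conj_mem' _ h δ
  rwa [show δ⁻¹ * (δ * γ * δ⁻¹) * δ = γ by group] at this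

theorem Sp.smul {τ : ℍ} (h : Sp T τ) (δ : G0) : Sp T (T.r δ • τ) := by
  obtain ⟨γ, h1, h2⟩ := h
  exact ⟨δ * γ * δ⁻¹, fun e => h1 (z0_conj e), by simp [mul_smul, h2]⟩

theorem E.sp (h : E T U p q) (hp : Sp T p.1) : Sp T q.1 := by
  obtain ⟨γ, u, -, h1, -⟩ := h
  exact h1 ▸ hp.smul γ

theorem LF.mono (h : LF A) (le : B ⊆ A) : LF B :=
  fun x K hK => (h x K hK).subset fun _ hτ => ⟨hτ.1, le hτ.2⟩

theorem LF.union (h : LF A) (h' : LF B) : LF (A ∪ B) := fun x K hK =>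
  ((h x K hK).union (h' x K hK)).subset fun _ hτ => hτ.2.imp (fun e => ⟨hτ.1, e⟩) fun e => ⟨hτ.1, e⟩

theorem LF.biUnion {I : Type} {F : Set I} (hF : F.Finite) {t : I → Set (ℍ × G)}
    (h : ∀ i ∈ F, LF (t i)) : LF (⋃ i ∈ F, t i) := fun x K hK =>
  (hF.biUnion fun i hi => h i hi x K hK).subset fun _ hτ => by
    obtain ⟨i, hi, e⟩ := Set.mem_iUnion₂.1 hτ.2
    exact Set.mem_biUnion hi ⟨hτ.1, e⟩

theorem lf_poles (φ : G → Mer) : LF {p : ℍ × G | ¬ Reg p.1 (φ p.2)} :=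
  fun x _ hK => fin_poles hK (φ x)

theorem sat_poles (hφ : φ ∈ T.RU U) : Sat T U {p : ℍ × G | ¬ Reg p.1 (φ p.2)} :=
  fun p q e hp hq => hp (by rwa [reg_iff', e.od hφ, ← reg_iff'] at hq)

theorem fin_rep (ok : T.Ok) (hU : U ∈ T.Lev) (h : LF A) (hs : Sat T U A) :
    ∃ F : Set (ℍ × G), F.Finite ∧ F ⊆ A ∧ ∀ p ∈ A, ∃ f ∈ F, E T U f p := by
  choose K hK hc using fun x => (ok.fu U hU x).cc
  refine ⟨⋃ x ∈ Set.range (T.rp U), (fun τ => (τ, x)) '' {τ ∈ K x | (τ, x) ∈ A},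
    (ok.fin_rp hU).biUnion fun x _ => (h x _ (hK x)).image _, fun f hf => ?_, fun p hp => ?_⟩
  · obtain ⟨x, -, τ, h1, rfl⟩ := Set.mem_iUnion₂.1 hf
    exact h1.2
  · obtain ⟨γ, u, hu, e⟩ := rel_rp (T := T) (U := U) p.2
    obtain ⟨δ, hδ, h1⟩ := hc (T.rp U p.2) (T.r γ • p.1)
    have h2 : E T U p (T.r δ • T.r γ • p.1, T.rp U p.2) :=
      E.trans (q := (T.r γ • p.1, T.rp U p.2)) ⟨γ, u, hu, rfl, e⟩ (E.gam hδ _)
    exact ⟨_, Set.mem_biUnion ⟨p.2, rfl⟩ ⟨_, ⟨h1, hs _ _ h2 hp⟩, rfl⟩, h2.symm⟩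

theorem lf_cls (ok : T.Ok) (hU : U ∈ T.Lev) (f : ℍ × G) : LF {q | E T U f q} := fun x K hK => by
  rcases Set.eq_empty_or_nonempty {τ ∈ K | (τ, x) ∈ {q | E T U f q}} with e | ⟨a, -, ha⟩
  · rw [e]
    exact Set.finite_empty
  · refine (orb_fin (ok.fu U hU x).cf hK a).subset fun τ hτ => ⟨hτ.1, ?_⟩
    obtain ⟨γ, hγ, e⟩ := E.of_eq (E.trans (E.symm ha) hτ.2)
    exact ⟨_, ⟨γ, hγ, rfl⟩, e⟩

theorem lf_fx (ok : T.Ok) (hU : U ∈ T.Lev) (g : G) : LF {q : ℍ × G | ∃ δ, δ ∉ T.Z0 ∧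
    T.r δ • q.1 = q.1 ∧ q.2⁻¹ * T.j δ * q.2 ∈ dc U g U} := fun x K hK => by
  have hc : Cor U (dc U g U) U := cor_dc (ok.fi _ (ok.conj U hU g) U hU)
  refine (hc.fin.biUnion (t := fun c => {τ ∈ K | ∃ δ, δ ∉ T.Z0 ∧ T.r δ • τ = τ ∧
    ((x⁻¹ * T.j δ * x : G) : G ⧸ U) = c}) fun c _ => ?_).subset ?_
  · rcases Set.eq_empty_or_nonempty {τ ∈ K | ∃ δ, δ ∉ T.Z0 ∧ T.r δ • τ = τ ∧
      ((x⁻¹ * T.j δ * x : G) : G ⧸ U) = c} with e | ⟨a, -, m, -, -, hm⟩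
    · rw [e]
      exact Set.finite_empty
    · refine (fix_fin (ok.fu U hU x).cf hK (T.rho m)).subset ?_
      rintro τ ⟨h1, δ, h2, h3, h4⟩
      refine ⟨h1, _, ⟨m⁻¹ * δ, T.mem_Gam.2 ?_, rfl⟩, ?_⟩
      · have := QuotientGroup.eq.1 (hm.trans h4.symm)
        rw [map_mul, map_inv]
        convert this using 1
        group
      · rw [← map_mul, mul_inv_cancel_left]
        exact ⟨h3, fun e => h2 (mem_Z0.2 e)⟩
  · rintro τ ⟨h1, δ, h2, h3, h4⟩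
    refine Set.mem_biUnion (x := ((x⁻¹ * T.j δ * x : G) : G ⧸ U)) ?_ ⟨h1, δ, h2, h3, rfl⟩
    obtain ⟨u, hu⟩ := QuotientGroup.mk_out_eq_mul U (x⁻¹ * T.j δ * x)
    exact show _ ∈ dc U g U from hu ▸ hc.right _ h4 u u.2

/-! ### the action on points -/

/-- the identity -/
def H.one : H T := ⟨(RingEquiv.refl ℂ, id), sl_id⟩

/-- the composition -/
def H.mul (a b : H T) : H T := ⟨(b.1.1.trans a.1.1, a.1.2 ∘ b.1.2), a.2.comp b.2⟩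

theorem H.mem (a : H T) (hU : U ∈ T.Lev) (hφ : φ ∈ T.RU U) : a.1.2 φ ∈ T.RU U := a.2.mem U hU φ hφ

theorem H.P.val {a : H T} (h : a.P p q) (hU : U ∈ T.Lev) (hφ : φ ∈ T.RU U) (hv : V p φ c) :
    V q (a.1.2 φ) (a.1.1 c) := h U hU φ hφ c hv

theorem H.P.one (p : ℍ × G) : (H.one : H T).P p p := fun _ _ _ _ _ h => h

theorem H.P.mul {a b : H T} (h : b.P p q) (h' : a.P q q') : (a.mul b).P p q' :=
  fun U hU φ hφ c hv => h' U hU _ (b.mem hU hφ) _ (h U hU φ hφ c hv)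

theorem H.P.right {a : H T} (ok : T.Ok) (h : a.P p q) (g : G) : a.P (p.1, p.2 * g) (q.1, q.2 * g) :=
  fun U hU φ hφ c hv => by
    have := h _ (ok.conj U hU g) _ (RU_rt hφ g) c hv
    rwa [a.2.eqv U hU φ hφ g] at this

theorem H.P.E {a : H T} (ok : T.Ok) {f : ℍ × G} (h : a.P p q) (e : E T U f p) :
    ∃ q', a.P f q' ∧ E T U q' q := by
  obtain ⟨γ, u, hu, h1, h2⟩ := e
  refine ⟨(q.1, q.2 * u⁻¹), fun U' hU φ hφ c hv => h.right ok u⁻¹ U' hU φ hφ c ?_,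
    1, u, hu, by simp, by simp⟩
  exact (E.val (p := f) (q := (p.1, p.2 * u⁻¹)) ⟨γ, 1, one_mem _, h1, by simp [h2]⟩ hφ).2 hv

theorem H.ex_inv (a : H T) (ok : T.Ok) : ∃ b : H T, b.1.1 = a.1.1.symm ∧
    (∀ U ∈ T.Lev, ∀ φ ∈ T.RU U, b.1.2 (a.1.2 φ) = φ) ∧
    ∀ U ∈ T.Lev, ∀ φ ∈ T.RU U, a.1.2 (b.1.2 φ) = φ := by
  obtain ⟨θ, h1, h2⟩ := a.2.is.ex_inv ok
  exact ⟨⟨(_, θ), is_iff.1 h1⟩, rfl, h2⟩

theorem sat_orb : Sat T U (Orb T U A) := fun _ _ e ⟨p, h1, h2, a, q', h3, h4⟩ =>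
  ⟨p, h1, h2, a, q', h3, h4.trans e⟩

theorem mem_orb (h : p ∈ A) (hp : Sp T p.1) : p ∈ Orb T U A := ⟨p, h, hp, H.one, p, .one p, .refl p⟩

theorem orb_stab (ok : T.Ok) {a : H T} (h : q ∈ Orb T U A) (h' : a.P q q') : q' ∈ Orb T U A := by
  obtain ⟨p, h1, h2, b, q0, h3, h4⟩ := h
  obtain ⟨q1, h5, h6⟩ := h'.E ok h4
  exact ⟨p, h1, h2, a.mul b, q1, h3.mul h5, h6⟩

section

variable (ok : T.Ok) (pts : T.PTS)
include ok pts

theorem H.ex_im (a : H T) (p : ℍ × G) : ∃ q, a.P p q := by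
  obtain ⟨τ, x, h⟩ := (pts.1 _ _ a.2 p.1 p.2).1
  exact ⟨(τ, x), h⟩

theorem H.P.od {a : H T} (h : a.P p q) (hU : U ∈ T.Lev) (hφ : φ ∈ T.RU U) :
    od q.1 (a.1.2 φ q.2) = od p.1 (φ p.2) := by
  by_cases h0 : φ p.2 = 0
  · obtain ⟨e, h1, h2, h3⟩ := ex_ind (T := T) U p.2
    have h4 : MVal q.1 (a.1.2 e q.2) (a.1.1 1) := h U hU e h1 1 (h2 _ (Rel.refl _) ▸ MVal.one _)
    have h5 : a.1.2 e q.2 ≠ 0 := fun e0 => by
      rw [e0, map_one] at h4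
      exact one_ne_zero (h4.unique (MVal.zero _))
    rw [a.2.em.ker_of_ind hU h1 h3 h5 φ hφ h0, h0, od_zero, od_zero]
  · obtain ⟨N, hN, hn⟩ := ok.neat
    exact (mord_iff.1 (((pts.1 _ _ a.2 p.1 p.2).2 _ _ h).2.2 _ (ok.inf U hU N hN)
      (hn.mono inf_le_right) φ (RU_mono inf_le_left hφ) _ (mord_od _ h0))).2

theorem H.P.val_iff {a : H T} (h : a.P p q) (hU : U ∈ T.Lev) (hφ : φ ∈ T.RU U) :
    V q (a.1.2 φ) (a.1.1 c) ↔ V p φ c := by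
  refine ⟨fun hv => ?_, h.val hU hφ⟩
  have h1 : Reg p.1 (φ p.2) := by
    rw [reg_iff', ← h.od ok pts hU hφ, ← reg_iff']
    exact MVal.reg hv
  rw [a.1.1.injective (MVal.unique hv (h.val hU hφ (mval_ev h1)))]
  exact mval_ev h1

theorem H.P.inv {a b : H T} (h : b.P q p) (h1 : b.1.1 = a.1.1.symm)
    (h2 : ∀ U ∈ T.Lev, ∀ φ ∈ T.RU U, b.1.2 (a.1.2 φ) = φ) : a.P p q := fun U hU φ hφ c hv => by
  refine (h.val_iff ok pts hU (a.mem hU hφ)).1 ?_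
  rwa [h2 U hU φ hφ, h1, RingEquiv.symm_apply_apply]

theorem H.ex_pre (a : H T) (q : ℍ × G) : ∃ (b : H T) (p : ℍ × G), a.P p q ∧ b.P q p := by
  obtain ⟨b, h1, h2, -⟩ := a.ex_inv ok
  obtain ⟨p, h3⟩ := b.ex_im ok pts q
  exact ⟨b, p, h3.inv ok pts h1 h2, h3⟩

theorem H.P.fx {a : H T} (h : a.P p q) {γ : G0} (h1 : γ ∉ T.Z0) (h2 : T.r γ • p.1 = p.1) :
    ∃ δ, δ ∉ T.Z0 ∧ T.r δ • q.1 = q.1 ∧
      ∃ z ∈ T.Z, q.2⁻¹ * T.j δ * q.2 = p.2⁻¹ * T.j γ * p.2 * z := by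
  obtain ⟨δ, z, hz, h3, h4⟩ := (((pts.1 _ _ a.2 p.1 p.2).2 _ _ h).2.1 p.1
    (p.2 * (p.2⁻¹ * T.j γ * p.2)) _ _ ⟨γ, 1, one_mem _, h2.symm, by group⟩).1
    (h.right ok (p.2⁻¹ * T.j γ * p.2))
  have h5 : q.2⁻¹ * T.j δ * q.2 = p.2⁻¹ * T.j γ * p.2 * z⁻¹ := by
    rw [eq_mul_inv_iff_mul_eq, mul_assoc, mul_assoc, ← mul_assoc (T.j δ), ← show _ = _ from h4,
      inv_mul_cancel_left]
  refine ⟨δ, fun e => h1 ((ok.z0 γ).2 ?_), h3.symm, _, inv_mem hz, h5⟩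
  have h6 := (ok.z0 δ).1 e
  rw [mul_assoc, ← ok.com h6, inv_mul_cancel_left, eq_mul_inv_iff_mul_eq] at h5
  have h7 : T.j γ = T.j δ * z := by
    rw [← mul_inv_cancel_right (T.j δ * z) p.2, ← ok.com (mul_mem h6 hz), h5]
    group
  exact h7 ▸ mul_mem h6 hz

theorem H.P.sp {a : H T} (h : a.P p q) (hp : Sp T p.1) : Sp T q.1 := by
  obtain ⟨γ, h1, h2⟩ := hp
  obtain ⟨δ, h3, h4, -⟩ := h.fx ok pts h1 h2
  exact ⟨δ, h3, h4⟩

/-- **finite orbits** of special points -/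
theorem lf_orb1 (hU : U ∈ T.Lev) (p : ℍ × G) : LF (Orb T U {p}) := by
  by_cases hp : Sp T p.1
  · obtain ⟨γ, h1, h2⟩ := hp
    refine (lf_fx ok hU (p.2⁻¹ * T.j γ * p.2)).mono ?_
    rintro q ⟨_, rfl, -, a, q', h3, ε, u, hu, h4, h5⟩
    obtain ⟨δ, h6, h7, z, hz, h8⟩ := h3.fx ok pts h1 h2
    refine ⟨ε * δ * ε⁻¹, fun e => h6 (z0_conj e), by simp [h4, mul_smul, h7], u⁻¹, inv_mem hu,
      z * u, mul_mem (Z_le hU hz) hu, ?_⟩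
    rw [h5, map_mul, map_mul, map_inv, mul_assoc u⁻¹, ← mul_assoc _ z, ← h8]
    group
  · refine fun x K _ => Set.finite_empty.subset ?_
    rintro τ ⟨-, _, rfl, h, -⟩
    exact hp h

theorem lf_orb (hU : U ∈ T.Lev) (h : LF A) (hs : Sat T U A) : LF (Orb T U A) := by
  obtain ⟨F, h1, -, h3⟩ := fin_rep ok hU h hs
  refine (LF.biUnion h1 fun f _ => lf_orb1 ok pts hU f).mono ?_
  rintro q ⟨p, h4, h5, a, q', h6, h7⟩
  obtain ⟨f, hf, e⟩ := h3 p h4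
  obtain ⟨q1, h8, h9⟩ := h6.E ok e
  exact Set.mem_biUnion hf ⟨f, rfl, e.symm.sp h5, a, q1, h8, h9.trans h7⟩

theorem fin_orb (hU : U ∈ T.Lev) (hp : Sp T p.1) : ∃ F : Set (ℍ × G), F.Finite ∧
    (∀ f ∈ F, Sp T f.1) ∧ ∀ (a : H T) q, a.P p q → ∃ f ∈ F, E T U f q := by
  obtain ⟨F, h1, h2, h3⟩ := fin_rep ok hU (lf_orb1 ok pts hU p) sat_orb
  refine ⟨F, h1, fun f hf => ?_, fun a q h => h3 q ⟨p, rfl, hp, a, q, h, .refl q⟩⟩
  obtain ⟨_, rfl, -, a, q, h4, h5⟩ := h2 hf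
  exact h5.sp (h4.sp ok pts hp)

/-- values of functions with finite orbit at special points are algebraic -/
theorem alg_val (hk : ∀ σ : ℂ ≃+* ℂ, (∀ a, IsAlgebraic ℚ a → σ a = a) → ∃ θ, T.Sl σ θ)
    (hU : U ∈ T.Lev) (hφ : φ ∈ R0 T U) (hp : Sp T p.1) (hv : V p φ c) : IsAlgebraic ℚ c := by
  obtain ⟨F, h1, -, h2⟩ := fin_orb ok pts hU hp
  refine alg_of_fin ((hφ.2.prod h1).image fun z => F0.Cf.ev z.2.1 (z.1 z.2.2)) fun σ hσ => ?_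
  obtain ⟨θ, hθ⟩ := hk σ hσ
  obtain ⟨q, h3⟩ := H.ex_im ok pts ⟨(σ, θ), hθ⟩ p
  obtain ⟨f, hf, e⟩ := h2 _ q h3
  exact ⟨(θ φ, f), ⟨⟨⟨(σ, θ), hθ⟩, rfl⟩, hf⟩,
    (mval_iff.1 ((e.val (hθ.mem U hU φ hφ.1)).1 (h3.val hU hφ.1 hv))).2⟩

end

/-- infinitely many special points in a compact set -/
def Inf (T : Tw G0 G) : Prop := ∃ K : Set ℍ, IsCompact K ∧ {τ ∈ K | Sp T τ}.Infinite

theorem inf_of (ok : T.Ok) (h : ∃ τ γ, T.r γ • τ = τ ∧ ∀ n : ℕ, 0 < n → T.mu γ τ ^ n ≠ 1) :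
    Inf T := by
  obtain ⟨τ, γ, h1, h2⟩ := h
  obtain ⟨U, hU, -⟩ := ok.neat
  obtain ⟨_, ⟨δ, -, rfl⟩, h3⟩ := ex_move (ok.fu U hU 1).cf τ
  have k : ∀ n : ℕ, 0 < n → ¬ ∀ z : ℍ, T.rho γ ^ n • z = z := fun n hn e => h2 n hn (by
    rw [← T.dr_rho, ← dr_pow (show T.rho γ • τ = τ from h1), dr_triv e])
  have h4 : ∀ n : ℕ, T.rho γ ^ n • τ = τ := fun n =>
    (MulAction.stabilizer MG τ).pow_mem (show T.rho γ • τ = τ from h1) n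
  have h5 : Sp T τ := ⟨γ, fun e => k 1 one_pos (by rw [pow_one]; exact mem_Z0.1 e), h1⟩
  refine ⟨_, isCompact_closedBall τ (dist (T.rho δ • τ) τ), Set.infinite_of_injective_forall_mem
    (f := fun n : ℕ => T.rho γ ^ n • T.rho δ • τ) (Function.Injective.of_lt_imp_ne fun m n hl e => ?_)
    fun n => ⟨?_, ?_⟩⟩
  · obtain ⟨l, rfl⟩ := Nat.exists_eq_add_of_lt hl
    rw [add_assoc, pow_add, mul_smul, smul_left_cancel_iff] at e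
    exact k _ l.succ_pos (triv_of_two e.symm (h4 _) h3)
  · rw [Metric.mem_closedBall, ← dist_sm (T.rho γ ^ n) (T.rho δ • τ) τ, h4]
  · rw [← map_pow]
    exact (h5.smul δ).smul (γ ^ n)

theorem Inf.ex (h : Inf T) (hA : LF A) (x : G) : ∃ τ, Sp T τ ∧ (τ, x) ∉ A := by
  obtain ⟨K, hK, h1⟩ := h
  obtain ⟨τ, h2, h3⟩ := (h1.sdiff (hA x K hK)).nonempty
  exact ⟨τ, h2.2, fun e => h3 ⟨h2.1, e⟩⟩

theorem Inf.zero (h : Inf T) (hA : LF A) (h0 : ∀ p, p ∉ A → Sp T p.1 → V p φ 0) : φ = 0 := by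
  funext x
  by_contra hx
  obtain ⟨τ, h1, h2⟩ := h.ex (hA.union (lf_poles φ⁻¹)) x
  rw [Set.mem_union, not_or] at h2
  have h3 := (h0 _ h2.1 h1).mul (mval_ev (not_not.1 h2.2))
  rw [zero_mul, Pi.inv_apply, mul_inv_cancel₀ hx] at h3
  exact one_ne_zero ((MVal.one _).unique h3)

end Vale.Agent.P022K.Sh.Md
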