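import Vale.Agent.P022K.QT.CcG
import Vale.Agent.P022.H916.Fld2
import Vale.Agent.P011.Even.Completion

/-!
# P022K, block F0: quadratic characters of the Galois group and square roots
-/

set_option autoImplicit false

open NumberField IsDedekindDomain Filter WithZero

noncomputable section

namespace Vale.Agent.P022K.Sh

open Vale.Agent.P022 Vale.Agent.P011.Arith Vale.Agent.P022D.W

namespace Nu

variable {F : Type} [Field F] [NumberField F] {j : F →+* Qb} {η : GK j →* ℤˣ} {b : Fˣ} {β : Qb}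
  {w : Sh.Pl F} {P : Ideal (𝓞 Qb)}

variable (η b β) in
/-- `η` is the character of `β = √b` -/
structure Kb : Prop where
  sq : β ^ 2 = j b
  act : ∀ s : GK j, (s : GQ) β = η s • β

/-- the field of `η` -/
theorem ex_fld (h : IsOpen {s | η s = 1}) : ∃ (L : Type) (_ : Field L) (_ : NumberField L)
    (_ : Algebra F L) (jL : L →+* Qb) (ρ : GK j →* (L ≃ₐ[F] L)), H916.Dict j jL ρ ∧
    (∀ g, ρ g = 1 ↔ η g = 1) ∧ ∀ s₀, η s₀ = -1 → ∀ (x : L) (s : GK j),
      (s : GQ) (jL (ρ s₀ x - x)) = η s • jL (ρ s₀ x - x) := by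
  obtain ⟨L, i1, i2, i3, -, jL, ρ, D, k, -⟩ := H916.exists_cyc j (φ := η) h
  refine ⟨L, i1, i2, i3, jL, ρ, D, k, fun s₀ h0 x s => ?_⟩
  rw [D.act]
  rcases Int.units_eq_one_or (η s) with e | e
  · rw [(k s).2 e, e, one_smul, AlgEquiv.one_apply]
  · have e1 : ρ s = ρ s₀ := by
      rw [← inv_mul_eq_one, ← map_inv, ← map_mul, k, map_mul, map_inv, e, h0, inv_mul_cancel]
    have e2 : ρ s₀ * ρ s₀ = 1 := by rw [← map_mul, k, map_mul, Int.units_mul_self]
    rw [e1, e, map_sub (ρ s₀), ← AlgEquiv.mul_apply, e2, Units.neg_smul, one_smul, ← map_neg,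
      neg_sub, AlgEquiv.one_apply]

theorem fix_mul {x y : Qb} (hx : ∀ s : GK j, (s : GQ) x = η s • x)
    (hy : ∀ s : GK j, (s : GQ) y = η s • y) : ∃ c, j c = x * y := H916.fixed j fun s => by
  rw [map_mul, hx, hy, smul_mul_smul_comm, Int.units_mul_self, one_smul]

/-- **Kummer theory** -/
theorem ex_kb (h : IsOpen {s | η s = 1}) : ∃ b β, Kb η b β := by
  by_cases k : ∀ s, η s = 1
  · exact ⟨1, 1, by simp, fun s => by simp [k]⟩
  obtain ⟨s₀, h0⟩ := not_forall.1 k
  obtain ⟨L, _, _, _, jL, ρ, -, h1, h2⟩ := ex_fld h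
  obtain ⟨x, hx⟩ := not_forall.1 fun e => h0 ((h1 s₀).1 (AlgEquiv.ext e))
  have h3 := h2 s₀ ((Int.units_eq_one_or _).resolve_left h0) x
  obtain ⟨c, hc⟩ := fix_mul h3 h3
  have c0 : c ≠ 0 := fun e => by
    rw [e, map_zero, eq_comm, mul_self_eq_zero, map_eq_zero, sub_eq_zero] at hc
    exact hx hc
  exact ⟨Units.mk0 c c0, _, (sq _).trans hc.symm, h3⟩

omit [NumberField F] in
theorem Kb.ne (k : Kb η b β) : β ≠ 0 := fun e => (map_ne_zero j).2 b.ne_zero (by
  rw [← k.sq, e, zero_pow two_ne_zero])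

omit [NumberField F] in
theorem Kb.opn (k : Kb η b β) : IsOpen {s | η s = 1} := by
  have : Algebra.IsIntegral ℚ Qb := inferInstance
  convert (stabilizer_isOpen_of_isIntegral (K := ℚ) β).preimage
    (continuous_subtype_val (p := fun g => g ∈ GK j)) using 1
  ext s
  show _ ↔ (s : GQ) β = β
  rw [k.act, Set.mem_ofPred_eq]
  rcases Int.units_eq_one_or (η s) with e | e <;> simp [e, k.ne, neg_eq_self]

theorem log_mul' (a c : Fˣ) : log (w.valuation F ((a * c ^ 2 : Fˣ) : F)) =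
    log (w.valuation F (a : F)) + 2 * log (w.valuation F (c : F)) := by
  rw [Units.val_mul, map_mul, Units.val_pow_eq_pow_val, map_pow, log_mul
    ((Valuation.ne_zero_iff _).2 a.ne_zero)
    (pow_ne_zero _ ((Valuation.ne_zero_iff _).2 c.ne_zero)), log_pow]
  rfl

/-- odd order gives ramification -/
theorem Kb.ram (k : Kb η b β) (hP : P.IsPrime) (hw : below j P = w.asIdeal)
    (hb : Odd (log (w.valuation F (b : F)))) :
    ∃ s : GK j, (∀ x : 𝓞 Qb, (s : GQ) • x - x ∈ P) ∧ η s = -1 := by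
  have key : ∀ (c : Fˣ), log (w.valuation F ((b * c ^ 2 : Fˣ) : F)) ≠ 0 := fun c e => by
    rw [log_mul'] at e
    obtain ⟨n, hn⟩ := hb
    omega
  obtain ⟨s₀, h0⟩ := not_forall.1 fun e : ∀ s, η s = 1 => by
    obtain ⟨y, hy⟩ := H916.fixed j (x := β) fun s => by rw [k.act, e, one_smul]
    have y0 : y ≠ 0 := fun e => k.ne (by rw [← hy, e, map_zero])
    refine key (Units.mk0 y y0)⁻¹ ?_
    rw [show b * (Units.mk0 y y0)⁻¹ ^ 2 = 1 from by
      rw [inv_pow, mul_inv_eq_one]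
      exact Units.ext (j.injective (by simp [← k.sq, hy])), Units.val_one, map_one, log_one]
  replace h0 := (Int.units_eq_one_or _).resolve_left h0
  obtain ⟨L, _, _, _, jL, ρ, D, h1, h2⟩ := ex_fld k.opn
  obtain ⟨g, h3, h4⟩ := D.inertia_lift hP (τ := ρ s₀) fun y => by
    let δ := RingOfIntegers.mapRingHom jL (ρ s₀ • y - y)
    have hδ : ∀ s : GK j, (s : GQ) (δ : Qb) = η s • (δ : Qb) := h2 s₀ h0 y
    obtain ⟨c, hc⟩ := fix_mul hδ k.act
    obtain ⟨a, ha⟩ := H916.fixed_int j (x := δ ^ 2) fun s => RingOfIntegers.ext (by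
      show (s : GQ) ((δ : Qb) ^ 2) = (δ : Qb) ^ 2
      rw [pow_two, map_mul, hδ, smul_mul_smul_comm, Int.units_mul_self, one_smul])
    refine hP.mem_of_pow_mem 2 (show δ ^ 2 ∈ P from ?_)
    rw [← ha]
    show a ∈ below j P
    rw [hw]
    by_contra ha'
    have v1 := (w.valuation_eq_one_iff_notMem (K := F)).2 ha'
    have e : (a : F) * b = c ^ 2 := j.injective (by
      rw [map_mul j, map_pow j, hc, mul_pow, k.sq]
      exact congrArg (· * _) (congrArg (fun z : 𝓞 Qb => (z : Qb)) ha))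
    have c0 : c ≠ 0 := fun e' => by
      rw [e', zero_pow two_ne_zero, mul_eq_zero, or_iff_left b.ne_zero] at e
      exact zero_ne_one (((congrArg _ e).trans (map_zero _)).symm.trans v1)
    refine key (Units.mk0 c c0)⁻¹ ?_
    rw [Units.val_mul, Units.val_pow_eq_pow_val, Units.val_inv_eq_inv_val, Units.val_mk0, inv_pow,
      ← e, mul_inv_rev, mul_inv_cancel_left₀ b.ne_zero, map_inv₀]
    exact (congrArg (fun z => log z⁻¹) v1).trans (by simp)
  refine ⟨g, h4, ?_⟩
  rw [← h0, ← inv_mul_eq_one, ← map_inv, ← map_mul, ← h1, map_mul, map_inv, h3, inv_mul_cancel]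

/-- an integral normal form at a place where the order is even -/
theorem Kb.nf (k : Kb η b β) {e t : Fˣ} (h : b = e * t ^ 2) (he : w.valuation F (e : F) = 1) :
    ∃ (a : 𝓞 F) (a' c : Fˣ) (γ : 𝓞 Qb), a ∉ w.asIdeal ∧ (a' : F) = a ∧ b = a' * c ^ 2 ∧
      γ ^ 2 = RingOfIntegers.mapRingHom j a ∧ ∀ s : GK j, (s : GQ) • γ = η s • γ := by
  obtain ⟨n, d, hd⟩ := w.exists_primeCompl_mul_eq_of_integer (e : F) he.le
  have d1 := (w.valuation_eq_one_iff_notMem (K := F)).2 (show (d : 𝓞 F) ∉ w.asIdeal from d.2)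
  have d0 : algebraMap (𝓞 F) F d ≠ 0 := fun e => by simp [e] at d1
  have t0 := (map_ne_zero j).2 t.ne_zero
  have e1 : (β * j (algebraMap (𝓞 F) F d) / j t) ^ 2 = j (algebraMap (𝓞 F) F (n * d)) := by
    rw [div_pow, mul_pow, k.sq, h, map_mul (algebraMap _ _), ← hd]
    simp only [Units.val_mul, Units.val_pow_eq_pow_val, map_mul, map_pow]
    field_simp
  refine ⟨n * d, e * Units.mk0 _ d0 ^ 2, t / Units.mk0 _ d0, ⟨_, IsIntegral.of_pow two_pos
    (e1 ▸ (RingOfIntegers.mapRingHom j (n * d)).2)⟩, ?_, ?_, ?_, RingOfIntegers.ext e1,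
    fun s => RingOfIntegers.ext ?_⟩
  · rw [← w.valuation_eq_one_iff_notMem (K := F), map_mul, ← hd, map_mul, map_mul, he, d1,
      one_mul, one_mul]
  · rw [Units.val_mul, Units.val_pow_eq_pow_val, Units.val_mk0, pow_two, ← mul_assoc, hd]
    exact (map_mul _ _ _).symm
  · rw [h, mul_assoc, ← mul_pow, mul_div_cancel]
  · show (s : GQ) (β * _ / _) = ((η s : ℤ) • (⟨_, _⟩ : 𝓞 Qb) : 𝓞 Qb)
    rw [map_div₀, map_mul, k.act, s.2, s.2, Units.smul_def, zsmul_eq_mul, zsmul_eq_mul]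
    simp [mul_assoc, mul_div_assoc]

theorem two_not (hw : below j P = w.asIdeal) (h2 : w.valuation F 2 = 1) : (2 : 𝓞 Qb) ∉ P :=
  fun h => (w.valuation_eq_one_iff_notMem (K := F) (r := 2)).1 (by rwa [map_ofNat]) (by
    rw [← hw]
    show RingOfIntegers.mapRingHom j 2 ∈ P
    rwa [map_ofNat])

/-- even order at an odd place: no ramification -/
theorem Kb.unr (k : Kb η b β) (hP : P.IsPrime) (hw : below j P = w.asIdeal)
    (h2 : w.valuation F 2 = 1) {e t : Fˣ} (h : b = e * t ^ 2) (he : w.valuation F (e : F) = 1)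
    {s : GK j} (hs : ∀ x : 𝓞 Qb, (s : GQ) • x - x ∈ P) : η s = 1 := by
  obtain ⟨a, -, -, γ, h1, -, -, h3, h4⟩ := k.nf h he
  refine (Int.units_eq_one_or _).resolve_right fun e => ?_
  have := neg_mem (hs γ)
  rw [h4, e, Units.neg_smul, one_smul, neg_sub, sub_neg_eq_add, ← two_mul] at this
  refine h1 (hw ▸ (show RingOfIntegers.mapRingHom j a ∈ P from ?_))
  rw [← h3]
  exact Ideal.pow_mem_of_mem _ ((hP.mem_or_mem this).resolve_left (two_not hw h2)) _ two_pos

/-- the value at a Frobenius element -/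
theorem Kb.frob (k : Kb η b β) (hP : P.IsPrime) (hw : below j P = w.asIdeal)
    (h2 : w.valuation F 2 = 1) {e t : Fˣ} (h : b = e * t ^ 2) (he : w.valuation F (e : F) = 1)
    {φ : GK j} (hφ : ∀ x : 𝓞 Qb, (φ : GQ) • x - x ^ Ideal.absNorm w.asIdeal ∈ P) :
    η φ = 1 ↔ b ∈ LS (w.valuation F) := by
  obtain ⟨a, a', c, γ, h1, h5, rfl, h3, h4⟩ := k.nf h he
  have := w.isMaximal
  have : Finite (𝓞 F ⧸ w.asIdeal) := finite_residue w
  let _ := Fintype.ofFinite (𝓞 F ⧸ w.asIdeal)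
  let _ : Field (𝓞 F ⧸ w.asIdeal) := Ideal.Quotient.field w.asIdeal
  have t2 := residue_ringChar w h2
  have ch : ringChar (𝓞 F ⧸ w.asIdeal) ≠ 2 := fun e =>
    t2 (by simpa using (ringChar.spec _ 2).2 e.dvd)
  have a0 : Ideal.Quotient.mk w.asIdeal a ≠ 0 := mt Ideal.Quotient.eq_zero_iff_mem.1 h1
  have a1 : w.valuation F (a' : F) = 1 := h5 ▸ (w.valuation_eq_one_iff_notMem (K := F)).2 h1
  have e1 : Ideal.Quotient.mk w.asIdeal a ^ (Fintype.card (𝓞 F ⧸ w.asIdeal) / 2) = (η φ : ℤ) := by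
    have h6 := hφ γ
    rw [Ideal.absNorm_apply, Submodule.cardQuot_apply, Nat.card_eq_fintype_card,
      ← Nat.two_mul_div_two_add_one_of_odd (Nat.odd_iff.2 (FiniteField.odd_card_of_char_ne_two ch)),
      pow_succ, pow_mul, h3, h4, Units.smul_def, zsmul_eq_mul, ← sub_mul] at h6
    rw [← map_pow, ← map_intCast (Ideal.Quotient.mk w.asIdeal), eq_comm, Ideal.Quotient.eq]
    refine hw.le (show RingOfIntegers.mapRingHom j _ ∈ P from ?_)
    rw [map_sub, map_pow, map_intCast]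
    refine (hP.mem_or_mem h6).resolve_right fun k => h1 (hw ▸ ?_)
    show RingOfIntegers.mapRingHom j a ∈ P
    rw [← h3]
    exact Ideal.pow_mem_of_mem _ k _ two_pos
  rw [Subgroup.mul_mem_cancel_right _ (sq_mem_LS c)]
  refine Iff.trans (b := IsSquare (Ideal.Quotient.mk w.asIdeal a)) ?_ ⟨fun k => by_contra fun k' =>
    not_isSquare_residue w h2 a' a1 k' a (by simp [h5]) k, fun ⟨y, hy⟩ => ?_⟩
  · rw [FiniteField.isSquare_iff ch a0, e1]
    rcases Int.units_eq_one_or (η φ) with e | e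
    · simp [e]
    · refine iff_of_false (by simp [e]) fun k => t2 ?_
      rw [e, Units.val_neg, Units.val_one, Int.cast_neg, Int.cast_one] at k
      linear_combination -k
  · rw [val_four_eq, h2, one_pow] at hy
    have y2 : w.valuation F ((y : F) ^ 2) = 1 := by
      have := Valuation.map_one_add_of_lt _ hy
      rwa [add_sub_cancel, map_div₀, a1, div_eq_one_iff_eq ((Valuation.ne_zero_iff _).2
        (pow_ne_zero _ y.ne_zero)), eq_comm] at this
    have y1 : w.valuation F (y : F) ≤ 1 := (pow_le_one_iff two_ne_zero).1 ((map_pow _ _ 2).symm.trans y2).le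
    obtain ⟨z, hz⟩ := exists_residue w y1
    refine ⟨Ideal.Quotient.mk _ z, ?_⟩
    rw [← map_mul, Ideal.Quotient.eq, ← w.valuation_lt_one_iff_mem (K := F)]
    rw [div_sub_one (pow_ne_zero _ y.ne_zero), map_div₀, y2, div_one, h5] at hy
    refine (congrArg (w.valuation F) (a₂ := (a - (y : F) ^ 2) - (algebraMap (𝓞 F) F z - y) *
      (algebraMap (𝓞 F) F z + y)) ((map_sub (algebraMap _ F) _ _).trans (by
        rw [map_mul]; ring))).trans_lt (Valuation.map_sub_lt _ hy ?_)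
    rw [map_mul]
    exact (mul_le_of_le_one_right' (Valuation.map_add_le _ (w.valuation_le_one z) y1)).trans_lt hz

/-- split places of degree one -/
theorem Kb.spl (k : Kb η b β) {l : ℕ} [Fact l.Prime] (hP : P.IsPrime) (h : (l : 𝓞 Qb) ∈ P)
    (hd : dec P ≤ GK j) (hw : below j P = w.asIdeal) (h1 : ∀ s : GK j, s.1 ∈ dec P → η s = 1) :
    b ∈ LS (w.valuation F) := by
  obtain ⟨ι, h2, h3⟩ := Dg.ex_emb hP h
  choose f hf using fun x : F => h3 (j x) fun g hg => hd hg x
  have inj := (algebraMap ℚ_[l] (PadicAlgCl l)).injective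
  let φ : F →+* ℚ_[l] :=
    { toFun := f
      map_one' := inj (by simp only [hf, map_one])
      map_mul' := fun x y => inj (by simp only [hf, map_mul])
      map_zero' := inj (by simp only [hf, map_zero])
      map_add' := fun x y => inj (by simp only [hf, map_add]) }
  obtain ⟨E, c, e, hE⟩ := Dg.exists_ext (f := φ) (w := w) (Ideal.ext fun x => by
    rw [← hw, Dg.mem_prm, ← PadicAlgCl.norm_extends]
    exact (congrArg (‖·‖ < 1) (hf x)).to_iff.trans (h2 (RingOfIntegers.mapRingHom j x)).symm)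
  obtain ⟨y, hy⟩ := h3 β fun g hg => by
    rw [k.act ⟨g, hd hg⟩, h1 _ hg, one_smul]
  obtain ⟨z, rfl⟩ := Dg.surj E c hE y
  refine (P011.Even.isSquare_iff w b).1 ⟨z, E.injective (inj ?_)⟩
  rw [e, map_mul, map_mul, hy, ← map_mul, ← pow_two, k.sq]
  exact hf _

end Nu

end Vale.Agent.P022K.Sh
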