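import Vale.Agent.P022K.F0.HilbB
import Vale.Agent.P022K.F0.Loc
import Vale.Agent.P022K.QT.If
import Vale.Agent.P011.Even.Completion

/-!
# P022K, block F0: the idelic quadratic character of `F(√b)`
-/

set_option autoImplicit false

open NumberField IsDedekindDomain Filter WithZero

noncomputable section

namespace Vale.Agent.P022K.Sh

open Vale.Agent.P011.Arith Vale.Agent.P022K.Hilb F0
open Vale.Agent.P011.Even (iu exists_global' mem_LN_iff sq_mem_LN isSquare_iff)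

namespace Nu

variable {F : Type} [Field F] [NumberField F] {w : Sh.Pl F} {b : Fˣ} {x : (Fw w)ˣ}

open Classical in
theorem ite_eq (b : Fˣ) (w : Sh.Pl F) (a : Fˣ) (u : (Fw w)ˣ) :
    (if iu w a * u ^ 2 ∈ P011.Even.LN (iu w b) then (1 : ℤˣ) else -1) = hs (.inl w) b a := by
  rw [Subgroup.mul_mem_cancel_right _ (sq_mem_LN _ u), mem_LN_iff]
  rfl

open Classical in
/-- the local symbol -/
def hl (b : Fˣ) (w : Sh.Pl F) : (Fw w)ˣ →* ℤˣ :=
  MonoidHom.mk' (fun x => if x ∈ P011.Even.LN (iu w b) then 1 else -1) fun x y => by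
    obtain ⟨a, u, rfl⟩ := exists_global' w x
    obtain ⟨a', u', rfl⟩ := exists_global' w y
    rw [mul_mul_mul_comm, ← map_mul, ← mul_pow, ite_eq, ite_eq, ite_eq, hs_mul]

theorem hl_eq (a : Fˣ) (u : (Fw w)ˣ) : hl b w (iu w a * u ^ 2) = hs (.inl w) b a := ite_eq b w a u

theorem hl_iu (a : Fˣ) : hl b w (iu w a) = hs (.inl w) b a := by
  simpa using hl_eq (b := b) a (1 : (Fw w)ˣ)

theorem hl_sq (h : IsSquare x) : hl b w x = 1 := by
  obtain ⟨y, rfl⟩ := h
  rw [map_mul, Int.units_mul_self]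

theorem isSquare_unit {K : Type} [Field K] {x : Kˣ} (h : IsSquare (x : K)) : IsSquare x := by
  obtain ⟨y, e⟩ := h
  have : y ≠ 0 := fun k => x.ne_zero (by rw [e, k, zero_mul])
  exact ⟨Units.mk0 y this, Units.ext e⟩

theorem hl_near (h : Valued.v ((x : Fw w) - 1) < Valued.v (4 : Fw w)) : hl b w x = 1 :=
  hl_sq (isSquare_unit (P011.Even.isSquare_of_close w h))

theorem hl_LS (h : b ∈ LS (w.valuation F)) (x : (Fw w)ˣ) : hl b w x = 1 := by
  obtain ⟨a, u, rfl⟩ := exists_global' w x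
  rw [hl_eq, hs_one, LN_top (p := .inl w) h]
  trivial

theorem log_eq (a : Fˣ) (u : (Fw w)ˣ) : log (Valued.v ((iu w a * u ^ 2 : (Fw w)ˣ) : Fw w)) =
    log (w.valuation F (a : F)) + 2 * log (Valued.v (u : Fw w)) := by
  rw [Units.val_mul, map_mul, Units.val_pow_eq_pow_val, map_pow, log_mul
    ((Valuation.ne_zero_iff _).2 (Units.ne_zero _))
    (pow_ne_zero _ ((Valuation.ne_zero_iff _).2 u.ne_zero)), log_pow, P011.Even.iu_val, v_alg]
  rfl

variable (w b) in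
/-- `F(√b)` is unramified at `w` -/
def Ur : Prop := ∃ (e t : Fˣ) (c : F), b = e * t ^ 2 ∧ (e : F) = 1 + 4 * c ∧
  w.valuation F c ≤ 1 ∧ w.valuation F (e : F) = 1

theorem hs_sq' (p : P011.Arith.Pl F) (e t a : Fˣ) : hs p (e * t ^ 2) a = hs p e a := by
  rw [hs_mul', hs_comm p (t ^ 2), hs_sq, mul_one]

theorem Ur.even (h : Ur w b) (hx : Even (log (Valued.v (x : Fw w)))) : hl b w x = 1 := by
  obtain ⟨e, t, c, rfl, h1, h2, h3⟩ := h
  obtain ⟨a, u, rfl⟩ := exists_global' w x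
  rw [hl_eq, hs_sq', hs_one]
  by_cases k : e ∈ LS (w.valuation F)
  · rw [LN_top (p := .inl w) k]
    trivial
  by_contra k'
  have := odd_of h1 (admC_of h1 h2 h3 k) k'
  rw [log_eq, Int.even_add] at hx
  exact Int.not_even_iff_odd.2 this (hx.2 (even_two_mul _))

theorem Ur.odd (h : Ur w b) (hb : b ∉ LS (w.valuation F))
    (hx : Odd (log (Valued.v (x : Fw w)))) : hl b w x = -1 := by
  obtain ⟨e, t, c, rfl, h1, h2, h3⟩ := h
  obtain ⟨a, u, rfl⟩ := exists_global' w x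
  rw [hl_eq, hs_sq', hs_neg]
  intro k
  have := even_of h1 (admC_of h1 h2 h3 fun k => hb (mul_mem k (sq_mem_LS t))) k
  rw [log_eq] at hx
  exact Int.not_even_iff_odd.2 hx (this.add (even_two_mul _))

theorem ex_unit {a : Fˣ} (h : Even (log (w.valuation F (a : F)))) :
    ∃ e t : Fˣ, a = e * t ^ 2 ∧ w.valuation F (e : F) = 1 := by
  obtain ⟨π, hπ⟩ := unif w
  obtain ⟨k, hk⟩ := h
  refine ⟨a * (π ^ k) ^ 2, (π ^ k)⁻¹, by group, ?_⟩
  have h1 := (Valuation.ne_zero_iff (w.valuation F)).2 a.ne_zero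
  have h2 := (Valuation.ne_zero_iff (w.valuation F)).2 π.ne_zero
  rw [Units.val_mul, Units.val_pow_eq_pow_val, Units.val_zpow_eq_zpow_val, map_mul, map_pow,
    map_zpow₀, ← exp_log h1, ← exp_log h2, hk, hπ, ← exp_zsmul, ← exp_nsmul, ← exp_add,
    exp_eq_one]
  simp only [smul_eq_mul, nsmul_eq_mul]
  omega

theorem ur_of_even (h2 : w.valuation F 2 = 1) (h : Even (log (w.valuation F (b : F)))) :
    Ur w b := by
  obtain ⟨e, t, h1, h3⟩ := ex_unit h
  refine ⟨e, t, (e - 1) / 4, h1, by ring, ?_, h3⟩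
  rw [map_div₀, val_four_eq, h2, one_pow, div_one]
  exact Valuation.map_sub_le _ h3.le (map_one _).le

theorem hl_ram (h2 : w.valuation F 2 = 1) (h : Odd (log (w.valuation F (b : F))))
    (h1 : Valued.v (x : Fw w) = 1) (hx : ¬ IsSquare x) : hl b w x = -1 := by
  obtain ⟨a, u, rfl⟩ := exists_global' w x
  have h3 := log_eq a u
  rw [h1, log_one] at h3
  have := (ur_of_even (b := a) h2 ⟨-log (Valued.v (u : Fw w)), by omega⟩).odd (x := iu w b)
    (fun k => hx ((isSquare_unit ((isSquare_iff w a).2 k)).mul (IsSquare.sq u)))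
    (by rwa [P011.Even.iu_val, v_alg])
  rwa [hl_eq, hs_comm, ← hl_iu]

theorem ur_ae (b : Fˣ) : ∀ᶠ w : Sh.Pl F in cofinite, Ur w b :=
  ((finite_ne_one b).eventually_cofinite_notMem.and
    (finite_ne_one (Units.mk0 (2 : F) two_ne_zero)).eventually_cofinite_notMem).mono fun w h =>
      ur_of_even (not_not.1 h.2) (by rw [not_not.1 h.1, log_one]; exact Even.zero)

/-- the component of an idele -/
abbrev evU (w : Sh.Pl F) : (AF F)ˣ →* (Fw w)ˣ := Units.map (ev w).toRingHom.toMonoidHom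

theorem fin_hl (b : Fˣ) (t : (AF F)ˣ) : (Function.mulSupport fun w => hl b w (evU w t)).Finite :=
  eventually_cofinite.1 (((ur_ae b).and (AF.isUnit_iff.1 t.isUnit).2).mono fun w h =>
    h.1.even (by rw [show Valued.v (evU w t : Fw w) = 1 from h.2, log_one]; exact Even.zero))

/-- the idelic character -/
def hA (b : Fˣ) : (AF F)ˣ →* ℤˣ := MonoidHom.mk' (fun t => ∏ᶠ w, hl b w (evU w t)) fun t t' => by
  simp only [map_mul]
  exact finprod_mul_distrib (fin_hl b t) (fin_hl b t')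

/-- **the product formula** -/
theorem prod_hs (b t : Fˣ) (ht : ∀ φ : F →+* ℝ, 0 < φ t) : ∏ᶠ w : Sh.Pl F, hs (.inl w) b t = 1 := by
  classical
  obtain ⟨T, h1, h2⟩ := hilb b t
  have h3 : ∀ p, p ∈ T ↔ hs p b t = -1 := fun p => by
    rw [hs_neg, ← Finset.mem_coe, ← h1]
    rfl
  have h4 : T.toRight = ∅ := Finset.eq_empty_of_forall_notMem fun φ k =>
    hs_neg.1 ((h3 _).1 (Finset.mem_toRight.1 k)) (real_iff.2 (Or.inr (ht φ)))
  rw [finprod_eq_prod_of_mulSupport_subset _ (s := T.toLeft) fun w k =>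
    Finset.mem_toLeft.2 ((h3 _).2 ((Int.units_eq_one_or _).resolve_left k)),
    Finset.prod_congr rfl fun w k => (h3 _).1 (Finset.mem_toLeft.1 k), Finset.prod_const]
  rw [← Finset.card_toLeft_add_card_toRight, h4, Finset.card_empty, add_zero] at h2
  exact h2.neg_one_pow

end Nu

namespace QD

open Nu

variable {F : Type} [Field F] [NumberField F] (X : QD F) (b : Fˣ)

/-- the local norm -/
def nw (w : Pl F) : X.G →* (Fw w)ˣ := (evU w).comp (Units.map (Fuj.nrdHom _ _))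

theorem nw_val (w : Pl F) (x : X.G) : (X.nw w x : Fw w) = Fuj.nrd (X.cw w x) :=
  (nrd_map _ _).symm

/-- **the quadratic character of `F(√b)` on the adelic group** -/
def nu : X.G →* ℤˣ := (hA b).comp (Units.map (Fuj.nrdHom _ _))

theorem nu_eq (x : X.G) : X.nu b x = ∏ᶠ w, hl b w (X.nw w x) := rfl

theorem nw_one {w : Pl F} {x : X.G} (h : X.cw w x = 1) : X.nw w x = 1 :=
  Units.ext (by rw [nw_val, h, Fuj.nrd_one, Units.val_one])

theorem nu_one {x : X.G} (h : ∀ w, hl b w (X.nw w x) = 1) : X.nu b x = 1 :=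
  finprod_eq_one_of_forall_eq_one h

theorem nrd_pos (γ : X.G0) (t : F →+* ℝ) : 0 < t (Fuj.nrd ((γ : X.Dˣ) : X.D)) := by
  by_cases e : t = X.t1
  · exact e ▸ X.mem_G0.1 γ.2
  obtain ⟨a, b⟩ := X.defi t e
  refine lt_of_le_of_ne ?_ ((map_ne_zero t).2
    ((Fuj.isUnit_iff_nrd _).1 (γ : X.Dˣ).isUnit).ne_zero).symm
  generalize ((γ : X.Dˣ) : X.D) = q
  simp only [Fuj.nrd, map_add, map_sub, map_mul, map_pow]
  exact add_nonneg (sub_nonneg.2 ((mul_nonpos_of_nonpos_of_nonneg b.le (sq_nonneg _)).trans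
    (sub_nonneg.2 ((mul_nonpos_of_nonpos_of_nonneg a.le (sq_nonneg _)).trans (sq_nonneg _)))))
    (mul_nonneg (mul_pos_of_neg_of_neg a b).le (sq_nonneg _))

theorem nu_j (γ : X.G0) : X.nu b (X.tw.j γ) = 1 := by
  rw [← prod_hs b (Units.map (Fuj.nrdHom _ _) (γ : X.Dˣ)) (X.nrd_pos γ), nu_eq]
  refine finprod_congr fun w => ?_
  rw [← hl_iu]
  exact congrArg _ (Units.ext (congrArg (ev w) (X.nrd_jD _)))

theorem nu_lev : ∃ U ∈ X.tw.Lev, U ≤ (X.nu b).ker := by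
  obtain ⟨N, N0, hN⟩ : ∃ N : ℕ, 0 < N ∧ ∀ w : Pl F, Ur w b ∨
      Valued.v (N : Fw w) < Valued.v (4 : Fw w) := by
    have f := eventually_cofinite.1 (ur_ae b)
    choose n n0 hn using fun w : Pl F => exists_nat_le w (val_four_ne (Valued.v (R := Fw w)))
    refine ⟨∏ w ∈ f.toFinset, n w, Finset.prod_pos fun w _ => n0 w, fun w =>
      (em _).imp_right fun h => lt_of_le_of_lt ?_ (hn w)⟩
    obtain ⟨c, e⟩ := Finset.dvd_prod_of_mem n (f.mem_toFinset.2 h)
    rw [e, Nat.cast_mul, map_mul]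
    exact mul_le_of_le_one_right' (v_nat_le w c)
  refine ⟨X.UN N, ⟨N, N0, le_rfl, by simp⟩, ?_⟩
  rintro x ⟨c, ⟨y, hy, e⟩, ⟨y', hy', e'⟩⟩
  have key : ∀ (c : (AF F)ˣ) (x : X.G) w, (((evU w c) ^ 2 * X.nw w x : (Fw w)ˣ) : Fw w) =
      ev w (Fuj.nrd ((c : AF F) • (x : X.DA))) := fun c x w => by
    rw [Fuj.nrd_smul, map_mul, map_pow]
    rfl
  refine X.nu_one b fun w => ?_
  suffices hl b w (evU w c ^ 2 * X.nw w x) = 1 by
    rwa [map_mul, hl_sq (IsSquare.sq _), one_mul] at this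
  have int : ∀ {y}, y ∈ X.OD → Valued.v (ev w (Fuj.nrd (1 + (N : X.DA) * y))) ≤ 1 := fun hy =>
    OA_iff.1 (nrd_mem_qint (add_mem (one_mem _) (mul_mem (natCast_mem _ _) hy))) w
  rcases hN w with h | h
  · refine h.even ?_
    have h1 := int hy
    have h2 := int hy'
    rw [← e, ← key] at h1
    rw [← e', ← key, map_inv, map_inv, inv_pow, ← mul_inv, Units.val_inv_eq_inv_val, map_inv₀,
      inv_le_one₀ (zero_lt_iff.2 ((Valuation.ne_zero_iff _).2 (Units.ne_zero _)))] at h2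
    rw [le_antisymm h1 h2, log_one]
    exact Even.zero
  · refine hl_near (lt_of_le_of_lt ?_ h)
    have e1 : Fuj.nrd (1 + (N : X.DA) * y) = 1 + N * (Fuj.trd y + N * Fuj.nrd y) := by
      rw [nat_mul_eq]
      simp [Fuj.nrd, Fuj.trd]
      ring
    rw [key, e, e1, map_add, map_one, add_sub_cancel_left, map_mul, map_natCast, map_mul]
    exact mul_le_of_le_one_right' (OA_iff.1 (add_mem (mul_mem (ofNat_mem _ 2) (mem_qint.1 hy).1)
      (mul_mem (natCast_mem _ _) (nrd_mem_qint hy))) w)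

section

variable {O K : Type} [CommRing O] [IsDomain O] [IsDiscreteValuationRing O] [Field K] [Algebra O K]
  {X} {w : Pl F} {L : X.tw.Lc O K}

theorem IsPl.nw (h : X.IsPl w L) : ∃ e : Fw w ≃+* K, LocA.Cp O e ∧
    ∀ x, e (X.nw w x) = (L.π x : Matrix (Fin 2) (Fin 2) K).det := by
  obtain ⟨e, s, h1, h2, h3, -⟩ := h
  have := L.ch
  refine ⟨e, ⟨L.inj, h1⟩, fun x => ?_⟩
  rw [h3, nw_val]
  exact (Fuj.Over.det (τ := e.toRingHom) (j := s.toRingHom) h2 (LocA.alg_ne X.a0)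
    (LocA.alg_ne X.b0) _).symm

theorem IsPl.nu_io (h : X.IsPl w L) (g : GL (Fin 2) K) :
    X.nu b (L.ι g) = hl b w (X.nw w (L.ι g)) := by
  obtain ⟨-, -, -, -, -, h⟩ := h
  rw [nu_eq]
  exact finprod_eq_single _ w fun v hv => by rw [X.nw_one (h g v hv), map_one]

theorem _root_.Vale.Agent.P022K.Sh.LocA.Cp.unit {e : Fw w ≃+* K} (h : LocA.Cp O e) (c : Oˣ) :
    Valued.v (e.symm (algebraMap O K c)) = 1 :=
  le_antisymm (h.mem_iff.1 ⟨_, rfl⟩) (not_lt.1 fun k => h.mem_max.2 k c.isUnit)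

theorem IsPl.even (h : X.IsPl w L) {x : X.G} (hx : L.π x ∈ KK O K ⊔ Zl K) :
    Even (log (Valued.v (X.nw w x : Fw w))) := by
  obtain ⟨e, cp, he⟩ := h.nw
  obtain ⟨_, ⟨m, rfl⟩, z, hz, e1⟩ := Subgroup.mem_sup_of_normal_right.1 hx
  obtain ⟨c, hc⟩ := Matrix.GeneralLinearGroup.mem_center_iff_val_mem_range_scalar.1 hz
  rw [← e.symm_apply_apply (X.nw w x), he, ← e1, Units.val_mul, Matrix.det_mul, ← hc,
    Matrix.scalar_apply, Matrix.det_diagonal, Fin.prod_univ_two, ← sq, map_mul, map_mul,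
    show Valued.v (e.symm (gK K m).val.det) = 1 from (congrArg _ (congrArg _
      (RingHom.map_det _ _).symm)).trans (cp.unit m.det), one_mul, map_pow, map_pow, log_pow]
  exact even_two_mul _

theorem IsPl.nu_sq (h : X.IsPl w L) {g : GL (Fin 2) K}
    (hg : IsSquare (Matrix.GeneralLinearGroup.det g)) : X.nu b (L.ι g) = 1 := by
  obtain ⟨e, -, he⟩ := h.nw
  obtain ⟨y, hy⟩ := hg
  rw [h.nu_io]
  refine hl_sq (isSquare_unit ⟨e.symm y, e.injective ?_⟩)
  rw [he, L.πι, map_mul, e.apply_symm_apply]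
  exact congrArg Units.val hy

theorem IsPl.nu_dO (h : X.IsPl w L) (h2 : w.valuation F 2 = 1)
    (hb : Odd (log (w.valuation F (b : F)))) {c : Oˣ} (hc : ¬ IsSquare c) :
    X.nu b (L.ι (dO K c)) = -1 := by
  obtain ⟨e, cp, he⟩ := h.nw
  have e1 : (X.nw w (L.ι (dO K c)) : Fw w) = e.symm (algebraMap O K c) := by
    rw [e.eq_symm_apply, he, L.πι]
    exact congrArg Units.val (det_dg _)
  rw [h.nu_io]
  refine hl_ram h2 hb (e1 ▸ cp.unit c) fun ⟨y, hy⟩ => hc ?_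
  replace hy := e1.symm.trans (congrArg Units.val hy)
  have h3 := cp.unit c
  rw [hy, Units.val_mul, map_mul, ← sq] at h3
  obtain ⟨o, ho⟩ := (cp.int _).1 (mem_Ow.2 ((pow_le_one_iff two_ne_zero).1 h3.le))
  have h4 : (c : O) = o * o := cp.inj (by
    rw [map_mul, ho, ← map_mul, ← Units.val_mul, ← hy, e.apply_symm_apply])
  obtain ⟨u, rfl⟩ := isUnit_of_mul_isUnit_left (h4 ▸ c.isUnit)
  exact ⟨u, Units.ext h4⟩

theorem IsPl.odd (h : X.IsPl w L) :
    Odd (log (Valued.v (X.nw w (L.ι (dg L.ϖ)) : Fw w))) := by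
  obtain ⟨e, cp, he⟩ := h.nw
  obtain ⟨q, hq, e0⟩ := L.irr
  have e1 : (X.nw w (L.ι (dg L.ϖ)) : Fw w) = e.symm (algebraMap O K q) := by
    rw [e.eq_symm_apply, he, L.πι, e0]
    exact congrArg Units.val (det_dg _)
  have m : ∀ n, q ∈ IsLocalRing.maximalIdeal O ^ n ↔ n ≤ 1 := fun n => by
    rw [hq.maximalIdeal_eq, Ideal.span_singleton_pow, Ideal.mem_span_singleton]
    simpa using pow_dvd_pow_iff hq.ne_zero hq.not_isUnit (n := n) (m := 1)
  have h1 := cp.mem_pow.1 ((m 1).2 le_rfl)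
  have h2 := cp.mem_pow.not.1 ((m 2).not.2 (by simp))
  rw [← e1, ← exp_log ((Valuation.ne_zero_iff Valued.v).2 (X.nw w (L.ι (dg L.ϖ))).ne_zero),
    exp_le_exp] at h1 h2
  exact ⟨-1, by omega⟩

/-- a character which is ramified at a given odd place -/
theorem IsPl.ex_nu (h : X.IsPl w L) (h2 : IsUnit (2 : O)) : ∃ ν : X.G →* ℤˣ,
    (∀ γ, ν (X.tw.j γ) = 1) ∧ (∃ U ∈ X.tw.Lev, U ≤ ν.ker) ∧
    (∀ g, IsSquare (Matrix.GeneralLinearGroup.det g) → ν (L.ι g) = 1) ∧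
    ∀ c : Oˣ, ¬ IsSquare c → ν (L.ι (dO K c)) = -1 := by
  obtain ⟨b, hb⟩ := unif w
  obtain ⟨e, cp⟩ := h.cp
  refine ⟨X.nu b, X.nu_j b, X.nu_lev b, fun _ => h.nu_sq b, fun _ => h.nu_dO b ?_ (hb ▸ odd_neg_one)⟩
  have := cp.unit h2.unit
  rwa [IsUnit.unit_spec, map_ofNat, map_ofNat, ← map_ofNat (algebraMap F (Fw w)), v_alg] at this

end

end QD

end Vale.Agent.P022K.Sh
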