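import Vale.Agent.P022K.F0.OrbG
import Mathlib.Algebra.Quaternion

/-!
# P022K, block F0, row ORB: deep test functions (any place of a quaternion algebra)
-/

set_option autoImplicit false

open scoped WithZero Quaternion
open WithZero

noncomputable section

namespace Vale.Agent.P022K.Sh.Orb

section abstract

variable {G : Type} [Group G] {T U V : Subgroup G}

theorem smul_coe (t x : G) : t • (x : G ⧸ U) = ((t * x : G) : G ⧸ U) := rfl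

theorem conj_tor (hc : ∀ s ∈ T, ∀ t ∈ T, s * t = t * s) {γ t : G} (hγ : γ ∈ T) (ht : t ∈ T)
    (k : G) : (t * k)⁻¹ * γ * (t * k) = k⁻¹ * γ * k := by
  rw [mul_inv_rev, mul_assoc k⁻¹, mul_assoc k⁻¹, ← mul_assoc _ t k, mul_assoc t⁻¹, hc γ hγ t ht,
    inv_mul_cancel_left, mul_assoc]

/-- twisted conjugation functions are invariant under the torus -/
theorem iv_conj (hc : ∀ s ∈ T, ∀ t ∈ T, s * t = t * s) {η f : G → ℂ}
    (hη : ∀ t ∈ T, ∀ x, η (t * x) = η x) {γ : G} (hγ : γ ∈ T) {φ : G ⧸ U → ℂ}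
    (hφ : ∀ x : G, φ x = η x * f (x⁻¹ * γ * x)) : Iv T φ := fun t ht y => by
  obtain ⟨x, rfl⟩ := QuotientGroup.mk_surjective y
  rw [smul_coe, hφ, hφ, hη t ht, conj_tor hc hγ ht]

theorem deep_abs (hc : ∀ s ∈ T, ∀ t ∈ T, s * t = t * s) (hUV : U ≤ V)
    (hn : ∀ k ∈ V, ∀ u ∈ U, k⁻¹ * u * k ∈ U) (hf : {y : G ⧸ U | ∃ k ∈ V, y = k}.Finite) {j : G}
    (hj : ∀ t, t ∈ T ↔ j⁻¹ * t * j ∈ T) (hjV : ∀ t ∈ T, t ∈ V ↔ j⁻¹ * t * j ∈ V) {γ0 : G}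
    (h0 : γ0 ∈ T) (η : G →* ℂ) (ηV : ∀ k ∈ V, η k = 1)
    (hA : ∀ γ ∈ T, ∀ x, γ0⁻¹ * (x⁻¹ * γ * x) ∈ U →
      (∃ t ∈ T, ∃ k ∈ V, x = t * k ∧ γ0⁻¹ * γ ∈ U) ∨
      (∃ t ∈ T, ∃ k ∈ V, x = j * (t * k) ∧ γ0⁻¹ * (j⁻¹ * γ * j) ∈ U))
    (hB : ∀ γ ∈ T, γ0⁻¹ * γ ∈ U → γ0⁻¹ * (j⁻¹ * γ * j) ∉ U) {f : G → ℂ}
    (f1 : ∀ g, γ0⁻¹ * g ∈ U → f g = 1) (f0 : ∀ g, γ0⁻¹ * g ∉ U → f g = 0) :
    ∃ n0 : ℕ, 0 < n0 ∧ ∀ γ ∈ T, ∀ φ : G ⧸ U → ℂ, (∀ x : G, φ x = η x * f (x⁻¹ * γ * x)) →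
      HasOrb T (T ⊓ V) φ (n0 * (f γ + η j * f (j⁻¹ * γ * j))) := by
  have fin : {y : G ⧸ U | ∃ k ∈ V, y = k ∧ γ0⁻¹ * (k⁻¹ * γ0 * k) ∈ U}.Finite :=
    hf.subset fun y ⟨k, h1, h2, _⟩ => ⟨k, h1, h2⟩
  have eq : ∀ γ, γ0⁻¹ * γ ∈ U → ∀ k ∈ V,
      (γ0⁻¹ * (k⁻¹ * γ * k) ∈ U ↔ γ0⁻¹ * (k⁻¹ * γ0 * k) ∈ U) := fun γ hγ k hk => by
    rw [← U.mul_mem_cancel_right (hn k hk _ hγ) (y := γ0⁻¹ * (k⁻¹ * γ0 * k))]
    simp only [mul_assoc, mul_inv_cancel_left]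
  have one : ∀ γ ∈ T, γ0⁻¹ * γ ∈ U → ∀ φ : G ⧸ U → ℂ, (∀ x : G, φ x = η x * f (x⁻¹ * γ * x)) →
      HasOrb T (T ⊓ V) φ fin.toFinset.card := fun γ hγ hU φ hφ => by
    refine ⟨fin.toFinset, fun y hy => ?_, fun t ht r hr => ?_, ?_⟩
    · obtain ⟨x, rfl⟩ := QuotientGroup.mk_surjective y
      have hx : γ0⁻¹ * (x⁻¹ * γ * x) ∈ U := by
        by_contra hx
        exact hy (by rw [hφ, f0 _ hx, mul_zero])
      rcases hA γ hγ x hx with ⟨t, ht, k, hk, rfl, -⟩ | ⟨-, -, -, -, -, h⟩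
      · refine ⟨t⁻¹, inv_mem ht, fin.mem_toFinset.2 ⟨k, hk, ?_, ?_⟩⟩
        · rw [smul_coe, inv_mul_cancel_left]
        · exact (eq γ hU k hk).1 (by rwa [conj_tor hc hγ ht] at hx)
      · exact absurd h (hB γ hγ hU)
    · obtain ⟨k, hk, rfl, h⟩ := fin.mem_toFinset.1 hr
      rw [fin.mem_toFinset, smul_coe]
      constructor
      · rintro ⟨k', hk', e, -⟩
        have := mul_mem (mul_mem hk' (inv_mem (hUV (QuotientGroup.eq.1 e)))) (inv_mem hk)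
        exact ⟨ht, by simpa [mul_assoc] using this⟩
      · exact fun h' => ⟨t * k, mul_mem h'.2 hk, rfl, by rwa [conj_tor hc h0 ht]⟩
    · rw [Finset.sum_congr rfl (g := fun _ => 1) fun r hr => ?_, Finset.sum_const, nsmul_one]
      obtain ⟨k, hk, rfl, h⟩ := fin.mem_toFinset.1 hr
      rw [hφ, ηV k hk, f1 _ ((eq γ hU k hk).2 h), one_mul]
  refine ⟨fin.toFinset.card, Finset.card_pos.2 ⟨(1 : G), fin.mem_toFinset.2
    ⟨1, one_mem _, rfl, by simp⟩⟩, fun γ hγ φ hφ => ?_⟩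
  by_cases h1 : γ0⁻¹ * γ ∈ U
  · rw [f1 _ h1, f0 _ (hB γ hγ h1), mul_zero, add_zero, mul_one]
    exact one γ hγ h1 φ hφ
  by_cases h2 : γ0⁻¹ * (j⁻¹ * γ * j) ∈ U
  · rw [f0 _ h1, f1 _ h2, zero_add, mul_one, mul_comm]
    have e : η j * η j⁻¹ = 1 := by rw [← map_mul, mul_inv_cancel, map_one]
    refine ((one _ ((hj γ).1 hγ) h2 (fun y => η j⁻¹ * φ (j • y)) fun x => ?_).mul (η j)).trans j hj
      (fun t => ⟨fun h => ⟨(hj t).1 h.1, (hjV t h.1).1 h.2⟩,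
        fun h => ⟨(hj t).2 h.1, (hjV t ((hj t).2 h.1)).2 h.2⟩⟩) fun y => ?_
    · rw [smul_coe, hφ, ← mul_assoc, ← map_mul, inv_mul_cancel_left]
      simp only [mul_inv_rev, mul_assoc]
    · rw [← mul_assoc, e, one_mul]
  · rw [f0 _ h1, f0 _ h2, mul_zero, add_zero, mul_zero]
    refine hasOrb_zero fun y => ?_
    obtain ⟨x, rfl⟩ := QuotientGroup.mk_surjective y
    rw [hφ, f0 _ fun hx => ?_, mul_zero]
    rcases hA γ hγ x hx with ⟨-, -, -, -, -, h⟩ | ⟨-, -, -, -, -, h⟩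
    exacts [h1 h, h2 h]

theorem ram_abs (hn : ∀ x, ∀ u ∈ U, x⁻¹ * u * x ∈ U) {j : G} (hj : ∀ t, t ∈ T ↔ j⁻¹ * t * j ∈ T)
    (cov : ∀ x, ∃ t ∈ T, ∃ u ∈ U, x = t * u ∨ x = j * (t * u))
    (hne : ∀ t ∈ T, ∀ u ∈ U, j ≠ t * u) {η f : G → ℂ} (η1 : η 1 = 1) {γ : G} {φ : G ⧸ U → ℂ}
    (hφ : ∀ x : G, φ x = η x * f (x⁻¹ * γ * x)) :
    HasOrb T (T ⊓ U) φ (f γ + η j * f (j⁻¹ * γ * j)) := by
  classical
  have ne : ∀ t ∈ T, ((t : G) : G ⧸ U) ≠ j := fun t ht e =>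
    hne t ht _ (QuotientGroup.eq.1 e) (by simp)
  refine ⟨{((1 : G) : G ⧸ U), (j : G ⧸ U)}, fun y _ => ?_, fun t ht r hr => ?_, ?_⟩
  · obtain ⟨x, rfl⟩ := QuotientGroup.mk_surjective y
    obtain ⟨t, ht, u, hu, rfl | rfl⟩ := cov x
    · exact ⟨t⁻¹, inv_mem ht, by
        rw [smul_coe, inv_mul_cancel_left, ← one_mul u, QuotientGroup.mk_mul_of_mem _ hu]; simp⟩
    · refine ⟨j * t⁻¹ * j⁻¹, (hj _).2 (by simpa [mul_assoc] using ht), ?_⟩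
      rw [smul_coe, show j * t⁻¹ * j⁻¹ * (j * (t * u)) = j * u by group,
        QuotientGroup.mk_mul_of_mem _ hu]
      simp
  · rw [Finset.mem_insert, Finset.mem_singleton] at hr ⊢
    rcases hr with rfl | rfl
    · rw [smul_coe, mul_one, or_iff_left (ne t ht), eq_comm, QuotientGroup.eq]
      simp [ht]
    · rw [smul_coe, or_iff_right fun e => ne t⁻¹ (inv_mem ht) (by
        rw [QuotientGroup.eq]; simpa using QuotientGroup.eq.1 e.symm), eq_comm, QuotientGroup.eq,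
        ← mul_assoc]
      exact ⟨fun h => ⟨ht, by simpa [mul_assoc] using hn j⁻¹ _ h⟩, fun h => hn j t h.2⟩
  · rw [Finset.sum_pair (ne 1 (one_mem _)), hφ, hφ, η1]
    simp

end abstract

variable {K : Type} [Field K] {v : Valuation K ℤᵐ⁰} {a b : K}

/-- the reduced norm -/
def nq (x : ℍ[K,a,b]) : K := x.re ^ 2 - a * x.imI ^ 2 - b * (x.imJ ^ 2 - a * x.imK ^ 2)

theorem nq_mul (x y : ℍ[K,a,b]) : nq (x * y) = nq x * nq y := by
  simp [nq]; ring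

theorem nq_smul (c : K) (x : ℍ[K,a,b]) : nq (c • x) = c ^ 2 * nq x := by
  simp [nq]; ring

theorem mul_star (x : ℍ[K,a,b]) : x * star x = nq x • 1 := by
  ext <;> simp [nq] <;> ring

theorem star_mul' (x : ℍ[K,a,b]) : star x * x = nq x • 1 := by
  ext <;> simp [nq] <;> ring

theorem nq_ne (g : ℍ[K,a,b]ˣ) : nq g.val ≠ 0 := fun e => by
  have := nq_mul g.val (g⁻¹).val
  rw [Units.mul_inv, e, zero_mul] at this
  simp [nq] at this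

theorem inv_val (g : ℍ[K,a,b]ˣ) : (g⁻¹).val = (nq g.val)⁻¹ • star g.val := by
  rw [eq_comm, ← Units.mul_right_inj g, Units.mul_inv, mul_smul_comm, mul_star, smul_smul,
    inv_mul_cancel₀ (nq_ne g), one_smul]

/-- an element of non-zero norm as a unit -/
def mkU (x : ℍ[K,a,b]) (h : nq x ≠ 0) : ℍ[K,a,b]ˣ where
  val := x
  inv := (nq x)⁻¹ • star x
  val_inv := by rw [mul_smul_comm, mul_star, smul_smul, inv_mul_cancel₀ h, one_smul]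
  inv_val := by rw [smul_mul_assoc, star_mul', smul_smul, inv_mul_cancel₀ h, one_smul]

variable (a b) in
/-- the torus `K(i)^×` -/
def TQ : Subgroup ℍ[K,a,b]ˣ where
  carrier := {g | g.val.imJ = 0 ∧ g.val.imK = 0}
  mul_mem' h h' := by constructor <;> simp [h.1, h.2, h'.1, h'.2]
  one_mem' := by constructor <;> simp
  inv_mem' h := by constructor <;> rw [inv_val] <;> simp [h.1, h.2]

theorem TQ_comm : ∀ s ∈ TQ a b, ∀ t ∈ TQ a b, s * t = t * s := fun s hs t ht => by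
  ext <;> simp [hs.1, hs.2, ht.1, ht.2] <;> ring

variable (a) in
/-- the element `j` -/
def jQ (hb : b ≠ 0) : ℍ[K,a,b]ˣ := mkU ⟨0, 0, 1, 0⟩ (by simpa [nq] using hb)

theorem jQ_val (hb : b ≠ 0) : (jQ a hb).val = ⟨0, 0, 1, 0⟩ := rfl

theorem jQ_conj (hb : b ≠ 0) (g : ℍ[K,a,b]ˣ) : ((jQ a hb)⁻¹ * g * jQ a hb).val =
    ⟨g.val.re, -g.val.imI, g.val.imJ, -g.val.imK⟩ := by
  rw [mul_assoc, Units.val_mul, Units.inv_mul_eq_iff_eq_mul, Units.val_mul, jQ_val]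
  ext <;> simp [mul_comm]

theorem jQ_tor (hb : b ≠ 0) (t : ℍ[K,a,b]ˣ) :
    t ∈ TQ a b ↔ (jQ a hb)⁻¹ * t * jQ a hb ∈ TQ a b := by
  show _ ∧ _ ↔ _ ∧ _
  rw [jQ_conj]
  simp

variable (v) in
/-- all coordinates are divisible by `ϖ ^ m` -/
structure Sm (m : ℤ) (x : ℍ[K,a,b]) : Prop where
  re : v x.re ≤ exp (-m)
  i : v x.imI ≤ exp (-m)
  j : v x.imJ ≤ exp (-m)
  k : v x.imK ≤ exp (-m)

namespace Sm

variable {m n : ℤ} {x y : ℍ[K,a,b]}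

theorem add (h : Sm v m x) (h' : Sm v m y) : Sm v m (x + y) :=
  ⟨v.map_add_le h.re h'.re, v.map_add_le h.i h'.i, v.map_add_le h.j h'.j, v.map_add_le h.k h'.k⟩

theorem sub (h : Sm v m x) (h' : Sm v m y) : Sm v m (x - y) :=
  ⟨v.map_sub_le h.re h'.re, v.map_sub_le h.i h'.i, v.map_sub_le h.j h'.j, v.map_sub_le h.k h'.k⟩

theorem mono (h : Sm v m x) (e : n ≤ m) : Sm v n x :=
  have e' : exp (-m) ≤ exp (-n) := exp_le_exp.2 (by omega)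
  ⟨h.re.trans e', h.i.trans e', h.j.trans e', h.k.trans e'⟩

theorem star (h : Sm v m x) : Sm v m (star x) :=
  ⟨by simpa using h.re, by simpa using h.i, by simpa using h.j, by simpa using h.k⟩

theorem smul {c : K} (hc : v c ≤ 1) (h : Sm v m x) : Sm v m (c • x) := by
  have e : ∀ z, v z ≤ exp (-m) → v (c * z) ≤ exp (-m) := fun z hz => by
    rw [map_mul]; exact mul_le_of_le_one_of_le hc hz
  exact ⟨e _ h.re, e _ h.i, e _ h.j, e _ h.k⟩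

theorem one : Sm v 0 (1 : ℍ[K,a,b]) := ⟨by simp, by simp, by simp, by simp⟩

theorem zero : Sm v m (0 : ℍ[K,a,b]) := ⟨by simp, by simp, by simp, by simp⟩

theorem mul (ha : v a ≤ 1) (hb : v b ≤ 1) (h : Sm v m x) (h' : Sm v n y) :
    Sm v (m + n) (x * y) := by
  have e : ∀ {z w}, v z ≤ exp (-m) → v w ≤ exp (-n) → v (z * w) ≤ exp (-(m + n)) := fun hz hw => by
    rw [map_mul, neg_add, exp_add]; exact mul_le_mul' hz hw
  have e' : ∀ {c z w}, v c ≤ 1 → v z ≤ exp (-m) → v w ≤ exp (-n) →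
      v (c * z * w) ≤ exp (-(m + n)) := fun hc hz hw => by
    rw [mul_assoc, map_mul]; exact mul_le_of_le_one_of_le hc (e hz hw)
  refine ⟨?_, ?_, ?_, ?_⟩
  · rw [show (x * y).re = x.re * y.re + a * x.imI * y.imI + b * x.imJ * y.imJ -
      a * b * x.imK * y.imK by simp]
    exact v.map_sub_le (v.map_add_le (v.map_add_le (e h.re h'.re) (e' ha h.i h'.i))
      (e' hb h.j h'.j)) (e' (v_mul_le ha hb) h.k h'.k)
  · rw [show (x * y).imI = x.re * y.imI + x.imI * y.re - b * x.imJ * y.imK +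
      b * x.imK * y.imJ by simp]
    exact v.map_add_le (v.map_sub_le (v.map_add_le (e h.re h'.i) (e h.i h'.re))
      (e' hb h.j h'.k)) (e' hb h.k h'.j)
  · rw [show (x * y).imJ = x.re * y.imJ + a * x.imI * y.imK + x.imJ * y.re -
      a * x.imK * y.imI by simp]
    exact v.map_sub_le (v.map_add_le (v.map_add_le (e h.re h'.j) (e' ha h.i h'.k))
      (e h.j h'.re)) (e' ha h.k h'.i)
  · rw [show (x * y).imK = x.re * y.imK + x.imI * y.imJ - x.imJ * y.imI +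
      x.imK * y.re by simp]
    exact v.map_add_le (v.map_sub_le (v.map_add_le (e h.re h'.k) (e h.i h'.j))
      (e h.j h'.i)) (e h.k h'.re)

end Sm

variable (v a b) in
/-- the standing assumptions -/
structure QI : Prop where
  ha : v a ≤ 1
  hb : v b ≤ 1
  a0 : a ≠ 0
  b0 : b ≠ 0
  two : (2 : K) ≠ 0

/-- the principal level `K^× (1 + ϖ ^ m O_D)` -/
def UQ (h : QI v a b) (m : ℕ) : Subgroup ℍ[K,a,b]ˣ where
  carrier := {g | ∃ c : Kˣ, Sm v m ((c : K) • g.val - 1)}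
  mul_mem' := by
    rintro x y ⟨c, hc⟩ ⟨d, hd⟩
    refine ⟨c * d, ?_⟩
    rw [show ((c * d : Kˣ) : K) • (x * y).val - 1 = ((c : K) • x.val - 1) + ((d : K) • y.val - 1) +
      ((c : K) • x.val - 1) * ((d : K) • y.val - 1) by
        rw [Units.val_mul, Units.val_mul, ← smul_mul_smul_comm]
        generalize (c : K) • x.val = z
        generalize (d : K) • y.val = w
        noncomm_ring]
    exact (hc.add hd).add ((hc.mul h.ha h.hb hd).mono (by omega))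
  one_mem' := ⟨1, by simpa using Sm.zero⟩
  inv_mem' := by
    rintro x ⟨c, hc⟩
    refine ⟨c * Units.mk0 _ (nq_ne x), ?_⟩
    rw [inv_val, smul_smul, Units.val_mul, Units.val_mk0, mul_inv_cancel_right₀ (nq_ne x)]
    simpa using hc.star

variable (v) in
/-- units of the order -/
def Un (g : ℍ[K,a,b]ˣ) : Prop := Sm v 0 g.val ∧ Sm v 0 (g⁻¹).val

theorem un_of {g : ℍ[K,a,b]ˣ} (h : Sm v 0 g.val) (hn : v (nq g.val) = 1) : Un v g :=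
  ⟨h, by rw [inv_val]; exact h.star.smul (by rw [map_inv₀, hn, inv_one])⟩

/-- scalars -/
abbrev cs : Kˣ →* ℍ[K,a,b]ˣ := Units.map (algebraMap K ℍ[K,a,b]).toMonoidHom

theorem cs_mul_val (c : Kˣ) (g : ℍ[K,a,b]ˣ) : (cs c * g).val = (c : K) • g.val := by
  rw [Units.val_mul, Algebra.smul_def]; rfl

theorem cs_comm (c : Kˣ) (g : ℍ[K,a,b]ˣ) : cs c * g = g * cs c :=
  Units.ext (Algebra.commutes (c : K) g.val)

variable (h : QI v a b) {m : ℕ}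

theorem cs_mem (c : Kˣ) : cs c ∈ UQ h m :=
  ⟨c⁻¹, by rw [← cs_mul_val, ← map_mul, inv_mul_cancel, map_one]; simpa using Sm.zero⟩

theorem UQ_mono {k : ℕ} (e : k ≤ m) : UQ h m ≤ UQ h k :=
  fun _ ⟨c, hc⟩ => ⟨c, hc.mono (by omega)⟩

theorem Un.mem_iff {g0 : ℍ[K,a,b]ˣ} (h0 : Un v g0) (g : ℍ[K,a,b]ˣ) :
    g0⁻¹ * g ∈ UQ h m ↔ ∃ c : Kˣ, Sm v m ((c : K) • g.val - g0.val) := by
  refine exists_congr fun c => ⟨fun hc => ?_, fun hc => ?_⟩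
  · have := h0.1.mul h.ha h.hb hc
    rwa [zero_add, mul_sub, mul_one, mul_smul_comm, Units.val_mul, Units.mul_inv_cancel_left]
      at this
  · have := h0.2.mul h.ha h.hb hc
    rwa [zero_add, mul_sub, Units.inv_mul, mul_smul_comm] at this

theorem Un.conj {g u : ℍ[K,a,b]ˣ} (h0 : Un v g) (hu : u ∈ UQ h m) : g⁻¹ * u * g ∈ UQ h m := by
  obtain ⟨c, hc⟩ := hu
  rw [mul_assoc, h0.mem_iff h]
  have := hc.mul h.ha h.hb h0.1
  exact ⟨c, by rwa [add_zero, sub_mul, one_mul, smul_mul_assoc] at this⟩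

theorem UQ_un {k : ℕ} (hk : 0 < k) {g : ℍ[K,a,b]ˣ} (hg : g ∈ UQ h k) :
    ∃ c : Kˣ, Un v (cs c * g) := by
  obtain ⟨c, hc⟩ := hg
  have h1 : Sm v 0 ((c : K) • g.val) := by
    simpa using (hc.mono (n := 0) (by omega)).add Sm.one
  refine ⟨c, un_of (by rwa [cs_mul_val]) ?_⟩
  rw [cs_mul_val]
  generalize (c : K) • g.val = x at hc h1
  have h2 : Sm v k (x * star x - 1) := by
    rw [show x * star x - 1 = (x - 1) * star x + star (x - 1) by rw [star_sub, star_one]; noncomm_ring]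
    exact (by simpa using hc.mul h.ha h.hb h1.star : Sm v k ((x - 1) * star x)).add hc.star
  have h3 : v (nq x - 1) < 1 := by
    have := h2.re
    rw [mul_star] at this
    exact lt_of_le_of_lt (by simpa using this) (by rw [← exp_zero, exp_lt_exp]; omega :
      exp (-(k : ℤ)) < 1)
  simpa using v.map_one_add_of_lt h3

theorem UQ_conj {k : ℕ} (hk : 0 < k) {g : ℍ[K,a,b]ˣ} (hg : g ∈ UQ h k) {u : ℍ[K,a,b]ˣ}
    (hu : u ∈ UQ h m) : g⁻¹ * u * g ∈ UQ h m := by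
  obtain ⟨c, hc⟩ := UQ_un h hk hg
  have := hc.conj h hu
  rwa [mul_inv_rev, ← mul_assoc, mul_assoc _ u, ← cs_comm, ← mul_assoc,
    inv_mul_cancel_right] at this

theorem UQ_bar (t : ℍ[K,a,b]ˣ) : t ∈ UQ h m ↔ (jQ a h.b0)⁻¹ * t * jQ a h.b0 ∈ UQ h m := by
  refine exists_congr fun c => ?_
  rw [jQ_conj]
  exact ⟨fun e => ⟨e.re, by simpa using e.i, e.j, by simpa using e.k⟩,
    fun e => ⟨e.re, by simpa using e.i, e.j, by simpa using e.k⟩⟩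

theorem un_finite {ϖ : Kˣ} (hϖ : v ϖ = exp (-1)) {q : ℕ} (hq : Cnt v q) (m : ℕ) :
    {y : ℍ[K,a,b]ˣ ⧸ UQ h m | ∃ g : ℍ[K,a,b]ˣ, Un v g ∧ y = g}.Finite := by
  obtain ⟨s, -, hs⟩ := hq.rp hϖ 0 m
  rw [zero_add] at hs
  have ex : ∀ y ∈ {y : ℍ[K,a,b]ˣ ⧸ UQ h m | ∃ g : ℍ[K,a,b]ˣ, Un v g ∧ y = g},
      ∃ r ∈ s ×ˢ s ×ˢ s ×ˢ s, ∃ g : ℍ[K,a,b]ˣ, Un v g ∧ y = g ∧
        Sm v m (g.val - ⟨r.1, r.2.1, r.2.2.1, r.2.2.2⟩) := by
    rintro _ ⟨g, hg, rfl⟩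
    obtain ⟨r1, h1, e1⟩ := hs.ex _ hg.1.re
    obtain ⟨r2, h2, e2⟩ := hs.ex _ hg.1.i
    obtain ⟨r3, h3, e3⟩ := hs.ex _ hg.1.j
    obtain ⟨r4, h4, e4⟩ := hs.ex _ hg.1.k
    exact ⟨(r1, r2, r3, r4), by simp [h1, h2, h3, h4], g, hg, rfl, e1, e2, e3, e4⟩
  choose! r hr g hg e hs using ex
  refine Set.Finite.of_finite_image (f := r)
    ((s ×ˢ s ×ˢ s ×ˢ s).finite_toSet.subset ?_) fun y hy y' hy' er => ?_
  · rintro _ ⟨y, hy, rfl⟩
    exact hr y hy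
  · rw [e y hy, e y' hy', QuotientGroup.eq, (hg y hy).mem_iff h]
    have := (hs y' hy').sub (hs y hy)
    rw [er, sub_sub_sub_cancel_right] at this
    exact ⟨1, by simpa using this⟩

theorem UQ_finite {ϖ : Kˣ} (hϖ : v ϖ = exp (-1)) {q : ℕ} (hq : Cnt v q) {k : ℕ} (hk : 0 < k)
    (m : ℕ) : {y : ℍ[K,a,b]ˣ ⧸ UQ h m | ∃ g ∈ UQ h k, y = g}.Finite :=
  (un_finite h hϖ hq m).subset fun y ⟨g, hg, e⟩ => by
    obtain ⟨c, hc⟩ := UQ_un h hk hg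
    exact ⟨_, hc, by rw [e, cs_comm, QuotientGroup.mk_mul_of_mem _ (cs_mem h c)]⟩

end Vale.Agent.P022K.Sh.Orb
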