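import Vale.Agent.P022K.F0.OrbD

/-!
# P022K, block F0, row ORB: deep places and the ramified place
-/

set_option autoImplicit false

open scoped WithZero Quaternion
open WithZero

noncomputable section

namespace Vale.Agent.P022K.Sh.Orb

variable {K : Type} [Field K] {v : Valuation K ℤᵐ⁰} {a b : K}

theorem ex_nat {x : K} (hx : x ≠ 0) (h : v x ≤ 1) : ∃ n : ℕ, v x = exp (-(n : ℤ)) := by
  obtain ⟨n, hn⟩ := ex_exp (v := v) hx
  rw [hn, ← exp_zero, exp_le_exp] at h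
  exact ⟨n.toNat, by rw [hn]; congr 2; omega⟩

theorem v_two : v (2 : K) ≤ 1 := by exact_mod_cast v_nat 2

/-- the decomposition `x = t y`, `y = 1 + u j` -/
theorem dec_ty (x : ℍ[K,a,b]ˣ) (hn : x.val.re ^ 2 - a * x.val.imI ^ 2 ≠ 0) :
    ∃ t ∈ TQ a b, ∃ y : ℍ[K,a,b]ˣ, x = t * y ∧ y.val.re = 1 ∧ y.val.imI = 0 ∧
      b * (y.val.imJ ^ 2 - a * y.val.imK ^ 2) =
        b * (x.val.imJ ^ 2 - a * x.val.imK ^ 2) / (x.val.re ^ 2 - a * x.val.imI ^ 2) := by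
  let t : ℍ[K,a,b]ˣ := mkU ⟨x.val.re, x.val.imI, 0, 0⟩ (by simpa [nq] using hn)
  have ht : t.val = ⟨x.val.re, x.val.imI, 0, 0⟩ := rfl
  have hn' : nq t.val = x.val.re ^ 2 - a * x.val.imI ^ 2 := by simp [ht, nq]
  refine ⟨t, ⟨rfl, rfl⟩, t⁻¹ * x, by simp, ?_, ?_, ?_⟩ <;>
    rw [Units.val_mul, inv_val, hn', ht] <;> simp <;> field_simp <;> ring_nf

/-- the second half of the group is obtained from the first one by `j` -/
theorem j_inv_mul (hb : b ≠ 0) (x : ℍ[K,a,b]ˣ) : ((jQ a hb)⁻¹ * x).val =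
    ⟨x.val.imJ, -x.val.imK, x.val.re / b, -x.val.imI / b⟩ := by
  rw [Units.val_mul, Units.inv_mul_eq_iff_eq_mul, jQ_val]
  ext <;> simp <;> field_simp

theorem dec_two (hb : b ≠ 0) (x : ℍ[K,a,b]ˣ) : ∃ t ∈ TQ a b, ∃ y : ℍ[K,a,b]ˣ, y.val.re = 1 ∧
    y.val.imI = 0 ∧ v (b * (y.val.imJ ^ 2 - a * y.val.imK ^ 2)) ≤ 1 ∧
    (x = t * y ∨ x = jQ a hb * (t * y)) := by
  have one : ∀ x : ℍ[K,a,b]ˣ, v (b * (x.val.imJ ^ 2 - a * x.val.imK ^ 2)) ≤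
      v (x.val.re ^ 2 - a * x.val.imI ^ 2) → ∃ t ∈ TQ a b, ∃ y : ℍ[K,a,b]ˣ, y.val.re = 1 ∧
      y.val.imI = 0 ∧ v (b * (y.val.imJ ^ 2 - a * y.val.imK ^ 2)) ≤ 1 ∧ x = t * y := fun x hx => by
    have hn : x.val.re ^ 2 - a * x.val.imI ^ 2 ≠ 0 := fun e => by
      rw [e, map_zero, le_zero_iff, map_eq_zero] at hx
      exact nq_ne x (by rw [nq, e, hx, sub_zero])
    obtain ⟨t, ht, y, e, h1, h2, h3⟩ := dec_ty x hn
    exact ⟨t, ht, y, h1, h2, by rw [h3, map_div₀]; exact div_le_one_of_le₀ hx zero_le, e⟩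
  rcases le_total (v (b * (x.val.imJ ^ 2 - a * x.val.imK ^ 2)))
    (v (x.val.re ^ 2 - a * x.val.imI ^ 2)) with hx | hx
  · obtain ⟨t, ht, y, h1, h2, h3, e⟩ := one x hx
    exact ⟨t, ht, y, h1, h2, h3, Or.inl e⟩
  · obtain ⟨t, ht, y, h1, h2, h3, e⟩ := one ((jQ a hb)⁻¹ * x) (by
      rw [j_inv_mul]
      have h0 : 0 < v b := zero_lt_iff.2 (by simpa using hb)
      rw [← mul_le_mul_iff_right₀ h0, ← map_mul, ← map_mul]
      convert hx using 2 <;> field_simp)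
    exact ⟨t, ht, y, h1, h2, h3, Or.inr (by rw [← e, mul_inv_cancel_left])⟩

theorem conj_y {γ y : ℍ[K,a,b]ˣ} (hγ : γ ∈ TQ a b) (h1 : y.val.re = 1) (h2 : y.val.imI = 0) :
    (y⁻¹ * γ * y).val = ⟨γ.val.re, γ.val.imI / nq y.val *
      (1 + b * (y.val.imJ ^ 2 - a * y.val.imK ^ 2)), γ.val.imI / nq y.val * (2 * a) * y.val.imK,
      γ.val.imI / nq y.val * 2 * y.val.imJ⟩ := by
  have h0 := nq_ne y
  rw [Units.val_mul, Units.val_mul, inv_val]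
  ext <;> simp [hγ.1, hγ.2, h1, h2] <;> field_simp
  · simp [nq, h1, h2]; ring
  all_goals ring

section deep

variable (h : QI v a b)

theorem deep_one {γ0 : ℍ[K,a,b]ˣ} (h0 : γ0 ∈ TQ a b) (hu : Un v γ0) {ξ α k m : ℕ}
    (hξ : v γ0.val.imI = exp (-(ξ : ℤ))) (hα : v (2 * a) = exp (-(α : ℤ)))
    (hm : 2 * (ξ + α) + k + 1 ≤ m) {γ y : ℍ[K,a,b]ˣ} (hγ : γ ∈ TQ a b) (h1 : y.val.re = 1)
    (h2 : y.val.imI = 0) (h3 : v (b * (y.val.imJ ^ 2 - a * y.val.imK ^ 2)) ≤ 1)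
    (hy : γ0⁻¹ * (y⁻¹ * γ * y) ∈ UQ h m) : y ∈ UQ h k ∧ γ0⁻¹ * γ ∈ UQ h m := by
  obtain ⟨c, hc⟩ := (hu.mem_iff h _).1 hy
  rw [conj_y hγ h1 h2] at hc
  have hn : nq y.val = 1 - b * (y.val.imJ ^ 2 - a * y.val.imK ^ 2) := by simp [nq, h1, h2]
  have hn0 := nq_ne y
  set ρ := b * (y.val.imJ ^ 2 - a * y.val.imK ^ 2) with hρ
  set w := c * (γ.val.imI / nq y.val) with hw
  have e0 : v (c * γ.val.re - γ0.val.re) ≤ exp (-(m : ℤ)) := hc.re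
  have e1 : v (w * (1 + ρ) - γ0.val.imI) ≤ exp (-(m : ℤ)) := by
    simpa [hw, mul_assoc] using hc.i
  have e2 : v w * v (2 * a) * v y.val.imK ≤ exp (-(m : ℤ)) := by
    simpa [hw, mul_assoc, h0.1] using hc.j
  have e3 : v w * v (2 : K) * v y.val.imJ ≤ exp (-(m : ℤ)) := by
    simpa [hw, mul_assoc, h0.2] using hc.k
  have e4 : v (w * (1 + ρ)) = exp (-(ξ : ℤ)) := by
    rw [← sub_add_cancel (w * (1 + ρ)) γ0.val.imI, v.map_add_eq_of_lt_right, hξ]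
    exact e1.trans_lt (by rw [hξ, exp_lt_exp]; omega)
  have e5 : exp (-(ξ : ℤ)) ≤ v w := by
    rw [← e4, map_mul]
    exact mul_le_of_le_one_right' (v.map_add_le (by simp) h3)
  have e6 : exp (-(α : ℤ)) ≤ v (2 : K) := by
    rw [← hα, map_mul]
    exact mul_le_of_le_one_right' h.ha
  have key : ∀ z : ℤᵐ⁰, exp (-(ξ : ℤ)) * exp (-(α : ℤ)) * z ≤ exp (-(m : ℤ)) →
      z ≤ exp (-((m : ℤ) - ξ - α)) := fun z hz => by
    rw [← mul_le_mul_iff_right₀ (mul_pos exp_pos exp_pos : 0 < exp (-(ξ : ℤ)) * exp (-(α : ℤ))),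
      ← exp_add, ← exp_add]
    rw [← exp_add] at hz
    convert hz using 2
    ring
  have e7 := key _ ((mul_le_mul_left (mul_le_mul' e5 hα.ge) _).trans e2)
  have e8 := key _ ((mul_le_mul_left (mul_le_mul' e5 e6) _).trans e3)
  have le1 : exp (-((m : ℤ) - ξ - α)) ≤ exp (-(k : ℤ)) := exp_le_exp.2 (by omega)
  have e9 : v ρ ≤ exp (-(m : ℤ)) := by
    have sq : ∀ z : K, v z ≤ exp (-((m : ℤ) - ξ - α)) → v (z ^ 2) ≤ exp (-(m : ℤ)) := fun z hz => by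
      rw [map_pow]
      refine (pow_le_pow_left' hz 2).trans ?_
      rw [← exp_nsmul, exp_le_exp, nsmul_eq_mul]
      omega
    rw [hρ, map_mul]
    refine mul_le_of_le_one_of_le h.hb (v.map_sub_le (sq _ e8) ?_)
    rw [map_mul]
    exact mul_le_of_le_one_of_le h.ha (sq _ e7)
  refine ⟨⟨1, ?_, ?_, ?_, ?_⟩, (hu.mem_iff h _).2 ⟨c, e0, ?_, ?_, ?_⟩⟩
  · simp [h1]
  · simp [h2]
  · simpa using e8.trans le1
  · simpa using e7.trans le1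
  · have e10 : v w ≤ 1 := by
      rw [map_mul, v.map_one_add_of_lt (e9.trans_lt (by rw [← exp_zero, exp_lt_exp]; omega)),
        mul_one] at e4
      rw [e4, ← exp_zero, exp_le_exp]
      omega
    rw [show ((c : K) • γ.val - γ0.val).imI = w * (1 + ρ) - γ0.val.imI - w * 2 * ρ by
      have : w * nq y.val = c * γ.val.imI := by rw [hw]; field_simp
      rw [hn] at this
      simp
      linear_combination -this]
    refine v.map_sub_le e1 ?_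
    rw [map_mul]
    exact mul_le_of_le_one_of_le (v_mul_le e10 v_two) e9
  · simp [hγ.1, h0.1]
  · simp [hγ.2, h0.2]

theorem deep_two {γ0 : ℍ[K,a,b]ˣ} (hu : Un v γ0) {μ m : ℕ}
    (hμ : v (2 * γ0.val.re * γ0.val.imI) = exp (-(μ : ℤ))) (hm : μ < m) (γ : ℍ[K,a,b]ˣ)
    (h1 : γ0⁻¹ * γ ∈ UQ h m) : γ0⁻¹ * ((jQ a h.b0)⁻¹ * γ * jQ a h.b0) ∉ UQ h m := fun h2 => by
  obtain ⟨c, hc⟩ := (hu.mem_iff h _).1 h1
  obtain ⟨d, hd⟩ := (hu.mem_iff h _).1 h2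
  rw [jQ_conj] at hd
  have e0 : v (c * γ.val.re - γ0.val.re) ≤ exp (-(m : ℤ)) := hc.re
  have e1 : v (c * γ.val.imI - γ0.val.imI) ≤ exp (-(m : ℤ)) := hc.i
  have e2 : v (d * γ.val.re - γ0.val.re) ≤ exp (-(m : ℤ)) := hd.re
  have e3 : v (d * -γ.val.imI - γ0.val.imI) ≤ exp (-(m : ℤ)) := hd.i
  have one : exp (-(m : ℤ)) ≤ 1 := by rw [← exp_zero, exp_le_exp]; omega
  have key : ∀ x y : K, v (x - γ0.val.re) ≤ exp (-(m : ℤ)) → v (y - γ0.val.imI) ≤ exp (-(m : ℤ)) →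
      v (x * y - γ0.val.re * γ0.val.imI) ≤ exp (-(m : ℤ)) := fun x y hx hy => by
    rw [show x * y - γ0.val.re * γ0.val.imI = (y - γ0.val.imI + γ0.val.imI) * (x - γ0.val.re) +
      γ0.val.re * (y - γ0.val.imI) by ring]
    refine v.map_add_le ?_ ?_ <;> rw [map_mul]
    · exact mul_le_of_le_one_of_le (v.map_add_le (hy.trans one) hu.1.i) hx
    · exact mul_le_of_le_one_of_le hu.1.re hy
  have := v.map_add_le (key _ _ e0 e3) (key _ _ e2 e1)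
  rw [show c * γ.val.re * (d * -γ.val.imI) - γ0.val.re * γ0.val.imI + (d * γ.val.re *
    (c * γ.val.imI) - γ0.val.re * γ0.val.imI) = -(2 * γ0.val.re * γ0.val.imI) by ring,
    Valuation.map_neg, hμ, exp_le_exp] at this
  omega

/-- **ORB-D**: the test function is the indicator of the coset `γ0 U_m` -/
theorem orb_deep {ϖ : Kˣ} (hϖ : v ϖ = exp (-1)) {q : ℕ} (hq : Cnt v q) {γ0 : ℍ[K,a,b]ˣ}
    (h0 : γ0 ∈ TQ a b) (hu : Un v γ0) (hx0 : γ0.val.re ≠ 0) (hx1 : γ0.val.imI ≠ 0) {k : ℕ}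
    (hk : 0 < k) : ∃ m0 : ℕ, k ≤ m0 ∧ ∀ m, m0 ≤ m →
      (∀ γ, γ0⁻¹ * γ ∈ UQ h m → γ0⁻¹ * ((jQ a h.b0)⁻¹ * γ * jQ a h.b0) ∉ UQ h m) ∧
      ∀ (η : ℍ[K,a,b]ˣ →* ℂ), (∀ g ∈ UQ h k, η g = 1) → ∀ f : ℍ[K,a,b]ˣ → ℂ,
        (∀ g, γ0⁻¹ * g ∈ UQ h m → f g = 1) → (∀ g, γ0⁻¹ * g ∉ UQ h m → f g = 0) →
        ∃ n0 : ℕ, 0 < n0 ∧ ∀ γ ∈ TQ a b, ∀ φ : ℍ[K,a,b]ˣ ⧸ UQ h m → ℂ,
          (∀ x : ℍ[K,a,b]ˣ, φ x = η x * f (x⁻¹ * γ * x)) →
          HasOrb (TQ a b) (TQ a b ⊓ UQ h k) φ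
            (n0 * (f γ + η (jQ a h.b0) * f ((jQ a h.b0)⁻¹ * γ * jQ a h.b0))) := by
  obtain ⟨ξ, hξ⟩ := ex_nat (v := v) hx1 hu.1.i
  obtain ⟨α, hα⟩ := ex_nat (v := v) (mul_ne_zero h.two h.a0) (v_mul_le v_two h.ha)
  obtain ⟨μ, hμ⟩ := ex_nat (v := v) (mul_ne_zero (mul_ne_zero h.two hx0) hx1)
    (v_mul_le (v_mul_le v_two hu.1.re) hu.1.i)
  refine ⟨2 * (ξ + α) + k + 1 + μ, by omega, fun m hm => ⟨deep_two h hu hμ (by omega),
    fun η hη f f1 f0 => ?_⟩⟩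
  refine deep_abs TQ_comm (UQ_mono h (by omega)) (fun g hg u hu => UQ_conj h hk hg hu)
    (UQ_finite h hϖ hq hk m) (jQ_tor h.b0) (fun t _ => UQ_bar h t) h0 η hη (fun γ hγ x hx => ?_)
    (fun γ _ => deep_two h hu hμ (by omega) γ) f1 f0
  obtain ⟨t, ht, y, h1, h2, h3, rfl | rfl⟩ := dec_two (v := v) h.b0 x
  · rw [conj_tor TQ_comm hγ ht] at hx
    obtain ⟨h4, h5⟩ := deep_one h h0 hu hξ hα (k := k) (by omega) hγ h1 h2 h3 hx
    exact Or.inl ⟨t, ht, y, h4, rfl, h5⟩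
  · have hγ' := (jQ_tor h.b0 γ).1 hγ
    rw [show (jQ a h.b0 * (t * y))⁻¹ * γ * (jQ a h.b0 * (t * y)) =
      (t * y)⁻¹ * ((jQ a h.b0)⁻¹ * γ * jQ a h.b0) * (t * y) by group,
      conj_tor TQ_comm hγ' ht] at hx
    obtain ⟨h4, h5⟩ := deep_one h h0 hu hξ hα (k := k) (by omega) hγ' h1 h2 h3 hx
    exact Or.inr ⟨t, ht, y, h4, rfl, h5⟩

end deep

variable (v a b) in
/-- `K(i)` is the unramified quadratic extension and the algebra is ramified -/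
structure Ram : Prop where
  uni : ∃ ϖ : K, v ϖ = exp (-1)
  ev : ∀ s t : K, s ^ 2 - a * t ^ 2 ≠ 0 → ∃ n : ℤ, v (s ^ 2 - a * t ^ 2) = exp (2 * n)
  od : ∃ n : ℤ, v b = exp (2 * n + 1)

namespace Ram

variable (h : Ram v a b)
include h

theorem b0 : b ≠ 0 := fun e => by
  obtain ⟨n, hn⟩ := h.od
  exact exp_ne_zero (by rw [← hn, e, map_zero])

theorem ne (s t s' t' : K) (h0 : s ^ 2 - a * t ^ 2 ≠ 0) :
    v (s ^ 2 - a * t ^ 2) ≠ v (b * (s' ^ 2 - a * t' ^ 2)) := fun e => by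
  have h1 : s' ^ 2 - a * t' ^ 2 ≠ 0 := fun e' => h0 (by simpa [e'] using e)
  obtain ⟨n, hn⟩ := h.ev s t h0
  obtain ⟨n', hn'⟩ := h.ev s' t' h1
  obtain ⟨k, hk⟩ := h.od
  rw [map_mul, hn, hn', hk, ← exp_add, exp_inj] at e
  omega

theorem le_nq (x : ℍ[K,a,b]) : v (x.re ^ 2 - a * x.imI ^ 2) ≤ v (nq x) := by
  by_cases h0 : x.re ^ 2 - a * x.imI ^ 2 = 0
  · simp [h0]
  · rw [nq, sub_eq_add_neg (x.re ^ 2 - a * x.imI ^ 2), v.map_add_of_distinct_val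
      (by rw [Valuation.map_neg]; exact h.ne _ _ _ _ h0)]
    exact le_max_left _ _

theorem tr_sq (s t : K) : v (2 * s) ^ 2 ≤ v (s ^ 2 - a * t ^ 2) := not_lt.1 fun hl => by
  obtain ⟨p, hp⟩ := h.uni
  have h0 : 2 * s ≠ 0 := fun e => by simp [e] at hl
  obtain ⟨k, hk⟩ := ex_exp (v := v) h0
  have e1 : v ((2 * s) ^ 2 * p * (1 + p)) = exp (-(2 * k) - 1) := by
    rw [map_mul, map_mul, map_pow, hk, hp, v.map_one_add_of_lt (by
      rw [hp, ← exp_zero, exp_lt_exp]; omega), mul_one, ← exp_nsmul, ← exp_add, nsmul_eq_mul]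
    congr 1
    push_cast
    ring
  have e2 : v (s ^ 2 - a * t ^ 2) < exp (-(2 * k) - 1) := by
    by_cases h1 : s ^ 2 - a * t ^ 2 = 0
    · rw [h1, map_zero]; exact exp_pos
    · obtain ⟨n, hn⟩ := h.ev s t h1
      rw [hn, hk, ← exp_nsmul, exp_lt_exp, nsmul_eq_mul] at hl
      rw [hn, exp_lt_exp]
      omega
  have e3 : v ((s + 2 * s * p) ^ 2 - a * t ^ 2) = exp (-(2 * k) - 1) := by
    rw [show (s + 2 * s * p) ^ 2 - a * t ^ 2 = (2 * s) ^ 2 * p * (1 + p) + (s ^ 2 - a * t ^ 2) by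
      ring, v.map_add_eq_of_lt_left (by rwa [e1]), e1]
  obtain ⟨n, hn⟩ := h.ev (s + 2 * s * p) t fun e => exp_ne_zero (by rw [← e3, e, map_zero])
  rw [hn, exp_inj] at e3
  omega

theorem nq_add (x y : ℍ[K,a,b]) : v (nq (x + y)) ≤ max (v (nq x)) (v (nq y)) := by
  have h1 := (h.tr_sq (x * star y).re (x * star y).imI).trans (h.le_nq (x * star y))
  rw [nq_mul, show nq (star y) = nq y by simp [nq], map_mul v (nq x)] at h1
  have h2 : v (2 * (x * star y).re) ≤ max (v (nq x)) (v (nq y)) :=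
    le_of_pow_le_pow_left₀ two_ne_zero zero_le (h1.trans (by
      rw [pow_two]; exact mul_le_mul' (le_max_left _ _) (le_max_right _ _)))
  rw [show nq (x + y) = nq x + nq y + 2 * (x * star y).re by simp [nq]; ring]
  exact v.map_add_le (v.map_add _ _) h2

theorem nq_one {x : ℍ[K,a,b]} (hx : v (nq (x - 1)) < 1) : v (nq x) = 1 := by
  have e : v (nq (1 : ℍ[K,a,b])) = 1 := by simp [nq]
  have h1 := h.nq_add (x - 1) 1
  have h2 := h.nq_add x (-(x - 1))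
  rw [sub_add_cancel, e, max_eq_right hx.le] at h1
  rw [show x + -(x - 1) = 1 by abel, e, show nq (-(x - 1)) = nq (x - 1) by simp [nq]; ring] at h2
  exact le_antisymm h1 ((le_max_iff.1 h2).resolve_right (not_le.2 hx))

/-- the level `K^× (1 + P_D)` -/
def UR : Subgroup ℍ[K,a,b]ˣ where
  carrier := {g | ∃ c : Kˣ, v (nq ((c : K) • g.val - 1)) < 1}
  mul_mem' := by
    rintro x y ⟨c, hc⟩ ⟨d, hd⟩
    refine ⟨c * d, ?_⟩
    rw [show ((c * d : Kˣ) : K) • (x * y).val - 1 = ((c : K) • x.val - 1) +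
      ((c : K) • x.val) * ((d : K) • y.val - 1) by
        rw [Units.val_mul, Units.val_mul, ← smul_mul_smul_comm]
        generalize (c : K) • x.val = z
        generalize (d : K) • y.val = w
        noncomm_ring]
    refine (h.nq_add _ _).trans_lt (max_lt hc ?_)
    rwa [nq_mul, map_mul, h.nq_one hc, one_mul]
  one_mem' := ⟨1, by simp [nq]⟩
  inv_mem' := by
    rintro x ⟨c, hc⟩
    refine ⟨c * Units.mk0 _ (nq_ne x), ?_⟩
    rw [inv_val, smul_smul, Units.val_mul, Units.val_mk0, mul_inv_cancel_right₀ (nq_ne x)]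
    simpa [nq] using hc

theorem UR_conj (x : ℍ[K,a,b]ˣ) : ∀ u ∈ h.UR, x⁻¹ * u * x ∈ h.UR := by
  rintro u ⟨c, hc⟩
  refine ⟨c, ?_⟩
  rw [show (c : K) • (x⁻¹ * u * x).val - 1 = (x⁻¹).val * ((c : K) • u.val - 1) * x.val by
    simp [mul_sub, sub_mul], nq_mul, nq_mul, mul_right_comm, ← nq_mul, Units.inv_mul]
  simpa [nq] using hc

theorem UR_cov (x : ℍ[K,a,b]ˣ) :
    ∃ t ∈ TQ a b, ∃ u ∈ h.UR, x = t * u ∨ x = jQ a h.b0 * (t * u) := by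
  obtain ⟨t, ht, y, h1, h2, h3, e⟩ := dec_two (v := v) h.b0 x
  refine ⟨t, ht, y, ⟨1, ?_⟩, e⟩
  rw [show nq (((1 : Kˣ) : K) • y.val - 1) = -(b * (y.val.imJ ^ 2 - a * y.val.imK ^ 2)) by
    simp [nq, h1, h2], Valuation.map_neg]
  refine lt_of_le_of_ne h3 fun e => h.ne 1 0 y.val.imJ y.val.imK (by simp) (by rw [e]; simp)

theorem UR_ne : ∀ t ∈ TQ a b, ∀ u ∈ h.UR, jQ a h.b0 ≠ t * u := by
  rintro t ht u ⟨c, hc⟩ e
  have h1 := h.nq_one hc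
  have h2 : nq (jQ a h.b0).val = nq t.val * nq u.val := by rw [e, Units.val_mul, nq_mul]
  have h3 : nq t.val = t.val.re ^ 2 - a * t.val.imI ^ 2 := by simp [nq, ht.1, ht.2]
  refine h.ne t.val.re t.val.imI c 0 (h3 ▸ nq_ne t) ?_
  rw [← h3, show b * ((c : K) ^ 2 - a * 0 ^ 2) = -(nq (jQ a h.b0).val * c ^ 2) by
    simp [jQ_val, nq], Valuation.map_neg, h2, mul_assoc, mul_comm (nq u.val), ← nq_smul, map_mul,
    h1, mul_one]

/-- **ORB-R** -/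
theorem orb {η f : ℍ[K,a,b]ˣ → ℂ} (η1 : η 1 = 1) {γ : ℍ[K,a,b]ˣ} {φ : ℍ[K,a,b]ˣ ⧸ h.UR → ℂ}
    (hφ : ∀ x : ℍ[K,a,b]ˣ, φ x = η x * f (x⁻¹ * γ * x)) :
    HasOrb (TQ a b) (TQ a b ⊓ h.UR) φ
      (f γ + η (jQ a h.b0) * f ((jQ a h.b0)⁻¹ * γ * jQ a h.b0)) :=
  ram_abs h.UR_conj (jQ_tor h.b0) h.UR_cov h.UR_ne η1 hφ

end Ram

end Vale.Agent.P022K.Sh.Orb
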