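import Vale.Agent.P022K.F0.OrbA
import Mathlib.LinearAlgebra.Matrix.GeneralLinearGroup.Basic
import Mathlib.RingTheory.Valuation.Basic
import Mathlib.Algebra.Order.GroupWithZero.Canonical

/-!
# P022K, block F0, row ORB: `GL₂` of a discretely valued field, vertices of the tree
-/

set_option autoImplicit false

open scoped MatrixGroups WithZero
open WithZero Matrix

noncomputable section

namespace Vale.Agent.P022K.Sh.Orb

variable {K : Type} [Field K] (v : Valuation K ℤᵐ⁰)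

/-- integral matrices -/
def IM (A : Matrix (Fin 2) (Fin 2) K) : Prop := ∀ i j, v (A i j) ≤ 1

variable {v}

theorem IM.mul {A B : Matrix (Fin 2) (Fin 2) K} (h : IM v A) (h' : IM v B) : IM v (A * B) :=
  fun i j => by
    rw [Matrix.mul_apply, Fin.sum_univ_two]
    exact v.map_add_le (by rw [map_mul]; exact mul_le_one' (h _ _) (h' _ _))
      (by rw [map_mul]; exact mul_le_one' (h _ _) (h' _ _))

theorem IM.add {A B : Matrix (Fin 2) (Fin 2) K} (h : IM v A) (h' : IM v B) : IM v (A + B) :=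
  fun i j => v.map_add_le (h i j) (h' i j)

theorem IM.sub {A B : Matrix (Fin 2) (Fin 2) K} (h : IM v A) (h' : IM v B) : IM v (A - B) :=
  fun i j => v.map_sub_le (h i j) (h' i j)

theorem IM.smul {A : Matrix (Fin 2) (Fin 2) K} {c : K} (hc : v c ≤ 1) (h : IM v A) :
    IM v (c • A) := fun i j => by
  rw [Matrix.smul_apply, smul_eq_mul, map_mul]; exact mul_le_one' hc (h i j)

theorem IM.one : IM v (1 : Matrix (Fin 2) (Fin 2) K) := fun i j => by
  rw [Matrix.one_apply]; split_ifs <;> simp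

theorem IM.det {A : Matrix (Fin 2) (Fin 2) K} (h : IM v A) : v A.det ≤ 1 := by
  rw [Matrix.det_fin_two]
  exact v.map_sub_le (by rw [map_mul]; exact mul_le_one' (h _ _) (h _ _))
    (by rw [map_mul]; exact mul_le_one' (h _ _) (h _ _))

theorem IM.trace {A : Matrix (Fin 2) (Fin 2) K} (h : IM v A) : v A.trace ≤ 1 := by
  rw [Matrix.trace_fin_two]; exact v.map_add_le (h _ _) (h _ _)

theorem im_of {a b c d : K} (ha : v a ≤ 1) (hb : v b ≤ 1) (hc : v c ≤ 1) (hd : v d ≤ 1) :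
    IM v !![a, b; c, d] := fun i j => by
  fin_cases i <;> fin_cases j <;> simpa

theorem IM.inv {g : GL (Fin 2) K} (h : IM v g.val) (hd : v g.val.det = 1) : IM v (g⁻¹).val := by
  rw [Matrix.coe_units_inv, Matrix.inv_def, Matrix.adjugate_fin_two]
  refine IM.smul (by rw [Ring.inverse_eq_inv, map_inv₀, hd, inv_one]) (im_of (h _ _) ?_ ?_ (h _ _))
    <;> rw [Valuation.map_neg] <;> exact h _ _

variable (v) in
/-- `GL₂(O)` -/
def KV : Subgroup (GL (Fin 2) K) where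
  carrier := {g | IM v g.val ∧ v g.val.det = 1}
  mul_mem' h h' := ⟨h.1.mul h'.1, by rw [Units.val_mul, det_mul, map_mul, h.2, h'.2, one_mul]⟩
  one_mem' := ⟨IM.one, by simp⟩
  inv_mem' h := ⟨h.1.inv h.2, by
    rw [Matrix.coe_units_inv, det_nonsing_inv, Ring.inverse_eq_inv, map_inv₀, h.2, inv_one]⟩

/-- scalars -/
abbrev sc : Kˣ →* GL (Fin 2) K := Matrix.GeneralLinearGroup.scalar (Fin 2)

theorem sc_mul_val (z : Kˣ) (g : GL (Fin 2) K) : (sc z * g).val = (z : K) • g.val := by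
  rw [Units.val_mul, Matrix.GeneralLinearGroup.coe_scalar, Matrix.scalar_apply,
    ← Matrix.smul_eq_diagonal_mul]

theorem sc_comm (z : Kˣ) (g : GL (Fin 2) K) : sc z * g = g * sc z :=
  Matrix.GeneralLinearGroup.scalar_commute z g

theorem det_sc_mul (z : Kˣ) (g : GL (Fin 2) K) : (sc z * g).val.det = (z : K) ^ 2 * g.val.det := by
  rw [sc_mul_val, det_smul, Fintype.card_fin]

variable (v) in
/-- `K^× GL₂(O)` -/
def ZV : Subgroup (GL (Fin 2) K) where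
  carrier := {g | ∃ z : Kˣ, sc z * g ∈ KV v}
  mul_mem' := by
    rintro g h ⟨z, hz⟩ ⟨w, hw⟩
    refine ⟨z * w, ?_⟩
    have := mul_mem hz hw
    rwa [← mul_assoc, mul_assoc (sc z), ← sc_comm, ← mul_assoc, ← map_mul, mul_assoc] at this
  one_mem' := ⟨1, by rw [map_one, one_mul]; exact one_mem _⟩
  inv_mem' := by
    rintro g ⟨z, hz⟩
    refine ⟨z⁻¹, ?_⟩
    have := inv_mem hz
    rwa [_root_.mul_inv_rev, ← map_inv, ← sc_comm] at this

theorem KV_le : KV v ≤ ZV v := fun g h => ⟨1, by rwa [map_one, one_mul]⟩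

theorem sc_mem (z : Kˣ) : sc z ∈ ZV v :=
  ⟨z⁻¹, by rw [← map_mul, inv_mul_cancel, map_one]; exact one_mem _⟩

theorem ZV_dec {g : GL (Fin 2) K} (h : g ∈ ZV v) : ∃ z : Kˣ, ∃ k ∈ KV v, g = sc z * k := by
  obtain ⟨z, hz⟩ := h
  exact ⟨z⁻¹, _, hz, by rw [← mul_assoc, ← map_mul, inv_mul_cancel, map_one, one_mul]⟩

theorem sq_eq_one {x : ℤᵐ⁰} (h : x ^ 2 = 1) : x = 1 :=
  (pow_eq_one_iff_of_nonneg zero_le two_ne_zero).1 h

theorem KV_of_ZV {g : GL (Fin 2) K} (h : g ∈ ZV v) (hd : v g.val.det = 1) : g ∈ KV v := by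
  obtain ⟨z, k, hk, rfl⟩ := ZV_dec h
  refine ⟨?_, hd⟩
  rw [det_sc_mul, map_mul, hk.2, mul_one, map_pow] at hd
  rw [sc_mul_val]
  exact IM.smul (sq_eq_one hd).le hk.1

/-- the matrix `(c, y; 0, 1)` -/
def bx (c : Kˣ) (y : K) : GL (Fin 2) K where
  val := !![(c : K), y; 0, 1]
  inv := !![(c : K)⁻¹, -((c : K)⁻¹ * y); 0, 1]
  val_inv := by
    ext i j; fin_cases i <;> fin_cases j <;> simp [Matrix.mul_apply, Fin.sum_univ_two]
  inv_val := by
    ext i j; fin_cases i <;> fin_cases j <;> simp [Matrix.mul_apply, Fin.sum_univ_two]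

theorem bx_val (c : Kˣ) (y : K) : (bx c y).val = !![(c : K), y; 0, 1] := rfl

theorem bx_inv_val (c : Kˣ) (y : K) :
    ((bx c y)⁻¹).val = !![(c : K)⁻¹, -((c : K)⁻¹ * y); 0, 1] := rfl

theorem bx_det (c : Kˣ) (y : K) : (bx c y).val.det = c := by simp [bx_val, det_fin_two]

theorem bx_mul (c c' : Kˣ) (y y' : K) : bx c y * bx c' y' = bx (c * c') (c * y' + y) := by
  ext i j
  fin_cases i <;> fin_cases j <;> simp [bx_val, Matrix.mul_apply, Fin.sum_univ_two]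

theorem bx_inv_mul (c c' : Kˣ) (y y' : K) :
    (bx c y)⁻¹ * bx c' y' = bx (c⁻¹ * c') ((c : K)⁻¹ * (y' - y)) := by
  rw [inv_mul_eq_iff_eq_mul, bx_mul]
  congr 1
  · simp
  · field_simp
    ring

theorem bx_one : bx (1 : Kˣ) 0 = 1 := by
  ext i j
  fin_cases i <;> fin_cases j <;> simp [bx_val]

theorem bx_mem_KV {c : Kˣ} {y : K} (hc : v c = 1) (hy : v y ≤ 1) : bx c y ∈ KV v :=
  ⟨im_of hc.le hy (by simp) (by simp), by rw [bx_det, hc]⟩

theorem bx_mem_ZV {c : Kˣ} {y : K} : bx c y ∈ ZV v ↔ v c = 1 ∧ v y ≤ 1 := by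
  refine ⟨fun ⟨z, h1, h2⟩ => ?_, fun h => KV_le (bx_mem_KV h.1 h.2)⟩
  rw [det_sc_mul, bx_det] at h2
  rw [sc_mul_val, bx_val] at h1
  have a : v z * v c ≤ 1 := by simpa using h1 0 0
  have b : v z * v y ≤ 1 := by simpa using h1 0 1
  have d : v z ≤ 1 := by simpa using h1 1 1
  rw [map_mul, map_pow, pow_two, mul_assoc] at h2
  have hz : v z = 1 := le_antisymm d (by
    calc (1 : ℤᵐ⁰) = v z * (v z * v c) := h2.symm
      _ ≤ v z * 1 := mul_le_mul_right a _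
      _ = v z := mul_one _)
  simp only [hz, one_mul] at h2 b
  exact ⟨h2, b⟩

theorem v_ne (c : Kˣ) : v c ≠ 0 := by simp

theorem bx_eq {c c' : Kˣ} {y y' : K} :
    (bx c y : GL (Fin 2) K ⧸ ZV v) = bx c' y' ↔ v c = v c' ∧ v (y' - y) ≤ v c := by
  have h0 : 0 < v c := zero_lt_iff.2 (v_ne c)
  rw [QuotientGroup.eq, bx_inv_mul, bx_mem_ZV, Units.val_mul, Units.val_inv_eq_inv_val, map_mul,
    map_mul, map_inv₀, inv_mul_eq_one₀ h0.ne', inv_mul_le_iff₀ h0, mul_one]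

/-- the permutation matrix -/
def sw : GL (Fin 2) K where
  val := !![0, 1; 1, 0]
  inv := !![0, 1; 1, 0]
  val_inv := by
    ext i j; fin_cases i <;> fin_cases j <;> simp [Matrix.mul_apply, Fin.sum_univ_two]
  inv_val := by
    ext i j; fin_cases i <;> fin_cases j <;> simp [Matrix.mul_apply, Fin.sum_univ_two]

theorem sw_val : (sw : GL (Fin 2) K).val = !![0, 1; 1, 0] := rfl

theorem sw_mem : (sw : GL (Fin 2) K) ∈ KV v :=
  ⟨im_of (by simp) (by simp) (by simp) (by simp), by simp [sw_val, det_fin_two]⟩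

omit [Field K] in
theorem ex_ent (A : Matrix (Fin 2) (Fin 2) K) : ∃ a b c d, A = !![a, b; c, d] :=
  ⟨_, _, _, _, Matrix.eta_fin_two A⟩

theorem iwa_aux (g : GL (Fin 2) K) (h : v (g.val 1 0) ≤ v (g.val 1 1)) :
    ∃ (c : Kˣ) (y : K), (g : GL (Fin 2) K ⧸ ZV v) = bx c y := by
  obtain ⟨a, b, c, d, hg⟩ := ex_ent g.val
  have hd : a * d - b * c ≠ 0 := by
    have := g.det_ne_zero
    rwa [hg, det_fin_two_of] at this
  have h : v c ≤ v d := by simpa [hg] using h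
  have h1 : d ≠ 0 := fun e => by
    rw [e, map_zero, le_zero_iff, map_eq_zero] at h
    exact hd (by rw [e, h]; ring)
  refine ⟨Units.mk0 _ (div_ne_zero hd (pow_ne_zero 2 h1)), b / d, ?_⟩
  rw [eq_comm, QuotientGroup.eq]
  refine ⟨(Units.mk0 _ h1)⁻¹, ?_⟩
  have e : (sc (Units.mk0 _ h1)⁻¹ * ((bx (Units.mk0 _ (div_ne_zero hd (pow_ne_zero 2 h1)))
      (b / d))⁻¹ * g)).val = !![1, 0; c / d, 1] := by
    rw [sc_mul_val, Units.val_mul, bx_inv_val, hg, Matrix.mul_fin_two]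
    have hd' : d * a - b * c ≠ 0 := by rwa [mul_comm]
    ext i j
    fin_cases i <;> fin_cases j <;> simp <;> field_simp
    · ring
    · exact Or.inr (by ring)
  refine ⟨?_, ?_⟩ <;> rw [e]
  · refine im_of (by simp) (by simp) ?_ (by simp)
    rw [map_div₀]
    exact div_le_one_of_le₀ h zero_le
  · simp [det_fin_two]

theorem iwa0 (g : GL (Fin 2) K) :
    ∃ (c : Kˣ) (y : K), (g : GL (Fin 2) K ⧸ ZV v) = bx c y := by
  rcases le_total (v (g.val 1 0)) (v (g.val 1 1)) with h | h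
  · exact iwa_aux g h
  · obtain ⟨c, y, e⟩ := iwa_aux (v := v) (g * sw)
      (by simpa [sw_val, Matrix.mul_apply, Fin.sum_univ_two] using h)
    exact ⟨c, y, by rw [← e, QuotientGroup.mk_mul_of_mem _ (KV_le sw_mem)]⟩

variable {ϖ : Kˣ}

theorem v_zpow (hϖ : v ϖ = exp (-1)) (n : ℤ) : v (ϖ ^ n : Kˣ) = exp (-n) := by
  rw [Units.val_zpow_eq_zpow_val, map_zpow₀, hϖ, ← exp_zsmul]; simp

theorem v_pow (hϖ : v ϖ = exp (-1)) (n : ℕ) : v ((ϖ : K) ^ n) = exp (-(n : ℤ)) := by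
  rw [map_pow, hϖ, ← exp_nsmul]; simp

theorem ex_exp {x : K} (hx : x ≠ 0) : ∃ n : ℤ, v x = exp (-n) :=
  ⟨-log (v x), by rw [neg_neg, exp_log (by simpa using hx)]⟩

/-- Iwasawa decomposition -/
theorem iwa (hϖ : v ϖ = exp (-1)) (g : GL (Fin 2) K) :
    ∃ (n : ℤ) (y : K), (g : GL (Fin 2) K ⧸ ZV v) = bx (ϖ ^ n) y := by
  obtain ⟨c, y, e⟩ := iwa0 (v := v) g
  obtain ⟨n, hn⟩ := ex_exp (v := v) c.ne_zero
  exact ⟨n, y, e.trans (bx_eq.2 ⟨by rw [hn, v_zpow hϖ], by simp⟩)⟩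

theorem lt_one_iff {x : ℤᵐ⁰} : x < 1 ↔ x ≤ exp (-1) := by
  have := lt_mul_exp_iff_le (x := x) (y := exp (-1)) exp_ne_zero
  rwa [← exp_add, neg_add_cancel, exp_zero] at this

variable (v) in
/-- `s` is a system of representatives of `ϖ^m O / ϖ^n O` -/
structure Rp (s : Finset K) (m n : ℤ) : Prop where
  le : ∀ r ∈ s, v r ≤ exp (-m)
  ex : ∀ x, v x ≤ exp (-m) → ∃ r ∈ s, v (x - r) ≤ exp (-n)
  un : ∀ r ∈ s, ∀ r' ∈ s, v (r - r') ≤ exp (-n) → r = r'

variable (v) in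
/-- the residue field has `q` elements -/
def Cnt (q : ℕ) : Prop := ∃ s : Finset K, s.card = q ∧ Rp v s 0 1

theorem Rp.shift (hϖ : v ϖ = exp (-1)) {s : Finset K} {m n : ℤ} (h : Rp v s m n) (k : ℤ) :
    ∃ s' : Finset K, s'.card = s.card ∧ Rp v s' (m + k) (n + k) := by
  classical
  have h0 : ((ϖ ^ k : Kˣ) : K) ≠ 0 := Units.ne_zero _
  have key : ∀ (x : K) (j : ℤ), v ((ϖ ^ k : Kˣ) * x) ≤ exp (-(j + k)) ↔ v x ≤ exp (-j) :=
    fun x j => by
      rw [map_mul, v_zpow hϖ, neg_add, exp_add, mul_comm (exp (-j)), mul_le_mul_iff_right₀ exp_pos]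
  refine ⟨s.image (((ϖ ^ k : Kˣ) : K) * ·), Finset.card_image_of_injective _
    (mul_right_injective₀ h0), fun r hr => ?_, fun x hx => ?_, fun r hr r' hr' e => ?_⟩
  · obtain ⟨r, hr', rfl⟩ := Finset.mem_image.1 hr
    exact (key _ _).2 (h.le r hr')
  · obtain ⟨r, hr, e⟩ := h.ex (((ϖ ^ k : Kˣ) : K)⁻¹ * x)
      ((key _ _).1 (by rwa [mul_inv_cancel_left₀ h0]))
    refine ⟨_, Finset.mem_image_of_mem _ hr, ?_⟩
    have := (key _ _).2 e
    rwa [mul_sub, mul_inv_cancel_left₀ h0] at this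
  · obtain ⟨r, h1, rfl⟩ := Finset.mem_image.1 hr
    obtain ⟨r', h2, rfl⟩ := Finset.mem_image.1 hr'
    rw [h.un r h1 r' h2 ((key _ _).1 (by rwa [mul_sub]))]

theorem Rp.tower {s t : Finset K} {m n k : ℤ} (hmn : m ≤ n) (hnk : n ≤ k) (h : Rp v s m n)
    (h' : Rp v t n k) : ∃ u : Finset K, u.card = s.card * t.card ∧ Rp v u m k := by
  classical
  have key : ∀ a ∈ s, ∀ b ∈ t, ∀ a' ∈ s, ∀ b' ∈ t, v (a + b - (a' + b')) ≤ exp (-k) →
      a = a' ∧ b = b' := fun a ha b hb a' ha' b' hb' e => by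
    have e1 : a = a' := h.un a ha a' ha' (by
      rw [show a - a' = a + b - (a' + b') - (b - b') by ring]
      exact v.map_sub_le (e.trans (exp_le_exp.2 (by omega)))
        (v.map_sub_le (h'.le b hb) (h'.le b' hb')))
    subst e1
    exact ⟨rfl, h'.un b hb b' hb' (by rwa [add_sub_add_left_eq_sub] at e)⟩
  refine ⟨(s ×ˢ t).image fun p => p.1 + p.2, ?_, fun r hr => ?_, fun x hx => ?_,
    fun r hr r' hr' e => ?_⟩
  · rw [Finset.card_image_of_injOn, Finset.card_product]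
    rintro ⟨a, b⟩ h1 ⟨a', b'⟩ h2 e
    have h1 := Finset.mem_product.1 (Finset.mem_coe.1 h1)
    have h2 := Finset.mem_product.1 (Finset.mem_coe.1 h2)
    have e : a + b = a' + b' := e
    obtain ⟨rfl, rfl⟩ := key a h1.1 b h1.2 a' h2.1 b' h2.2 (by simp [e])
    rfl
  · obtain ⟨⟨a, b⟩, h1, rfl⟩ := Finset.mem_image.1 hr
    have h1 := Finset.mem_product.1 h1
    exact v.map_add_le (h.le a h1.1) ((h'.le b h1.2).trans (exp_le_exp.2 (by omega)))
  · obtain ⟨a, ha, e⟩ := h.ex x hx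
    obtain ⟨b, hb, e'⟩ := h'.ex _ e
    exact ⟨a + b, Finset.mem_image.2 ⟨(a, b), Finset.mem_product.2 ⟨ha, hb⟩, rfl⟩,
      by rwa [← sub_sub]⟩
  · obtain ⟨⟨a, b⟩, h1, rfl⟩ := Finset.mem_image.1 hr
    obtain ⟨⟨a', b'⟩, h2, rfl⟩ := Finset.mem_image.1 hr'
    have h1 := Finset.mem_product.1 h1
    have h2 := Finset.mem_product.1 h2
    obtain ⟨rfl, rfl⟩ := key a h1.1 b h1.2 a' h2.1 b' h2.2 e
    rfl

theorem Cnt.rp (hϖ : v ϖ = exp (-1)) {q : ℕ} (h : Cnt v q) (m : ℤ) (k : ℕ) :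
    ∃ s : Finset K, s.card = q ^ k ∧ Rp v s m (m + k) := by
  induction k with
  | zero =>
    exact ⟨{0}, by simp, fun r hr => by simp [Finset.mem_singleton.1 hr],
      fun x hx => ⟨0, by simp, by simpa using hx⟩,
      fun r hr r' hr' _ => by rw [Finset.mem_singleton.1 hr, Finset.mem_singleton.1 hr']⟩
  | succ k ih =>
    obtain ⟨s, h1, h2⟩ := ih
    obtain ⟨t, h3, h4⟩ := h
    obtain ⟨t', h5, h6⟩ := h4.shift hϖ (m + k)
    rw [zero_add] at h6
    obtain ⟨u, h7, h8⟩ := h2.tower (by omega) (by omega) h6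
    exact ⟨u, by rw [h7, h1, h5, h3, pow_succ], by
      rwa [show m + ((k + 1 : ℕ) : ℤ) = 1 + (m + k) by push_cast; ring]⟩

end Vale.Agent.P022K.Sh.Orb
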