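import Vale.Agent.P022K.F0.OrbE
import Vale.Agent.P022K.F0.OrbB
import Vale.Agent.P022K.F0.FujQ

/-!
# P022K, block F0, rows TRM, TRD: local tools (transport, bounded sets, splittings)
-/

set_option autoImplicit false

open scoped MatrixGroups WithZero Quaternion
open WithZero

noncomputable section

namespace Vale.Agent.P022K.Sh.Orb

section transport

variable {H H' : Type} [Group H] [Group H'] (σ : H ≃* H') {T T1 U : Subgroup H}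
  {T' T1' U' : Subgroup H'} {φ : H ⧸ U → ℂ} {φ' : H' ⧸ U' → ℂ} {val : ℂ}

theorem ex_equiv (hU : ∀ x, x ∈ U ↔ σ x ∈ U') :
    ∃ e : H ⧸ U ≃ H' ⧸ U', ∀ x : H, e x = σ x :=
  ⟨Quotient.congr σ.toEquiv fun x y => by
    rw [QuotientGroup.leftRel_apply, QuotientGroup.leftRel_apply, hU, map_mul, map_inv]
    rfl, fun _ => rfl⟩

theorem HasOrb.comap (hU : ∀ x, x ∈ U ↔ σ x ∈ U') (hT : ∀ x, x ∈ T ↔ σ x ∈ T')
    (hT1 : ∀ x, x ∈ T1 ↔ σ x ∈ T1') (hφ : ∀ x : H, φ x = φ' (σ x)) (h : HasOrb T' T1' φ' val) :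
    HasOrb T T1 φ val := by
  obtain ⟨e, he⟩ := ex_equiv σ hU
  have hs : ∀ (t : H) y, e (t • y) = σ t • e y := fun t y => by
    obtain ⟨x, rfl⟩ := QuotientGroup.mk_surjective y
    rw [smul_coe, he, he, smul_coe, map_mul]
  have hφ' : ∀ y, φ y = φ' (e y) := fun y => by
    obtain ⟨x, rfl⟩ := QuotientGroup.mk_surjective y
    rw [hφ, he]
  obtain ⟨R, h1, h2, h3⟩ := h
  refine ⟨R.map e.symm.toEmbedding, fun y hy => ?_, fun t ht r hr => ?_, ?_⟩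
  · obtain ⟨t, ht, m⟩ := h1 (e y) (by rwa [← hφ'])
    exact ⟨σ.symm t, (hT _).2 (by simpa using ht), by simpa [hs] using m⟩
  · rw [hT1, ← h2 _ ((hT t).1 ht) (e r) (by simpa using hr)]
    simp [hs]
  · rw [Finset.sum_map, ← h3]
    exact Finset.sum_congr rfl fun r _ => by simp [hφ']

theorem Base.comap (hU : ∀ x, x ∈ U ↔ σ x ∈ U') (hT : ∀ x, x ∈ T ↔ σ x ∈ T')
    (hT1 : ∀ x, x ∈ T1 ↔ σ x ∈ T1') (hφ : ∀ x : H, φ x = φ' (σ x))
    (h : Base T' T1' φ' (1 : H')) : Base T T1 φ (1 : H) := by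
  obtain ⟨e, he⟩ := ex_equiv σ hU
  refine ⟨fun y hy => ?_, fun t ht => ?_, by rw [hφ, map_one, h.2.2]⟩
  · obtain ⟨x, rfl⟩ := QuotientGroup.mk_surjective y
    obtain ⟨t, ht, m⟩ := h.1 (σ x) (by rwa [← hφ])
    refine ⟨σ.symm t, (hT _).2 (by simpa using ht), e.injective ?_⟩
    rw [smul_coe, he, he, map_mul, map_one, σ.apply_symm_apply]
    exact m
  · rw [hT1, ← h.2.1 _ ((hT t).1 ht), ← e.injective.eq_iff, smul_coe, he, he, map_mul, map_one]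
    rfl

theorem oi_mk {η f : H → ℂ} (hη : ∀ x, ∀ u ∈ U, η (x * u) = η x)
    (hl : ∀ u ∈ U, ∀ x, f (u * x) = f x) (hr : ∀ x, ∀ u ∈ U, f (x * u) = f x) (γ x : H) :
    η (x : H ⧸ U).out * f ((x : H ⧸ U).out⁻¹ * γ * (x : H ⧸ U).out) =
      η x * f (x⁻¹ * γ * x) := by
  obtain ⟨u, hu⟩ := QuotientGroup.mk_out_eq_mul U x
  rw [hu, hη x _ u.2, mul_inv_rev, ← mul_assoc, hr _ _ u.2, mul_assoc, mul_assoc,
    hl _ (inv_mem u.2), mul_assoc]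

theorem relIndex_ne {A : Subgroup H} (h : {y : H ⧸ U | ∃ g ∈ A, y = g}.Finite) :
    U.relIndex A ≠ 0 := by
  have := h.to_subtype
  have : Finite (A ⧸ U.subgroupOf A) := Finite.of_injective
    (fun c : A ⧸ U.subgroupOf A => (⟨((c.out : H) : H ⧸ U), c.out, c.out.2, rfl⟩ :
      {y : H ⧸ U | ∃ g ∈ A, y = g})) fun c c' e => by
      rw [← c.out_eq', ← c'.out_eq', QuotientGroup.eq, Subgroup.mem_subgroupOf]
      exact QuotientGroup.eq.1 (congrArg Subtype.val e)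
  exact Subgroup.index_ne_zero_of_finite

theorem finite_up {V : Subgroup H} (hUV : U ≤ V) {A : Set H}
    (h : {y : H ⧸ U | ∃ g ∈ A, y = g}.Finite) : {y : H ⧸ V | ∃ g ∈ A, y = g}.Finite :=
  (h.image (Subgroup.quotientMapOfLE hUV)).subset fun _ ⟨g, hg, e⟩ => ⟨g, ⟨g, hg, rfl⟩, e.symm⟩

end transport

variable {K : Type} [Field K] {v : Valuation K ℤᵐ⁰} {a b : K}

/-- the value of a character at a non zero element -/
def apL (η : Kˣ →* ℂˣ) (x : K) : ℂ := by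
  classical exact if h : x = 0 then 0 else η (Units.mk0 x h)

theorem apL_of (η : Kˣ →* ℂˣ) {x : K} (h : x ≠ 0) : apL η x = η (Units.mk0 x h) := dif_neg h

theorem apL_zero (η : Kˣ →* ℂˣ) : apL η 0 = 0 := dif_pos rfl

theorem apL_coe (η : Kˣ →* ℂˣ) (x : Kˣ) : apL η x = η x := by
  rw [apL_of η x.ne_zero, Units.mk0_val]

theorem apL_mul (η : Kˣ →* ℂˣ) (x y : K) : apL η (x * y) = apL η x * apL η y := by
  by_cases hx : x = 0
  · rw [hx, zero_mul, apL_zero, zero_mul]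
  by_cases hy : y = 0
  · rw [hy, mul_zero, apL_zero, mul_zero]
  rw [apL_of η hx, apL_of η hy, apL_of η (mul_ne_zero hx hy), Units.mk0_mul, map_mul, Units.val_mul]

theorem apL_one (η : Kˣ →* ℂˣ) : apL η 1 = 1 := by simpa using apL_coe η 1

theorem apL_sq {η : Kˣ →* ℂˣ} (h : ∀ x, η x ^ 2 = 1) {x : K} (hx : x ≠ 0) :
    apL η x * apL η x = 1 := by
  rw [apL_of η hx, ← pow_two, ← Units.val_pow_eq_pow_val, h, Units.val_one]

variable (a b) in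
/-- the character `η ∘ nrd` -/
def etaQ (η : Kˣ →* ℂˣ) : ℍ[K,a,b]ˣ →* ℂ where
  toFun x := apL η (nq x.val)
  map_one' := by simpa [nq] using apL_one η
  map_mul' x y := by rw [Units.val_mul, nq_mul, apL_mul]

theorem od_mul {x y : K} (hx : x ≠ 0) (hy : y ≠ 0) : od v (x * y) = od v x + od v y :=
  od_eq (by rw [map_mul, v_od hx, v_od hy, ← exp_add, neg_add])

theorem od_one {x : K} (h : v x = 1) : od v x = 0 := od_eq (by simpa using h)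

theorem ex_bd (x : K) : ∃ r : ℕ, ∀ r' : ℕ, r ≤ r' → v x ≤ exp (r' : ℤ) :=
  ⟨(log (v x)).toNat, fun r' h => le_exp_of_log_le (by omega)⟩

theorem ex_sm (x : ℍ[K,a,b]) : ∃ r : ℕ, ∀ r' : ℕ, r ≤ r' → Sm v (-(r' : ℤ)) x := by
  obtain ⟨r1, h1⟩ := ex_bd (v := v) x.re
  obtain ⟨r2, h2⟩ := ex_bd (v := v) x.imI
  obtain ⟨r3, h3⟩ := ex_bd (v := v) x.imJ
  obtain ⟨r4, h4⟩ := ex_bd (v := v) x.imK
  exact ⟨r1 + r2 + r3 + r4, fun r' h => ⟨by simpa using h1 r' (by omega),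
    by simpa using h2 r' (by omega), by simpa using h3 r' (by omega),
    by simpa using h4 r' (by omega)⟩⟩

variable (v) in
/-- bounded modulo the centre -/
def Bd (A : Set ℍ[K,a,b]ˣ) : Prop := ∃ r : ℕ, ∀ g ∈ A, ∃ c : Kˣ,
  Sm v (-(r : ℤ)) (cs c * g).val ∧ Sm v (-(r : ℤ)) ((cs c * g)⁻¹).val

theorem Bd.finite (h : QI v a b) {ϖ : Kˣ} (hϖ : v ϖ = exp (-1)) {q : ℕ} (hq : Cnt v q)
    {A : Set ℍ[K,a,b]ˣ} (hA : Bd v A) (m : ℕ) :
    {y : ℍ[K,a,b]ˣ ⧸ UQ h m | ∃ g ∈ A, y = g}.Finite := by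
  obtain ⟨r, hA⟩ := hA
  obtain ⟨s, -, hs⟩ := hq.rp hϖ (-r) (m + 2 * r)
  have ex : ∀ y ∈ {y : ℍ[K,a,b]ˣ ⧸ UQ h m | ∃ g ∈ A, y = g},
      ∃ p ∈ s ×ˢ s ×ˢ s ×ˢ s, ∃ g : ℍ[K,a,b]ˣ, Sm v (-(r : ℤ)) (g⁻¹).val ∧ y = g ∧
        Sm v (-r + (m + 2 * r : ℕ)) (g.val - ⟨p.1, p.2.1, p.2.2.1, p.2.2.2⟩) := by
    rintro _ ⟨g, hg, rfl⟩
    obtain ⟨c, hc, hc'⟩ := hA g hg
    obtain ⟨r1, h1, e1⟩ := hs.ex _ hc.re
    obtain ⟨r2, h2, e2⟩ := hs.ex _ hc.i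
    obtain ⟨r3, h3, e3⟩ := hs.ex _ hc.j
    obtain ⟨r4, h4, e4⟩ := hs.ex _ hc.k
    exact ⟨(r1, r2, r3, r4), by simp [h1, h2, h3, h4], _, hc',
      by rw [cs_comm, QuotientGroup.mk_mul_of_mem _ (cs_mem h c)], e1, e2, e3, e4⟩
  choose! p hp g hg e hs using ex
  refine Set.Finite.of_finite_image (f := p)
    ((s ×ˢ s ×ˢ s ×ˢ s).finite_toSet.subset ?_) fun y hy y' hy' er => ?_
  · rintro _ ⟨y, hy, rfl⟩
    exact hp y hy
  · rw [e y hy, e y' hy', QuotientGroup.eq]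
    have := (hs y' hy').sub (hs y hy)
    rw [er, sub_sub_sub_cancel_right] at this
    have := (hg y hy).mul h.ha h.hb this
    rw [mul_sub, Units.inv_mul] at this
    exact ⟨1, by simpa using this.mono (n := m) (by push_cast; omega)⟩

theorem Bd.relIndex (h : QI v a b) {ϖ : Kˣ} (hϖ : v ϖ = exp (-1)) {q : ℕ} (hq : Cnt v q)
    {A V : Subgroup ℍ[K,a,b]ˣ} (hA : Bd v (A : Set ℍ[K,a,b]ˣ)) {m : ℕ} (hV : UQ h m ≤ V) :
    V.relIndex A ≠ 0 := relIndex_ne (finite_up hV (hA.finite h hϖ hq m))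

theorem Bd.mono {A B : Set ℍ[K,a,b]ˣ} (h : Bd v B) (e : A ⊆ B) : Bd v A :=
  let ⟨r, hr⟩ := h; ⟨r, fun g hg => hr g (e hg)⟩

theorem bd_UQ (h : QI v a b) {k : ℕ} (hk : 0 < k) : Bd v (UQ h k : Set ℍ[K,a,b]ˣ) :=
  ⟨0, fun _ hg => UQ_un h hk hg⟩

theorem TQ_iff (h : QI v a b) (g : ℍ[K,a,b]ˣ) :
    g ∈ TQ a b ↔ g.val * ⟨0, 1, 0, 0⟩ = ⟨0, 1, 0, 0⟩ * g.val := by
  constructor
  · intro hg
    ext <;> simp [hg.1, hg.2]
  · intro e
    have h1 : -g.val.imJ = g.val.imJ := by simpa using congrArg QuaternionAlgebra.imK e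
    have h2 : -(a * g.val.imK) = a * g.val.imK := by simpa using congrArg QuaternionAlgebra.imJ e
    exact ⟨(mul_eq_zero.1 (show 2 * g.val.imJ = 0 by linear_combination -h1)).resolve_left h.two,
      (mul_eq_zero.1 (show 2 * a * g.val.imK = 0 by linear_combination -h2)).resolve_left
        (mul_ne_zero h.two h.a0)⟩

theorem center_iff (h : QI v a b) (z : ℍ[K,a,b]ˣ) :
    z ∈ Subgroup.center ℍ[K,a,b]ˣ ↔ ∃ c : Kˣ, z = cs c := by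
  constructor
  · intro hz
    have h1 := (TQ_iff h z).2 (congrArg Units.val (Subgroup.mem_center_iff.1 hz
      (mkU ⟨0, 1, 0, 0⟩ (by simpa [nq] using h.a0)))).symm
    have h2 : -z.val.imI = z.val.imI := by
      simpa [jQ_val] using congrArg (fun x => x.val.imK) (Subgroup.mem_center_iff.1 hz (jQ a h.b0))
    have h3 : z.val.imI = 0 :=
      (mul_eq_zero.1 (show 2 * z.val.imI = 0 by linear_combination -h2)).resolve_left h.two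
    have h4 : z.val.re ≠ 0 := fun e => nq_ne z (by simp [nq, e, h3, h1.1, h1.2])
    exact ⟨Units.mk0 _ h4, by ext <;> simp [h3, h1.1, h1.2]⟩
  · rintro ⟨c, rfl⟩
    exact Subgroup.mem_center_iff.2 fun g => (cs_comm c g).symm

theorem cs_tor (c : Kˣ) : cs c ∈ TQ a b := ⟨rfl, rfl⟩

theorem bar_eq (hb : b ≠ 0) {γ : ℍ[K,a,b]ˣ} (hγ : γ ∈ TQ a b) :
    (jQ a hb)⁻¹ * γ * jQ a hb = star γ := by
  refine Units.ext ?_
  rw [jQ_conj]
  ext <;> simp [hγ.1, hγ.2]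

theorem nq_conj (x g : ℍ[K,a,b]ˣ) : nq (x⁻¹ * g * x).val = nq g.val := by
  rw [Units.val_mul, Units.val_mul, nq_mul, nq_mul, mul_right_comm, ← nq_mul, Units.inv_mul]
  simp [nq]

theorem re_conj (x g : ℍ[K,a,b]ˣ) : (x⁻¹ * g * x).val.re = g.val.re := by
  have e : ∀ p q : ℍ[K,a,b], (p * q).re = (q * p).re := fun p q => by simp; ring
  rw [Units.val_mul, e, ← Units.val_mul, mul_inv_cancel_left]

variable (v) in
/-- an integral element of unit norm -/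
def UnL (x : ℍ[K,a,b]ˣ) : Prop := v (nq x.val) = 1 ∧ v (2 * x.val.re) ≤ 1

variable (v) in
/-- congruent to one in the integral closure -/
def CgL (n : K) (x : ℍ[K,a,b]ˣ) : Prop :=
  v (nq (x.val - 1)) ≤ v n ^ 2 ∧ v (2 * (x.val - 1).re) ≤ v n

theorem UnL.conj {c : Kˣ} {x γ : ℍ[K,a,b]ˣ} (h : UnL v (cs c * (x⁻¹ * γ * x))) :
    UnL v (cs c * γ) := by
  rw [← mul_assoc, ← mul_assoc, cs_comm, mul_assoc _ (cs c)] at h
  exact ⟨nq_conj x _ ▸ h.1, re_conj x _ ▸ h.2⟩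

/-- the local form of a transfer -/
structure TrL (h : QI v a b) (q : ℕ) (n : K) (η : Kˣ →* ℂˣ) (V : Subgroup ℍ[K,a,b]ˣ)
    (f φ : ℍ[K,a,b]ˣ → ℂ) (T1 : Subgroup ℍ[K,a,b]ˣ) : Prop where
  opn : ∃ m, 0 < m ∧ UQ h m ≤ V
  bd : Bd v (V : Set ℍ[K,a,b]ˣ)
  eta : ∀ u ∈ V, apL η (nq u.val) = 1
  left : ∀ u ∈ V, ∀ x, f (u * x) = f x
  right : ∀ x, ∀ u ∈ V, f (x * u) = f x
  sup : Bd v {x | f x ≠ 0}
  le : T1 ≤ TQ a b
  ge : TQ a b ⊓ V ≤ T1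
  bd1 : Bd v (T1 : Set ℍ[K,a,b]ˣ)
  orb0 : ∀ g, f g ≠ 0 → ∃ c : Kˣ, UnL v (cs c * g)
  orb1 : ∀ γ ∈ TQ a b, UnL v γ → γ.val.imI ≠ 0 → ∀ ψ : ℍ[K,a,b]ˣ ⧸ V → ℂ,
    (∀ x : ℍ[K,a,b]ˣ, ψ x = apL η (nq x.val) * f (x⁻¹ * γ * x)) → HasOrb (TQ a b) T1 ψ
      (φ γ * (apL η γ.val.imI * (q : ℂ) ^ od v γ.val.imI))
  per : ∀ γ ∈ TQ a b, ∀ u ∈ TQ a b, UnL v γ → CgL v n u → φ (u * γ) = φ γ
  scal : ∀ γ ∈ TQ a b, ∀ c : Kˣ, v c = 1 → UnL v γ → φ (cs c * γ) * apL η c = φ γ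

section split

variable [CharZero K] (h : QI v a b) (s : ℍ[K,a,b] ≃ₐ[K] Matrix (Fin 2) (Fin 2) K)

/-- the splitting on units -/
abbrev sU : ℍ[K,a,b]ˣ ≃* GL (Fin 2) K := Units.mapEquiv s.toRingEquiv.toMulEquiv

omit [CharZero K] in
theorem sU_val (g : ℍ[K,a,b]ˣ) : (sU s g).val = s g.val := rfl

omit [CharZero K] in
theorem sU_cs (c : Kˣ) : sU s (cs c) = sc c := Units.ext (s.commutes c)

include h in
theorem s_det (x : ℍ[K,a,b]) : (s x).det = nq x := by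
  have := F0.Fuj.Over.det (τ := RingHom.id K) (j := s.toRingEquiv.toRingHom) s.commutes h.a0 h.b0 x
  rw [show nq x = F0.Fuj.nrd x by simp [nq, F0.Fuj.nrd]; ring]
  exact this

include h in
theorem s_trace (x : ℍ[K,a,b]) : (s x).trace = 2 * x.re :=
  F0.Fuj.Over.trace (τ := RingHom.id K) (j := s.toRingEquiv.toRingHom) s.commutes h.a0 h.b0 x

omit [CharZero K] in
theorem s_bd : ∃ r : ℕ, ∀ x, IM v (s x) → Sm v (-(r : ℤ)) x := by
  choose r hr using fun i j : Fin 2 => ex_sm (v := v) (s.symm (Matrix.single i j 1))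
  refine ⟨r 0 0 + r 0 1 + r 1 0 + r 1 1, fun x hx => ?_⟩
  have e : x = s x 0 0 • s.symm (Matrix.single 0 0 1) + s x 0 1 • s.symm (Matrix.single 0 1 1) +
      s x 1 0 • s.symm (Matrix.single 1 0 1) + s x 1 1 • s.symm (Matrix.single 1 1 1) := by
    apply s.injective
    ext i j
    fin_cases i <;> fin_cases j <;> simp
  rw [e]
  exact ((((hr 0 0 _ (by omega)).smul (hx 0 0)).add ((hr 0 1 _ (by omega)).smul (hx 0 1))).add
    ((hr 1 0 _ (by omega)).smul (hx 1 0))).add ((hr 1 1 _ (by omega)).smul (hx 1 1))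

omit [CharZero K] in
theorem s_op : ∃ r : ℕ, 0 < r ∧ ∀ x, Sm v r x → ∀ i j, v (s x i j) < 1 := by
  choose r1 h1 using fun i j : Fin 2 => ex_bd (v := v) (s ⟨0, 1, 0, 0⟩ i j)
  choose r2 h2 using fun i j : Fin 2 => ex_bd (v := v) (s ⟨0, 0, 1, 0⟩ i j)
  choose r3 h3 using fun i j : Fin 2 => ex_bd (v := v) (s ⟨0, 0, 0, 1⟩ i j)
  obtain ⟨r, hr⟩ : ∃ r : ℕ, ∀ i j, r1 i j ≤ r ∧ r2 i j ≤ r ∧ r3 i j ≤ r :=
    ⟨r1 0 0 + r1 0 1 + r1 1 0 + r1 1 1 + r2 0 0 + r2 0 1 + r2 1 0 + r2 1 1 + r3 0 0 + r3 0 1 +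
      r3 1 0 + r3 1 1, fun i j => by fin_cases i <;> fin_cases j <;> simp <;> omega⟩
  refine ⟨r + 1, r.succ_pos, fun x hx i j => ?_⟩
  have e : x = x.re • 1 + x.imI • ⟨0, 1, 0, 0⟩ + x.imJ • ⟨0, 0, 1, 0⟩ + x.imK • ⟨0, 0, 0, 1⟩ := by
    ext <;> simp
  have key : ∀ {y z : K}, v y ≤ exp (-((r + 1 : ℕ) : ℤ)) → v z ≤ exp (r : ℤ) → v (y * z) < 1 :=
    fun hy hz => by
      rw [map_mul]
      refine (mul_le_mul' hy hz).trans_lt ?_
      rw [← exp_add, ← exp_zero, exp_lt_exp]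
      omega
  rw [e]
  simp only [map_add, map_smul, map_one, Matrix.add_apply, Matrix.smul_apply, smul_eq_mul]
  refine v.map_add_lt (v.map_add_lt (v.map_add_lt (key hx.re ((IM.one i j).trans ?_))
    (key hx.i (h1 i j r (hr i j).1))) (key hx.j (h2 i j r (hr i j).2.1)))
    (key hx.k (h3 i j r (hr i j).2.2))
  rw [← exp_zero, exp_le_exp]
  omega

omit [CharZero K] in
theorem bd_ZV : Bd v {g | sU s g ∈ ZV v} := by
  obtain ⟨r, hr⟩ := s_bd (v := v) s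
  refine ⟨r, fun g ⟨c, hc⟩ => ⟨c, hr _ ?_, hr _ ?_⟩⟩
  · rw [← sU_val, map_mul, sU_cs]; exact hc.1
  · rw [← sU_val, map_inv, map_mul, sU_cs]; exact (inv_mem hc).1

include h in
omit [CharZero K] in
theorem tor_iff {ω : Matrix (Fin 2) (Fin 2) K} {x y : K} (hy : y ≠ 0)
    (hs : s ⟨0, 1, 0, 0⟩ = x • 1 + y • ω) (g : ℍ[K,a,b]ˣ) : g ∈ TQ a b ↔ sU s g ∈ Tor ω := by
  rw [TQ_iff h, ← s.injective.eq_iff, map_mul, map_mul, hs, mem_Tor, sU_val]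
  simp [mul_add, add_mul, smul_right_inj hy]

omit [CharZero K] in
theorem s_tor {ω : Matrix (Fin 2) (Fin 2) K} {x y : K} (hs : s ⟨0, 1, 0, 0⟩ = x • 1 + y • ω)
    {z : ℍ[K,a,b]} (h1 : z.imJ = 0) (h2 : z.imK = 0) :
    s z = (z.re + z.imI * x) • (1 : Matrix (Fin 2) (Fin 2) K) + (z.imI * y) • ω := by
  have e : z = z.re • 1 + z.imI • ⟨0, 1, 0, 0⟩ := by ext <;> simp [h1, h2]
  conv_lhs => rw [e]
  rw [map_add, map_smul, map_smul, map_one, hs]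
  module

end split

end Vale.Agent.P022K.Sh.Orb
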