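import Vale.Agent.P022K.F0.OrbM

/-!
# P022K, block F0, rows TRM, TRS: the local transfers of depth zero functions
-/

set_option autoImplicit false

open scoped MatrixGroups WithZero Quaternion
open WithZero

noncomputable section

namespace Vale.Agent.P022K.Sh.Orb

variable {K : Type} [Field K] {v : Valuation K ℤᵐ⁰} {a b : K} {ϖ : Kˣ} {η : Kˣ →* ℂˣ} {ε : ℂ}

theorem apL_ur (hη : ∀ x : Kˣ, (η x : ℂ) = ε ^ od v (x : K)) {x : K} (hx : x ≠ 0) :
    apL η x = ε ^ od v x := by rw [apL_of η hx, hη, Units.val_mk0]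

theorem zpow_neg_sq (hε : ε ^ 2 = 1) (n : ℤ) : ε ^ (-n) = ε ^ n := by
  rw [zpow_neg, ← inv_zpow, inv_eq_of_mul_eq_one_right (by rw [← pow_two, hε])]

theorem Sc.smul {z : Kˣ} {g : GL (Fin 2) K} (hz : v z = 1) (h : Sc v (sc z * g)) : Sc v g := by
  simpa [Sc, sc_mul_val, ← mul_sub, hz] using h

theorem sc_of {g : GL (Fin 2) K} (h : ∀ i j, v ((g.val - 1) i j) < 1) : g ∈ KV v ∧ Sc v g := by
  have h0 : v (g.val 0 0 - 1) < 1 := by simpa using h 0 0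
  have h1 : v (g.val 0 1) < 1 := by simpa using h 0 1
  have h2 : v (g.val 1 0) < 1 := by simpa using h 1 0
  have h3 : v (g.val 1 1 - 1) < 1 := by simpa using h 1 1
  have e : ∀ {x : K}, v (x - 1) < 1 → v x = 1 := fun hx => by
    simpa using v.map_one_add_of_lt hx
  refine ⟨⟨fun i j => ?_, ?_⟩, h1, h2, by simpa using v.map_sub_lt h0 h3⟩
  · fin_cases i <;> fin_cases j
    exacts [(e h0).le, h1.le, h2.le, (e h3).le]
  · have : v (g.val 0 0 * g.val 1 1) = 1 := by rw [map_mul, e h0, e h3, one_mul]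
    rw [Matrix.det_fin_two, v.map_sub_eq_of_lt_left, this]
    exact this ▸ v_mul_lt h1 h2.le

theorem sc_lin {ω : Matrix (Fin 2) (Fin 2) K} (h : Et v ω) {g : GL (Fin 2) K} {A B : K}
    (hB : v B ≤ 1) (e : g.val = A • (1 : Matrix (Fin 2) (Fin 2) K) + B • ω) :
    Sc v g ↔ v B < 1 := by
  have e1 : g.val 0 1 = B * ω 0 1 := by simp [e]
  have e2 : g.val 1 0 = B * ω 1 0 := by simp [e]
  have e3 : g.val 0 0 - g.val 1 1 = B * (ω 0 0 - ω 1 1) := by simp [e]; ring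
  rw [Sc, e1, e2, e3]
  refine ⟨fun ⟨h1, _, h3⟩ => hB.lt_or_eq.resolve_right fun hb => ?_, fun hb =>
    ⟨v_mul_lt hb (h.int _ _), v_mul_lt hb (h.int _ _),
      v_mul_lt hb (v.map_sub_le (h.int _ _) (h.int _ _))⟩⟩
  rw [map_mul, hb, one_mul] at h1 h3
  have := h.disc
  rw [Matrix.trace_fin_two, Matrix.det_fin_two, show (ω 0 0 + ω 1 1) ^ 2 -
    4 * (ω 0 0 * ω 1 1 - ω 0 1 * ω 1 0) = (ω 0 0 - ω 1 1) * (ω 0 0 - ω 1 1) +
      ω 0 1 * (4 * ω 1 0) by ring] at this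
  exact (v.map_add_lt (v_mul_lt h3 h3.le) (v_mul_lt h1
    (v_mul_le (by exact_mod_cast v_nat 4) (h.int _ _)))).ne this

/-- the transfer at a place where the algebra splits and the torus is unramified -/
theorem trG [CharZero K] (h : QI v a b) (hϖ : v ϖ = exp (-1)) {q : ℕ} (hq : Cnt v q) (q0 : q ≠ 0)
    (s : ℍ[K,a,b] ≃ₐ[K] Matrix (Fin 2) (Fin 2) K) {ω : Matrix (Fin 2) (Fin 2) K} {x y : K}
    (hω : Et v ω) (hy : y ≠ 0) (hs : s ⟨0, 1, 0, 0⟩ = x • 1 + y • ω) (hε : ε ^ 2 = 1)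
    {P : Set (GL (Fin 2) K ⧸ ZV v)} (hS : Sec v ϖ ω ε (ε * q) P)
    (hη : ∀ x : Kˣ, (η x : ℂ) = ε ^ od v (x : K)) {f0 : GL (Fin 2) K → ℂ} {c1 cu : ℂ}
    (h0 : Typ v f0 c1 cu) {V : Subgroup ℍ[K,a,b]ˣ} {f φ : ℍ[K,a,b]ˣ → ℂ}
    (hV : ∀ u ∈ V, sU s u ∈ ZV v) (hK : ∀ u, sU s u ∈ KV v → Sc v (sU s u) → u ∈ V)
    (hc : ∀ c, cs c ∈ V) (hf : ∀ u, f u = f0 (sU s u)) (hr : ∀ x, ∀ u ∈ V, f (x * u) = f x)
    (hl : ∀ u ∈ V, ∀ g, φ (u * g) = φ g)
    (h1 : ∀ γ, sU s γ ∈ KV v → Sc v (sU s γ) → φ γ = cu + (c1 - cu) / (ε * q))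
    (h2 : ∀ γ, sU s γ ∈ KV v → ¬ Sc v (sU s γ) → φ γ = f γ) {n : K} (hn : v n < 1) :
    ∃ (T1 : Subgroup ℍ[K,a,b]ˣ) (c : ℂ), c ≠ 0 ∧ TrL h q n η V f (fun u => c * φ u) T1 := by
  let Z : Subgroup ℍ[K,a,b]ˣ := (ZV v).comap (sU s).toMonoidHom
  have ε0 : ε ≠ 0 := fun e => by simp [e] at hε
  have κ0 : ε * q ≠ 0 := mul_ne_zero ε0 (Nat.cast_ne_zero.2 q0)
  obtain ⟨r, r0, hr0⟩ := s_op (v := v) s
  have op : UQ h r ≤ V := fun u ⟨c, hu⟩ => by
    have := sc_of (g := sU s (cs c * u)) (by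
      rw [sU_val, cs_mul_val, ← map_one s, ← map_sub]; exact hr0 _ hu)
    exact (V.mul_mem_cancel_left (hc c)).1 (hK _ this.1 this.2)
  have bZ : Bd v (Z : Set ℍ[K,a,b]ˣ) := bd_ZV s
  have e0 : V.relIndex Z ≠ 0 := bZ.relIndex h hϖ hq op
  have sgn : ∀ u : ℍ[K,a,b]ˣ, apL η (nq u.val) = sg v ε (sU s u) := fun u => by
    rw [apL_ur hη (nq_ne u), sg, sU_val, s_det h, od, zpow_neg_sq hε]
  have lin : ∀ γ ∈ TQ a b, (sU s γ).val = (γ.val.re + γ.val.imI * x) •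
      (1 : Matrix (Fin 2) (Fin 2) K) + (γ.val.imI * y) • ω := fun γ hγ => s_tor s hs hγ.1 hγ.2
  refine ⟨TQ a b ⊓ Z, V.relIndex Z * (ε * q) ^ od v y,
    mul_ne_zero (Nat.cast_ne_zero.2 e0) (zpow_ne_zero _ κ0), ⟨r, r0, op⟩, bZ.mono hV,
    fun u hu => by rw [sgn, sg_ZV hε (hV u hu)], fun u hu g => ?_, hr,
    bZ.mono fun g hg => not_not.1 fun e => hg ((hf g).trans (h0.zero _ e)), inf_le_left,
    fun u hu => ⟨hu.1, hV u hu.2⟩, bZ.mono fun u hu => hu.2, fun g hg => ?_,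
    fun γ hγ hu ht ψ hψ => ?_, fun γ _ u hu _ hg => ?_, fun γ _ c hc1 _ => ?_⟩
  · rw [← hr g u hu, hf, hf, ← h0.clsZ (hV u hu), map_mul, map_mul, inv_mul_cancel_left]
  · obtain ⟨c, hk⟩ : sU s g ∈ ZV v := not_not.1 fun e => hg (by rw [hf, h0.zero _ e])
    rw [← sU_cs s, ← map_mul] at hk
    exact ⟨c, s_det h s _ ▸ hk.2, s_trace h s _ ▸ hk.1.trace⟩
  · have e := lin γ hγ
    set A := γ.val.re + γ.val.imI * x
    set B := γ.val.imI * y with hB
    have hd : v (A ^ 2 + A * B * ω.trace + B ^ 2 * ω.det) = 1 := by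
      rw [← det_lin, ← e, sU_val, s_det h, hu.1]
    obtain ⟨a1, b1⟩ := hω.int_of (A := A) (B := B)
      (by rw [← tr_lin, ← e, sU_val, s_trace h]; exact hu.2) hd.le
    have hp : Prim v A B := ⟨a1, b1, by
      by_contra hh
      have a2 := lt_of_le_of_ne a1 (not_or.1 hh).1
      have b2 := lt_of_le_of_ne b1 (not_or.1 hh).2
      rw [show A ^ 2 + A * B * ω.trace + B ^ 2 * ω.det =
        A * (A + B * ω.trace) + B * (B * ω.det) by ring] at hd
      exact (v.map_add_lt (v_mul_lt a2 (v.map_add_le a1 (v_mul_le b1 hω.int.trace)))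
        (v_mul_lt b2 (v_mul_le b1 hω.int.det))).ne hd⟩
    have hk : sU s γ ∈ KV v := ⟨im_gam hω hp e, by rw [e, det_lin, hd]⟩
    let φ0 : GL (Fin 2) K ⧸ ZV v → ℂ := fun y =>
      sg v ε y.out * f0 (y.out⁻¹ * sU s γ * y.out)
    have hφ0 : ∀ x : GL (Fin 2) K, φ0 x = sg v ε x * f0 (x⁻¹ * sU s γ * x) := fun x => by
      obtain ⟨u, hu⟩ := QuotientGroup.mk_out_eq_mul (ZV v) x
      simp only [φ0]
      rw [hu, sg_mul hε, sg_ZV hε u.2, mul_one, ← h0.clsZ u.2 (x⁻¹ * sU s γ * x)]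
      congr 2
      group
    have main : HasOrb (Tor ω) (Tor ω ⊓ ZV v) φ0 ((ε * q) ^ od v B * φ γ) := by
      rcases b1.eq_or_lt with hb | hb
      · obtain ⟨h3, h4, h5⟩ := typ_orb0 hS hω hp (z := 1) (by simpa using e) hφ0 h0 hb
        rw [od_one hb, zpow_zero, one_mul, h2 γ hk (mt (sc_lin hω b1 e).1 hb.not_lt), hf]
        exact ⟨{((1 : GL (Fin 2) K) : GL (Fin 2) K ⧸ ZV v)}, fun y hy => by simpa using h3 y hy,
          fun t ht r hr => by
            rw [Finset.mem_singleton.1 hr, Finset.mem_singleton]; exact h4 t ht, by simp [h5]⟩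
      · obtain ⟨N, hN⟩ := ex_nat (mul_ne_zero ht hy) b1
        obtain ⟨N, rfl⟩ : ∃ M, N = M + 1 := Nat.exists_eq_succ_of_ne_zero fun e => by
          rw [hN, e] at hb; simp at hb
        have := typ_orb1 hS hω hp (z := 1) (by simpa using e) hφ0 hϖ h0 hN
        rw [od_eq hN, h1 γ hk ((sc_lin hω b1 e).2 hb), zpow_natCast]
        convert this using 1
        field_simp
        ring
    have ho : ∀ u : ℍ[K,a,b]ˣ, φ0 (sU s (u : ℍ[K,a,b]ˣ ⧸ Z).out) = φ0 (sU s u) := fun u => by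
      obtain ⟨k, hk⟩ := QuotientGroup.mk_out_eq_mul Z u
      rw [hk, map_mul, QuotientGroup.mk_mul_of_mem _ (show sU s k ∈ ZV v from k.2)]
    have := HasOrb.level (U := V) (V := Z) hV e0 (ψ' := ψ) (ψ := fun y => φ0 (sU s y.out))
      (fun u => by rw [ho, hφ0, hψ, sgn, hf, map_mul, map_mul, map_inv])
      (HasOrb.comap (sU s) (U := Z) (T := TQ a b) (T1 := TQ a b ⊓ Z) (T1' := Tor ω ⊓ ZV v)
        (fun _ => Iff.rfl) (tor_iff h s hy hs)
        (fun u => and_congr_left' (tor_iff h s hy hs u)) ho main)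
    convert this using 1
    rw [hB, od_mul ht hy, zpow_add₀ κ0, apL_ur hη ht, mul_zpow _ _ (od v γ.val.imI)]
    ring
  · have e := lin u hu
    set A := u.val.re + u.val.imI * x
    set B := u.val.imI * y
    have e' : s (u.val - 1) = (A - 1) • (1 : Matrix (Fin 2) (Fin 2) K) + B • ω := by
      rw [map_sub, map_one, ← sU_val, e]; module
    have hn' : v n ≤ v ϖ := hϖ ▸ lt_one_iff.1 hn
    have p0 : 0 < v ϖ := hϖ ▸ exp_pos
    obtain ⟨a1, b1⟩ := hω.int_of (A := (A - 1) / ϖ) (B := B / ϖ) (by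
      rw [show 2 * ((A - 1) / ϖ) + B / ϖ * ω.trace = (2 * (A - 1) + B * ω.trace) / ϖ by ring,
        ← tr_lin, ← e', s_trace h, map_div₀]
      exact div_le_one_of_le₀ (hg.2.trans hn') zero_le) (by
      rw [show ((A - 1) / ϖ) ^ 2 + (A - 1) / ϖ * (B / ϖ) * ω.trace + (B / ϖ) ^ 2 * ω.det =
        ((A - 1) ^ 2 + (A - 1) * B * ω.trace + B ^ 2 * ω.det) / ϖ ^ 2 by ring,
        ← det_lin, ← e', s_det h, map_div₀, map_pow]
      exact div_le_one_of_le₀ (hg.1.trans (pow_le_pow_left' hn' 2)) zero_le)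
    rw [map_div₀, div_le_one₀ p0, hϖ, ← lt_one_iff] at a1 b1
    have := sc_of (g := sU s u) fun i j => by
      rw [sU_val, ← map_one s, ← map_sub, e']
      exact v.map_add_lt (v_mul_lt a1 (IM.one i j)) (v_mul_lt b1 (hω.int i j))
    rw [hl u (hK u this.1 this.2)]
  · rw [hl _ (hc c), apL_ur hη c.ne_zero, od_one hc1, zpow_zero, mul_one]

theorem nq_star (x : ℍ[K,a,b]) : nq (star x) = nq x := by simp [nq]

theorem od_nq (x y : ℍ[K,a,b]ˣ) : od v (nq (x * y).val) = od v (nq x.val) + od v (nq y.val) := by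
  rw [Units.val_mul, nq_mul, od_mul (nq_ne x) (nq_ne y)]

theorem v_cs (hϖ : v ϖ = exp (-1)) (k : ℤ) (g : ℍ[K,a,b]ˣ) :
    v (nq (cs (ϖ ^ k) * g).val) = exp (-(2 * k + od v (nq g.val))) := by
  rw [cs_mul_val, nq_smul, map_mul, map_pow, v_zpow hϖ, v_od (nq_ne g), ← exp_nsmul, ← exp_add]
  congr 1
  simp
  ring

namespace Ram

variable (R : Ram v a b) (h2 : v (2 : K) = 1) (ha : v a = 1)
include R

theorem star_mem {u : ℍ[K,a,b]ˣ} (hu : u ∈ R.UR) : star u ∈ R.UR := by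
  obtain ⟨c, hc⟩ := hu
  refine ⟨c, ?_⟩
  rw [← nq_star] at hc
  convert hc using 3
  ext <;> simp

theorem even {u : ℍ[K,a,b]ˣ} (hu : u ∈ R.UR) : Even (Orb.od v (nq u.val)) := by
  obtain ⟨c, hc⟩ := hu
  have := od_one (R.nq_one hc)
  rw [nq_smul, pow_two, od_mul (mul_ne_zero c.ne_zero c.ne_zero) (nq_ne u),
    od_mul c.ne_zero c.ne_zero] at this
  exact ⟨-Orb.od v (c : K), by omega⟩

include h2 ha

theorem co {s t : K} {k : ℤ} (h : v (s ^ 2 - a * t ^ 2) ≤ exp (2 * k)) :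
    v s ≤ exp k ∧ v t ≤ exp k := by
  have e : exp (2 * k) = exp k ^ 2 := by rw [← exp_nsmul]; simp
  have h1 := (R.tr_sq s t).trans h
  rw [map_mul, h2, one_mul] at h1
  have h3 : v (s ^ 2 - (s ^ 2 - a * t ^ 2)) ≤ exp (2 * k) := v.map_sub_le (by rwa [map_pow]) h
  rw [sub_sub_cancel, map_mul, ha, one_mul, map_pow] at h3
  rw [e] at h1 h3
  exact ⟨le_of_pow_le_pow_left₀ two_ne_zero zero_le h1,
    le_of_pow_le_pow_left₀ two_ne_zero zero_le h3⟩

theorem bd (h : QI v a b) (hϖ : v ϖ = exp (-1)) (A : Set ℍ[K,a,b]ˣ) : Bd v A := by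
  obtain ⟨β, hβ⟩ := ex_nat h.b0 h.hb
  have key : ∀ x : ℍ[K,a,b], v (nq x) ≤ exp 2 → Sm v (-((β + 1 : ℕ) : ℤ)) x := fun x hx => by
    have h1 := (R.le_nq x).trans hx
    have h3 : v (x.re ^ 2 - a * x.imI ^ 2 - nq x) ≤ exp 2 := v.map_sub_le h1 hx
    rw [nq, sub_sub_cancel, map_mul, hβ, ← le_inv_mul_iff₀ exp_pos, ← exp_neg, ← exp_add] at h3
    obtain ⟨h4, h5⟩ := R.co h2 ha (k := β + 1) (h1.trans (exp_le_exp.2 (by omega)))
    obtain ⟨h6, h7⟩ := R.co h2 ha (k := β + 1) (h3.trans (exp_le_exp.2 (by omega)))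
    exact ⟨by simpa using h4, by simpa using h5, by simpa using h6, by simpa using h7⟩
  refine ⟨β + 1, fun g _ => ⟨ϖ ^ (-(Orb.od v (nq g.val) / 2)), key _ ?_, key _ ?_⟩⟩
  · rw [v_cs hϖ, exp_le_exp]; omega
  · have := od_nq (v := v) (cs (ϖ ^ (-(Orb.od v (nq g.val) / 2))) * g)⁻¹
      (cs (ϖ ^ (-(Orb.od v (nq g.val) / 2))) * g)
    rw [inv_mul_cancel, od_one (by simp [nq]), od_eq (v_cs hϖ _ g)] at this
    rw [v_od (nq_ne _), exp_le_exp]
    omega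

/-- the transfer at a place where the algebra is ramified and the torus is inert -/
theorem trR (h : QI v a b) (hϖ : v ϖ = exp (-1)) (q : ℕ)
    (hη : ∀ x : Kˣ, (η x : ℂ) = (-1) ^ Orb.od v (x : K)) {f φ : ℍ[K,a,b]ˣ → ℂ}
    (h0 : ∀ u : ℍ[K,a,b]ˣ, Odd (Orb.od v (nq u.val)) → f u = 0) (h1 : ∀ u ∈ R.UR, f u = 1)
    (hm : ∀ u u' : ℍ[K,a,b]ˣ, Even (Orb.od v (nq u.val)) → f (u * u') = f u * f u')
    (hφ : ∀ u, φ u = f u - f (star u)) {n : K} (hn : v n < 1) :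
    TrL h q n η R.UR f φ (TQ a b ⊓ R.UR) := by
  have hl : ∀ u ∈ R.UR, ∀ x, f (u * x) = f x := fun u hu x => by
    rw [hm _ _ (R.even hu), h1 u hu, one_mul]
  have hr : ∀ x, ∀ u ∈ R.UR, f (x * u) = f x := fun x u hu => by
    rcases Int.even_or_odd (Orb.od v (nq x.val)) with e | e
    · rw [hm _ _ e, h1 u hu, mul_one]
    · rw [h0 x e, h0 _ (od_nq x u ▸ e.add_even (R.even hu))]
  have pl : ∀ u ∈ R.UR, ∀ g, φ (u * g) = φ g := fun u hu g => by
    rw [hφ, hφ, star_mul, hl u hu, hr _ _ (R.star_mem hu)]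
  refine ⟨⟨1, one_pos, fun u ⟨c, hc⟩ => ⟨c, ?_⟩⟩, R.bd h2 ha h hϖ _, fun u hu => ?_, hl, hr,
    R.bd h2 ha h hϖ _, inf_le_left, le_rfl, R.bd h2 ha h hϖ _, fun g hg => ?_,
    fun γ hγ hu ht ψ hψ => ?_, fun γ _ u _ _ hg => pl u ⟨1, ?_⟩ γ, fun γ _ c hc _ => ?_⟩
  · have := (hc.mul h.ha h.hb hc.star).re
    rw [mul_star] at this
    exact lt_of_le_of_lt (by simpa using this) (show exp (-2 : ℤ) < exp 0 from exp_lt_exp.2 (by omega))
  · rw [apL_ur hη (nq_ne u), (R.even hu).neg_one_zpow]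
  · obtain ⟨k, hk⟩ := (Int.even_or_odd (Orb.od v (nq g.val))).resolve_right fun e => hg (h0 g e)
    have e : v (nq (cs (ϖ ^ (-k)) * g).val) = 1 := by rw [v_cs hϖ, exp_eq_one]; omega
    exact ⟨_, e, (pow_le_one_iff_of_nonneg zero_le two_ne_zero).1
      (((R.tr_sq _ _).trans (R.le_nq _)).trans e.le)⟩
  · have := R.orb (η := fun x => apL η (nq x.val)) (by simpa [nq] using apL_one η) hψ
    obtain ⟨k, hk⟩ := R.od
    rw [bar_eq _ hγ, apL_ur hη (nq_ne _), od_eq (n := -(2 * k + 1)) (by simpa [jQ_val, nq] using hk),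
      Odd.neg_one_zpow ⟨-k - 1, by ring⟩, neg_one_mul, ← sub_eq_add_neg, ← hφ] at this
    have e : v (γ.val.re ^ 2 - a * γ.val.imI ^ 2) = 1 := by simpa [nq, hγ.1, hγ.2] using hu.1
    obtain ⟨h3, h4⟩ := R.co h2 ha (k := 0) (by simpa using e.le)
    rcases h4.eq_or_lt with h4 | h4
    · rwa [apL_ur hη ht, od_one h4, zpow_zero, zpow_zero, mul_one, mul_one]
    · have h5 : v (a * γ.val.imI ^ 2) < 1 := by
        rw [map_mul, ha, one_mul, pow_two]; exact v_mul_lt h4 h4.le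
      have h6 : v γ.val.re = 1 := sq_eq_one (by
        rw [← map_pow, ← sub_add_cancel (γ.val.re ^ 2) (a * γ.val.imI ^ 2),
          v.map_add_eq_of_lt_left (e ▸ h5), e])
      have r0 : γ.val.re ≠ 0 := fun e => by simp [e] at h6
      have m : γ ∈ R.UR := ⟨(Units.mk0 _ r0)⁻¹, by
        simpa [nq, hγ.1, hγ.2, r0, mul_pow, h6, ha] using h5⟩
      have z : φ γ = 0 := by rw [hφ, h1 γ m, h1 _ (R.star_mem m), sub_self]
      rwa [z, zero_mul, ← z]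
  · rw [Units.val_one, one_smul]
    exact hg.1.trans_lt (pow_lt_one₀ zero_le hn two_ne_zero)
  · rw [pl _ ⟨c⁻¹, by rw [← cs_mul_val, ← map_mul, inv_mul_cancel]; simp [nq]⟩,
      apL_ur hη c.ne_zero, od_one hc, zpow_zero, mul_one]

end Ram

section

variable {O : Type} [CommRing O] [IsDomain O] [IsDiscreteValuationRing O] [Algebra O K]
  (h : Vd O v ϖ) (cpl : IsAdicComplete (IsLocalRing.maximalIdeal O) O)
include h cpl

theorem Vd.ine_iff {ω : Matrix (Fin 2) (Fin 2) K} (two : (2 : K) ≠ 0) (hω : Et v ω) :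
    Ine v ω ↔ ¬ IsSquare (ω.trace ^ 2 - 4 * ω.det) := by
  constructor
  · rintro hi ⟨d, hd⟩
    have e : ((ω.trace + d) / 2) ^ 2 - ω.trace * ((ω.trace + d) / 2) + ω.det = 0 := by
      field_simp
      linear_combination -hd
    generalize (ω.trace + d) / 2 = x at e
    have hx : v x ≤ 1 := not_lt.1 fun hx => by
      have h1 : v (x - ω.trace) = v x := v.map_sub_eq_of_lt_left (hω.int.trace.trans_lt hx)
      have h2 := hω.int.det
      rw [show ω.det = -(x * (x - ω.trace)) by linear_combination e, Valuation.map_neg, map_mul,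
        h1] at h2
      exact (one_lt_mul'' hx hx).not_ge h2
    simpa [e] using hi x hx
  · intro hn x hx
    refine (v.map_add_le (v.map_sub_le (v_sq_le hx) (v_mul_le hω.int.trace hx))
      hω.int.det).eq_or_lt.resolve_right fun hr => hn ?_
    obtain ⟨α, β, -, -, -, h4, h5⟩ := h.roots cpl hω.int.trace hω.int.det hω.disc hx hr
    exact ⟨α - β, by rw [h4, h5]; ring⟩

theorem Vd.ram (h2 : v (2 : K) = 1) (ha : v a = 1) (ns : ¬ IsSquare a) (hb : Odd (od v b))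
    (b0 : b ≠ 0) : Ram v a b := by
  have two : (2 : K) ≠ 0 := fun e => by simp [e] at h2
  have hω : Et v !![0, a; 1, 0] := ⟨im_of (by simp) ha.le (by simp) (by simp), by
    rw [show (4 : K) = 2 * 2 by norm_num]; simp [Matrix.det_fin_two, h2, ha]⟩
  have hi := (h.ine_iff cpl two hω).2 fun ⟨d, hd⟩ => ns ⟨d / 2, by
    simp [Matrix.det_fin_two] at hd
    field_simp
    linear_combination hd⟩
  obtain ⟨k, hk⟩ := hb
  refine ⟨⟨ϖ, h.uni⟩, fun s t hn => ?_, -k - 1, by rw [v_od b0, hk]; congr 1; ring⟩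
  obtain ⟨z, A, B, hp, rfl, rfl⟩ := ex_prim (v := v) (A := s) (B := t) (by
    by_contra hh
    exact hn (by simp [not_not.1 (not_or.1 hh).1, not_not.1 (not_or.1 hh).2]))
  have := hi.norm hω.int hp
  refine ⟨-od v (z : K), ?_⟩
  rw [show ((z : K) * A) ^ 2 - a * (z * B) ^ 2 = z ^ 2 * (A ^ 2 + A * B * (!![0, a; 1, 0]).trace +
    B ^ 2 * (!![0, a; 1, 0]).det) by simp [Matrix.det_fin_two]; ring, map_mul, this, mul_one,
    map_pow, v_od z.ne_zero, ← exp_nsmul]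
  simp

end

end Vale.Agent.P022K.Sh.Orb
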