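import Vale.Agent.P022K.F0.OrbG

/-!
# P022K, block F0, row ORB: the counts on the tree (inert and split tori)
-/

set_option autoImplicit false

open scoped MatrixGroups WithZero
open WithZero Matrix

noncomputable section

namespace Vale.Agent.P022K.Sh.Orb

variable {K : Type} [Field K] {v : Valuation K ℤᵐ⁰} {ϖ : Kˣ} {ω : Matrix (Fin 2) (Fin 2) K}
  {q : ℕ}

theorem ex_prim {A B : K} (h : A ≠ 0 ∨ B ≠ 0) :
    ∃ (z : Kˣ) (a b : K), Prim v a b ∧ A = z * a ∧ B = z * b := by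
  rcases le_total (v B) (v A) with e | e
  · have hA : A ≠ 0 := fun h0 => by
      rw [h0, map_zero, le_zero_iff, map_eq_zero] at e
      exact h.elim (· h0) (· e)
    exact ⟨Units.mk0 A hA, 1, B / A, ⟨by simp, by
      rw [map_div₀]; exact div_le_one_of_le₀ e zero_le, Or.inl (by simp)⟩, by simp, by
      simp [mul_div_cancel₀ _ hA]⟩
  · have hB : B ≠ 0 := fun h0 => by
      rw [h0, map_zero, le_zero_iff, map_eq_zero] at e
      exact h.elim (· e) (· h0)
    exact ⟨Units.mk0 B hB, A / B, 1, ⟨by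
      rw [map_div₀]; exact div_le_one_of_le₀ e zero_le, by simp, Or.inr (by simp)⟩, by
      simp [mul_div_cancel₀ _ hB], by simp⟩

theorem tor_lin (hr : ω 1 0 ≠ 0) {t : GL (Fin 2) K} (ht : t ∈ Tor ω) :
    ∃ A B : K, t.val = A • (1 : Matrix (Fin 2) (Fin 2) K) + B • ω := by
  obtain ⟨p, u, r, s, rfl⟩ := ex_ent ω
  obtain ⟨a, b, c, d, hg⟩ := ex_ent t.val
  have hr : r ≠ 0 := by simpa using hr
  rw [mem_Tor, hg, Matrix.mul_fin_two, Matrix.mul_fin_two] at ht
  have h1 : a * p + b * r = p * a + u * c := by simpa using congrFun (congrFun ht 0) 0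
  have h2 : c * p + d * r = r * a + s * c := by simpa using congrFun (congrFun ht 1) 0
  refine ⟨a - c / r * p, c / r, ?_⟩
  rw [hg]
  ext i j
  fin_cases i <;> fin_cases j <;> simp <;> field_simp
  · linear_combination h1
  · linear_combination h2

variable (v) in
/-- the characteristic polynomial has no root modulo `ϖ` -/
def Ine (ω : Matrix (Fin 2) (Fin 2) K) : Prop :=
  ∀ x, v x ≤ 1 → v (x ^ 2 - ω.trace * x + ω.det) = 1

theorem Ine.norm (hi : Ine v ω) (h : IM v ω) {a b : K} (hp : Prim v a b) :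
    v (a ^ 2 + a * b * ω.trace + b ^ 2 * ω.det) = 1 := by
  rcases hp.hb.eq_or_lt with hb | hb
  · have h0 : b ≠ 0 := fun e => by simp [e] at hb
    rw [show a ^ 2 + a * b * ω.trace + b ^ 2 * ω.det =
      b ^ 2 * ((-(a / b)) ^ 2 - ω.trace * (-(a / b)) + ω.det) by field_simp; ring, map_mul,
      hi _ (by rw [Valuation.map_neg, map_div₀, hb, div_one]; exact hp.ha), map_pow, hb]
    simp
  · have ha : v a = 1 := hp.or.resolve_right hb.ne
    rw [show a ^ 2 + a * b * ω.trace + b ^ 2 * ω.det =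
      a ^ 2 + b * (a * ω.trace + b * ω.det) by ring, v.map_add_eq_of_lt_left, map_pow, ha, one_pow]
    rw [map_pow, ha, one_pow]
    exact v_mul_lt hb (v.map_add_le (v_mul_le hp.ha h.trace) (v_mul_le hp.hb h.det))

theorem Ine.ent (hi : Ine v ω) (h : IM v ω) : v (ω 1 0) = 1 := by
  have := hi _ (h 0 0)
  rw [trace_fin_two, det_fin_two, show ω 0 0 ^ 2 - (ω 0 0 + ω 1 1) * ω 0 0 +
    (ω 0 0 * ω 1 1 - ω 0 1 * ω 1 0) = -(ω 1 0 * ω 0 1) by ring, Valuation.map_neg] at this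
  exact (h 1 0).eq_or_lt.resolve_right fun hl => (v_mul_lt hl (h 0 1)).ne this

theorem Ine.tor_le (hi : Ine v ω) (h : IM v ω) : Tor ω ≤ ZV v := fun t ht => by
  obtain ⟨A, B, e⟩ := tor_lin (fun e => by simpa [e] using hi.ent h) ht
  obtain ⟨z, a, b, hp, rfl, rfl⟩ := ex_prim (v := v) (A := A) (B := B) (by
    by_contra hn
    rw [not_or, not_not, not_not] at hn
    exact t.det_ne_zero (by simp [e, hn.1, hn.2]))
  obtain ⟨γ0, rfl, h0⟩ := ex_unit (γ := t) (z := z) (a := a) (b := b) (ω := ω)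
    (by rw [e, smul_add, smul_smul, smul_smul])
  refine mul_mem (sc_mem z) (KV_le ⟨?_, ?_⟩) <;> rw [h0]
  · exact (IM.one.smul hp.ha).add (h.smul hp.hb)
  · rw [det_lin, hi.norm h hp]

theorem Wx_bx (p u r s : K) (c : Kˣ) (y : K) : Wx !![p, u; r, s] (bx c y) =
    !![p - r * y, (c : K)⁻¹ * (p * y + u - y * (r * y + s)); r * c, r * y + s] := by
  rw [Wx, bx_inv_val, bx_val, Matrix.mul_fin_two, Matrix.mul_fin_two]
  ext i j
  fin_cases i <;> fin_cases j <;> simp <;> field_simp <;> ring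

theorem im_iff {a b c d : K} :
    IM v !![a, b; c, d] ↔ v a ≤ 1 ∧ v b ≤ 1 ∧ v c ≤ 1 ∧ v d ≤ 1 :=
  ⟨fun h => ⟨by simpa using h 0 0, by simpa using h 0 1, by simpa using h 1 0,
    by simpa using h 1 1⟩, fun h => im_of h.1 h.2.1 h.2.2.1 h.2.2.2⟩

theorem Ine.in_bx (hϖ : v ϖ = exp (-1)) (hi : Ine v ω) (h : IM v ω) (N : ℕ) (n : ℤ) (y : K) :
    In v ω ((ϖ : K) ^ N) (bx (ϖ ^ n) y) ↔
      -N ≤ n ∧ n ≤ N ∧ v y ≤ exp (-((n + N + 1) / 2 - N)) := by
  have hr := hi.ent h
  obtain ⟨p, u, r, s, rfl⟩ := ex_ent ω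
  obtain ⟨hp, hu, -, hs⟩ := im_iff.1 h
  have hr : v r = 1 := by simpa using hr
  have hN : v ((ϖ : K) ^ N) ≤ 1 := by rw [v_pow hϖ, ← exp_zero, exp_le_exp]; omega
  have hQ : v (p * y + u - y * (r * y + s)) = max 1 (v y ^ 2) := by
    rcases le_or_gt (v y) 1 with hy | hy
    · have := hi (r * y + s) (v.map_add_le (v_mul_le hr.le hy) hs)
      rw [trace_fin_two_of, det_fin_two_of, show (r * y + s) ^ 2 - (p + s) * (r * y + s) +
        (p * s - u * r) = -(r * (p * y + u - y * (r * y + s))) by ring, Valuation.map_neg, map_mul,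
        hr, one_mul] at this
      rw [this, max_eq_left (pow_le_one' hy 2)]
    · have h0 : 0 < v y := zero_lt_one.trans hy
      have h1 : v y < v y ^ 2 := by
        rw [pow_two]; exact lt_mul_of_one_lt_right h0 hy
      rw [max_eq_right (hy.trans h1).le, show p * y + u - y * (r * y + s) =
        -(r * y ^ 2) + ((p - s) * y + u) by ring, v.map_add_eq_of_lt_left] <;>
        rw [Valuation.map_neg, map_mul, hr, one_mul, map_pow]
      refine v.map_add_lt ?_ (hu.trans_lt (hy.trans h1))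
      rw [map_mul]
      exact (mul_le_of_le_one_left' (v.map_sub_le hp hs)).trans_lt h1
  have e1 : v ((ϖ : K) ^ N * (r * y + s)) ≤ 1 ↔ v ((ϖ : K) ^ N * y) ≤ 1 := by
    have e : v ((ϖ : K) ^ N * y) = v ((ϖ : K) ^ N * (r * y)) := by simp [hr]
    rw [e, mul_add]
    exact ⟨fun h => by simpa using v.map_sub_le h (v_mul_le hN hs),
      fun h => v.map_add_le h (v_mul_le hN hs)⟩
  have e2 : v ((ϖ : K) ^ N * y) ≤ 1 → v ((ϖ : K) ^ N * (p - r * y)) ≤ 1 := fun h => by
    rw [mul_sub, mul_left_comm]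
    exact v.map_sub_le (v_mul_le hN hp) (v_mul_le hr.le h)
  rw [In, Wx_bx, Matrix.smul_of, Matrix.smul_cons, Matrix.smul_cons, Matrix.smul_cons,
    Matrix.smul_cons, Matrix.smul_cons, Matrix.smul_cons]
  simp only [Matrix.smul_empty, smul_eq_mul]
  rw [im_iff, e1, and_iff_right_of_imp fun h => e2 h.2.2]
  simp only [map_mul, map_inv₀, hQ, v_pow hϖ, v_zpow hϖ, hr, one_mul, mul_max, max_le_iff,
    mul_one, ← exp_neg, ← exp_add]
  by_cases hy : y = 0
  · simp only [hy, map_zero, ← exp_zero (M := ℤ), exp_le_exp, ne_eq, OfNat.ofNat_ne_zero,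
      not_false_eq_true, zero_pow, mul_zero, zero_le, and_true]
    omega
  · obtain ⟨k, hk⟩ := ex_exp (v := v) hy
    simp only [hk, ← exp_nsmul, ← exp_add, ← exp_zero (M := ℤ), exp_le_exp, nsmul_eq_mul]
    omega

theorem alt_sum (x : ℂ) (N : ℕ) :
    ∑ j ∈ Finset.range (2 * N + 1), (-1) ^ j * x ^ (j / 2) = x ^ N := by
  induction N with
  | zero => simp
  | succ N ih =>
    rw [show 2 * (N + 1) + 1 = 2 * N + 1 + 1 + 1 by ring, Finset.sum_range_succ,
      Finset.sum_range_succ, ih, show (2 * N + 1) / 2 = N by omega,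
      show (2 * N + 1 + 1) / 2 = N + 1 by omega, pow_succ (-1 : ℂ) (2 * N + 1), pow_succ (-1 : ℂ),
      pow_mul]
    simp

/-- **the inert torus** -/
theorem sec_inert (hϖ : v ϖ = exp (-1)) (hq : Cnt v q) (h : IM v ω) (hi : Ine v ω) :
    Sec v ϖ ω (-1) (-q) Set.univ := by
  classical
  refine ⟨fun y => ⟨1, one_mem _, trivial⟩, fun t ht r _ => by simpa using hi.tor_le h ht,
    fun N => ?_, fun x _ hx => ?_, trivial⟩
  · choose s hs hr using fun j : ℕ => hq.rp hϖ ((j + 1) / 2 - N) (j / 2)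
    have ej : ∀ j : ℕ, ((j : ℤ) + 1) / 2 - N + ((j / 2 : ℕ) : ℤ) = j - N := fun j => by omega
    simp only [ej] at hr
    refine ⟨((Finset.range (2 * N + 1)).sigma s).image fun p =>
      (bx (ϖ ^ ((p.1 : ℤ) - N)) p.2 : GL (Fin 2) K ⧸ ZV v), fun x => ?_, ?_⟩
    · rw [Finset.mem_image, and_iff_right (Set.mem_univ _)]
      constructor
      · rintro ⟨⟨j, y⟩, hp, e⟩
        obtain ⟨h1, h2⟩ := Finset.mem_sigma.1 hp
        have h1 : j < 2 * N + 1 := Finset.mem_range.1 h1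
        dsimp only at e h2
        rw [← In.quot e, hi.in_bx hϖ h]
        refine ⟨by omega, by omega, ?_⟩
        rw [sub_add_cancel]
        exact (hr j).le y h2
      · intro hx
        obtain ⟨n, y, e⟩ := iwa hϖ x
        rw [In.quot e, hi.in_bx hϖ h] at hx
        obtain ⟨j, rfl⟩ : ∃ j : ℕ, n = j - N := ⟨(n + N).toNat, by omega⟩
        rw [sub_add_cancel] at hx
        obtain ⟨r, h1, h2⟩ := (hr j).ex y hx.2.2
        refine ⟨⟨j, r⟩, Finset.mem_sigma.2 ⟨Finset.mem_range.2 (by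
          show j < 2 * N + 1; omega), h1⟩, ?_⟩
        rw [e]
        exact bx_eq.2 ⟨rfl, by rwa [v_zpow hϖ]⟩
    · rw [Finset.sum_image, Finset.sum_sigma, neg_pow (q : ℂ), ← alt_sum (q : ℂ) N, Finset.mul_sum]
      · refine Finset.sum_congr rfl fun j _ => ?_
        rw [Finset.sum_congr rfl (g := fun _ => (-1 : ℂ) ^ N * (-1) ^ j) fun y _ => ?_,
          Finset.sum_const, hs, nsmul_eq_mul]
        · push_cast; ring
        · rw [sg_quot (by norm_num) (QuotientGroup.out_eq' _), sg, bx_det, v_zpow hϖ, log_exp,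
            neg_sub, zpow_sub₀ (by norm_num), zpow_natCast, zpow_natCast, div_eq_mul_inv,
            ← inv_pow, inv_neg_one]
      · rintro ⟨j, y⟩ h1 ⟨j', y'⟩ h2 e
        obtain ⟨e1, e2⟩ := bx_eq.1 e
        rw [v_zpow hϖ] at e2
        rw [v_zpow hϖ, v_zpow hϖ, exp_inj] at e1
        obtain rfl : j = j' := by
          have : -((j : ℤ) - N) = -((j' : ℤ) - N) := e1
          omega
        have h1 := (Finset.mem_sigma.1 (Finset.mem_coe.1 h1)).2
        have h2 := (Finset.mem_sigma.1 (Finset.mem_coe.1 h2)).2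
        obtain rfl : y' = y := (hr j).un y' h2 y h1 e2
        rfl
  · obtain ⟨n, y, e⟩ := iwa hϖ x
    rw [In.quot e, ← pow_zero (ϖ : K), hi.in_bx hϖ h] at hx
    obtain rfl : n = 0 := by omega
    have : bx (ϖ ^ (0 : ℤ)) y ∈ ZV v := bx_mem_ZV.2 ⟨by simp, by simpa using hx.2.2⟩
    simpa using mul_mem this (QuotientGroup.eq.1 e.symm)

theorem tor_diag {α β : K} (h : α ≠ β) {t : GL (Fin 2) K} (ht : t ∈ Tor !![α, 0; 0, β]) :
    ∃ z c : Kˣ, t = sc z * bx c 0 := by
  obtain ⟨a, b, c, d, hg⟩ := ex_ent t.val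
  rw [mem_Tor, hg, Matrix.mul_fin_two, Matrix.mul_fin_two] at ht
  have h1 : b * β = α * b := by simpa using congrFun (congrFun ht 0) 1
  have h2 : c * α = β * c := by simpa using congrFun (congrFun ht 1) 0
  obtain rfl : b = 0 := (mul_eq_zero.1 (show b * (α - β) = 0 by linear_combination -h1)).resolve_right
    (sub_ne_zero.2 h)
  obtain rfl : c = 0 := (mul_eq_zero.1 (show c * (α - β) = 0 by linear_combination h2)).resolve_right
    (sub_ne_zero.2 h)
  have hd : a * d ≠ 0 := by simpa [hg, det_fin_two] using t.det_ne_zero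
  have ha := left_ne_zero_of_mul hd
  have hd := right_ne_zero_of_mul hd
  refine ⟨Units.mk0 d hd, Units.mk0 (a / d) (div_ne_zero ha hd), Units.ext ?_⟩
  rw [sc_mul_val, bx_val, hg]
  ext i j
  fin_cases i <;> fin_cases j <;> simp [mul_div_cancel₀ _ hd]

theorem mk_sc (z : Kˣ) (x : GL (Fin 2) K) :
    ((sc z * x : GL (Fin 2) K) : GL (Fin 2) K ⧸ ZV v) = x := by
  rw [sc_comm, QuotientGroup.mk_mul_of_mem _ (sc_mem z)]

theorem sec_diag (hϖ : v ϖ = exp (-1)) (hq : Cnt v q) {α β : K} (ha : v α ≤ 1) (hb : v β ≤ 1)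
    (hd : v (α - β) = 1) : Sec v ϖ !![α, 0; 0, β] 1 q {y | ∃ u : K, y = bx 1 u} := by
  classical
  have hne : α ≠ β := fun e => by simp [e] at hd
  have key : ∀ (N : ℕ) (u : K), In v !![α, 0; 0, β] ((ϖ : K) ^ N) (bx 1 u) ↔ v u ≤ exp (N : ℤ) :=
    fun N u => by
      have hN : v ((ϖ : K) ^ N) ≤ 1 := by rw [v_pow hϖ, ← exp_zero, exp_le_exp]; omega
      have e : (ϖ : K) ^ N • Wx !![α, 0; 0, β] (bx 1 u) =
          !![ϖ ^ N * α, ϖ ^ N * ((α - β) * u); 0, ϖ ^ N * β] := by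
        rw [Wx_bx]
        ext i j
        fin_cases i <;> fin_cases j <;> simp [sub_mul, mul_comm u]
      rw [In, e, im_iff, and_iff_right (v_mul_le hN ha), and_iff_left ⟨by simp, v_mul_le hN hb⟩,
        map_mul, map_mul, hd, one_mul, v_pow hϖ, exp_neg, inv_mul_le_iff₀ exp_pos, mul_one]
  refine ⟨fun y => ?_, fun t ht r hr => ?_, fun N => ?_, fun x hx h => ?_, ⟨0, by rw [bx_one]⟩⟩
  · obtain ⟨x, rfl⟩ := QuotientGroup.mk_surjective y
    obtain ⟨c, u, e⟩ := iwa0 (v := v) x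
    refine ⟨bx c⁻¹ 0, ?_, (c⁻¹ : Kˣ) * u, by rw [e, smul_mk, bx_mul]; simp⟩
    rw [mem_Tor, bx_val, Matrix.mul_fin_two, Matrix.mul_fin_two]
    simp [mul_comm]
  · obtain ⟨u, rfl⟩ := hr
    obtain ⟨z, c, rfl⟩ := tor_diag hne ht
    rw [smul_mk, mul_assoc, mk_sc, bx_mul, (ZV v).mul_mem_cancel_left (sc_mem z), bx_mem_ZV]
    constructor
    · rintro ⟨u', e⟩
      exact ⟨by simpa using (bx_eq.1 e).1, by simp⟩
    · exact fun h => ⟨_, bx_eq.2 ⟨by simpa using h.1, by rw [sub_self]; simp⟩⟩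
  · obtain ⟨s, hs, hr⟩ := hq.rp hϖ (-N) N
    refine ⟨s.image fun u => (bx 1 u : GL (Fin 2) K ⧸ ZV v), fun x => ?_, ?_⟩
    · rw [Finset.mem_image]
      constructor
      · rintro ⟨u, hu, e⟩
        exact ⟨⟨u, e.symm⟩, (In.quot e).1 ((key N u).2 (by simpa using hr.le u hu))⟩
      · rintro ⟨⟨u, e⟩, hx⟩
        obtain ⟨r, h1, h2⟩ := hr.ex u (by simpa using (key N u).1 ((In.quot e).1 hx))
        exact ⟨r, h1, (bx_eq.2 ⟨rfl, by simpa using h2⟩).trans e.symm⟩
    · rw [Finset.sum_image]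
      · simp [sg, hs]
      · intro u h1 u' h2 e
        exact (hr.un u' h2 u h1 (by simpa using (bx_eq.1 e).2)).symm
  · obtain ⟨u, e⟩ := hx
    rw [In.quot e, ← pow_zero (ϖ : K), key] at h
    have : bx 1 u ∈ ZV v := bx_mem_ZV.2 ⟨by simp, by simpa using h⟩
    simpa using mul_mem this (QuotientGroup.eq.1 e.symm)

theorem Sec.conj {ε κ : ℂ} (hε : ε ^ 2 = 1) {P : Set (GL (Fin 2) K ⧸ ZV v)} {k : GL (Fin 2) K}
    (hk : k ∈ ZV v) (h : Sec v ϖ (Wx ω k) ε κ P) : Sec v ϖ ω ε κ {y | k⁻¹ • y ∈ P} := by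
  classical
  have hT : ∀ t, t ∈ Tor ω ↔ k⁻¹ * t * k ∈ Tor (Wx ω k) := fun t => by
    simp only [mem_Tor, Wx, Units.val_mul, mul_assoc, Units.mul_inv_cancel_left,
      Units.mul_right_inj]
    rw [← mul_assoc, ← mul_assoc, Units.mul_left_inj]
  have hI : ∀ b x, In v (Wx ω k) b (k⁻¹ * x) ↔ In v ω b x := fun b x => by
    rw [In, ← Wx_mul, mul_inv_cancel_left, In]
  refine ⟨fun y => ?_, fun t ht r hr => ?_, fun N => ?_, fun x hx h' => ?_, ?_⟩
  · obtain ⟨t, ht, e⟩ := h.cov (k⁻¹ • y)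
    exact ⟨k * t * k⁻¹, (hT _).2 (by simpa [mul_assoc] using ht), by simpa [mul_smul] using e⟩
  · have := h.stab _ ((hT t).1 ht) _ hr
    rw [(ZV v).mul_mem_cancel_right hk, (ZV v).mul_mem_cancel_left (inv_mem hk)] at this
    rw [← this]
    simp [mul_smul]
  · obtain ⟨R, h1, h2⟩ := h.cnt N
    refine ⟨R.image (k • ·), fun x => ?_, ?_⟩
    · rw [← hI, Set.mem_ofPred_eq, smul_mk, ← h1, Finset.mem_image]
      constructor
      · rintro ⟨y, hy, e⟩
        rwa [← smul_mk, ← e, inv_smul_smul]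
      · exact fun hx => ⟨_, hx, by rw [smul_mk, mul_inv_cancel_left]⟩
    · rw [Finset.sum_image fun a _ b _ e => MulAction.injective k e, ← h2]
      refine Finset.sum_congr rfl fun r _ => ?_
      rw [sg_quot hε (y := k * r.out) (by
        rw [QuotientGroup.out_eq', ← smul_mk, QuotientGroup.out_eq']), sg_mul hε, sg_ZV hε hk,
        one_mul]
  · exact ((ZV v).mul_mem_cancel_left (inv_mem hk)).1 (h.base _ hx ((hI _ _).2 h'))
  · rw [Set.mem_ofPred_eq, smul_mk, mul_one]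
    convert h.one using 1
    rw [eq_comm, QuotientGroup.eq]
    simpa using hk

theorem ex_diag (h : IM v ω) {α β : K} (ha : v α ≤ 1) (hb : v β ≤ 1) (hd : v (α - β) = 1)
    (ht : ω.trace = α + β) (hn : ω.det = α * β) : ∃ k ∈ KV v, Wx ω k = !![α, 0; 0, β] := by
  obtain ⟨p, u, r, s, rfl⟩ := ex_ent ω
  obtain ⟨hp, hu, hr, hs⟩ := im_iff.1 h
  rw [trace_fin_two_of] at ht
  rw [det_fin_two_of] at hn
  have key : ∀ A : Matrix (Fin 2) (Fin 2) K, IM v A → v A.det = 1 →
      !![p, u; r, s] * A = A * !![α, 0; 0, β] → ∃ k ∈ KV v, Wx !![p, u; r, s] k = !![α, 0; 0, β] :=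
    fun A h1 h2 h3 => ⟨Matrix.GeneralLinearGroup.mkOfDetNeZero A fun e => by simp [e] at h2,
      ⟨h1, h2⟩, by rw [Wx, mul_assoc, Units.inv_mul_eq_iff_eq_mul]; exact h3⟩
  have hd' : v (β - α) = 1 := by rwa [Valuation.map_sub_swap]
  by_cases e : v (p - β) = 1
  · refine key !![p - β, u; r, s - α] (im_of e.le hu hr (v.map_sub_le hs ha)) ?_ ?_
    · rw [det_fin_two_of, show (p - β) * (s - α) - u * r = (p - β) * (β - α) by
        linear_combination hn - β * ht, map_mul, e, hd', one_mul]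
    · rw [Matrix.mul_fin_two, Matrix.mul_fin_two]
      ext i j
      fin_cases i <;> fin_cases j <;> simp
      · linear_combination p * ht - hn
      · linear_combination u * ht
      · linear_combination r * ht
      · linear_combination s * ht - hn
  · have e' : v (p - α) = 1 := by
      rw [show p - α = β - α + (p - β) by ring, v.map_add_eq_of_lt_left, hd']
      rw [hd']
      exact lt_of_le_of_ne (v.map_sub_le hp hb) e
    refine key !![u, p - α; s - β, r] (im_of hu e'.le (v.map_sub_le hs hb) hr) ?_ ?_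
    · rw [det_fin_two_of, show u * r - (p - α) * (s - β) = (p - α) * (β - α) by
        linear_combination α * ht - hn, map_mul, e', hd', one_mul]
    · rw [Matrix.mul_fin_two, Matrix.mul_fin_two]
      ext i j
      fin_cases i <;> fin_cases j <;> simp
      · linear_combination u * ht
      · linear_combination p * ht - hn
      · linear_combination s * ht - hn
      · linear_combination r * ht

/-- **the split torus** -/
theorem sec_split (hϖ : v ϖ = exp (-1)) (hq : Cnt v q) (h : IM v ω) {α β : K} (ha : v α ≤ 1)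
    (hb : v β ≤ 1) (hd : v (α - β) = 1) (ht : ω.trace = α + β) (hn : ω.det = α * β) :
    ∃ P, Sec v ϖ ω 1 q P := by
  obtain ⟨k, hk, e⟩ := ex_diag h ha hb hd ht hn
  exact ⟨_, Sec.conj (by norm_num) (KV_le hk) (e ▸ sec_diag hϖ hq ha hb hd)⟩

end Vale.Agent.P022K.Sh.Orb
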