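import Vale.Agent.P022K.F0.Dic
import Vale.Agent.P022K.F0.OrbB

/-!
# P022K, block F0: the row PRD (helper80)
-/

set_option autoImplicit false

open NumberField IsDedekindDomain
open scoped MatrixGroups

noncomputable section

namespace Vale.Agent.P022K.Sh

open Vale.Agent.P022K.F0 Tor Orb Dc
open Vale.Agent.P022.C (ordv)

namespace Prd

section transport

variable {H H' Y Y' : Type} [Group H] [Group H'] [MulAction H Y] [MulAction H' Y'] (e : H ≃* H')
  (q : Y ≃ Y') (hq : ∀ (t : H) y, q (t • y) = e t • q y) {T T1 : Subgroup H}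
  {T' T1' : Subgroup H'} (hT : ∀ t, t ∈ T ↔ e t ∈ T') (hT1 : ∀ t, t ∈ T1 ↔ e t ∈ T1')
  {φ : Y → ℂ}
include hq hT hT1

theorem orb_eq {val : ℂ} (h : HasOrb T' T1' (φ ∘ q.symm) val) : HasOrb T T1 φ val := by
  obtain ⟨R, h1, h2, rfl⟩ := h
  refine ⟨R.map q.symm.toEmbedding, fun y hy => ?_, fun t ht r hr => ?_, Finset.sum_map ..⟩
  · obtain ⟨t, ht, k⟩ := h1 (q y) (by simpa using hy)
    obtain ⟨t, rfl⟩ := e.surjective t
    exact ⟨t, (hT t).2 ht, by simpa [hq] using k⟩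
  · rw [hT1, ← h2 _ ((hT t).1 ht) (q r) (by simpa using hr)]
    simp [hq]

theorem base_eq {y0 : Y} (h : Base T' T1' (φ ∘ q.symm) (q y0)) : Base T T1 φ y0 := by
  obtain ⟨h1, h2, h3⟩ := h
  refine ⟨fun y hy => ?_, fun t ht => ?_, by simpa using h3⟩
  · obtain ⟨t, ht, k⟩ := h1 (q y) (by simpa using hy)
    obtain ⟨t, rfl⟩ := e.surjective t
    exact ⟨t, (hT t).2 ht, q.injective (by rwa [hq])⟩
  · rw [hT1, ← h2 _ ((hT t).1 ht), ← hq, q.injective.eq_iff]

end transport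

variable {F : Type} [Field F] [NumberField F] {X : QD F}

variable (X) in
/-- the standard splitting at a place prime to `2 a b` -/
structure Std (w : Pl F) (σ : (X.Dw w)ˣ ≃* GL (Fin 2) (Fw w))
    (ω : Matrix (Fin 2) (Fin 2) (Fw w)) : Prop where
  U : ∀ u, u ∈ X.U0 w ↔ σ u ∈ ZV (vw w)
  T : ∀ u, u ∈ X.Tl w ↔ σ u ∈ Tor ω
  Q : ∀ u, u ∈ X.Tq w ↔ σ u ∈ TV (vw w)
  det : ∀ u, (σ u).val.det = nrd (u : X.Dw w)
  lin : ∀ u ∈ X.Tl w, (σ u).val =
    (u : X.Dw w).re • (1 : Matrix (Fin 2) (Fin 2) (Fw w)) + (u : X.Dw w).imI • ω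
  tr : ω.trace = 0
  dt : ω.det = -algebraMap (𝓞 F) (Fw w) X.a
  et : Et (vw w) ω

theorem v_one {w : Pl F} {r : 𝓞 F} (h : r ∉ w.asIdeal) : vw w (algebraMap (𝓞 F) (Fw w) r) = 1 := by
  rw [vw, v_int]
  exact HeightOneSpectrum.intValuation_eq_one_iff.2 h

theorem ex_std' {w : Pl F} (h : 2 * X.a * X.b ∉ w.asIdeal) :
    ∃ (s : X.Dw w ≃ₐ[Fw w] Matrix (Fin 2) (Fin 2) (Fw w)) (ω : _),
      Std X w (Units.mapEquiv s.toMulEquiv) ω := by
  obtain ⟨s, hs⟩ := X.loc_two w h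
  have ha := LocA.alg_ne (w := w) X.a0
  have hb := LocA.alg_ne (w := w) X.b0
  have ov : Fuj.Over (RingHom.id (Fw w)) (s : X.Dw w →+* Matrix (Fin 2) (Fin 2) (Fw w)) :=
    fun c => s.commutes c
  have im : ∀ x, x ∈ X.ODw w ↔ IM (vw w) (s x) := hs
  have dt : ∀ x, (s x).det = nrd x := fun x => (ov.det ha hb x).trans (nrd_eq x).symm
  let σ : (X.Dw w)ˣ ≃* GL (Fin 2) (Fw w) := Units.mapEquiv s.toMulEquiv
  have vσ : ∀ u, (σ u).val = s u := fun _ => rfl
  have t0 : (s (Fuj.qi _ _)).trace = 0 := ov.tr_i hb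
  have d0 : (s (Fuj.qi _ _)).det = -algebraMap (𝓞 F) (Fw w) X.a := by
    simp [dt, nrd_eq, Fuj.nrd, Fuj.qi]
  refine ⟨s, s (Fuj.qi _ _), ?_⟩
  change Std X w σ _
  refine ⟨fun u => ⟨fun k => ?_, fun k => ?_⟩, fun u => ?_, fun u => ?_,
    fun u => dt _, fun u hu => ?_, t0, d0, (im _).1 (mem_qint.2 ?_), ?_⟩
  · refine (show X.U0 w ≤ (ZV (vw w)).comap σ.toMonoidHom from sup_le (fun z hz => ?_)
      fun z hz => KV_le ?_) k
    · obtain ⟨c, c0, e⟩ := cen hz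
      have : σ z = Orb.sc (Units.mk0 c c0) * 1 := Units.ext (by
        rw [sc_mul_val, vσ, e, s.commutes, Algebra.algebraMap_eq_smul_one]; rfl)
      show σ z ∈ ZV (vw w)
      rw [this, mul_one]
      exact sc_mem _
    · obtain ⟨h1, h2⟩ := (Submonoid.mem_units_iff _ _).1 hz
      have h1 := (im _).1 h1
      have h2 := ((im _).1 h2).det
      refine ⟨h1, le_antisymm h1.det ?_⟩
      have e : vw w (s z).det * vw w (s (z⁻¹ : (X.Dw w)ˣ)).det = 1 := by
        rw [← map_mul, ← Matrix.det_mul, ← map_mul, Units.mul_inv, map_one, Matrix.det_one,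
          map_one]
      exact e ▸ mul_le_of_le_one_right' h2
  · obtain ⟨z, k, hk, e⟩ := ZV_dec k
    obtain ⟨k, rfl⟩ := σ.surjective k
    obtain ⟨y, hy⟩ := σ.surjective (Orb.sc z)
    rw [← hy, ← map_mul, σ.injective.eq_iff] at e
    rw [e]
    refine mul_mem (Subgroup.mem_sup_left (Subgroup.mem_center_iff.2 fun g => σ.injective ?_))
      (Subgroup.mem_sup_right ((Submonoid.mem_units_iff _ _).2
        ⟨(im _).2 hk.1, (im _).2 (inv_mem hk).1⟩))
    rw [map_mul, map_mul, hy, Orb.sc_comm]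
  · rw [mem_Tl, ← comm_i (.mk0 _ two_ne_zero) (.mk0 _ ha), mem_Tor, vσ, ← map_mul, ← map_mul,
      s.injective.eq_iff]
  · constructor
    · rintro ⟨c, h1, h2⟩
      have c0 : c ≠ 0 := fun e => by
        rw [e, zero_smul, nrd_eq, Fuj.nrd_zero, map_zero] at h2
        exact WithZero.exp_ne_zero h2.symm
      refine ⟨Units.mk0 c c0, ?_⟩
      rw [sc_mul_val, vσ, Units.val_mk0, ← map_smul, dt]
      exact ⟨(im _).1 h1, h2⟩
    · rintro ⟨z, k⟩
      rw [sc_mul_val, vσ, ← map_smul, dt] at k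
      exact ⟨z, (im _).2 k.1, k.2⟩
  · rw [vσ, ← map_one s, ← map_smul, ← map_smul, ← map_add]
    congr 1
    ext <;> simp [Fuj.qi, (mem_Tl.1 hu).1, (mem_Tl.1 hu).2]
  · exact ⟨zero_mem _, one_mem _, zero_mem _, zero_mem _⟩
  · rw [t0, d0, show (0 : Fw w) ^ 2 - 4 * -algebraMap (𝓞 F) (Fw w) X.a =
      algebraMap (𝓞 F) (Fw w) (2 * (2 * X.a)) by simp only [map_mul, map_ofNat]; ring]
    refine v_one fun k => h (Ideal.mul_mem_right _ _ ?_)
    exact (w.isPrime.mem_or_mem k).elim (Ideal.mul_mem_right _ _) id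

theorem ex_std {w : Pl F} (h : 2 * X.a * X.b ∉ w.asIdeal) : ∃ σ ω, Std X w σ ω :=
  let ⟨_, _, k⟩ := ex_std' h
  ⟨_, _, k⟩

theorem ap_ne {w : Pl F} (η : (Fw w)ˣ →* ℂˣ) {x : Fw w} (h : x ≠ 0) :
    QD.ap η x = η (Units.mk0 x h) := dif_neg h

theorem nrd_ne {w : Pl F} (u : (X.Dw w)ˣ) : nrd (u : X.Dw w) ≠ 0 :=
  nrd_eq (u : X.Dw w) ▸ ((Fuj.isUnit_iff_nrd _).1 u.isUnit).ne_zero

theorem ap_mul {w : Pl F} (η : (Fw w)ˣ →* ℂˣ) (u k : (X.Dw w)ˣ) :
    QD.ap η (nrd ((u * k : (X.Dw w)ˣ) : X.Dw w)) =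
      QD.ap η (nrd (u : X.Dw w)) * QD.ap η (nrd (k : X.Dw w)) := by
  rw [ap_ne η (nrd_ne _), ap_ne η (nrd_ne _), ap_ne η (nrd_ne _), ← Units.val_mul, ← map_mul]
  congr 2
  ext
  simp [nrd_eq, Fuj.nrd_mul]

open Classical in
variable (X) in
/-- the standard local function -/
def ind (W : Finset (Pl F)) (w : Pl F) (u : (X.Dw w)ˣ) : ℂ :=
  if (if w ∈ W then u ∈ X.Tq w else u ∈ X.U0 w) then 1 else 0

/-- the integrand on the cosets -/
def fq {w : Pl F} (η : (Fw w)ˣ →* ℂˣ) (V : Subgroup (X.Dw w)ˣ) (g : (X.Dw w)ˣ → ℂ)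
    (γ : (X.Dw w)ˣ) (y : (X.Dw w)ˣ ⧸ V) : ℂ :=
  QD.ap η (nrd (y.out : X.Dw w)) * g (y.out⁻¹ * γ * y.out)

theorem fq_mk {w : Pl F} {η : (Fw w)ˣ →* ℂˣ} {V : Subgroup (X.Dw w)ˣ} {g : (X.Dw w)ˣ → ℂ}
    (h1 : ∀ k ∈ V, QD.ap η (nrd (k : X.Dw w)) = 1) (h2 : ∀ k ∈ V, ∀ z, g (k⁻¹ * z * k) = g z)
    (γ u : (X.Dw w)ˣ) : fq η V g γ u = QD.ap η (nrd (u : X.Dw w)) * g (u⁻¹ * γ * u) := by
  obtain ⟨k, e⟩ := QuotientGroup.mk_out_eq_mul V u
  rw [fq, e, ap_mul, h1 k k.2, mul_one, ← h2 k k.2 (u⁻¹ * γ * u)]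
  congr 2
  group

variable {E : Type} [Field E] [NumberField E] [Algebra F E] {C : CM F E} {ε : E →ₐ[F] X.D}
  {Ψ : Pl E → ℂˣ} {η : ∀ w : Pl F, (Fw w)ˣ →* ℂˣ}

omit [NumberField E] in
theorem sec {w : Pl F} (kp : Kp C Ψ) (hw : (C.D : 𝓞 F) ∉ w.asIdeal)
    {ω : Matrix (Fin 2) (Fin 2) (Fw w)} (tr : ω.trace = 0)
    (dt : ω.det = -algebraMap (𝓞 F) (Fw w) C.a) (et : Et (vw w) ω) :
    ((kap Ψ w : ℂ) / qw w) ^ 2 = 1 ∧ ∃ ϖ : (Fw w)ˣ, vw w ϖ = WithZero.exp (-1) ∧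
      ∃ P, Sec (vw w) ϖ ω ((kap Ψ w : ℂ) / qw w) (kap Ψ w) P := by
  obtain ⟨p, hp⟩ := P011.H519.exists_unif F w
  have cp : LocA.Cp (Oc w) (RingEquiv.refl (Fw w)) :=
    ⟨Subtype.val_injective, fun x => ⟨fun h => ⟨⟨x, h⟩, rfl⟩, fun ⟨o, e⟩ => by
      rw [show x = o from e.symm]; exact o.2⟩⟩
  have hV : Vd (Oc w) (vw w) (Units.mk0 (p : Fw w)
      ((Valuation.ne_zero_iff _).1 (hp ▸ WithZero.exp_ne_zero))) := ⟨cp.inj, cp.int, hp, cp.fin⟩
  have q0 : (qw w : ℂ) ≠ 0 := nr_ne w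
  have gd : C.Gd w ↔ ¬ Ine (vw w) ω := by
    simp only [Ine, tr, dt, zero_mul, sub_zero, ← sub_eq_add_neg]
    refine ⟨fun ⟨_, r, hr⟩ k => ?_, fun k => ⟨hw, ?_⟩⟩
    · have := k _ ((Ow w).algebraMap_mem r)
      rw [← map_pow, ← map_sub, vw, v_int, HeightOneSpectrum.intValuation_eq_one_iff] at this
      exact this hr
    · push Not at k
      obtain ⟨x, h1, h2⟩ := k
      obtain ⟨r, hr⟩ := dense_O h1 one_ne_zero
      refine ⟨r, by_contra fun n => h2 ?_⟩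
      have := v_one n
      rw [map_sub, map_pow] at this
      rw [show x ^ 2 - algebraMap (𝓞 F) (Fw w) C.a = algebraMap (𝓞 F) (Fw w) r ^ 2 -
        algebraMap (𝓞 F) (Fw w) C.a + (x - algebraMap (𝓞 F) (Fw w) r) *
          (x + algebraMap (𝓞 F) (Fw w) r) by ring, Valuation.map_add_eq_of_lt_left, this]
      rw [this]
      exact v_mul_lt hr (Valuation.map_add_le _ h1 ((Ow w).algebraMap_mem r))
  rcases hV.sec cp.cpl et with ⟨h1, h2⟩ | ⟨h1, P, h2⟩
  · rw [kp w hw, if_neg (by rwa [gd, not_not]), neg_div, div_self q0]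
    exact ⟨by norm_num, _, hV.uni, _, cp.qq_eq ▸ h2⟩
  · rw [kp w hw, if_pos (gd.2 h1), div_self q0]
    exact ⟨by norm_num, _, hV.uni, _, cp.qq_eq ▸ h2⟩

theorem od_alg (w : Pl F) (x : F) : od (vw w) (algebraMap F (Fw w) x) = ordv w x := by
  rw [od, vw, v_alg, ordv]

theorem ct_alg (w : Pl F) (s t : F) :
    ct (vw w) (algebraMap F (Fw w) s) (algebraMap F (Fw w) t) = mv w s t := by
  classical
  simp only [ct, mv, od_alg]
  exact if_congr (map_eq_zero _) rfl rfl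

omit [NumberField E] in
/-- the places prime to `D` -/
theorem lcl (hC : X.Cm C ε) (kp : Kp C Ψ) (hη : Eta C Ψ η) {w : Pl F}
    (hw : (C.D : 𝓞 F) ∉ w.asIdeal) (W : Finset (Pl F)) :
    (∀ k ∈ X.U0 w, QD.ap (η w) (nrd (k : X.Dw w)) = 1) ∧
    (∀ k ∈ X.U0 w, ∀ z, ind X W w (k⁻¹ * z * k) = ind X W w z) ∧
    ∀ γ ∈ X.Tl w, ∀ s t : F, t ≠ 0 → (γ : X.Dw w).re = algebraMap _ _ s →
      (γ : X.Dw w).imI = algebraMap _ _ t →
      HasOrb (X.Tl w) (X.Tl w ⊓ X.U0 w) (fq (η w) (X.U0 w) (ind X W w) γ) (C.Ov Ψ W s t w) ∧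
      (w ∉ W → vw w (algebraMap F _ s) ≤ 1 → vw w (algebraMap F _ t) = 1 →
        vw w (algebraMap F _ (s ^ 2 - C.a * t ^ 2)) = 1 → C.Ov Ψ W s t w = 1 ∧
        Base (X.Tl w) (X.Tl w ⊓ X.U0 w) (fq (η w) (X.U0 w) (ind X W w) γ) (1 : (X.Dw w)ˣ)) := by
  classical
  obtain ⟨σ, ω, h⟩ := ex_std (X := X) (w := w) fun k => by
    rcases w.isPrime.mem_or_mem k with k | k
    · rcases w.isPrime.mem_or_mem k with k | k
      · exact hw (w.asIdeal.mem_of_dvd (by exact_mod_cast Nat.cast_dvd_cast (α := 𝓞 F) C.D2) k)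
      · exact C.aD w hw (hC.a ▸ k)
    · exact hC.b w hw k
  obtain ⟨e2, ϖ, hϖ, P, hS⟩ := sec kp hw h.tr (hC.a ▸ h.dt) h.et
  have sgn : ∀ u : (X.Dw w)ˣ, QD.ap (η w) (nrd (u : X.Dw w)) =
      sg (vw w) ((kap Ψ w : ℂ) / qw w) (σ u) := fun u => by
    rw [ap_ne _ (nrd_ne u), hη.off w hw, sg, h.det, ow, zpow_neg, ← inv_zpow,
      inv_eq_of_mul_eq_one_left (by rw [← sq, e2]), Units.val_mk0]
  have h1 : ∀ k ∈ X.U0 w, QD.ap (η w) (nrd (k : X.Dw w)) = 1 := fun k hk => by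
    rw [sgn, sg_ZV e2 ((h.U k).1 hk)]
  have h2 : ∀ k ∈ X.U0 w, ∀ z, ind X W w (k⁻¹ * z * k) = ind X W w z := fun k hk z => by
    have hk' := (h.U k).1 hk
    refine if_congr (if_congr Iff.rfl (propext ?_) (propext ?_)).to_iff rfl rfl
    · rw [h.Q, h.Q, map_mul, map_mul, map_inv]
      exact ⟨fun m => by simpa [mul_assoc] using (TV_mul (TV_mul m (inv_mem hk')).1 hk').2,
        fun m => (TV_mul (TV_mul m (inv_mem hk')).2 hk').1⟩
    · rw [(X.U0 w).mul_mem_cancel_right hk, (X.U0 w).mul_mem_cancel_left (inv_mem hk)]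
  refine ⟨h1, h2, fun γ hγ s t t0 hs ht => ?_⟩
  let q : (X.Dw w)ˣ ⧸ X.U0 w ≃ GL (Fin 2) (Fw w) ⧸ ZV (vw w) := Quotient.congr σ.toEquiv
    fun a b => by
      rw [QuotientGroup.leftRel_apply, QuotientGroup.leftRel_apply, h.U, map_mul, map_inv]
      rfl
  have hq : ∀ (t : (X.Dw w)ˣ) y, q (t • y) = σ t • q y := fun t y => by
    induction y using QuotientGroup.induction_on with
    | H y => exact congrArg _ (map_mul σ t y)
  have hT1 : ∀ t, t ∈ X.Tl w ⊓ X.U0 w ↔ σ t ∈ Tor ω ⊓ ZV (vw w) := fun t =>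
    and_congr (h.T t) (h.U t)
  have hφ : ∀ x : GL (Fin 2) (Fw w), (fq (η w) (X.U0 w) (ind X W w) γ ∘ q.symm) x =
      sg (vw w) ((kap Ψ w : ℂ) / qw w) x * (ind X W w ∘ σ.symm) (x⁻¹ * σ γ * x) := fun x => by
    obtain ⟨u, rfl⟩ := σ.surjective x
    rw [Function.comp, show q.symm (σ u) = u from q.symm_apply_apply u, fq_mk h1 h2, sgn,
      Function.comp, ← map_inv, ← map_mul, ← map_mul, σ.symm_apply_apply]
  have l := h.lin γ hγ
  rw [hs, ht] at l
  have t1 : algebraMap F (Fw w) t ≠ 0 := (map_ne_zero _).2 t0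
  have n : algebraMap F (Fw w) s ^ 2 + algebraMap F (Fw w) s * algebraMap F (Fw w) t * ω.trace +
      algebraMap F (Fw w) t ^ 2 * ω.det = algebraMap F (Fw w) (s ^ 2 - C.a * t ^ 2) := by
    rw [h.tr, h.dt, ← hC.a, IsScalarTower.algebraMap_apply (𝓞 F) F (Fw w), map_sub, map_mul,
      map_pow, map_pow]
    ring
  by_cases m : w ∈ W
  · refine ⟨orb_eq σ q hq h.T hT1 ?_, fun k => absurd m k⟩
    have := orb_hecke hϖ hS h.et t1 l hφ
      (fun g k => by simpa [ind, m, h.Q] using k) (fun g k => by simpa [ind, m, h.Q] using k)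
    rw [n, od_alg, od_alg, ct_alg] at this
    simpa [CM.Ov, m] using this
  · have f0 : ∀ g, g ∉ ZV (vw w) → (ind X W w ∘ σ.symm) g = 0 := fun g k => by
      simpa [ind, m, h.U] using k
    have f1 : ∀ g ∈ ZV (vw w), (ind X W w ∘ σ.symm) g = 1 := fun g k => by
      simpa [ind, m, h.U] using k
    refine ⟨orb_eq σ q hq h.T hT1 ?_, fun _ a b c => ⟨?_, base_eq σ q hq h.T hT1 ?_⟩⟩
    · have := orb_unit hϖ hS h.et t1 l hφ f0 f1
      rw [n, od_alg, od_alg, ct_alg] at this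
      simpa [CM.Ov, m] using this
    · rw [vw, v_alg] at a b c
      have : mv w s t = 0 := by
        unfold mv
        split_ifs with s0
        · exact ordv_one b
        · rw [P027M.S.Cls.val_eq w s0, ← WithZero.exp_zero, WithZero.exp_le_exp] at a
          rw [ordv_one b]
          omega
      simp [CM.Ov, m, this, ordv_one b, ordv_one c]
    · rw [show q (1 : (X.Dw w)ˣ) = (1 : GL (Fin 2) (Fw w)) from congrArg _ (map_one σ)]
      exact base_unit hS h.et l hφ f0 f1 a b (n ▸ c)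

/-! ## the adelic group -/

theorem ae (y : X.G) : ∀ᶠ w in Filter.cofinite, X.cu w y ∈ X.U0 w :=
  ((X.int_cw y).and (X.int_cw (y⁻¹ : X.G))).mono fun _ h =>
    Subgroup.mem_sup_right ((Submonoid.mem_units_iff _ _).2 h)

theorem ex_G (a : ∀ w, (X.Dw w)ˣ) (h : {w | a w ≠ 1}.Finite) : ∃ y : X.G, ∀ w, X.cu w y = a w := by
  have k : ∀ᶠ w in Filter.cofinite, a w = 1 := Filter.eventually_cofinite.2 h
  obtain ⟨x, hx⟩ := X.exists_cw (fun w => a w) (k.mono fun w e => by rw [e]; exact one_mem _)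
  obtain ⟨y, hy⟩ := X.exists_cw (fun w => (a w)⁻¹.val)
    (k.mono fun w e => by rw [e, inv_one]; exact one_mem _)
  exact ⟨⟨x, y, X.cw_ext fun w => by simp [hx, hy], X.cw_ext fun w => by simp [hx, hy]⟩,
    fun w => Units.ext (hx w)⟩

theorem mem_PU {V : ∀ w, Subgroup (X.Dw w)ˣ} {x : X.G} : x ∈ X.PU V ↔ ∀ w, X.cu w x ∈ V w := by
  simp [QD.PU, Subgroup.mem_iInf]

theorem mem_TA {T : Subgroup X.G} (h : X.IsTA T) {x : X.G} : x ∈ T ↔ ∀ w, X.cu w x ∈ X.Tl w := by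
  simp only [h x, mem_Tl]
  exact ⟨fun k w => ⟨(congrArg (ev w) k.1).trans (map_zero _),
    (congrArg (ev w) k.2).trans (map_zero _)⟩,
    fun k => ⟨AF.ext fun w => (k w).1.trans (map_zero _).symm,
      AF.ext fun w => (k w).2.trans (map_zero _).symm⟩⟩

omit [NumberField F] in
theorem unit_of {P : Pl E} {x : E} (h1 : P.valuation E (x * C.c x) = 1)
    (h2 : P.valuation E (x + C.c x) ≤ 1) : P.valuation E x = 1 := by
  rw [map_mul] at h1
  rcases lt_trichotomy (P.valuation E x) (P.valuation E (C.c x)) with k | k | k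
  · rw [Valuation.map_add_eq_of_lt_right _ k] at h2
    exact absurd h1 (mul_lt_one_of_lt_of_le (k.trans_le h2) h2).ne
  · rw [← k, ← sq] at h1
    exact sq_eq_one h1
  · rw [Valuation.map_add_eq_of_lt_left _ k] at h2
    exact absurd ((mul_comm _ _).trans h1) (mul_lt_one_of_lt_of_le (k.trans_le h2) h2).ne

theorem ex_rep (hC : X.Cm C ε) {S : Finset (Pl F)} (hS : ∀ w, w ∈ S ↔ (C.D : 𝓞 F) ∈ w.asIdeal)
    {x : Eˣ} (h : ∀ w ∈ S, ∃ z ∈ Subgroup.center (X.Dw w)ˣ, QD.Un (z * X.lc ε w x)) :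
    ∃ x' : C.G, ((x' : Eˣ) : TF F E) = x := by
  have h1 : ∀ w ∈ S, ∃ c : F, c ≠ 0 ∧ ∀ l : F, w.valuation F l = w.valuation F c →
      w.valuation F (Fuj.nrd (ε (algebraMap F E l * x))) = 1 ∧
        w.valuation F (2 * (ε (algebraMap F E l * x)).re) ≤ 1 := fun w hw => by
    obtain ⟨z, hz, u1, u2⟩ := h w hw
    obtain ⟨c, c0, e⟩ := cen hz
    obtain ⟨y, hy⟩ := dense_F c ((Valuation.ne_zero_iff Valued.v).2 c0)
    have e2 : w.valuation F y = vw w c := by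
      rw [← v_alg]
      exact Valuation.map_eq_of_sub_lt _ (by rwa [Valuation.map_sub_swap])
    rw [Units.val_mul, e, ← Algebra.smul_def, lc_val] at u1 u2
    rw [nrd_eq, Fuj.nrd_smul, ← nrd_eq, nrd_loc, map_mul, map_pow, ← e2, vw, v_alg] at u1
    rw [QuaternionAlgebra.re_smul, smul_eq_mul, mul_left_comm, tr_loc, map_mul, ← e2, vw,
      v_alg] at u2
    refine ⟨y, fun k => c0 (by simpa [k] using e2.symm), fun l hl => ?_⟩
    rw [map_mul ε, ε.commutes, ← Algebra.smul_def, Fuj.nrd_smul, QuaternionAlgebra.re_smul,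
      smul_eq_mul, mul_left_comm, map_mul, map_mul _ l, map_pow, hl]
    exact ⟨u1, u2⟩
  choose! c c0 hc using h1
  obtain ⟨l, l0, hl⟩ : ∃ l : F, l ≠ 0 ∧ ∀ w ∈ S, w.valuation F l = w.valuation F (c w) := by
    classical
    obtain ⟨l, hl⟩ := crt1 S.finite_toSet c (fun w => if w ∈ S then w.valuation F (c w) else 1)
      fun w => by
        split_ifs with k
        exacts [(Valuation.ne_zero_iff _).2 (c0 w k), one_ne_zero]
    have k : ∀ w ∈ S, w.valuation F l = w.valuation F (c w) := fun w hw =>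
      Valuation.map_eq_of_sub_lt _ (by simpa [hw] using hl w hw)
    by_cases l0 : l = 0
    · exact ⟨1, one_ne_zero, fun w hw => absurd (by simpa [l0] using (k w hw).symm) (c0 w hw)⟩
    · exact ⟨l, l0, k⟩
  refine ⟨⟨Tor.sc F E (Units.mk0 l l0) * x, fun P hP => ?_⟩, ?_⟩
  · have a := ab_un (F := F) P
    have m := (hS _).2 ((a.nat _).1 hP)
    obtain ⟨k1, k2⟩ := hc _ m l (hl _ m)
    rw [← a.eq_one, (eps hC _).2.1] at k1
    rw [← map_one ((un F P).valuation F), ← ab_le a, map_one, map_one, (eps hC _).2.2] at k2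
    exact unit_of k1 k2
  · exact (congrArg _ (mul_comm _ _)).trans (QuotientGroup.mk_mul_of_mem _ ⟨_, rfl⟩)

end Prd

open Prd in
/-- **PRD** -/
theorem prd : PRD := by
  classical
  intro F E _ _ _ _ _ X C Ψ _ kp ε η S V f φ T1 h T hC hη L hH hT
  let T1' : ∀ w, Subgroup (X.Dw w)ˣ := fun w => if w ∈ S then T1 w else X.Tl w ⊓ X.U0 w
  have nS : ∀ w, w ∉ S → (C.D : 𝓞 F) ∉ w.asIdeal := fun w k => mt (L.mem w).2 k
  refine ⟨T ⊓ X.PU T1', inf_le_left, fun x hx => ⟨hx.1, mem_PU.2 fun w => ?_⟩, ?_,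
    fun W hW x γ hγ => ?_⟩
  · have a := (mem_TA hT).1 hx.1 w
    have b := mem_PU.1 hx.2 w
    by_cases k : w ∈ S
    · simp only [T1', if_pos k]
      exact (L.tr w k).ge ⟨a, b⟩
    · simp only [T1', if_neg k]
      exact ⟨a, L.off w k ▸ b⟩
  · have : (⨅ w : S, (V w).comap (X.cu w)).relIndex (T ⊓ X.PU T1') ≠ 0 :=
      Subgroup.relIndex_iInf_ne_zero fun w k => (L.tr w w.2).idx
        (Subgroup.relIndex_eq_zero_of_le_right (K := (T ⊓ X.PU T1').map (X.cu w)) (by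
          rintro _ ⟨y, hy, rfl⟩
          simpa only [T1', if_pos w.2] using mem_PU.1 hy.2 w)
          (by rwa [Subgroup.relIndex_comap] at k))
    rw [← Subgroup.inf_relIndex_right] at this
    refine fun k => this (Subgroup.relIndex_eq_zero_of_le_left (fun y hy => mem_PU.2 fun w => ?_) k)
    by_cases m : w ∈ S
    · exact Subgroup.mem_iInf.1 hy.1 ⟨w, m⟩
    · have := mem_PU.1 hy.2.2 w
      simp only [T1', if_neg m] at this
      exact L.off w m ▸ this.2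
  have WS : ∀ w ∈ S, w ∉ W := fun w k m => (hW w m).1 ((L.mem w).1 k)
  have eγ : ∀ w, X.cu w (X.tw.j γ) = X.lc ε w x := fun w => Units.ext (by
    rw [lc_val, ← hγ]; rfl)
  refine ⟨fun t t0 ht hx => ?_, fun k y => by_contra fun n => ?_⟩
  swap
  · obtain ⟨x', e⟩ := ex_rep hC L.mem (x := x) fun w hw => by_contra fun m => n (by
      refine ite_eq_right_iff.2 fun _ => Finset.prod_eq_zero (Finset.mem_union_left _ hw) ?_
      rw [QD.fT, if_neg (WS w hw), map_mul, map_mul, map_inv, eγ]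
      exact (L.tr w hw).orb0 _ (lc_mem hC w x) (fun z hz u => m ⟨z, hz, u⟩) _)
    exact k x' e
  let g : ∀ w, (X.Dw w)ˣ → ℂ := fun w => if w ∈ S then f w else ind X W w
  have g1 : ∀ w, ∀ k ∈ V w, QD.ap (η w) (nrd (k : X.Dw w)) = 1 := fun w => by
    by_cases m : w ∈ S
    · exact (L.tr w m).eta
    · exact L.off w m ▸ (lcl hC kp hη (nS w m) W).1
  have g2 : ∀ w, ∀ k ∈ V w, ∀ z, g w (k⁻¹ * z * k) = g w z := fun w => by
    by_cases m : w ∈ S
    · intro k hk z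
      simp only [g, if_pos m]
      rw [(L.tr w m).tf.right _ k hk, (L.tr w m).tf.left _ (inv_mem hk)]
    · simp only [g, if_neg m]
      exact L.off w m ▸ (lcl hC kp hη (nS w m) W).2.1
  have aeV : ∀ y : X.G, ∀ᶠ w in Filter.cofinite, w ∉ S ∪ W ∧ X.cu w y ∈ V w := fun y =>
    ((S ∪ W).eventually_cofinite_notMem.and (ae y)).mono fun w k =>
      ⟨k.1, L.off w (fun m => k.1 (Finset.mem_union_left _ m)) ▸ k.2⟩
  have g3 : ∀ w, w ∉ S ∪ W → ∀ u, g w u = if u ∈ V w then 1 else 0 := fun w k u => by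
    rw [Finset.mem_union, not_or] at k
    simp only [g, ind, if_neg k.1, if_neg k.2, L.off w k.1]
  have gf : ∀ y : X.G, (Function.mulSupport fun w => g w (X.cu w y)).Finite := fun y =>
    Filter.eventually_cofinite.1 ((aeV y).mono fun w k => (g3 w k.1 _).trans (if_pos k.2))
  have g4 : ∀ y, X.gf (S ∪ W) V (X.fT W f) y = ∏ᶠ w, g w (X.cu w y) := fun y => by
    unfold QD.gf
    split_ifs with k
    · rw [finprod_eq_prod_of_mulSupport_subset (s := S ∪ W) _ fun w m => by_contra fun n =>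
        m (by rw [g3 w n, if_pos (k w n)])]
      refine Finset.prod_congr rfl fun w m => ?_
      by_cases a : w ∈ S
      · simp only [g, QD.fT, if_pos a, if_neg (WS w a)]
      · simp only [g, QD.fT, ind, if_neg a, if_pos ((Finset.mem_union.1 m).resolve_left a)]
    · push Not at k
      obtain ⟨w, a, b⟩ := k
      exact (finprod_eq_zero _ w (by rw [g3 w a, if_neg b]) (gf y)).symm
  have n0 : (ε x).re ^ 2 - C.a * t ^ 2 ≠ 0 := by
    have := (Fuj.isUnit_iff_nrd _).1 (x.isUnit.map ε)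
    rw [Fuj.nrd, (eps hC _).1.1, (eps hC _).1.2, ht] at this
    simpa [hC.a] using this
  have fin := Filter.eventually_cofinite.1 ((S ∪ W).eventually_cofinite_notMem.and
    ((AF.int (algebraMap F _ (ε x).re)).and ((AF.isUnit_iff.1 (isUnit_alg t0)).2.and
      (AF.isUnit_iff.1 (isUnit_alg n0)).2)))
  have lo := fun w (m : w ∉ S) => (lcl hC kp hη (nS w m) W).2.2 _ (lc_mem hC w x) (ε x).re t t0
    rfl (ht ▸ rfl)
  have sub : S ⊆ fin.toFinset := fun w m => fin.mem_toFinset.2 fun k =>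
    k.1 (Finset.mem_union_left _ m)
  have gd : ∀ w, w ∉ fin.toFinset → w ∉ S ∧ C.Ov Ψ W (ε x).re t w = 1 ∧ Base (X.Tl w) (T1' w)
      (fq (η w) (V w) (g w) (X.lc ε w x)) (1 : (X.Dw w)ˣ) := fun w m => by
    obtain ⟨a, b, c, d⟩ := not_not.1 (mt fin.mem_toFinset.2 m)
    rw [Finset.mem_union, not_or] at a
    simp only [T1', g, if_neg a.1]
    exact ⟨a.1, L.off w a.1 ▸ (lo w a.1).2 a.2 b c d⟩
  let vl : Pl F → ℂ := fun w => if w ∈ S then φ w (X.lc ε w x) *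
    (QD.ap (η w) (algebraMap F (Fw w) t) * (qw w : ℂ) ^ ordv w t) else C.Ov Ψ W (ε x).re t w
  have key := orbP (Yv := fun w => (X.Dw w)ˣ ⧸ V w) (T := T) (T1 := T ⊓ X.PU T1')
    (φ := X.tw.oi (X.PU V) (fun y => h y) (X.gf (S ∪ W) V (X.fT W f)) γ) X.cu
    (fun w => Quotient.map' (X.cu w) fun a b k => QuotientGroup.leftRel_apply.2 (by
      simpa using mem_PU.1 (QuotientGroup.leftRel_apply.1 k) w))
    (fun w a y => ?_) (fun y y' k => ?_) (fun w => (1 : (X.Dw w)ˣ)) fin.toFinset (fun z k => ?_)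
    (fun y => ?_) X.Tl T1' (fun a k => (mem_TA hT).1 k) (fun a k => ?_) (fun a k m => ?_)
    (fun w => fq (η w) (V w) (g w) (X.lc ε w x)) (fun y => ?_) vl (fun w _ => ?_)
    fun w m => (gd w m).2.2
  · rw [← Finset.prod_sdiff sub, Finset.prod_congr rfl fun w m => if_neg (Finset.mem_sdiff.1 m).2,
      Finset.prod_congr rfl fun w (m : w ∈ S) => if_pos m, Finset.prod_mul_distrib] at key
    rw [hη.pf t t0, finprod_cond_eq_prod_of_cond_iff (t := S) _ fun _ => (L.mem _).symm,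
      finprod_cond_eq_prod_of_cond_iff (t := fin.toFinset \ S) _ fun {w} k => ?_, mul_comm]
    · exact key
    · rw [Finset.mem_sdiff, L.mem, and_iff_right (by_contra fun m => k (gd w m).2.1)]
  · induction y using QuotientGroup.induction_on with
    | H y => exact congrArg _ (map_mul (X.cu w) a y)
  · induction y using QuotientGroup.induction_on
    induction y' using QuotientGroup.induction_on
    exact QuotientGroup.eq.2 (mem_PU.2 fun w => by simpa using QuotientGroup.eq.1 (k w))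
  · obtain ⟨y, hy⟩ := ex_G (X := X) (fun w => if w ∈ fin.toFinset then (z w).out else 1)
      (fin.toFinset.finite_toSet.subset fun w m => by_contra fun n => m (if_neg n))
    refine ⟨y, fun w => (congrArg _ (hy w)).trans ?_⟩
    split_ifs with m
    exacts [QuotientGroup.out_eq' _, (k w m).symm]
  · induction y using QuotientGroup.induction_on with
    | H y => exact Filter.eventually_cofinite.1 ((aeV y).mono fun w k =>
        QuotientGroup.eq.2 (by simpa using k.2))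
  · exact (and_iff_right k).trans mem_PU
  · obtain ⟨y, hy⟩ := ex_G a m
    exact ⟨y, (mem_TA hT).2 fun w => hy w ▸ k w, hy⟩
  · rw [Tw.oi, hH, g4]
    refine (finprod_mul_distrib (Filter.eventually_cofinite.1
      ((aeV y.out).mono fun w k => g1 w _ k.2)) (gf _)).symm.trans (finprod_congr fun w => ?_)
    conv_rhs => rw [← y.out_eq']
    rw [map_mul, map_mul, map_inv, eγ]
    exact (fq_mk (g1 w) (g2 w) _ _).symm
  · by_cases m : w ∈ S
    · simp only [T1', g, vl, if_pos m]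
      have e : (X.lc ε w x : X.Dw w).imI = algebraMap F (Fw w) t := ht ▸ rfl
      have := (L.tr w m).orb1 _ (lc_mem hC w x) (un_lc hC ((L.mem w).1 m) ⟨x, hx⟩)
        (e ▸ (map_ne_zero _).2 t0)
      rw [e, show ow (algebraMap F (Fw w) t) = ordv w t from od_alg w t] at this
      exact this
    · simp only [T1', g, vl, if_neg m]
      exact L.off w m ▸ (lo w m).1

end Vale.Agent.P022K.Sh
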