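import Vale.Agent.P022K.F0.Defs

/-!
# P022K, block F0: the tower of a quaternion algebra over a totally real field (definitions)
-/

set_option autoImplicit false

open UpperHalfPlane NumberField IsDedekindDomain
open scoped MatrixGroups Quaternion

noncomputable section

namespace Vale.Agent.P022K.Sh

variable {F : Type} [Field F] [NumberField F]

variable (F) in
/-- the finite adeles -/
abbrev AF : Type := FiniteAdeleRing (𝓞 F) F

variable (F) in
/-- the finite places -/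
abbrev Pl : Type := HeightOneSpectrum (𝓞 F)

/-- the completion -/
abbrev Fw (w : Pl F) : Type := w.adicCompletion F

/-- the quaternion algebra `(a, b)` over `R` -/
abbrev Qa (a b : 𝓞 F) (R : Type) [CommRing R] [Algebra (𝓞 F) R] : Type :=
  ℍ[R, algebraMap (𝓞 F) R a, algebraMap (𝓞 F) R b]

section

variable {R S : Type} [CommRing R] [Algebra (𝓞 F) R] [CommRing S] [Algebra (𝓞 F) S]

/-- functoriality -/
def qmap (a b : 𝓞 F) (f : R →ₐ[𝓞 F] S) : Qa a b R →+* Qa a b S where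
  toFun x := ⟨f x.re, f x.imI, f x.imJ, f x.imK⟩
  map_one' := by ext <;> simp
  map_zero' := by ext <;> simp
  map_add' x y := by ext <;> simp
  map_mul' x y := by ext <;> simp [f.commutes]

/-- the reduced norm -/
def nrd {a b : 𝓞 F} (x : Qa a b R) : R := (x * star x).re

/-- the elements with coordinates in a subring -/
def qint (a b : 𝓞 F) (O : Subalgebra (𝓞 F) R) : Subring (Qa a b R) := (qmap a b O.val).range

end

/-- the component of an adele -/
def ev (w : Pl F) : AF F →ₐ[𝓞 F] Fw w where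
  toFun x := x w
  map_one' := rfl
  map_zero' := rfl
  map_add' _ _ := rfl
  map_mul' _ _ := rfl
  commutes' _ := rfl

/-- the local integers -/
def Ow (w : Pl F) : Subalgebra (𝓞 F) (Fw w) :=
  { (w.adicCompletionIntegers F).toSubring with
    algebraMap_mem' := fun r => HeightOneSpectrum.coe_mem_adicCompletionIntegers w r }

variable (F) in
/-- the integral adeles -/
def OA : Subalgebra (𝓞 F) (AF F) := ⨅ w, (Ow w).comap (ev w)

variable (F) in
/-- a quaternion algebra over a totally real field of degree at least two, split at `t1` only -/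
structure QD where
  a : 𝓞 F
  b : 𝓞 F
  a0 : a ≠ 0
  b0 : b ≠ 0
  t1 : F →+* ℝ
  s : Qa a b F →+* Matrix (Fin 2) (Fin 2) ℝ
  hs : ∀ c : F, s (algebraMap F _ c) = algebraMap ℝ _ (t1 c)
  real : ∀ (φ : F →+* ℂ) (x : F), (φ x).im = 0
  defi : ∀ t : F →+* ℝ, t ≠ t1 → t a < 0 ∧ t b < 0
  two : ∃ t : F →+* ℝ, t ≠ t1

namespace QD

variable (X : QD F)

/-- `D` -/
abbrev D : Type := Qa X.a X.b F
/-- `D ⊗ 𝔸_f` -/
abbrev DA : Type := Qa X.a X.b (AF F)
/-- `D_w` -/
abbrev Dw (w : Pl F) : Type := Qa X.a X.b (Fw w)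
/-- the adelic group -/
abbrev G : Type := X.DAˣ

/-- the real splitting on units -/
def sU : X.Dˣ →* GL (Fin 2) ℝ := Units.map X.s.toMonoidHom

/-- the elements of positive norm -/
def G0 : Subgroup X.Dˣ := GP.comap X.sU

/-- the diagonal embedding -/
def jD : X.D →+* X.DA := qmap X.a X.b (IsScalarTower.toAlgHom (𝓞 F) F (AF F))

/-- the component at `w` -/
def cw (w : Pl F) : X.DA →+* X.Dw w := qmap X.a X.b (ev w)

/-- the order -/
def OD : Subring X.DA := qint X.a X.b (OA F)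

/-- the local order -/
def ODw (w : Pl F) : Subring (X.Dw w) := qint X.a X.b (Ow w)

/-- `x ≡ 1` modulo `N` -/
def One (N : ℕ) (x : X.DA) : Prop := ∃ y ∈ X.OD, x = 1 + (N : X.DA) * y

theorem One.mul {N : ℕ} {x y : X.DA} (h : X.One N x) (h' : X.One N y) : X.One N (x * y) := by
  obtain ⟨u, hu, rfl⟩ := h
  obtain ⟨v, hv, rfl⟩ := h'
  refine ⟨u + v + u * N * v, add_mem (add_mem hu hv) (mul_mem (mul_mem hu (natCast_mem _ N)) hv),
    ?_⟩
  noncomm_ring

/-- the principal level `N` (with the centre) -/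
def UN (N : ℕ) : Subgroup X.G where
  carrier := {x | ∃ c : (AF F)ˣ, X.One N ((c : AF F) • (x : X.DA)) ∧
    X.One N (((c⁻¹ : (AF F)ˣ) : AF F) • ((x⁻¹ : X.G) : X.DA))}
  mul_mem' := by
    rintro x y ⟨c, h1, h2⟩ ⟨d, h3, h4⟩
    refine ⟨c * d, ?_, ?_⟩
    · have := h1.mul X h3
      rwa [smul_mul_smul_comm, ← Units.val_mul, ← Units.val_mul] at this
    · have := h4.mul X h2
      rwa [smul_mul_smul_comm, ← Units.val_mul, ← Units.val_mul, ← mul_inv_rev, ← mul_inv_rev]
        at this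
  one_mem' := ⟨1, ⟨0, zero_mem _, by simp⟩, ⟨0, zero_mem _, by simp⟩⟩
  inv_mem' := by
    rintro x ⟨c, h1, h2⟩
    exact ⟨c⁻¹, h2, by simpa using h1⟩

/-- **the tower** -/
def tw : Tw X.G0 X.G where
  j := (Units.map X.jD.toMonoidHom).comp X.G0.subtype
  r := X.sU.subgroupComap GP
  Lev := {U | ∃ N, 0 < N ∧ X.UN N ≤ U ∧ (X.UN N).relIndex U ≠ 0}

/-- the complex embedding of `F` -/
def tc : F →+* ℂ := Complex.ofRealHom.comp X.t1

section

variable {O K : Type} [CommRing O] [IsDomain O] [IsDiscreteValuationRing O] [Field K] [Algebra O K]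

/-- `L` is the factor at the place `w` (`K` is a copy of `F_w`) -/
def IsPl (w : Pl F) (L : X.tw.Lc O K) : Prop :=
  ∃ (e : Fw w ≃+* K) (s : X.Dw w ≃+* Matrix (Fin 2) (Fin 2) K),
    (∀ x, x ∈ Ow w ↔ e x ∈ (algebraMap O K).range) ∧
    (∀ c, s (algebraMap _ _ c) = algebraMap K _ (e c)) ∧
    (∀ x : X.G, (L.π x : Matrix (Fin 2) (Fin 2) K) = s (X.cw w x)) ∧
    ∀ g v, v ≠ w → X.cw v (L.ι g : X.G) = 1

end

/-- `D` is split at `w` -/
def Spl (w : Pl F) : Prop := Nonempty (X.Dw w ≃ₐ[Fw w] Matrix (Fin 2) (Fin 2) (Fw w))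

/-- `U` is maximal at the place `w` -/
def Max (w : Pl F) (U : Subgroup X.G) : Prop := ∀ x : X.G, (∀ v, v ≠ w → X.cw v x = 1) →
  X.cw w x ∈ X.ODw w → X.cw w (x⁻¹ : X.G) ∈ X.ODw w → x ∈ U

/-- the torus of `F(√a)` -/
def TA : Subgroup X.G := Subgroup.centralizer {x | (x : X.DA).imJ = 0 ∧ (x : X.DA).imK = 0}

/-- an imaginary quadratic field `ℚ(δ)` in `D`; `δ` turns `ℍ` positively around its fixed point -/
structure Kd where
  δ : X.D
  Δ : ℕ
  pos : 0 < Δ
  sq : δ * δ = -(Δ : X.D)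
  ori : X.s δ 1 0 < 0

/-- `σ` fixes the reflex field `F(√-Δ)` -/
def Fix (Δ : ℕ) (σ : ℂ ≃+* ℂ) : Prop :=
  (∀ c, σ (X.tc c) = X.tc c) ∧ σ (Complex.I * √(Δ : ℝ)) = Complex.I * √(Δ : ℝ)

end QD

end Vale.Agent.P022K.Sh
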