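import Vale.Agent.P022K.F0.Aut
import Vale.Agent.P022K.F0.Galh
import Vale.Agent.P022K.F0.Hec
import Vale.Agent.P022K.F0.OkA
import Vale.Agent.P022K.F0.Loc
import Vale.Agent.P022K.F0.Cf.Rows
import Vale.Agent.P022K.CH.Eps
import Vale.Agent.P022K.CH.Weil
import Vale.Agent.P022K.Cheb.Main

/-!
# P022K, block F0: row REPF (the Galois representation of an automorphic system) (helper10)
-/

set_option autoImplicit false

open Filter Topology NumberField IsDedekindDomain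
open scoped MatrixGroups

noncomputable section

namespace Vale.Agent.P022K.Sh

open Vale.Agent.P022 Vale.Agent.P022.H218.L3 CH
open Vale.Agent.P022.C (FrI)
open Vale.Agent.P022.H443 (inP)
open Vale.Agent.P022E.GW (Ov Fb)

section psc

variable {Γ Λ M : Type} [Group Γ] [CommRing Λ] [AddCommGroup M] [Module Λ M]
  (ρ : Representation Λ Γ M) (e : Γ →* Λˣ)

/-- `ρ g` is killed by `X ^ 2 - τ X + e g` -/
def Qd (g : Γ) (τ : Λ) : Prop := ∀ v, ρ g v + (e g : Λ) • ρ g⁻¹ v = τ • v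

variable {ρ e} {g h : Γ} {τ τ' : Λ}

theorem qd_of (q : ∀ v, ρ g (ρ g v) - τ • ρ g v + (e g : Λ) • v = 0) : Qd ρ e g τ := fun v => by
  have := q (ρ g⁻¹ v)
  rw [ρ.self_inv_apply] at this
  rw [← sub_eq_zero, ← this]
  abel

theorem qd_one : Qd ρ e 1 2 := fun v => by simp [two_smul]

theorem Qd.comm (q : Qd ρ e (g * h) τ) : Qd ρ e (h * g) τ := fun v => by
  have := congrArg (ρ h) (q (ρ h⁻¹ v))
  simp only [map_add, map_smul, ← Module.End.mul_apply, ← map_mul] at this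
  rw [map_mul e, mul_comm (e g), ← map_mul e] at this
  simpa [mul_assoc] using this

theorem Qd.mul {a b c d : Λ} (q1 : Qd ρ e g a) (q2 : Qd ρ e h b) (q3 : Qd ρ e (g * h) c)
    (q4 : Qd ρ e (g * h⁻¹) d) (v : M) : (a * b - (c + e h * d)) • v = 0 := by
  have e1 := congrArg (ρ g) (q2 v)
  have e2 := q2 (ρ g⁻¹ v)
  have e3 := q3 v
  have e4 := q4 v
  simp only [map_add, map_smul, mul_inv_rev, inv_inv, map_mul, Module.End.mul_apply, map_inv,
    Units.val_mul] at e1 e3 e4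
  rw [sub_smul, add_smul, mul_smul (e h : Λ), ← e3, ← e4, mul_comm a, mul_smul, ← q1 v, smul_add,
    smul_add, smul_smul (e h : Λ), mul_left_comm, Units.mul_inv, mul_one, ← e1, smul_comm b, ← e2,
    smul_add, smul_smul]
  abel

theorem Qd.right {u : Γ} (q : Qd ρ e g τ) (h1 : ρ u = 1) (h2 : ∀ v : M, (e u : Λ) • v = v) :
    Qd ρ e (g * u) τ := fun v => by
  have h3 : ∀ v, ρ u⁻¹ v = v := fun v => by
    have := ρ.inv_self_apply u v
    rwa [h1] at this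
  rw [mul_inv_rev, map_mul, map_mul, map_mul, h1, mul_one, Module.End.mul_apply, h3,
    Units.val_mul, mul_smul, h2]
  exact q v

variable {C : Type} [NormedField C] [TopologicalSpace Γ] [IsTopologicalGroup Γ]

variable (e) in
/-- an approximation of level `r` -/
def Apx (i : Λ →+* C) (R : Γ → Λ → Prop) (I : Set Γ) (r : ℝ) : Prop :=
  ∃ (M : Type) (_ : AddCommGroup M) (_ : Module Λ M) (ρ : Representation Λ Γ M),
    (∀ a : Λ, (∀ v : M, a • v = 0) → ‖i a‖ ≤ r) ∧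
    (∀ᶠ u in 𝓝 (1 : Γ), ρ u = 1 ∧ ∀ v : M, (e u : Λ) • v = v) ∧
    (∀ g τ, R g τ → Qd ρ e g τ) ∧ ∀ s ∈ I, ρ s = 1

omit [IsTopologicalGroup Γ] in
theorem apx_of {i : Λ →+* C} {R : Γ → Λ → Prop} {I : Set Γ} {r : ℝ}
    (J : Module.End Λ M → Λ → Prop) (com : ∀ A c, J A c → ∀ g v, A (ρ g v) = ρ g (A v)) (v0 : M)
    (h0 : ∀ A c, J A c → A v0 = c • v0) (ann : ∀ a : Λ, a • v0 = 0 → ‖i a‖ ≤ r)
    (opn : ∀ᶠ u in 𝓝 (1 : Γ), ρ u = 1 ∧ ∀ v : M, (e u : Λ) • v = v)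
    (hR : ∀ g τ, R g τ → ∃ A, J A τ ∧ ∀ v, ρ g (ρ g v) - A (ρ g v) + (e g : Λ) • v = 0)
    (hI : ∀ s ∈ I, ρ s = 1) : Apx e i R I r := by
  let N : Submodule Λ M := ⨅ (A) (c) (_ : J A c), LinearMap.eqLocus A (c • LinearMap.id)
  have hN : ∀ a, a ∈ N ↔ ∀ A c, J A c → A a = c • a := fun a => by
    simp only [N, Submodule.mem_iInf]
    rfl
  have st : ∀ g, N ≤ N.comap (ρ g) := fun g a ha => (hN _).2 fun A c k => by
    rw [com A c k, (hN a).1 ha A c k, map_smul]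
  have one : ∀ u, ρ u = 1 → ρ.subrepresentation N st u = 1 := fun u h =>
    LinearMap.ext fun v => Subtype.ext (LinearMap.congr_fun h v.1)
  refine ⟨N, inferInstance, inferInstance, ρ.subrepresentation N st,
    fun a h => ann a (congrArg Subtype.val (h ⟨v0, (hN _).2 h0⟩)),
    opn.mono fun u h => ⟨one u h.1, fun v => Subtype.ext (h.2 v.1)⟩, fun g τ k => ?_,
    fun s hs => one s (hI s hs)⟩
  obtain ⟨A, a, b⟩ := hR g τ k
  refine qd_of fun v => Subtype.ext ?_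
  have := b v
  rwa [(hN _).1 (st g v.2) A τ a] at this

/-- **the trace function of a system of approximations** -/
theorem psc (i : Λ →+* C) {S : Set C} (hS : IsComplete S) (iS : ∀ a, i a ∈ S)
    {R : Γ → Λ → Prop} {I : Set Γ} {r : ℕ → ℝ} (hr : Tendsto r atTop (𝓝 0))
    (den : Dense {g | ∃ τ, R g τ}) (H : ∀ n, Apx e i R I (r n)) :
    ∃ t : Γ → C, H346.TF t ((Units.map i.toMonoidHom).comp e) ∧ Continuous t ∧
      (∀ g τ, R g τ → t g = i τ) ∧ ∀ s ∈ I, e s = 1 → ∀ g, t (s * g) = t g := by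
  choose M i1 i2 ρ ann opn hR hI using H
  have nb : ∀ n g, ∀ᶠ h in 𝓝 g, ∀ τ, Qd (ρ n) e g τ ↔ Qd (ρ n) e h τ := fun n g => by
    have c : Tendsto (fun h => g⁻¹ * h) (𝓝 g) (𝓝 1) :=
      (continuous_const_mul _).tendsto' _ _ (inv_mul_cancel g)
    have c' : Tendsto (fun h => h⁻¹ * g) (𝓝 g) (𝓝 1) :=
      (continuous_inv.mul continuous_const).tendsto' _ _ (inv_mul_cancel g)
    filter_upwards [c.eventually (opn n), c'.eventually (opn n)] with h a b τ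
    exact ⟨fun q => mul_inv_cancel_left g h ▸ q.right a.1 a.2,
      fun q => mul_inv_cancel_left h g ▸ q.right b.1 b.2⟩
  have two : ∀ n n' g, ∃ τ, Qd (ρ n) e g τ ∧ Qd (ρ n') e g τ := fun n n' g => by
    obtain ⟨φ, ⟨τ, k⟩, a, b⟩ := den.inter_nhds_nonempty ((nb n g).and (nb n' g))
    exact ⟨τ, (a τ).2 (hR n φ τ k), (b τ).2 (hR n' φ τ k)⟩
  have uq : ∀ n g τ τ', Qd (ρ n) e g τ → Qd (ρ n) e g τ' → dist (i τ) (i τ') ≤ r n :=
    fun n g τ τ' q q' => by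
      rw [dist_eq_norm, ← map_sub]
      exact ann n _ fun v => by rw [sub_smul, ← q v, ← q' v, sub_self]
  choose τ hτ _ using fun n g => two n n g
  have cau : ∀ n n' g a, Qd (ρ n) e g a → dist (i a) (i (τ n' g)) ≤ r n + r n' :=
    fun n n' g a q => by
      obtain ⟨c, c1, c2⟩ := two n n' g
      exact (dist_triangle _ (i c) _).trans
        (add_le_add (uq n g _ _ q c1) (uq n' g _ _ c2 (hτ n' g)))
  have lim : ∀ g, ∃ x, Tendsto (fun n => i (τ n g)) atTop (𝓝 x) := fun g => by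
    have : CauchySeq fun n => i (τ n g) := by
      rw [cauchySeq_iff_tendsto_dist_atTop_0]
      refine squeeze_zero (fun _ => dist_nonneg) (fun n => cau n.1 n.2 g _ (hτ _ g)) ?_
      rw [← prod_atTop_atTop_eq]
      simpa using (hr.comp tendsto_fst).add (hr.comp tendsto_snd)
    obtain ⟨x, -, hx⟩ := cauchySeq_tendsto_of_isComplete hS (fun n => iS _) this
    exact ⟨x, hx⟩
  choose t ht using lim
  have key : ∀ n g a, Qd (ρ n) e g a → dist (i a) (t g) ≤ r n := fun n g a q =>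
    le_of_tendsto_of_tendsto' (tendsto_const_nhds.dist (ht g))
      (by simpa using tendsto_const_nhds.add hr) fun n' => cau n n' g a q
  have sq : ∀ {x y : C} {c : ℕ → C}, (∀ n, dist (c n) x ≤ r n) → Tendsto c atTop (𝓝 y) → x = y :=
    fun a b => tendsto_nhds_unique
      (tendsto_iff_dist_tendsto_zero.2 (squeeze_zero (fun _ => dist_nonneg) a hr)) b
  refine ⟨t, ⟨?_, fun g h => ?_, fun g h => ?_⟩, ?_, fun g a k => ?_, fun s hs e1 g => ?_⟩
  · exact sq (fun n => key n 1 2 qd_one) (by simp [map_ofNat])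
  · exact (sq (fun n => key n _ _ (hτ n _).comm) (ht _)).symm
  · refine sub_eq_zero.1 (sq (fun n => ?_) (((ht g).mul (ht h)).sub
      ((ht (g * h)).add ((ht (g * h⁻¹)).const_mul (i (e h)))))).symm
    rw [dist_zero_right, ← map_mul, ← map_mul, ← map_add, ← map_sub]
    exact ann n _ ((hτ n g).mul (hτ n h) (hτ n _) (hτ n _))
  · refine continuous_iff_continuousAt.2 fun g => Metric.tendsto_nhds.2 fun ε hε => ?_
    obtain ⟨n, hn⟩ := (hr.eventually (gt_mem_nhds (half_pos hε))).exists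
    filter_upwards [nb n g] with h a
    have := (dist_triangle_left _ _ _).trans
      (add_le_add (key n h _ ((a _).1 (hτ n g))) (key n g _ (hτ n g)))
    linarith
  · exact sq (fun n => key n g a (hR n g a k)) tendsto_const_nhds
  · exact sq (fun n => key n _ _ ((hτ n g).right (hI n s hs) fun v => by simp [e1]).comm) (ht g)

end psc

section oe

variable {p : ℕ} [Fact p.Prime] {E : IntermediateField ℚ_[p] (Cp p)}

theorem mem_OE {x : Cp p} : x ∈ OE E ↔ ‖x‖ ≤ 1 ∧ x ∈ E := and_congr mem_op Iff.rfl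

variable (E) in
/-- `ℤ_p` in the integers of `E` -/
def zE : ℤ_[p] →+* OE E := (zc p).codRestrict _ fun x =>
  mem_OE.2 ⟨(norm_zc x).trans_le x.2, E.algebraMap_mem _⟩

theorem int_of_norm {x : Cp p} (h : ‖x‖ ≤ 1) : IsIntegral ℤ_[p] x := by
  have i : IsIntegral ℚ_[p] x := Algebra.IsIntegral.isIntegral x
  obtain ⟨f, f1, -, f2⟩ := Polynomial.lifts_and_natDegree_eq_and_monic
    ((Polynomial.lifts_iff_coeff_lifts (f := algebraMap ℤ_[p] ℚ_[p]) (minpoly ℚ_[p] x)).2 fun n =>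
      ⟨⟨_, (spectralValue_le_one_iff (minpoly.monic i)).1 h n⟩, rfl⟩) (minpoly.monic i)
  refine ⟨f, f2, ?_⟩
  rw [← Polynomial.aeval_def, ← Polynomial.aeval_map_algebraMap ℚ_[p], f1, minpoly.aeval]

theorem norm_of_int {x : Cp p} (h : IsIntegral ℤ x) : ‖x‖ ≤ 1 :=
  mem_op.1 ((Valuation.integer.integers (Valued.v (R := Cp p))).mem_of_integral h.tower_top)

theorem ex_coord [FiniteDimensional ℚ_[p] E] :
    ∃ d : ℕ, Nonempty (OE E ≃+ (Fin d → ℤ_[p])) := by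
  let _ := (zE E).toAlgebra
  have := IsIntegralClosure.finite ℤ_[p] ℚ_[p] E (integralClosure ℤ_[p] E)
  let f : OE E →ₗ[ℤ_[p]] integralClosure ℤ_[p] E :=
    { toFun := fun x => ⟨⟨x, x.2.2⟩, (isIntegral_algHom_iff (E.val.restrictScalars ℤ_[p])
        Subtype.val_injective).1 (int_of_norm (mem_OE.1 x.2).1)⟩
      map_add' := fun _ _ => rfl
      map_smul' := fun c x => Subtype.ext (Subtype.ext (Algebra.smul_def c (x : Cp p)).symm) }
  have hf : Function.Injective f := fun x y e =>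
    Subtype.ext (congrArg (fun a : integralClosure ℤ_[p] E => ((a : E) : Cp p)) e)
  have := Module.Finite.of_injective f hf
  have : Module.IsTorsionFree ℤ_[p] (OE E) := Module.isTorsionFree_iff_algebraMap_injective.2
    fun x y e => zc_inj (congrArg Subtype.val e)
  exact ⟨_, ⟨(Module.finBasis ℤ_[p] (OE E)).equivFun.toAddEquiv⟩⟩

theorem ex_mod {A : Type} [CommRing A] {d : ℕ} (e : A ≃+ (Fin d → ℤ_[p])) (n : ℕ) :
    ∃ _ : Module (ZMod (p ^ n)) (A ⧸ Ideal.span {(p : A) ^ n}),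
      Module.Free (ZMod (p ^ n)) (A ⧸ Ideal.span {(p : A) ^ n}) ∧
      Module.Finite (ZMod (p ^ n)) (A ⧸ Ideal.span {(p : A) ^ n}) := by
  let φ : A →+ (Fin d → ZMod (p ^ n)) :=
    (AddMonoidHom.compLeft (PadicInt.toZModPow n).toAddMonoidHom _).comp e.toAddMonoidHom
  have s : Function.Surjective φ :=
    ((ZMod.ringHom_surjective (PadicInt.toZModPow (p := p) n)).comp_left).comp e.surjective
  have k : (Ideal.span {(p : A) ^ n}).toAddSubgroup = φ.ker := by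
    ext x
    have h : φ x = 0 ↔ ∀ i, ∃ c, c * (p : ℤ_[p]) ^ n = e x i := by
      simp only [funext_iff, ← Ideal.mem_span_singleton', ← PadicInt.ker_toZModPow]
      rfl
    rw [AddMonoidHom.mem_ker, h, Submodule.mem_toAddSubgroup, Ideal.mem_span_singleton']
    have m : ∀ y : A, e (y * p ^ n) = fun i => e y i * p ^ n := fun y => by
      rw [← Nat.cast_pow, mul_comm, ← nsmul_eq_mul, map_nsmul]
      funext i
      simp [mul_comm]
    refine ⟨fun ⟨y, hy⟩ i => ⟨e y i, by rw [← hy, m]⟩, fun h => ?_⟩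
    choose c hc using h
    exact ⟨e.symm c, e.injective (by rw [m, e.apply_symm_apply]; exact funext hc)⟩
  let ψ : (A ⧸ Ideal.span {(p : A) ^ n}) ≃+ (Fin d → ZMod (p ^ n)) :=
    (QuotientAddGroup.quotientAddEquivOfEq k).trans
      (QuotientAddGroup.quotientKerEquivOfSurjective φ s)
  let _ := ψ.module (ZMod (p ^ n))
  exact ⟨_, .of_equiv (ψ.linearEquiv _).symm, .equiv (ψ.linearEquiv _).symm⟩

theorem complete_E [FiniteDimensional ℚ_[p] E] : IsComplete (E : Set (Cp p)) :=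
  Submodule.complete_of_finiteDimensional (Subalgebra.toSubmodule E.toSubalgebra)

end oe

/-! ## change of coefficients -/

namespace Tw

variable {G0 G : Type} [Group G0] [Group G] {T : Tw G0 G} {U U' : Subgroup G} {Q : Set G} {n : ℕ}
  {σ : ℂ ≃+* ℂ} {θ : (G → Mer) → G → Mer} {Λ B : Type} [CommRing Λ] [AddCommGroup B] [Module Λ B]

/-- a coordinate on cocycles -/
def cZ (l : B →+ ZMod n) : T.Z1 (Representation.trivial Λ G0 B) U →+
    T.Z1 (Representation.trivial (ZMod n) G0 (ZMod n)) U where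
  toFun z := ⟨_, Z1_map z.2 l⟩
  map_zero' := Subtype.ext (funext₂ fun _ _ => map_zero l)
  map_add' _ _ := Subtype.ext (funext₂ fun _ _ => map_add l _ _)

/-- a coordinate on cohomology -/
def cH (l : B →+ ZMod n) : T.Hc Λ B U →+ T.Hc (ZMod n) (ZMod n) U :=
  QuotientAddGroup.map _ _ (cZ l) fun _ hz => B1_map hz l

theorem cH_hC (l : B →+ ZMod n) (c : Cor U' Q U) (a : T.Hc Λ B U) :
    cH l (T.hC Λ B c a) = T.hC (ZMod n) (ZMod n) c (cH l a) := by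
  obtain ⟨z, rfl⟩ := Submodule.Quotient.mk_surjective _ a
  refine congrArg Submodule.Quotient.mk (Subtype.ext (funext₂ fun γ x => ?_))
  show l (hk Q U _ x) = hk Q U _ x
  rw [hk_eq c, hk_eq c, map_sum]
  rfl

theorem IsGal.cH {a a' : T.Hc Λ B U} (k : T.IsGal θ n U a a') (l : B →+ ZMod n) :
    T.IsGal θ n U (cH l a) (cH l a') := by
  obtain ⟨z, z', rfl, rfl, k⟩ := k
  exact ⟨cZ l z, cZ l z', rfl, rfl, fun l' => k (l'.comp l)⟩

theorem eig_iff (c : Cor U Q U) (z : T.Z1 (Representation.trivial Λ G0 B) U) (b : Λ) :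
    T.Eig (Representation.trivial Λ G0 B) U z (hk Q U) b ↔
      T.hC Λ B c (Submodule.Quotient.mk z) = b • Submodule.Quotient.mk z :=
  (mk_eq_mk (a := T.hZ _ c z) (b := b • z)).symm

theorem smul_cls {z : G0 → G → B} (hz : z ∈ T.Z1 (Representation.trivial Λ G0 B) U) {a : Λ}
    (h : a • (Submodule.Quotient.mk ⟨z, hz⟩ : T.Hc Λ B U) = 0) :
    a • z ∈ T.B1 (Representation.trivial Λ G0 B) U :=
  (Submodule.Quotient.mk_eq_zero (x := a • (⟨z, hz⟩ : T.Z1 _ U)) _).1 h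

theorem GAct.ev {io : Qb →+* ℂ} {H : Subgroup GQ} {ρ : H →* (T.Hc Λ B U ≃ₗ[Λ] T.Hc Λ B U)}
    (h : T.GAct io H n U ρ) : ∀ᶠ u in 𝓝 (1 : H), ρ u = 1 := by
  filter_upwards [(h.1.preimage continuous_subtype_val).mem_nhds
    (x := (1 : H)) (ρ.ker.map H.subtype).one_mem] with u ⟨u', h1, h2⟩
  exact Subtype.ext h2 ▸ h1

variable [Module (ZMod n) B]

theorem char_smul (a : T.Hc Λ B U) : (n : Λ) • a = 0 := by
  obtain ⟨z, rfl⟩ := Submodule.Quotient.mk_surjective _ a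
  refine congrArg Submodule.Quotient.mk (Subtype.ext (funext₂ fun γ x => ?_) : (n : Λ) • z = 0)
  exact (Nat.cast_smul_eq_nsmul Λ n _).trans (ZModModule.char_nsmul_eq_zero n _)

variable [Module.Free (ZMod n) B] [Module.Finite (ZMod n) B]

theorem cH_inj {a : T.Hc Λ B U} (h : ∀ l : B →+ ZMod n, cH l a = 0) : a = 0 := by
  obtain ⟨z, rfl⟩ := Submodule.Quotient.mk_surjective _ a
  exact (Submodule.Quotient.mk_eq_zero _).2
    (B1_of_coord (n := n) fun l => (Submodule.Quotient.mk_eq_zero (x := cZ l z) _).1 (h l))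

theorem GAct.apx {io : Qb →+* ℂ} {H : Subgroup GQ} {ρ : H →* (T.Hc Λ B U ≃ₗ[Λ] T.Hc Λ B U)}
    (o : T.GAct io H n U ρ) (ok : T.Ok) (hU : U ∈ T.Lev) (hn : 0 < n)
    (ex : ∀ g : H, ∃ σ θ, Ext io g σ ∧ T.Sl σ θ) {e : H →* Λˣ}
    (he : ∀ᶠ u in 𝓝 (1 : H), (n : Λ) ∣ e u - 1) {z : G0 → G → B}
    (hz : z ∈ T.Z1 (Representation.trivial Λ G0 B) U) {C : Type} [NormedField C] {i : Λ →+* C}
    {r : ℝ} (ann : ∀ a : Λ, a • z ∈ T.B1 (Representation.trivial Λ G0 B) U → ‖i a‖ ≤ r)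
    (J : Set G → Λ → Prop) (hJ : ∀ Q τ, J Q τ → Cor U Q U ∧
      T.Eig (Representation.trivial Λ G0 B) U z (hk Q U) τ) {R : H → Λ → Prop} {I : Set H}
    (hR : ∀ g τ, R g τ → ∃ (Q : Set G) (q : ℕ), J Q τ ∧ (e g : Λ) = q ∧ ∀ (c : Cor U Q U) σ θ,
      Ext io g σ → T.Sl σ θ → ∀ a a₁ a₂ : T.Hc Λ B U, T.IsGal θ n U a a₁ → T.IsGal θ n U a₁ a₂ →
        a₂ - T.hC Λ B c a₁ + q • a = 0)
    (hI : ∀ g ∈ I, ∀ σ θ, Ext io g σ → T.Sl σ θ → ∀ a a₁ : T.Hc Λ B U, T.IsGal θ n U a a₁ →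
      a₁ = a) : Apx e i R I r := by
  refine apx_of (ρ := LinearEquiv.automorphismGroup.toLinearMapMonoidHom.comp ρ)
    (fun A τ => ∃ Q, ∃ k : J Q τ, T.hC Λ B (hJ Q τ k).1 = A) ?_ (Submodule.Quotient.mk ⟨z, hz⟩)
    ?_ (fun a h => ann a (smul_cls hz h)) ?_ (fun g τ k => ?_) fun g k => LinearMap.ext fun v => ?_
  · rintro _ c ⟨Q, k, rfl⟩ g a
    obtain ⟨σ, θ, x, s⟩ := ex g
    exact ((o.2 g σ θ x s a).hC s hU hn ok _).unique s hU hn (o.2 g σ θ x s _)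
  · rintro _ c ⟨Q, k, rfl⟩
    exact (eig_iff _ ⟨z, hz⟩ c).1 (hJ Q c k).2
  · filter_upwards [he, o.ev] with u ⟨c, hc⟩ h
    refine ⟨LinearMap.ext fun v => DFunLike.congr_fun h v, fun v => ?_⟩
    rw [eq_add_of_sub_eq hc, add_smul, one_smul, mul_smul, char_smul, zero_add]
  · obtain ⟨σ, θ, x, s⟩ := ex g
    obtain ⟨Q, q, a, b, c⟩ := hR g τ k
    refine ⟨_, ⟨Q, a, rfl⟩, fun v => ?_⟩
    rw [b, Nat.cast_smul_eq_nsmul]
    exact c _ σ θ x s _ _ _ (o.2 g σ θ x s v) (o.2 g σ θ x s _)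
  · obtain ⟨σ, θ, x, s⟩ := ex g
    exact hI g k σ θ x s _ _ (o.2 g σ θ x s v)

variable {O K : Type} [CommRing O] [IsDomain O] [IsDiscreteValuationRing O] [Field K] [Algebra O K]
  {w : T.Lc O K} (s : T.Sl σ θ) (hn : 0 < n) (cop : n.Coprime (qq O)) {a a₁ a₂ : T.Hc Λ B U}

include s hn cop

theorem Lc.ES.gen (es : w.ES σ U) (c : Cor U (w.To U) U) (k : T.IsGal θ n U a a₁)
    (k' : T.IsGal θ n U a₁ a₂) : a₂ - T.hC Λ B c a₁ + qq O • a = 0 := cH_inj (n := n) fun l => by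
  rw [map_add, map_sub, map_nsmul, cH_hC]
  exact es.one θ s c n hn cop _ _ _ (k.cH l) (k'.cH l)

theorem Lc.Unr.gen (un : w.Unr σ U) (hU : U ∈ T.Lev) (k : T.IsGal θ n U a a₁) : a₁ = a :=
  sub_eq_zero.1 (cH_inj (n := n) fun l => by
    rw [map_sub, sub_eq_zero]
    exact (k.cH l).unique s hU hn (un.one θ s n hn cop _))

end Tw

/-! ## the Hecke operator as an element of the group ring -/

namespace Tw.Lc

variable {G0 G : Type} [Group G0] [Group G] {T : Tw G0 G} {U : Subgroup G} {O K : Type} [CommRing O]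
  [IsDomain O] [IsDiscreteValuationRing O] [Field K] [Algebra O K] (w : T.Lc O K)

/-- the sum of the representatives -/
def fT (R : Type) [CommRing R] : G →₀ R :=
  haveI := w.fin
  haveI := Fintype.ofFinite (IsLocalRing.ResidueField O)
  ∑ i, Finsupp.single (w.ι (w.tr i)) 1

theorem fT_map {R R' : Type} [CommRing R] [CommRing R'] (f : R →+* R') (g : G) :
    f (w.fT R g) = w.fT R' g := by
  classical
  simp only [fT, Finsupp.finsetSum_apply, Finsupp.single_apply, map_sum, apply_ite f, map_one,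
    map_zero]

theorem fT_sup {R : Type} [CommRing R] {g : G} (h : g ∈ (w.fT R).support) : ∃ k, g = w.ι k := by
  by_contra e
  refine Finsupp.mem_support_iff.1 h ?_
  rw [fT, Finsupp.finsetSum_apply]
  exact Finset.sum_eq_zero fun i _ => Finsupp.single_eq_of_ne fun a => e ⟨_, a⟩

variable {w}

theorem At.op_fT (h : w.At (KK O K) U) (hU : U ∈ T.Lev) {R B : Type} [CommRing R] [AddCommGroup B]
    [Module R B] {φ : G → B} (hφ : Inv U φ) : Sh.op (w.fT R) φ = hk (w.To U) U φ := by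
  have := w.fin
  let _ := Fintype.ofFinite (IsLocalRing.ResidueField O)
  funext x
  rw [(h.rep_To hU).hk hφ]
  show Finsupp.linearCombination R (fun g => rt g φ) _ x = _
  simp only [fT, map_sum, Finsupp.linearCombination_single, one_smul, Finset.sum_apply]
  rfl

theorem At.eig_fT (h : w.At (KK O K) U) (hU : U ∈ T.Lev) {R B : Type} [CommRing R]
    [AddCommGroup B] [Module R B] {ρ : Representation R G0 B} {z : G0 → G → B}
    (hz : z ∈ T.Z1 ρ U) {c : R} : 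
    T.Eig ρ U z (Sh.op (w.fT R)) c ↔ T.Eig ρ U z (hk (w.To U) U) c := by
  simp only [Eig, h.op_fT hU (hz.1 _)]

end Tw.Lc

/-! ## quaternion algebras -/

namespace QD

variable {F : Type} [Field F] [NumberField F] {Y : QD F} {j : F →+* Qb} {io : Qb →+* ℂ}

theorem cor_To {O K : Type} [CommRing O] [IsDomain O] [IsDiscreteValuationRing O] [Field K]
    [Algebra O K] (L : Y.tw.Lc O K) {U : Subgroup Y.G} (hU : U ∈ Y.tw.Lev) : Cor U (L.To U) U :=
  cor_dc (Y.ok.fi _ (Y.ok.conj U hU _) U hU)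

theorem CAN.ex_sl (can : Y.CAN) (emb : Y.Emb j io) (g : GK j) :
    ∃ σ θ, Tw.Ext io g σ ∧ Y.tw.Sl σ θ := by
  obtain ⟨σ, e⟩ := Tw.ex_ext io g
  obtain ⟨θ, s⟩ := can.ex σ (by
    rintro _ ⟨a, rfl⟩
    rw [← emb]
    exact (e (j a)).trans (congrArg io (g.2 a)))
  exact ⟨σ, θ, e, s⟩

/-- one level of the approximation -/
theorem apx_lev (good : Y.GOOD) (can : Y.CAN) (emb : Y.Emb j io) {U : Subgroup Y.G}
    (hU : U ∈ Y.tw.Lev) (ne : Y.tw.Neat U) {Λ B : Type} [CommRing Λ] [AddCommGroup B] [Module Λ B]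
    {n : ℕ} (hn : 0 < n) [Module (ZMod n) B] [Module.Free (ZMod n) B] [Module.Finite (ZMod n) B]
    {e : GK j →* Λˣ} (he : ∀ᶠ u in 𝓝 (1 : GK j), (n : Λ) ∣ e u - 1)
    {W : ∀ w : Pl F, Y.tw.Lc (Oc w) (Fw w) → Λ → Prop} {z : Y.G0 → Y.G → B}
    (hz : z ∈ Y.tw.Z1 (Representation.trivial Λ Y.G0 B) U)
    (hW : ∀ w L c, W w L c → Y.IsPl w L ∧ L.At (KK (Oc w) (Fw w)) U ∧ n.Coprime (qw w) ∧
      Y.tw.Eig (Representation.trivial Λ Y.G0 B) U z (hk (L.To U) U) c)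
    {C : Type} [NormedField C] {i : Λ →+* C} {r : ℝ}
    (ann : ∀ a : Λ, a • z ∈ Y.tw.B1 (Representation.trivial Λ Y.G0 B) U → ‖i a‖ ≤ r) :
    Apx e i (fun g τ => ∃ w L P, W w L τ ∧ FrI j w P g ∧ (e g : Λ) = qw w)
      {s | ∃ w L c P, W w L c ∧ P.IsPrime ∧ below j P = w.asIdeal ∧ s.1 ∈ inP P} r := by
  obtain ⟨ρ, o⟩ := (Tw.galh_of Y.ok Y.tw.cf Y.tw.poi Λ B n hn).2.2 F j io (emb ▸ can) U hU ne
  refine o.apx Y.ok hU hn (can.ex_sl emb) he hz ann (fun Q τ => ∃ w L, W w L τ ∧ L.To U = Q)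
    ?_ ?_ ?_
  · rintro _ τ ⟨w, L, k, rfl⟩
    exact ⟨cor_To L hU, (hW w L τ k).2.2.2⟩
  · rintro g τ ⟨w, L, P, k, fr, eq⟩
    obtain ⟨k1, k2, k3, -⟩ := hW w L τ k
    have q : qw w = qq (Oc w) := k1.qq_eq.symm
    exact ⟨_, _, ⟨w, L, k, rfl⟩, q ▸ eq, fun c σ θ x s _ _ _ =>
      (((good _ _ L w k1).2 U hU ne k2 j io emb P fr.1 fr.2.1 g g.2 σ x).2
        (q ▸ fr.2.2)).gen s hn (q ▸ k3) c⟩
  · rintro g ⟨w, L, c, P, k, h1, h2, h3⟩ σ θ x s a a₁
    obtain ⟨k1, k2, k3, -⟩ := hW w L c k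
    have q : qw w = qq (Oc w) := k1.qq_eq.symm
    exact (((good _ _ L w k1).2 U hU ne k2 j io emb P h1 h2 g g.2 σ x).1 h3).gen s hn (q ▸ k3) hU

theorem not_mem {p : ℕ} {w : Pl F} (h : p.Coprime (qw w)) : (p : 𝓞 F) ∉ w.asIdeal := fun hp => by
  obtain ⟨a, b, e⟩ := h.cast (R := 𝓞 F)
  exact w.isPrime.ne_top ((Ideal.eq_top_iff_one _).2 (e ▸ add_mem (Ideal.mul_mem_left _ _ hp)
    (Ideal.mul_mem_left _ _ (Ideal.absNorm_mem _))))

theorem cop_of_ov {l p : ℕ} {P : Id} {w : Pl F} (hp : p.Prime) (h : Ov l P) (ne : l ≠ p)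
    (hw : below j P = w.asIdeal) : p.Coprime (qw w) := by
  obtain ⟨f, -, e, -⟩ := CH.norm_pow h hw
  rw [qw, e]
  exact ((Nat.coprime_primes hp h.1).2 ne.symm).pow_right f

theorem IsPl.at_PU {O K : Type} [CommRing O] [IsDomain O] [IsDiscreteValuationRing O] [Field K]
    [Algebra O K] {L : Y.tw.Lc O K} {w : Pl F} (h : Y.IsPl w L) {V V' : ∀ w, Subgroup (Y.Dw w)ˣ}
    (le : ∀ v, V' v ≤ V v) (e : V' w = V w) {A : Subgroup (GL (Fin 2) K)}
    (a : L.At A (Y.PU V)) : L.At A (Y.PU V') := by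
  refine ⟨fun g hg => Subgroup.mem_iInf.2 fun v => ?_, fun u hu => a.2 u
    (Subgroup.mem_iInf.2 fun v => le v (Subgroup.mem_iInf.1 hu v))⟩
  by_cases hv : v = w
  · subst hv
    exact e ▸ Subgroup.mem_iInf.1 (a.1 g hg) v
  · obtain ⟨-, -, -, -, -, h2⟩ := h
    exact Subgroup.mem_comap.2 ((Units.ext (h2 g v hv) : Y.cu v (L.ι g) = 1) ▸ one_mem _)

variable (Y) in
/-- the level is maximal at `w`, and `c` is the eigenvalue of `T_w` -/
def Gw (m : ℕ) (s : Y.Sp Qb) (U : Subgroup Y.G) (z : Y.G0 → Y.G → Vw Qb (F →+* Qb) m) (w : Pl F)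
    (c : Qb) : Prop := ∃ L : Y.tw.Lc (Oc w) (Fw w), Y.IsPl w L ∧ L.At (KK (Oc w) (Fw w)) U ∧
  Y.tw.Eig (Y.rw m s) U z (hk (L.To U) U) c

/-- **the Galois representation of an eigenclass** -/
theorem rep_core (ape : APE) (bndk : BNDK) (bndi : BNDI) (tfr : TFR) (good : Y.GOOD) (can : Y.CAN)
    (emb : Y.Emb j io) {m : ℕ} {s : Y.Sp Qb} (sp : Y.IsSp s) {V : ∀ w, Subgroup (Y.Dw w)ˣ}
    (lev : Y.PU V ∈ Y.tw.Lev) (ne : Y.tw.Neat (Y.PU V)) {z : Y.G0 → Y.G → Vw Qb (F →+* Qb) m}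
    (coc : z ∈ Y.tw.Z1 (Y.rw m s) (Y.PU V)) (nz : z ∉ Y.tw.B1 (Y.rw m s) (Y.PU V)) (p : ℕ)
    [hp : Fact p.Prime] (ι : Qb →+* Cp p) (aux : ∃ w c, p.Coprime (qw w) ∧
      Y.Gw m s (Y.PU V) z w c ∧ c ^ 2 ≠ (qw w + 1) ^ 2) (S : Finset ℕ)
    (den : ∀ l ∉ S, ∀ P w, Ov l P → below j P = w.asIdeal → qw w = l →
      ∃ c, Y.Gw m s (Y.PU V) z w c) :
    ∃ ρ : GK j →* GL (Fin 2) (Cp p), Continuous ρ ∧ (∀ g, dt ρ g = eps p g) ∧
      ∀ l P w c, Ov l P → l ≠ p → below j P = w.asIdeal → Y.Gw m s (Y.PU V) z w c →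
        (∀ g : GK j, g.1 ∈ inP P → ρ g = 1) ∧ ∀ φ, FrI j w P φ → tr ρ φ = ι c := by
  classical
  obtain ⟨K, fK, hK⟩ := bndk F Y m s sp _ lev z coc nz
  obtain ⟨w0, c0, a1, ⟨L0, a2, a3, a4⟩, a5⟩ := aux
  obtain ⟨E, fE, k, hE, H⟩ := ape F Y m s sp V lev z coc nz p ι
    ⟨w0, L0, c0, not_mem a1, a2, a3, (good _ _ L0 w0 a2).1, a5, a4⟩ K fK
  have int : ∀ w c, p.Coprime (qw w) → Y.Gw m s (Y.PU V) z w c → ι c ∈ OE E := by
    rintro w c h ⟨L, b1, b2, b3⟩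
    refine mem_OE.2 ⟨?_, hE c (hK _ (cor_To L lev) c b3)⟩
    have := norm_of_int ((bndi F Y m s sp _ lev z coc nz _ _ L w b1 b2 c b3).map ι.toIntAlgHom)
    rwa [map_mul, map_pow, map_natCast, norm_mul, _root_.norm_pow,
      norm_nat (hp.out.coprime_iff_not_dvd.1 h), one_pow, one_mul] at this
  obtain ⟨d, ⟨co⟩⟩ := ex_coord (E := E)
  let e : GK j →* (OE E)ˣ := (Units.map (zE E).toMonoidHom).comp ((ez p).comp (GK j).subtype)
  let W : ∀ w : Pl F, Y.tw.Lc (Oc w) (Fw w) → OE E → Prop := fun w L τ => p.Coprime (qw w) ∧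
    Y.IsPl w L ∧ L.At (KK (Oc w) (Fw w)) (Y.PU V) ∧ ∃ c, (τ : Cp p) = ι c ∧
      Y.tw.Eig (Y.rw m s) (Y.PU V) z (hk (L.To (Y.PU V)) (Y.PU V)) c
  have p0 : 0 < ‖(p : Cp p)‖ := norm_pos_iff.2 (Nat.cast_ne_zero.2 hp.out.ne_zero)
  have fr : ∀ l P w c (φ : GK j), Ov l P → l ≠ p → Y.Gw m s (Y.PU V) z w c → FrI j w P φ →
      ∃ τ : OE E, (τ : Cp p) = ι c ∧ ∃ w L P, W w L τ ∧ FrI j w P φ ∧ (e φ : OE E) = qw w :=
    fun l P w c φ h1 h2 h3 h4 => by
      have cp := cop_of_ov hp.out h1 h2 h4.2.1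
      refine ⟨⟨_, int w c cp h3⟩, rfl, ?_⟩
      obtain ⟨L, b1, b2, b3⟩ := h3
      exact ⟨w, L, P, ⟨cp, b1, b2, c, rfl, b3⟩, h4, Subtype.ext (eps_of_pow h1 h2 h4.2.2)⟩
  obtain ⟨t, t1, t2, t3, t4⟩ := psc (e := e) (OE E).subtype complete_E (fun a => a.2.2)
    (R := fun g τ => ∃ w L P, W w L τ ∧ FrI j w P g ∧ (e g : OE E) = qw w)
    (I := {s | ∃ w L c P, W w L c ∧ P.IsPrime ∧ below j P = w.asIdeal ∧ s.1 ∈ inP P})
    (r := fun n => ‖(p : Cp p)‖ ^ n / ‖(p : Cp p)‖ ^ k)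
    (by simpa using (tendsto_pow_atTop_nhds_zero_of_lt_one p0.le norm_p_lt).div_const _)
    (((Cheb.dense_fr (insert p S)).preimage (Tw.isOpen_GK j).isOpenMap_subtype_val).mono (by
      rintro φ ⟨l, l1, l2, P, h1, h2, h3⟩
      have o : Ov l P := ⟨l1, h1, h2⟩
      obtain ⟨w, hw⟩ := exists_below j o
      obtain ⟨f, -, f1, f2⟩ := CH.norm_pow o hw
      rw [Nat.dvd_one.1 (f2 φ φ.2 1 (by rw [pow_one]; exact h3)), pow_one] at f1
      obtain ⟨c, hc⟩ := den l (fun a => l2 (Finset.mem_insert_of_mem a)) P w o hw f1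
      obtain ⟨τ, -, hτ⟩ := fr l P w c φ o (fun a => l2 (a ▸ Finset.mem_insert_self _ _)) hc
        ⟨h1, hw, f1 ▸ h3⟩
      exact ⟨τ, hτ⟩)) fun n => by
      obtain ⟨V', v1, v2, v3, z', z1, z2, z3⟩ := H n
      obtain ⟨_, _, _⟩ := ex_mod co n
      refine apx_lev good can emb v3 (ne.mono (iInf_mono fun v => Subgroup.comap_mono (v1 v)))
        (pow_pos hp.out.pos n) ?_ z1 ?_ fun a ha => ?_
      · filter_upwards [((Gz_open (p ^ n)).preimage continuous_subtype_val).mem_nhds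
          (x := (1 : GK j)) (Gz (p ^ n)).one_mem] with u hu
        have := mem_Gz_pow.1 hu
        rw [eps_eq, ← map_one (zc p), ← map_sub, norm_zc, PadicInt.norm_le_pow_iff_mem_span_pow,
          Ideal.mem_span_singleton] at this
        have := map_dvd (zE E) this
        rwa [map_sub, map_one, map_pow, map_natCast, ← Nat.cast_pow] at this
      · rintro w L τ ⟨b0, b1, b2, c, b3, b4⟩
        have b5 := b1.at_PU v1 (v2 w (not_mem b0)) b2
        refine ⟨b1, b5, b0.pow_left n, (b5.eig_fT v3 z1).1 (z3 (L.fT Qb) _ c τ (fun g => ?_) b3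
          (fun g hg v hv => ?_)
          (fun φ hφ => b2.op_fT (R := Qb) lev hφ ▸ hk_inv (cor_To L lev) hφ)
          ((b2.eig_fT lev coc).2 b4))⟩
        · exact (L.fT_map (OE E).subtype g).trans (L.fT_map ι g).symm
        · obtain ⟨x, rfl⟩ := L.fT_sup hg
          obtain ⟨-, -, -, -, -, h2⟩ := b1
          exact h2 x v fun a => not_mem b0 (a ▸ hv)
      · obtain ⟨c, hc⟩ := z2 a ha
        have := congrArg (fun x : OE E => ‖(x : Cp p)‖) hc
        simp only [Subring.coe_mul, SubmonoidClass.coe_pow, Subring.coe_natCast, norm_mul,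
          _root_.norm_pow] at this
        rw [le_div_iff₀ (pow_pos p0 k)]
        exact this.trans_le (mul_le_of_le_one_right (pow_pos p0 n).le (mem_OE.1 c.2).1)
  obtain ⟨ρ, r1, r2, r3, r4⟩ := tfr p _ t _ t1 t2 (eps_cont.comp continuous_subtype_val)
  refine ⟨ρ, r1, r3, fun l P w c h1 h2 h3 h4 => ⟨fun g hg => r4 g (t4 g ?_ ?_), fun φ hφ => ?_⟩⟩
  · have cp := cop_of_ov hp.out h1 h2 h3
    have := int w c cp h4
    obtain ⟨L, b1, b2, b3⟩ := h4
    exact ⟨w, L, ⟨_, this⟩, P, ⟨cp, b1, b2, c, rfl, b3⟩, h1.2.1, h3, hg⟩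
  · exact Units.ext (Subtype.ext (eps_inert h1 h2 hg))
  · obtain ⟨τ, a, b⟩ := fr l P w c φ h1 h2 h4 hφ
    exact (r2 φ).trans ((t3 φ τ b).trans a)

end QD

/-- **REPF** -/
theorem repf (ape : APE) (bndk : BNDK) (bndi : BNDI) (tfr : TFR) (good : AllQ fun X => X.GOOD)
    (can : AllQ fun X => X.CAN) : REPF := by
  intro A hA X m S L b h p hp ι
  classical
  obtain ⟨Y, io, s, V, z, h⟩ := hA ▸ h
  obtain ⟨w, w1, w2, w3⟩ := h.nE (Ideal.finite_factors (I := Ideal.span {(p : 𝓞 X.F)})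
    (by simpa using hp.out.ne_zero)).toFinset
  obtain ⟨l, P, a1, a2, a3⟩ := w2
  obtain ⟨ρ, r1, r2, r3⟩ := QD.rep_core ape bndk bndi tfr (good _ Y) (can _ Y) h.emb h.sp h.lev
    h.neat h.coc h.ne p ι ⟨w, b w, QD.cop_of_ov hp.out a1 (fun e => w1 (by
      simpa [← e, ← a2] using H20.l_mem_below X.j a1.2.2)) a2, h.sph w ⟨l, P, a1, a2, a3⟩, w3⟩
    (insert (qw X.v0) S) fun l hl P w o hw e => ⟨_, h.sph w ⟨l, P, o, hw, fun a => hl (by
      rw [← e, HeightOneSpectrum.ext (hw.symm.trans a)]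
      exact Finset.mem_insert_self _ _), Or.inl fun a => hl (Finset.mem_insert_of_mem a)⟩⟩
  exact ⟨ρ, r1, r2, fun l P w o hl hw sp => r3 l P w _ o hl hw (h.sph w ⟨l, P, o, hw, sp⟩)⟩

end Vale.Agent.P022K.Sh
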