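import Vale.Agent.P022K.F0.Pts

/-!
# P022K, block F0: rigidity, the analytic part (expansions at an elliptic point)
-/

set_option autoImplicit false

open UpperHalfPlane
open scoped MatrixGroups Manifold ComplexConjugate

noncomputable section

namespace Vale.Agent.P022K.Sh.Rg

open Vale.Agent.P022 Vale.Agent.P022.H218.L3 Vale.Agent.P022K.F0.Cf

/-! ## the disc coordinate -/

theorem tb_ne (τ σ : ℍ) : (σ : ℂ) - conj (τ : ℂ) ≠ 0 := fun h => by
  have := congrArg Complex.im h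
  simp only [Complex.sub_im, Complex.conj_im, coe_im, Complex.zero_im] at this
  linarith [σ.im_pos, τ.im_pos]

/-- `σ - conj τ` -/
def tb (τ : ℍ) : Hol :=
  ⟨fun σ => (σ : ℂ) - conj (τ : ℂ), mdifferentiable_coe.sub mdifferentiable_const⟩

/-- the disc coordinate at `τ` -/
def zH (τ : ℍ) : Hol := ⟨fun σ => ((σ : ℂ) - τ) / ((σ : ℂ) - conj (τ : ℂ)),
  MDifferentiable.div (tz τ).2 (tb τ).2 (tb_ne τ)⟩

theorem zH_val (τ σ : ℍ) : (zH τ).1 σ = ((σ : ℂ) - τ) / ((σ : ℂ) - conj (τ : ℂ)) := rfl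

theorem zH_self (τ : ℍ) : (zH τ).1 τ = 0 := by simp [zH_val]

theorem norm_zH (τ σ : ℍ) : ‖(zH τ).1 σ‖ = Real.tanh (dist σ τ / 2) := by
  rw [tanh_half_dist, zH_val, norm_div, dist_eq_norm, dist_eq_norm]

theorem zH_lt (τ σ : ℍ) : ‖(zH τ).1 σ‖ < 1 := by
  rw [norm_zH]
  exact Real.tanh_lt_one _

theorem dist_le {τ σ σ' : ℍ} (h : ‖(zH τ).1 σ‖ ≤ ‖(zH τ).1 σ'‖) : dist σ τ ≤ dist σ' τ := by
  rw [norm_zH, norm_zH] at h
  have := Real.artanh_le_artanh (Real.neg_one_lt_tanh _) (Real.tanh_lt_one _) h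
  rw [Real.artanh_tanh, Real.artanh_tanh] at this
  linarith

theorem zH_inj {τ σ σ' : ℍ} (h : (zH τ).1 σ = (zH τ).1 σ') : σ = σ' := by
  rw [zH_val, zH_val, div_eq_div_iff (tb_ne τ σ) (tb_ne τ σ')] at h
  refine UpperHalfPlane.ext (mul_left_cancel₀ (tb_ne τ τ) ?_)
  linear_combination h

theorem one_sub_ne {w : ℂ} (hw : ‖w‖ < 1) : 1 - w ≠ 0 := fun h => by
  rw [← sub_eq_zero.1 h, norm_one] at hw
  exact lt_irrefl _ hw

/-- the inverse of the disc coordinate -/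
def zi (τ : ℍ) (w : ℂ) (hw : ‖w‖ < 1) : ℍ := ⟨(τ - w * conj (τ : ℂ)) / (1 - w), by
  have h1 : Complex.normSq w < 1 := by
    rw [Complex.normSq_eq_norm_sq]
    exact pow_lt_one₀ (norm_nonneg _) hw two_ne_zero
  have h2 : 0 < Complex.normSq (1 - w) := Complex.normSq_pos.2 (one_sub_ne hw)
  have e : ((τ - w * conj (τ : ℂ)) / (1 - w)).im =
      τ.im * (1 - Complex.normSq w) / Complex.normSq (1 - w) := by
    rw [Complex.div_im, ← sub_div]
    congr 1
    simp [Complex.normSq_apply]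
    ring
  rw [e]
  exact div_pos (mul_pos τ.im_pos (sub_pos.2 h1)) h2⟩

theorem zH_zi (τ : ℍ) (w : ℂ) (hw : ‖w‖ < 1) : (zH τ).1 (zi τ w hw) = w := by
  rw [zH_val, div_eq_iff (tb_ne _ _)]
  have := one_sub_ne hw
  show (τ - w * conj (τ : ℂ)) / (1 - w) - τ = w * ((τ - w * conj (τ : ℂ)) / (1 - w) - conj (τ : ℂ))
  field_simp
  ring

/-- the disc coordinate as a meromorphic function -/
def zz (τ : ℍ) : Mer := jm (zH τ)

theorem isOd_zz (τ : ℍ) : IsOd τ (zz τ) 1 := ⟨1, tb τ, one_ne_zero, tb_ne τ τ, by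
  rw [zpow_one, zz, ← map_mul, ← map_mul, mul_one]
  exact congrArg jm (Subtype.ext (funext fun σ => div_mul_cancel₀ _ (tb_ne τ σ)))⟩

theorem zz_ne (τ : ℍ) : zz τ ≠ 0 := (isOd_zz τ).ne

theorem od_zz (τ : ℍ) : od τ (zz τ) = 1 := (isOd_zz τ).eq

theorem mval_zz (τ : ℍ) : MVal τ (zz τ) 0 := zH_self τ ▸ MVal.jm τ (zH τ)

theorem smul_sub (g : GP) (σ : ℍ) {w : ℂ} (h : num (g : GL (Fin 2) ℝ) w =
    w * denom (g : GL (Fin 2) ℝ) w) : ((g • σ : ℍ) : ℂ) - w =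
      (((g : GL (Fin 2) ℝ) 0 0 : ℝ) - w * ((g : GL (Fin 2) ℝ) 1 0 : ℝ)) * (σ - w) /
        denom (g : GL (Fin 2) ℝ) σ := by
  have h3 : ((g • σ : ℍ) : ℂ) = num (g : GL (Fin 2) ℝ) σ / denom (g : GL (Fin 2) ℝ) σ :=
    coe_smul_of_det_pos g.2 σ
  have d0 := denom_ne_zero (g : GL (Fin 2) ℝ) σ
  rw [h3, div_sub' d0]
  congr 1
  simp only [num, denom] at h ⊢
  linear_combination h

/-- an element fixing `τ` is a rotation -/
theorem act_zz (g : GP) {τ : ℍ} (hg : g • τ = τ) : actM g⁻¹ (zz τ) = algebraMap ℂ Mer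
    (((g : GL (Fin 2) ℝ).det.val : ℂ) / denom (g : GL (Fin 2) ℝ) τ ^ 2) * zz τ := by
  have h1 : num (g : GL (Fin 2) ℝ) τ = τ * denom (g : GL (Fin 2) ℝ) τ := by
    rw [← div_eq_iff (denom_ne_zero _ _), ← coe_smul_of_det_pos g.2]
    exact congrArg _ hg
  have h2 : num (g : GL (Fin 2) ℝ) (conj (τ : ℂ)) =
      conj (τ : ℂ) * denom (g : GL (Fin 2) ℝ) (conj (τ : ℂ)) := by
    simpa [num, denom] using congrArg conj h1
  obtain ⟨ν, hν⟩ : ∃ ν : ℂ, actM g⁻¹ (zz τ) = algebraMap ℂ Mer ν * zz τ := by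
    refine ⟨(((g : GL (Fin 2) ℝ) 0 0 : ℝ) - τ * ((g : GL (Fin 2) ℝ) 1 0 : ℝ)) /
      (((g : GL (Fin 2) ℝ) 0 0 : ℝ) - conj (τ : ℂ) * ((g : GL (Fin 2) ℝ) 1 0 : ℝ)), ?_⟩
    rw [zz, actM_algebraMap, ← jm_const, ← map_mul]
    refine congrArg jm (Subtype.ext (funext fun σ => ?_))
    show (zH τ).1 (g⁻¹⁻¹ • σ) = _ * (zH τ).1 σ
    rw [inv_inv, zH_val, zH_val, smul_sub g σ h1, smul_sub g σ h2,
      div_div_div_cancel_right₀ (denom_ne_zero _ _), mul_div_mul_comm]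
    rfl
  have := mval_mu g hg (mord_iff.2 ⟨zz_ne τ, od_zz τ⟩)
  rw [hν, mul_inv_cancel_right₀ (zz_ne τ)] at this
  rw [hν, this.unique (MVal.const τ ν)]

/-! ## pull back -/

section pull

variable {m : ℍ → ℍ} (hm : (fun σ => (m σ : ℂ)) ∈ Hol)

/-- pull back of holomorphic functions -/
def pH : Hol →ₐ[ℂ] Hol where
  toFun f := ⟨fun σ => f.1 (m σ), by
    have : MDifferentiable 𝓘(ℂ) 𝓘(ℂ) m := fun σ => by
      have h := (mdifferentiableAt_ofComplex (m σ).im_pos).comp σ (mem_Hol.1 hm σ)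
      simpa [Function.comp_def] using h
    exact (mem_Hol.1 f.2).comp this⟩
  map_one' := rfl
  map_mul' _ _ := rfl
  map_zero' := rfl
  map_add' _ _ := rfl
  commutes' _ := rfl

variable (hi : Function.Injective m)

include hi in
theorem pH_inj : Function.Injective ((IsScalarTower.toAlgHom ℂ Hol Mer).comp (pH hm)) := by
  rw [injective_iff_map_eq_zero]
  intro f hf
  by_contra h0
  obtain ⟨k, u, hu, rfl⟩ := ex_fac (m I) h0
  obtain ⟨σ, hσ⟩ := ex_ne I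
  rw [map_mul, map_pow] at hf
  exact mul_ne_zero (pow_ne_zero _ (jm_ne' (f := pH hm (tz (m I))) (τ := σ) (tz_ne (hi.ne hσ))))
    (jm_ne' (f := pH hm u) (τ := I) hu) hf

/-- pull back of meromorphic functions -/
def pM : Mer →ₐ[ℂ] Mer := IsFractionRing.liftAlgHom (pH_inj hm hi)

theorem pM_jm (f : Hol) : pM hm hi (jm f) = jm (pH hm f) := by
  rw [pM, IsFractionRing.liftAlgHom_apply, IsFractionRing.lift_algebraMap]
  rfl

theorem pM_val {σ : ℍ} {f : Mer} {c : ℂ} (h : MVal (m σ) f c) : MVal σ (pM hm hi f) c := by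
  obtain ⟨g, u, h0, e, v⟩ := h
  have := congrArg (pM hm hi) e
  rw [map_mul] at this
  exact ⟨pH hm g, pH hm u, h0, (congrArg _ (pM_jm hm hi u).symm).trans
    (this.trans (pM_jm hm hi g)), v⟩

theorem pM_eq {h : GP} (e : ∀ σ, h • m σ = σ) (f : Mer) : pM hm hi f = actM h f := by
  have key : ∀ a : Hol, pM hm hi (jm a) = actM h (jm a) := fun a => by
    rw [pM_jm, actM_algebraMap]
    refine congrArg jm (Subtype.ext (funext fun σ => ?_))
    rw [actH_apply, inv_smul_eq_iff.2 (e σ).symm]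
    rfl
  obtain ⟨a, b, b0, e⟩ := ex_frac f
  rw [(eq_div_iff (jm_ne b0)).2 e, map_div₀, map_div₀, key, key]

end pull

section mm

variable (τ τ' : ℍ) {c : ℂ} (hc : ‖c‖ ≤ 1)

include hc in
theorem mul_lt (σ : ℍ) : ‖c * (zH τ').1 σ‖ < 1 := by
  rw [norm_mul]
  exact mul_lt_one_of_nonneg_of_lt_one_right hc (norm_nonneg _) (zH_lt τ' σ)

/-- multiplication by `c` in the disc coordinates -/
def mm (σ : ℍ) : ℍ := zi τ (c * (zH τ').1 σ) (mul_lt τ' hc σ)

theorem zH_mm (σ : ℍ) : (zH τ).1 (mm τ τ' hc σ) = c * (zH τ').1 σ := zH_zi _ _ _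

theorem mm_hol : (fun σ => (mm τ τ' hc σ : ℂ)) ∈ Hol :=
  MDifferentiable.div (mdifferentiable_const.sub ((mdifferentiable_const.mul (zH τ').2).mul
    mdifferentiable_const)) (mdifferentiable_const.sub (mdifferentiable_const.mul (zH τ').2))
    fun σ => one_sub_ne (mul_lt τ' hc σ)

theorem mm_inj (c0 : c ≠ 0) : Function.Injective (mm τ τ' hc) := fun σ σ' h =>
  zH_inj (mul_left_cancel₀ c0 (by rw [← zH_mm τ τ' hc, h, zH_mm]))

theorem mm_self : mm τ τ' hc τ' = τ := zH_inj (by rw [zH_mm, zH_self, zH_self, mul_zero])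

theorem mm_GP (h1 : ‖c‖ = 1) : ∃ h : GP, ∀ σ, h • mm τ τ' hc σ = σ := by
  obtain ⟨e, he⟩ := IsAlgClosed.exists_pow_nat_eq c two_pos
  have h2 : Complex.normSq e = 1 := by
    rw [Complex.normSq_eq_norm_sq, ← norm_pow, he, h1]
  have h3 : e * conj e = 1 := by rw [Complex.mul_conj, h2]; rfl
  have hd : 0 < Matrix.det !![(conj e * τ).im, (e * conj (τ : ℂ) * τ').im; (conj e).im,
      (e * τ').im] := by
    have : Matrix.det !![(conj e * τ).im, (e * conj (τ : ℂ) * τ').im; (conj e).im,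
        (e * τ').im] = Complex.normSq e * (τ.im * τ'.im) := by
      simp [Matrix.det_fin_two, Complex.normSq_apply]
      ring
    rw [this, h2, one_mul]
    exact mul_pos τ.im_pos τ'.im_pos
  let g : GP := ⟨Matrix.GeneralLinearGroup.mkOfDetNeZero _ hd.ne', hd⟩
  refine ⟨g⁻¹, fun σ => inv_smul_eq_iff.2 (zH_inj (τ := τ) ?_)⟩
  have h4 : ((g • σ : ℍ) : ℂ) = num (g : GL (Fin 2) ℝ) σ / denom (g : GL (Fin 2) ℝ) σ :=
    coe_smul_of_det_pos g.2 σ
  have d0 := denom_ne_zero (g : GL (Fin 2) ℝ) σ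
  have i2 : ∀ w : ℂ, (w.im : ℂ) = (w - conj w) / (2 * Complex.I) := Complex.im_eq_sub_conj
  have n1 : num (g : GL (Fin 2) ℝ) σ = ((conj e * τ - e * conj (τ : ℂ)) * σ +
      (e * conj (τ : ℂ) * τ' - conj e * τ * conj (τ' : ℂ))) / (2 * Complex.I) := by
    show (((conj e * τ).im : ℝ) : ℂ) * σ + (((e * conj (τ : ℂ) * τ').im : ℝ) : ℂ) = _
    simp only [i2, map_mul, Complex.conj_conj]
    ring
  have n2 : denom (g : GL (Fin 2) ℝ) σ = ((conj e - e) * σ +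
      (e * τ' - conj e * conj (τ' : ℂ))) / (2 * Complex.I) := by
    show (((conj e).im : ℝ) : ℂ) * σ + (((e * τ').im : ℝ) : ℂ) = _
    simp only [i2, map_mul, Complex.conj_conj]
    ring
  rw [zH_mm, zH_val, zH_val, ← mul_div_assoc, div_eq_div_iff (tb_ne _ _) (tb_ne _ _), h4,
    div_sub' d0, div_sub' d0, ← mul_div_assoc, div_mul_eq_mul_div, n1, n2, ← he]
  congr 1
  linear_combination (e * (σ - τ') * (σ - conj (τ' : ℂ)) * (τ - conj (τ : ℂ)) /
    (2 * Complex.I)) * h3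

end mm

/-! ## expansions -/

section expand

variable {τ τ' : ℍ} {f : Mer}

theorem mem_of {c : ℂ} (h : MVal τ f c) : f ∈ pl τ := (mval_iff.1 h).1

theorem ex_val (h : f ∈ pl τ) : ∃ c, MVal τ f c := ⟨_, mval_iff.2 ⟨h, rfl⟩⟩

theorem cst_mem (τ : ℍ) (c : ℂ) : algebraMap ℂ Mer c ∈ pl τ := reg_const τ c

theorem MVal_sub {g : Mer} {c : ℂ} (h : MVal τ f c) (h' : MVal τ g c) : MVal τ (f - g) 0 := by
  have := h.add ((MVal.const τ (-1)).mul h')
  rwa [map_neg, map_one, neg_one_mul, neg_one_mul, ← sub_eq_add_neg, add_neg_cancel] at this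

theorem div_mem' (h : MVal τ f 0) : f / zz τ ∈ pl τ := by
  by_cases f0 : f = 0
  · rw [f0, zero_div]
    exact zero_mem _
  obtain ⟨h1, h2⟩ := mval_iff.1 h
  have := (ev_eq_zero f0 h1).1 h2
  refine reg_iff.2 (Or.inr ?_)
  rw [od_div τ f0 (zz_ne τ), od_zz]
  omega

theorem eq_zero (h : ∀ k : ℕ, f / zz τ ^ k ∈ pl τ) : f = 0 := by
  by_contra f0
  have z0 := pow_ne_zero ((od τ f).toNat + 1) (zz_ne τ)
  have := (reg_iff.1 (h ((od τ f).toNat + 1))).resolve_left (div_ne_zero f0 z0)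
  rw [od_div τ f0 z0, od_pow, od_zz] at this
  omega

theorem lead {Z : Mer} {a : ℂ} {k : ℕ}
    (h : (Z - algebraMap ℂ Mer a * zz τ) / zz τ ^ (k + 2) ∈ pl τ) : MVal τ (Z / zz τ) a := by
  obtain ⟨c, hc⟩ := ex_val (mul_mem h (pow_mem (mem_of (mval_zz τ)) k))
  have := (MVal.const τ a).add (hc.mul (mval_zz τ))
  rw [mul_zero, add_zero] at this
  convert this using 1
  have := zz_ne τ
  field_simp
  ring

theorem step (A : Mer ≃ₐ[ℂ] Mer) (hA : ∀ f c, MVal τ f c → MVal τ (A f) c) {ν : ℂ}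
    (hz : A (zz τ) = algebraMap ℂ Mer ν * zz τ) {a : ℂ} {k : ℕ} {Z : Mer}
    (h : (Z - algebraMap ℂ Mer a * zz τ) / zz τ ^ k ∈ pl τ) (hν : ν - ν ^ k ≠ 0) :
    ((A Z + algebraMap ℂ Mer (-ν ^ k) * Z) * algebraMap ℂ Mer (ν - ν ^ k)⁻¹ -
      algebraMap ℂ Mer a * zz τ) / zz τ ^ (k + 1) ∈ pl τ := by
  have z0 := zz_ne τ
  obtain ⟨w, hw⟩ : ∃ w, w = (Z - algebraMap ℂ Mer a * zz τ) / zz τ ^ k := ⟨_, rfl⟩
  rw [← hw] at h
  have e : Z = algebraMap ℂ Mer a * zz τ + zz τ ^ k * w := by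
    rw [hw]
    field_simp
    ring
  obtain ⟨c, hc⟩ := ex_val h
  have h1 := mul_mem (cst_mem τ (ν ^ k * (ν - ν ^ k)⁻¹)) (div_mem' (MVal_sub (hA _ _ hc) hc))
  convert h1 using 1
  have h2 : algebraMap ℂ Mer ν - algebraMap ℂ Mer ν ^ k ≠ 0 := by
    rw [← map_pow, ← map_sub]
    exact (map_ne_zero _).2 hν
  rw [e]
  simp only [map_add, map_mul, map_pow, hz, AlgEquiv.commutes, map_neg, map_inv₀, map_sub]
  field_simp
  ring

/-- a relation which is compatible with the values and with two rotations of the same infinite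
order is the graph of a pull back -/
theorem graph (R : Mer → Mer → Prop)
    (add : ∀ {f g f' g'}, R f g → R f' g' → R (f + f') (g + g'))
    (mul : ∀ {f g f' g'}, R f g → R f' g' → R (f * f') (g * g'))
    (inv : ∀ {f g}, R f g → R f⁻¹ g⁻¹) (cst : ∀ c, R (algebraMap ℂ Mer c) (algebraMap ℂ Mer c))
    (val : ∀ {f g c}, R f g → MVal τ f c → MVal τ' g c) (A A' : Mer ≃ₐ[ℂ] Mer)
    (hA : ∀ f c, MVal τ f c → MVal τ (A f) c) (hA' : ∀ f c, MVal τ' f c → MVal τ' (A' f) c)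
    (act : ∀ {f g}, R f g → R (A f) (A' g)) {ν : ℂ} (hz : A (zz τ) = algebraMap ℂ Mer ν * zz τ)
    (hz' : A' (zz τ') = algebraMap ℂ Mer ν * zz τ') (ν0 : ν ≠ 0) (hν : ∀ n, 0 < n → ν ^ n ≠ 1)
    {u u' : Mer} (hu : R u u') {a a' : ℂ} (a0 : a ≠ 0) (ha : MVal τ (u / zz τ) a)
    (ha' : MVal τ' (u' / zz τ') a') (κ : Mer →ₐ[ℂ] Mer)
    (κv : ∀ {f c}, MVal τ f c → MVal τ' (κ f) c) (a0' : a' ≠ 0)
    (κz : κ (zz τ) = algebraMap ℂ Mer (a' / a) * zz τ') {f g : Mer} (h : R f g) : g = κ f := by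
  have base : ∀ {τ : ℍ} {u : Mer} {b : ℂ}, MVal τ (u / zz τ) b →
      (u * algebraMap ℂ Mer a⁻¹ - algebraMap ℂ Mer (b / a) * zz τ) / zz τ ^ 2 ∈ pl τ := by
    intro τ u b hb
    have := mul_mem (div_mem' (MVal_sub hb (MVal.const τ b))) (cst_mem τ a⁻¹)
    convert this using 1
    have := zz_ne τ
    rw [div_eq_mul_inv b, map_mul]
    field_simp
  have E : ∀ k : ℕ, ∃ Z Z', R Z Z' ∧
      (Z - algebraMap ℂ Mer 1 * zz τ) / zz τ ^ (k + 2) ∈ pl τ ∧
      (Z' - algebraMap ℂ Mer (a' / a) * zz τ') / zz τ' ^ (k + 2) ∈ pl τ' := by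
    intro k
    induction k with
    | zero => exact ⟨_, _, mul hu (cst a⁻¹), div_self a0 ▸ base ha, base ha'⟩
    | succ k ih =>
      obtain ⟨Z, Z', h1, h2, h3⟩ := ih
      have h4 : ν - ν ^ (k + 2) ≠ 0 := fun e => hν (k + 1) k.succ_pos
        (mul_left_cancel₀ ν0 (by linear_combination -e))
      exact ⟨_, _, mul (add (act h1) (mul (cst _) h1)) (cst _), step A hA hz h2 h4,
        step A' hA' hz' h3 h4⟩
  have κm : ∀ {f}, f ∈ pl τ → κ f ∈ pl τ' := fun h => (ex_val h).elim fun _ hc => mem_of (κv hc)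
  have C : ∀ (k : ℕ) {f g}, R f g → f ∈ pl τ → (g - κ f) / zz τ' ^ k ∈ pl τ' := by
    intro k
    induction k with
    | zero =>
      intro f g h hf
      obtain ⟨c, hc⟩ := ex_val hf
      rw [pow_zero, div_one]
      exact sub_mem (mem_of (val h hc)) (κm hf)
    | succ k ih =>
      intro f g h hf
      obtain ⟨c, hc⟩ := ex_val hf
      obtain ⟨Z, Z', h1, h2, h3⟩ := E k
      have z0 := zz_ne τ
      have z0' := zz_ne τ'
      have l1 := lead h2
      have l2 := lead h3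
      have Z0 : Z ≠ 0 := fun e => one_ne_zero (l1.unique (by simpa [e] using MVal.zero τ))
      have Z0' : Z' ≠ 0 := fun e =>
        div_ne_zero a0' a0 (l2.unique (by simpa [e] using MVal.zero τ'))
      have m1 : (f + algebraMap ℂ Mer (-c)) * Z⁻¹ ∈ pl τ := by
        have := mul_mem (div_mem' (MVal_sub hc (MVal.const τ c))) (mem_of (l1.inv one_ne_zero))
        convert this using 1
        rw [map_neg]
        field_simp
        ring
      have m2 := ih (mul (add h (cst (-c))) (inv h1)) m1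
      have m3 := add_mem (mul_mem (mem_of l2) m2) (mul_mem (mul_mem (sub_mem h3
        (mul_mem (cst_mem τ' ((a' / a) ^ (k + 2))) (κm h2))) (mem_of (mval_zz τ'))) (κm m1))
      convert m3 using 1
      have κ0 : κ Z ≠ 0 := (map_ne_zero κ).2 Z0
      have c0 : algebraMap ℂ Mer (a' / a) ≠ 0 := (map_ne_zero _).2 (div_ne_zero a0' a0)
      simp only [map_add, map_mul, map_pow, map_inv₀, map_sub, AlgHom.commutes, map_one, map_neg,
        map_div₀ κ, κz]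
      field_simp
      ring
  rcases (pl τ).mem_or_inv_mem f with hf | hf
  · exact sub_eq_zero.1 (eq_zero fun k => C k h hf)
  · have := sub_eq_zero.1 (eq_zero fun k => C k (inv h) hf)
    rwa [map_inv₀, inv_inj] at this

end expand

end Vale.Agent.P022K.Sh.Rg
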