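import Vale.Agent.P022K.F0.StS2
import Vale.Agent.P022K.F0.TorF

/-!
# P022K, block F0, rows TWN and TORN
-/

set_option linter.all false

open NumberField IsDedekindDomain WithZero Finset

noncomputable section

namespace Vale.Agent.P022K.Sh

open Tor Tor.CM
open Vale.Agent.P022.C (ordv)
open Vale.Agent.P027M.S (Nr)
open Vale.Agent.P027M.S.Cls (val_eq)

variable {F E : Type} [Field F] [NumberField F] [Field E] [NumberField E] [Algebra F E]
  (C : CM F E) {Ψ : Pl E → ℂˣ}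

open Classical in
/-- the values of `Ψ` at a prime and at its conjugate -/
theorem Tor.CM.gen2 (hΨ : C.Hk Ψ) {P : Pl E} (h : (C.D : 𝓞 E) ∉ P.asIdeal) :
    ∃ (n : ℕ) (a : 𝓞 E), n ≠ 0 ∧ a ≠ 0 ∧ (∀ P' : Pl E, a ∈ P'.asIdeal ↔ P' = P) ∧
      (Ψ P : ℂ) ^ n = C.NT a ∧ (Ψ (C.pi P) : ℂ) ^ n = C.NT (C.c a) := by
  obtain ⟨n, α, n0, h1, h2⟩ := C.gen1 h
  have α0 : ((α : Eˣ) : E) ≠ 0 := Units.ne_zero _
  obtain ⟨a, ha⟩ := HeightOneSpectrum.mem_integers_of_valuation_le_one (R := 𝓞 E) E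
    ((α : Eˣ) : E) fun P => by
      rw [val_eq P α0, h2, ← exp_zero, exp_le_exp]
      split_ifs <;> omega
  replace ha : (a : E) = (α : Eˣ) := ha
  refine ⟨n, a, n0, fun k => α0 (by rw [← ha, k]; rfl), fun P => ?_, ?_, ?_⟩
  · rw [mem_iff, ha, val_eq P α0, h2, ← exp_zero, exp_lt_exp]
    split_ifs with k <;> simp only [k, iff_true, iff_false] <;> omega
  · rw [ha, ← hΨ α h1, pv_single Ψ h2, zpow_natCast, Units.val_pow_eq_pow_val]
  · rw [ha, ← coe_cG, ← hΨ _ (C.cG_mem h1), pv_single Ψ (P := C.pi P) (h := n) fun P => ?_,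
      zpow_natCast, Units.val_pow_eq_pow_val]
    rw [coe_cG, ← ordv_pi, h2]
    congr 1
    exact propext ⟨fun k => by rw [← k, pi_pi], fun k => by rw [k, pi_pi]⟩

theorem twn : TWN := by
  classical
  intro F E _ _ _ _ _ X C Ψ hΨ hK
  refine ⟨fun Z => ?_, fun w g h => ?_⟩
  · obtain ⟨N, N0, hN⟩ := cop E
    obtain ⟨P, p1, p2⟩ := inf_deg_one
      ((fin_nat (E := E) (mul_ne_zero N0 C.D0)).toFinset ∪ Z.biUnion C.pr)
    rw [mem_union, not_or, Set.Finite.mem_toFinset, Set.mem_setOf_eq, Nat.cast_mul] at p2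
    have d : (C.D : 𝓞 E) ∉ P.asIdeal := fun k => p2.1 (Ideal.mul_mem_left _ _ k)
    have g := C.gd_un p1 d
    refine ⟨_, g, fun k => p2.2 (mem_biUnion.2 ⟨_, k, C.mem_pr.2 (ab_un P)⟩), fun k => ?_⟩
    obtain ⟨n, a, n0, a0, h1, h2, h3⟩ := C.gen2 hΨ d
    have e : (Ψ P : ℂ) = -Ψ (C.pi P) := by
      rw [C.tw_eq Ψ g] at k
      rcases C.ab_or (ab_un P) (ab_up (un F P)) with e | e <;> rw [e] at k
      · linear_combination k
      · rw [pi_pi] at k
        linear_combination k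
    obtain ⟨τ, e⟩ := hN P p1 (fun ⟨k, hk⟩ => p2.1 (Ideal.mul_mem_right _ _ (by
      rw [hk, Nat.cast_mul]; exact Ideal.mul_mem_right _ _ (Ideal.absNorm_mem _)))) (a ^ 2)
      (fun P' => (P'.isPrime.pow_mem_iff_mem 2 two_pos).trans (h1 P')) (pow_ne_zero _ a0)
      (fun τ => (C.sec τ).comp (C.c : E →+* E)) C.sec (by
        simp only [map_pow, prod_pow]
        refine (congrArg (· ^ 2) h3).symm.trans (Eq.trans ?_ (congrArg (· ^ 2) h2))
        rw [e, ← pow_mul, ← pow_mul, mul_comm n, pow_mul, pow_mul, neg_sq]) C.t1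
    exact C.sec_c _ _ e
  · obtain ⟨n, a, n0, -, -, h2, h3⟩ := C.gen2 hΨ (C.nD g)
    have e1 := hK w g.1
    rw [if_pos g, C.kap_eq, pr, prod_pair (g.ne (ab_up w)).symm, Units.val_mul] at e1
    have e2 : ‖(Ψ (up E w) : ℂ)‖ = ‖(Ψ (C.pi (up E w)) : ℂ)‖ := by
      rw [← pow_left_inj₀ (norm_nonneg _) (norm_nonneg _) n0, ← norm_pow, ← norm_pow, h2, h3, NT, NT,
        norm_prod, norm_prod]
      exact prod_congr rfl fun τ _ => by rw [C.cj, Complex.norm_conj]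
    have e3 : ∀ z : ℂ, z ^ 2 - 1 = 0 → ‖z‖ = 1 := fun z k =>
      Complex.norm_eq_one_of_pow_eq_one (sub_eq_zero.1 k) two_ne_zero
    rw [C.tw_eq Ψ g, ← e1] at h
    have e4 := congrArg norm e1
    rw [norm_mul, Complex.norm_natCast] at e4
    have e5 : (qw w : ℝ) = 1 := by
      rcases mul_eq_zero.1 (show ((Ψ (up E w) : ℂ) ^ 2 - 1) * ((Ψ (C.pi (up E w)) : ℂ) ^ 2 - 1) = 0
        by linear_combination -h) with k | k
      · rw [← e4, ← e2, e3 _ k, one_mul]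
      · rw [← e4, e2, e3 _ k, one_mul]
    exact w.isPrime.ne_top (Ideal.absNorm_eq_one_iff.1 (Nat.cast_eq_one.1 e5))

open scoped IsMulCommutative in
theorem torn : TORN := by
  classical
  intro F E _ _ _ _ _ X C Ψ hΨ hK φ Z wt G M _ _ _ T TW P H c1 c2 t0 t1 hL
  let N := LinearMap.range P
  have m : ∀ w, ∀ x ∈ N, T w x ∈ N := by
    rintro w _ ⟨y, rfl⟩
    exact ⟨T w y, (LinearMap.congr_fun (c2 w).eq y).symm⟩
  let T' : Pl F → Module.End ℂ (N × ℂ) := fun w => ((T w).restrict (m w)).prodMap 0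
  let c : ℂ := ∑ᶠ q, wt ∅ q - LinearMap.trace ℂ M (H * P)
  let A : Module.End ℂ (N × ℂ) :=
    ((P * H).restrict (p := N) (q := N) fun x _ => ⟨_, rfl⟩).prodMap (c • 1)
  have := Algebra.isMulCommutative_adjoin ℂ (s := Set.range T') (by
    rintro _ ⟨w, rfl⟩ _ ⟨w', rfl⟩
    exact LinearMap.ext fun x => Prod.ext
      (Subtype.ext (LinearMap.congr_fun (c1 w w').eq (x.1 : M))) rfl)
  let T1 : Pl F → Algebra.adjoin ℂ (Set.range T') := fun w => ⟨T' w, Algebra.subset_adjoin ⟨w, rfl⟩⟩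
  have k : ∀ W : Finset (Pl F), (∀ w ∈ W, C.Gd w ∧ w ∉ Z) → ∃ B, TW W = B * P ∧ ∀ x : N × ℂ,
      (((∏ w ∈ W, T1 w).1 x).1 : M) = B x.1 ∧
        ((∏ w ∈ W, T1 w).1 x).2 = if W = ∅ then x.2 else 0 := fun W => by
    induction W using Finset.induction_on with
    | empty => exact fun _ => ⟨1, t0, fun x => ⟨rfl, (if_pos rfl).symm⟩⟩
    | insert w W a ih =>
      intro h
      obtain ⟨B, b1, b2⟩ := ih fun v k => h v (mem_insert_of_mem k)
      refine ⟨T w * B, by rw [t1 W w a h, b1, mul_assoc], fun x => ?_⟩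
      rw [prod_insert a, if_neg (insert_ne_empty _ _)]
      exact ⟨congrArg (T w) (b2 x).1, rfl⟩
  obtain ⟨⟨⟨_, y, rfl⟩, z⟩, x0, Z', hx⟩ := tor F E C Ψ φ Z wt hΨ G (Algebra.adjoin ℂ (Set.range T'))
    (N × ℂ) (Subalgebra.val _) T1 A fun W hW => by
      obtain ⟨B, b1, b2⟩ := k W hW
      have e : A * (∏ w ∈ W, T1 w).1 = ((P * (H * B)).restrict (p := N) (q := N)
          fun x _ => ⟨_, rfl⟩).prodMap ((if W = ∅ then c else 0) • 1) :=
        LinearMap.ext fun x => Prod.ext (Subtype.ext (congrArg (P * H) (b2 x).1)) (by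
          change c • ((∏ w ∈ W, T1 w).1 x).2 = (if W = ∅ then c else 0) • x.2
          rw [(b2 x).2]
          split_ifs <;> simp)
      refine (congrArg _ e).trans ?_
      rw [LinearMap.trace_prodMap', LinearMap.trace_restrict_eq_of_forall_mem N (P * (H * B))
        fun x => ⟨_, rfl⟩, LinearMap.trace_mul_comm, mul_assoc, ← b1]
      split_ifs with a
      · simp [a, t0, c]
      · simpa using hL W (nonempty_iff_ne_empty.2 a) hW
  obtain ⟨w, w1, w2, w3⟩ := (twn F E X C Ψ hΨ hK).1 Z'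
  have z0 : z = 0 := (mul_eq_zero.1 (congrArg Prod.snd (hx w w1 w2)).symm).resolve_left w3
  exact ⟨y, fun a => x0 (Prod.ext (Subtype.ext a) z0), Z', fun w a b =>
    congrArg (fun x : N × ℂ => (x.1 : M)) (hx w a b)⟩

end Vale.Agent.P022K.Sh
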