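import Vale.Agent.P022K.F0.Seed3
import Vale.Agent.P022K.F0.Etg
import Vale.Agent.P022K.F0.Torn
import Vale.Agent.P022K.F0.Rep

/-!
# P022K, block F0: the row SAUT from the rows of `StS3` (helper80)
-/

set_option autoImplicit false
set_option linter.unusedSectionVars false

open UpperHalfPlane NumberField IsDedekindDomain
open scoped MatrixGroups

noncomputable section

namespace Vale.Agent.P022K.Sh

open Vale.Agent.P022 Vale.Agent.P022.H218.L3 Orb Tor CH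
open Vale.Agent.P022.C (ordv)

namespace Sau

section

variable {G0 G Λ B : Type} [Group G0] [Group G] [CommRing Λ] [AddCommGroup B] [Module Λ B]
  {T : Tw G0 G} {U : Subgroup G}

theorem op_apply (f : G →₀ Λ) (φ : G → B) (x : G) :
    op f φ x = ∑ g ∈ f.support, f g • φ (x * g) := by
  simp only [op, Finsupp.sum, Finset.sum_apply]
  rfl

theorem op_add (f : G →₀ Λ) (φ ψ : G → B) : op f (φ + ψ) = op f φ + op f ψ := funext fun x => by
  simp only [op_apply, Pi.add_apply, smul_add, Finset.sum_add_distrib]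

theorem op_smul (f : G →₀ Λ) (c : Λ) (φ : G → B) : op f (c • φ) = c • op f φ := funext fun x => by
  simp only [op_apply, Pi.smul_apply, Finset.smul_sum, smul_comm c]

theorem op_zero (f : G →₀ Λ) : op f (0 : G → B) = 0 := funext fun x => by simp [op_apply]

theorem op_comm {f f' : G →₀ Λ} (h : ∀ g ∈ f.support, ∀ g' ∈ f'.support, Commute g g')
    (φ : G → B) : op f (op f' φ) = op f' (op f φ) := funext fun x => by
  simp only [op_apply, Finset.smul_sum]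
  rw [Finset.sum_comm]
  exact Finset.sum_congr rfl fun g hg => Finset.sum_congr rfl fun g' hg' => by
    rw [smul_comm, mul_assoc, mul_assoc, (h _ hg' _ hg).eq]

theorem op_Om (f : G →₀ ℂ) {ω : G → ℍ → ℂ} (h : ω ∈ T.Om U) (i : Inv U (op f ω)) :
    op f ω ∈ T.Om U :=
  ⟨fun x => by
    rw [op_apply]
    exact sum_mem fun c _ => Hol.smul_mem (h.1 _) _, i, fun γ x τ => by
    simp only [op_apply, Pi.smul_apply, Finset.sum_apply, smul_eq_mul, mul_assoc,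
      Finset.sum_mul, h.2.2, Finset.mul_sum]
    exact Finset.sum_congr rfl fun _ _ => mul_left_comm _ _ _⟩

variable {l : ℕ} [Fact l.Prime] (w : T.Lc ℤ_[l] ℚ_[l])

/-- the operator of a type as an element of the group ring -/
def eF (c : GL (Fin 2) (ZMod l) → Λ) : G →₀ Λ := ∑ g, Finsupp.single (w.ι (Tw.lf l g)) (c g)

theorem op_eF (c : GL (Fin 2) (ZMod l) → Λ) (φ : G → B) : op (eF w c) φ = w.ec c φ := by
  show Finsupp.linearCombination Λ (fun g => rt g φ) _ = _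
  simp only [eF, map_sum, Finsupp.linearCombination_single]
  rfl

theorem eF_map {Λ' : Type} [CommRing Λ'] (i : Λ →+* Λ') (c : GL (Fin 2) (ZMod l) → Λ) (g : G) :
    eF w (fun x => i (c x)) g = i (eF w c g) := by
  classical
  simp only [eF, Finsupp.finsetSum_apply, Finsupp.single_apply, map_sum, apply_ite i, map_zero]

theorem eF_sup {c : GL (Fin 2) (ZMod l) → Λ} {g : G} (h : g ∈ (eF w c).support) :
    ∃ k, g = w.ι k := by
  by_contra e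
  refine Finsupp.mem_support_iff.1 h ?_
  rw [eF, Finsupp.finsetSum_apply]
  exact Finset.sum_eq_zero fun i _ => Finsupp.single_eq_of_ne fun a => e ⟨_, a⟩

end

variable {F : Type} [Field F] [NumberField F] {Y : QD F}

theorem sup_comm {v w : Pl F} (h : v ≠ w) {g k : Y.G} (hg : Y.Sup v g) (hk : Y.Sup w k) :
    Commute g k := Units.ext (Y.cw_ext fun u => by
  rw [Units.val_mul, Units.val_mul, map_mul, map_mul]
  by_cases e : u = v
  · rw [hk u (e ▸ h), mul_one, one_mul]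
  · rw [hg u e, mul_one, one_mul])

/-- an operator at the place `w` -/
structure Opw (io : Qb →+* ℂ) (U : Subgroup Y.G) (w : Pl F) (A : Y.G →₀ Qb) (A' : Y.G →₀ ℂ) :
    Prop where
  map : ∀ g, A' g = io (A g)
  sup : ∀ g ∈ A'.support, Y.Sup w g
  inv : ∀ (B : Type) [AddCommGroup B] [Module Qb B] (φ : Y.G → B), Inv U φ → Inv U (op A φ)
  inv' : ∀ φ : Y.G → ℍ → ℂ, Inv U φ → Inv U (op A' φ)

/-- a joint eigenclass that keeps what is known about `x` -/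
theorem jnt2 (jnt : JNT) (s : Y.Sp Qb) {U : Subgroup Y.G} (hU : U ∈ Y.tw.Lev) (ne : Y.tw.Neat U)
    {io : Qb →+* ℂ} {A : Pl F → Y.G →₀ Qb} {A' : Pl F → Y.G →₀ ℂ}
    (h : ∀ w, Opw io U w (A w) (A' w)) {x : Y.G → ℍ → ℂ} (hx : x ∈ Y.tw.Om U) (x0 : x ≠ 0) :
    ∃ (b : Pl F → Qb), ∃ z ∈ Y.tw.Z1 (Y.rw 0 s) U, z ∉ Y.tw.B1 (Y.rw 0 s) U ∧
      (∀ w, Y.tw.Eig (Y.rw 0 s) U z (op (A w)) (b w)) ∧
      (∀ w (t : ℂ), op (A' w) x = t • x → io (b w) = t) ∧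
      ∀ w, (∃ φ, Inv U φ ∧ x = op (A' w) φ) →
        (∀ φ : Y.G → ℍ → ℂ, Inv U φ → op (A' w) (op (A' w) φ) = 0 → op (A' w) φ = 0) → b w ≠ 0 := by
  have com : ∀ v w (φ : Y.G → ℍ → ℂ), op (A' v) (op (A' w) φ) = op (A' w) (op (A' v) φ) :=
    fun v w φ => by
      by_cases e : v = w
      · rw [e]
      · exact op_comm (fun g a k b => sup_comm e ((h v).sup g a) ((h w).sup k b)) φ
  let W : Submodule ℂ (Y.G → ℍ → ℂ) :=
    { carrier := {ω | ω ∈ Y.tw.Om U ∧ (∀ w (t : ℂ), op (A' w) x = t • x → op (A' w) ω = t • ω) ∧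
        ∀ w, (∃ φ, Inv U φ ∧ x = op (A' w) φ) → ∃ φ, Inv U φ ∧ ω = op (A' w) φ}
      add_mem' := fun a b => ⟨add_mem a.1 b.1, fun w t e => by
        rw [op_add, a.2.1 w t e, b.2.1 w t e, smul_add], fun w e => by
        obtain ⟨φ, c, rfl⟩ := a.2.2 w e
        obtain ⟨ψ, d, rfl⟩ := b.2.2 w e
        exact ⟨φ + ψ, fun y u k => by rw [Pi.add_apply, Pi.add_apply, c y u k, d y u k],
          (op_add _ _ _).symm⟩⟩
      zero_mem' := ⟨zero_mem _, fun w t _ => by rw [op_zero, smul_zero],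
        fun w _ => ⟨0, fun _ _ _ => rfl, (op_zero _).symm⟩⟩
      smul_mem' := fun c ω a => ⟨Submodule.smul_mem _ c a.1, fun w t e => by
        rw [op_smul, a.2.1 w t e, smul_comm], fun w e => by
        obtain ⟨φ, d, rfl⟩ := a.2.2 w e
        exact ⟨c • φ, fun y u k => by rw [Pi.smul_apply, Pi.smul_apply, d y u k],
          (op_smul _ _ _).symm⟩⟩ }
  obtain ⟨b, ⟨ω, ω1, ω0, ω2⟩, z, z1, z2, z3⟩ := jnt F Y s U hU ne io _ A A' W (fun w => (h w).map)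
    (fun _ a => a.1) (fun e => x0 ((Submodule.eq_bot_iff W).1 e x ⟨hx, fun _ _ a => a, fun _ a => a⟩))
    (fun v ω a => ⟨op_Om _ a.1 ((h v).inv' _ a.1.2.1), fun w t e => by
      rw [com, a.2.1 w t e, op_smul], fun w e => by
      obtain ⟨φ, d, rfl⟩ := a.2.2 w e
      exact ⟨_, (h v).inv' φ d, com _ _ _⟩⟩) (fun v w ω _ => com v w ω) fun w => (h w).inv
  refine ⟨b, z, z1, z2, z3, fun w t e => smul_left_injective ℂ ω0 ((ω2 w).symm.trans (ω1.2.1 w t e)),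
    fun w e k b0 => ω0 ?_⟩
  obtain ⟨φ, d, rfl⟩ := ω1.2.2 w e
  exact k φ d (by rw [ω2, b0, map_zero, zero_smul])

section

variable {E : Type} [Field E] [NumberField E] [Algebra F E] {C : CM F E} {Ψ : Pl E → ℂˣ} {w : Pl F}

theorem ev_of {Δ : ℕ} (a : C.a = -(Δ : 𝓞 F)) (h : 2 * C.a ∉ w.asIdeal) : Even (ordv w (Δ : F)) := by
  have := ordv_one (val_one (P := w) (x := (Δ : 𝓞 F)) fun k =>
    h (Ideal.mul_mem_left _ _ (a ▸ neg_mem k)))
  rw [show ((Δ : 𝓞 F) : F) = Δ from map_natCast (algebraMap (𝓞 F) F) Δ] at this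
  exact this ▸ Even.zero

theorem nl_one (h : Ms C Ψ w) {φ : Eˣ → ℂ} (e : ∀ γ, φ γ = 1) : Nl C Ψ w φ := by
  have := Nel.fin_sub (C.G1 Set.univ) (C.G1 {P | ¬ Ab w P})
  let _ := Fintype.ofFinite (C.G1 {P | ¬ Ab w P} ⧸ (C.G1 Set.univ).subgroupOf (C.G1 {P | ¬ Ab w P}))
  rw [Nl, finsum_congr fun q => by rw [e, h _ q.out.2, one_mul], finsum_eq_sum_of_fintype]
  simp

theorem std {ε : E →ₐ[F] Y.D} (cm : Y.Cm C ε) (h : (C.D : 𝓞 F) ∉ w.asIdeal) :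
    2 * Y.a * Y.b ∉ w.asIdeal := fun k => by
  obtain ⟨d, e⟩ := C.D2
  rcases w.isPrime.mem_or_mem k with k | k
  · rcases w.isPrime.mem_or_mem k with k | k
    · exact h (by rw [e, Nat.cast_mul]; exact Ideal.mul_mem_right _ _ k)
    · exact C.aD w h (cm.a ▸ k)
  · exact cm.b w h k

end

variable {X : Fd} {S : Finset ℕ} {L : Lv} {E : Type} [Field E] [NumberField E] [Algebra X.F E]
  {C : CM X.F E} {Ψ : Pl E → ℂˣ} {io : Qb →+* ℂ} {Δ : ℕ} {Y : QD X.F}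

/-- the local data -/
theorem loc (kron : KRON2) (dg : DG1) (plc : PLC3) (tys : TYS) (typ : TYP) (tyr : TYR)
    (h : Shy X S L C Ψ io Δ) (spl : ∀ w, Y.Spl w ↔ w ≠ X.v0) (cm : ∃ ε, Y.Cm C ε) (w : Pl X.F)
    (hw : (C.D : 𝓞 X.F) ∈ w.asIdeal) (hn : ¬ ∃ l, l.Prime ∧ TyW X S l w ∧ L l = none) :
    ∃ V f φ, (((∃ κ, (Y.TyM w κ V f φ ∨ Y.TyS w κ V f φ) ∧ Kw C Ψ w κ) ∨
        (Y.TyR w V f φ ∧ Kw C Ψ w (-(qw w : ℂ)))) ∧
        ∀ ε, Y.Cm C ε → Nl C Ψ w fun γ => φ (Y.lc ε w γ)) ∧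
      (SphW X S w → ∃ Lw : Y.tw.Lc (Oc w) (Fw w), Y.IsPl w Lw ∧
        ∀ V' : ∀ v, Subgroup (Y.Dw v)ˣ, V' w = V → Lw.At (KK (Oc w) (Fw w)) (Y.PU V')) ∧
      ∀ (l : ℕ) [Fact l.Prime] c, TyW X S l w → L l = some c →
        ∃ (k : ℂ) (Lw : Y.tw.Lc ℤ_[l] ℚ_[l]), Y.IsPl w Lw ∧
          ∀ V' : ∀ v, Subgroup (Y.Dw v)ˣ, V' w = V → Lw.At (Km ℤ_[l] ℚ_[l] 1) (Y.PU V') ∧
            ∀ g : ∀ v, (Y.Dw v)ˣ → ℂ, g w = f → ∀ ω : Y.G → ℍ → ℂ, Inv (Y.PU V') ω →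
              wk (Y.gf {w} V' g) (Y.PU V') ω = k • Lw.ec (fun x => io (c x)) ω := by
  have a : C.a = Y.a := cm.elim fun _ k => k.a
  have kr := kron _ E Y C Ψ h.hk h.kp Δ h.md h.a w hw
  have kw : Even (ordv w (Δ : X.F)) → ∀ κ : ℂ,
      ((κ = qw w ∧ IsSquare (algebraMap (𝓞 X.F) (Fw w) Y.a)) ∨
        (κ = -(qw w : ℂ) ∧ ¬ IsSquare (algebraMap (𝓞 X.F) (Fw w) Y.a))) → Kw C Ψ w κ := by
    rintro e _ (⟨rfl, k⟩ | ⟨rfl, k⟩)
    exacts [(kr e).1 (a ▸ k), (kr e).2 (a ▸ k)]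
  obtain ⟨p1, p2, p3, -⟩ := plc X S
  rcases p1 w with rfl | k | ⟨l, hl, k⟩
  · have e := (kr (ev_of h.a h.v0.a)).2 h.v0.ns
    obtain ⟨V, f, φ, t1, t2⟩ := tyr _ E Y C Ψ h.hk h.kp _ cm (fun k => (spl _).1 k rfl) h.v0 e
    exact ⟨V, f, φ, ⟨.inr ⟨t1, e⟩, t2⟩, fun k => absurd rfl (p2 _ 0 k).1,
      fun l _ c k => absurd rfl k.2.1⟩
  · obtain ⟨V, f, φ, κ, Lw, t1, t2, t3⟩ := tys _ Y Δ h.md (a ▸ h.a) w ((spl w).2 (p2 w 0 k).1)
      (h.sph w k).1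
    obtain ⟨_, _, _, _, -, -, -, -, -, t4, t5⟩ := t1.ex
    exact ⟨V, f, φ, ⟨.inl ⟨κ, .inr t1, kw (h.sph w k).1 κ t5⟩,
      fun ε _ => nl_one (h.sph w k).2 fun _ => t4 _⟩, fun _ => ⟨Lw, t2, t3⟩,
      fun l _ c k' => absurd k' (p2 w l k).2⟩
  · have := Fact.mk hl
    obtain ⟨c, hc⟩ := Option.ne_none_iff_exists'.1 fun e => hn ⟨l, hl, k, e⟩
    obtain ⟨P, k1, k2, k3⟩ := k.2.2
    obtain ⟨e, he⟩ := dg _ X.j l P w k1 k2 k3
    have m := h.ty l c w hl k hc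
    have ev := ev_of h.a m.a
    obtain ⟨V, f, φ, κ, r, Lw, t1, t2, t3, t4⟩ := typ _ E Y C Ψ h.hk h.kp io w l c e he a
      ((spl w).2 k.2.1) m ((em _).elim (fun s => ⟨_, (kr ev).1 s⟩) fun s => ⟨_, (kr ev).2 s⟩)
    obtain ⟨_, _, _, _, _, _, _, -, -, -, -, -, -, -, -, t5⟩ := t1.ex
    refine ⟨V, f, φ, ⟨.inl ⟨κ, .inl t1, kw ev κ t5⟩, t2⟩, fun k' => absurd k (p2 w l k').2,
      fun l' _ c' k' e' => ?_⟩
    obtain rfl := p3 w l l' k k'
    obtain rfl := Option.some.inj (hc.symm.trans e')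
    exact ⟨r, Lw, t3, fun V' e => ⟨(t4 V' e).1, fun g d ω i => (t4 V' e).2 g d _ ω i⟩⟩

/-- all places that are not spherical divide the modulus -/
theorem core (seed : SEED3) (kron : KRON2) (dg : DG1) (plc : PLC3) (tys : TYS) (typ : TYP)
    (tyr : TYR) (eca : ECA) (jnt : JNT) (cnv : CNV) (gft : GFT) (h : Shy X S L C Ψ io Δ)
    (spl : ∀ w, Y.Spl w ↔ w ≠ X.v0) (cm : ∃ ε, Y.Cm C ε) {s : Y.Sp Qb} (sp : Y.IsSp s)
    (hD : ∀ w : Pl X.F, (C.D : 𝓞 X.F) ∉ w.asIdeal → SphW X S w) :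
    ∃ b, Aut X 0 S L b ∧ ∃ Z : Finset X.Pl, ∀ w, w ∉ Z → io (b w) = ta C Ψ w := by
  classical
  obtain ⟨-, p2, p3, -⟩ := plc X S
  let D := (fin_nat (E := X.F) C.D0).toFinset
  let N : Pl X.F → Prop := fun w => ∃ l, l.Prime ∧ TyW X S l w ∧ L l = none
  have m : ∀ w, w ∈ D.filter (¬ N ·) ↔ (C.D : 𝓞 X.F) ∈ w.asIdeal ∧ ¬ N w := fun w => by
    simp only [D, Finset.mem_filter, Set.Finite.mem_toFinset, Set.mem_ofPred_eq]
  have m' : ∀ w, w ∈ D.filter N ↔ (C.D : 𝓞 X.F) ∈ w.asIdeal ∧ N w := fun w => by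
    simp only [D, Finset.mem_filter, Set.Finite.mem_toFinset, Set.mem_ofPred_eq]
  choose! V f φ l1 l2 l3 using loc kron dg plc tys typ tyr h spl cm
  obtain ⟨V', v1, v2, lev, ne, tf, ω, ω1, ω0, Z, hZ⟩ := seed _ E Y C Ψ h.hk h.kp (D.filter (¬ N ·))
    (D.filter N) V f φ X.v0 (Finset.disjoint_filter_filter_not _ _ _).symm
    ((m _).2 ⟨h.v0.mem, fun ⟨_, _, k, _⟩ => k.2.1 rfl⟩)
    (fun w => by rw [m, m', ← and_or_left, or_comm, and_iff_left (em _)])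
    (fun w k => by obtain ⟨_, _, k, _⟩ := ((m' w).1 k).2; exact (spl w).2 k.2.1) cm
    fun w k => l1 w ((m w).1 k).1 ((m w).1 k).2
  have hx := Sd.wk_Om (gft _ Y _ V' f tf) ω1
  generalize e : wk (Y.gf (D.filter (¬ N ·)) V' f) (Y.PU V') ω = x at ω0 hZ hx
  have ex : ∀ w, ∃ A A', Opw io (Y.PU V') w A A' ∧
      (SphW X S w → (w ∉ Z → op A' x = ta C Ψ w • x) ∧ ∃ Lw : Y.tw.Lc (Oc w) (Fw w), Y.IsPl w Lw ∧
        Lw.At (KK (Oc w) (Fw w)) (Y.PU V') ∧ A = Lw.fT Qb) ∧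
      ∀ (l : ℕ) [Fact l.Prime] c, TyW X S l w → L l = some c →
        (∃ φ, Inv (Y.PU V') φ ∧ x = op A' φ) ∧ (∀ φ : Y.G → ℍ → ℂ, Inv (Y.PU V') φ →
          op A' (op A' φ) = 0 → op A' φ = 0) ∧ ∃ Lw : Y.tw.Lc ℤ_[l] ℚ_[l], Y.IsPl w Lw ∧
            Lw.At (Km ℤ_[l] ℚ_[l] 1) (Y.PU V') ∧ A = eF Lw c := fun w => by
    by_cases k : SphW X S w
    · obtain ⟨Lw, a1, a2, a3⟩ : ∃ Lw : Y.tw.Lc (Oc w) (Fw w), Y.IsPl w Lw ∧
          Lw.At (KK (Oc w) (Fw w)) (Y.PU V') ∧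
          (w ∉ Z → hk (Lw.To (Y.PU V')) (Y.PU V') x = ta C Ψ w • x) := by
        by_cases z : w ∉ Z
        · exact (hZ w z).imp fun _ a => ⟨a.1, a.2.1, fun _ => a.2.2⟩
        have n : ¬ N w := fun ⟨l, _, a, _⟩ => (p2 w l k).2 a
        by_cases d : (C.D : 𝓞 X.F) ∈ w.asIdeal
        · obtain ⟨Lw, a1, a2⟩ := l2 w d n k
          exact ⟨Lw, a1, a2 V' (v1 w ((m w).2 ⟨d, n⟩) (p2 w 0 k).1), fun a => absurd a z⟩
        · obtain ⟨ε, cm⟩ := cm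
          obtain ⟨-, -, Lw, a1, a2⟩ := hkt _ Y w (std cm d)
          exact ⟨Lw, a1, (a2 V' lev (v2 w (fun a => d ((m w).1 a).1) fun a => d ((m' w).1 a).1)).1,
            fun a => absurd a z⟩
      refine ⟨_, Lw.fT ℂ, ⟨fun g => (Lw.fT_map io g).symm, fun g hg => ?_,
        fun B _ _ φ i => a2.op_fT (R := Qb) lev i ▸ hk_inv (QD.cor_To Lw lev) i,
        fun φ i => a2.op_fT (R := ℂ) lev i ▸ hk_inv (QD.cor_To Lw lev) i⟩,
        fun _ => ⟨fun z => (a2.op_fT lev hx.2.1).trans (a3 z), Lw, a1, a2, rfl⟩,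
        fun l _ c k' => absurd k' (p2 w l k).2⟩
      obtain ⟨y, rfl⟩ := Lw.fT_sup hg
      obtain ⟨-, -, -, -, -, a⟩ := a1
      exact a y
    by_cases t : ∃ (l : ℕ) (_ : Fact l.Prime) (c : _), TyW X S l w ∧ L l = some c
    · obtain ⟨l, hl, c, t, hc⟩ := t
      have mc := h.ty l c w hl.out t hc
      have n : ¬ N w := fun ⟨l', _, a, b⟩ => by
        obtain rfl := p3 w l l' t a
        exact Option.some_ne_none _ (hc.symm.trans b)
      have mem := (m w).2 ⟨mc.mem, n⟩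
      obtain ⟨r, Lw, a1, a2⟩ := l3 w mc.mem n l c t hc
      obtain ⟨a2, a3⟩ := a2 V' (v1 w mem t.2.1)
      have ec := eca _ _ _ Y.ok l Lw _ lev a2
      have ec' := ec ℂ (ℍ → ℂ) (fun x => io (c x)) fun g x => congrArg io (mc.cls g x)
      refine ⟨_, eF Lw fun x => io (c x), ⟨eF_map Lw io c, fun g hg => ?_,
        fun B _ _ φ i => op_eF Lw c φ ▸ (ec Qb B c mc.cls φ i).1,
        fun φ i => op_eF Lw (fun x => io (c x)) φ ▸ (ec' φ i).1⟩, fun a => absurd a k, fun l' _ c' t' hc' => ?_⟩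
      · obtain ⟨y, rfl⟩ := eF_sup Lw hg
        obtain ⟨-, -, -, -, -, a⟩ := a1
        exact a y
      obtain rfl := p3 w l l' t t'
      obtain rfl := Option.some.inj (hc.symm.trans hc')
      have tf' : ∀ v ∈ (D.filter (¬ N ·)).erase w, Tf (V' v) (f v) :=
        fun v a => tf v (Finset.mem_of_mem_erase a)
      have i := Sd.wk_inv (gft _ Y _ V' f tf') ω1.2.1
      refine ⟨⟨r • _, fun y u a => congrArg (r • ·) (i y u a), ?_⟩, fun φ i => ?_,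
        Lw, a1, a2, rfl⟩
      · rw [op_smul, op_eF, ← a3 f rfl _ i, ← cnv _ Y {w} _ V' f (by simp)
          (fun v a => Finset.mem_singleton.1 a ▸ tf w mem) tf' _ ω ω1.2.1, ← e]
        congr 2
        rw [← Finset.insert_eq, Finset.insert_erase mem]
      · simpa only [op_eF] using (ec' φ i).2
    · exact ⟨0, 0, ⟨fun g => (map_zero io).symm, fun g hg => absurd hg (Finset.notMem_empty g),
        fun _ _ _ _ _ _ _ _ => rfl, fun _ _ _ _ _ => rfl⟩, fun a => absurd a k,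
        fun l hl c a b => absurd ⟨l, hl, c, a, b⟩ t⟩
  choose A A' o1 o2 o3 using ex
  obtain ⟨b, z, z1, z2, z3, z4, z5⟩ := jnt2 jnt s lev ne o1 hx ω0
  have fin : ∀ w, w ∉ Z → (C.D : 𝓞 X.F) ∉ w.asIdeal → io (b w) = ta C Ψ w :=
    fun w a d => z4 w _ ((o2 w (hD w d)).1 a)
  refine ⟨b, ⟨Y, io, s, V', z, h.emb.trans (cm.elim fun _ k => k.t1), spl, sp, lev, ne, z1, z2,
    fun w k => ?_, fun l _ c w t hc => ?_, fun B => ?_⟩, Z ∪ D, fun w a => ?_⟩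
  · obtain ⟨-, Lw, a1, a2, a3⟩ := o2 w k
    exact ⟨Lw, a1, a2, (a2.eig_fT lev z1).1 (a3 ▸ z3 w)⟩
  · obtain ⟨a, a', Lw, a1, a2, a3⟩ := o3 w l c t hc
    exact ⟨Lw, a1, a2, _, z5 w a a', by simpa only [Tw.Eig, a3, op_eF] using z3 w⟩
  · obtain ⟨t1, t2⟩ := twn _ E Y C Ψ h.hk h.kp
    obtain ⟨w, g, a, -⟩ := t1 (B ∪ Z)
    rw [Finset.mem_union, not_or] at a
    refine ⟨w, a.1, hD w g.1, fun k => t2 w g ?_⟩
    have := congrArg io k
    rwa [map_pow, map_pow, map_add, map_natCast, map_one, fin w a.2 g.1, ta, if_pos g] at this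
  · rw [Finset.mem_union, not_or] at a
    exact fin w a.1 fun k => a.2 ((Set.Finite.mem_toFinset _).2 k)

end Sau

open Sau in
/-- **SAUT** -/
theorem saut_of (seed : SEED3) (kron : KRON2) (en : ENL) (dg : DG1) (plc : PLC3) (yex : YEX)
    (tys : TYS) (typ : TYP) (tyr : TYR) (eca : ECA) (jnt : JNT) (cnv : CNV) (gft : GFT) : SAUT := by
  intro X S L E _ _ _ C Ψ io Δ h
  classical
  obtain ⟨Y, n, hn, spl, ⟨ε, cm⟩, s, sp⟩ := yex _ E C X.v0 h.ev h.v0.ns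
  have f := (plc X S).2.2.2
  have N0 : 0 < n * ∏ w ∈ f.toFinset, qw w := mul_pos hn (Finset.prod_pos fun w _ =>
    Nat.pos_of_ne_zero fun k => w.ne_bot (Ideal.absNorm_eq_zero_iff.1 k))
  have d : ∀ w : Pl X.F, ((enl C _ N0).D : 𝓞 X.F) ∉ w.asIdeal →
      ((enl C n hn).D : 𝓞 X.F) ∉ w.asIdeal ∧ SphW X S w := fun w k => by
    simp only [enl, Nat.cast_mul, ← mul_assoc] at k ⊢
    refine ⟨fun a => k (Ideal.mul_mem_right _ _ a), by_contra fun a => k (Ideal.mul_mem_left _ _ ?_)⟩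
    obtain ⟨c, e⟩ := Finset.dvd_prod_of_mem qw (f.mem_toFinset.2 a)
    rw [e, Nat.cast_mul]
    exact Ideal.mul_mem_right _ _ (Ideal.absNorm_mem _)
  obtain ⟨b, a, Z, hZ⟩ := core seed kron dg plc tys typ tyr eca jnt cnv gft
    (en X S L E C Ψ io Δ _ N0 h) spl ⟨ε, cm.a, cm.t1, cm.i, fun w k => cm.b w (d w k).1⟩ sp
    fun w k => (d w k).2
  refine ⟨b, a, Z ∪ (fin_nat (E := X.F) (enl C _ N0).D0).toFinset, fun w k => ?_⟩
  rw [Finset.mem_union, not_or, Set.Finite.mem_toFinset] at k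
  rw [hZ w k.1, ta, ta]
  refine if_congr (and_congr (iff_of_true k.2 fun a => k.2 ?_) Iff.rfl) rfl rfl
  exact Nat.cast_mul (α := 𝓞 X.F) C.D _ ▸ Ideal.mul_mem_right _ _ a

end Vale.Agent.P022K.Sh
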