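import Vale.Agent.P022K.F0.SeedB

/-!
# P022K, block F0: the row SEEDC (the trace formula)
-/

set_option autoImplicit false
set_option linter.unusedSectionVars false

open UpperHalfPlane NumberField IsDedekindDomain
open scoped MatrixGroups

noncomputable section

namespace Vale.Agent.P022K.Sh

open Vale.Agent.P022 Orb Tor Tw Fxa Vale.Agent.P022K.F0
open Vale.Agent.P022.C (ordv)

namespace Sd

section

variable {G0 G : Type} [Group G0] [Group G] {T : Tw G0 G} {U : Subgroup G} {f η : G → ℂ}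

theorem anti (hf : Tf U f) (h : ∀ y, f y ≠ 0 → ∀ x, η (x * y) = -η x) {B : Type} [AddCommGroup B]
    [Module ℂ B] (ω : G → B) : wk f U (mL η B ω) = -mL η B (wk f U ω) := by
  funext x
  show _ = -(η x • wk f U ω x)
  rw [wk_sum hf, wk_sum hf, Finset.smul_sum, ← Finset.sum_neg_distrib]
  refine Finset.sum_congr rfl fun y hy => ?_
  show f _ • (η _ • ω _) = _
  rw [h _ (hf.fin.mem_toFinset.1 hy), neg_smul (η x), smul_neg, smul_comm]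

theorem oi_z (ok : T.Ok) (hU : U ∈ T.Lev) (hf : Tf U f) {γ δ : G0} (h : γ⁻¹ * δ ∈ T.Z0) :
    T.oi U η f δ = T.oi U η f γ := funext fun y => by
  have hz := (ok.z0 _).1 h
  rw [oi, oi, show T.j δ = T.j γ * T.j (γ⁻¹ * δ) by rw [← map_mul, mul_inv_cancel_left],
    ← mul_assoc, mul_assoc _ _ y.out, ← ok.com hz, ← mul_assoc, hf.right _ _ (Z_le hU hz)]

theorem hom_H0 (h : G →* ℂˣ) (hj : ∀ γ, h (T.j γ) = 1) (hu : ∀ u ∈ U, h u = 1) :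
    (fun y => (h y : ℂ)) ∈ T.H0 (Representation.trivial ℂ G0 ℂ) U :=
  ⟨fun x u a => by simp only [map_mul, hu u a, mul_one], fun γ => funext fun x => by
    simp only [lt, Representation.trivial_apply, ← map_inv T.j, map_mul, hj, one_mul]⟩

/-- the orbital sum of a class -/
def vq (T : Tw G0 G) (U : Subgroup G) (η f : G → ℂ) (τ : ℍ)
    (q : T.Sb τ ⧸ T.Z0.subgroupOf (T.Sb τ)) : ℂ :=
  Classical.epsilon (HasOrb ((T.Sb τ).map T.j ⊔ T.Z) T.Z (T.oi U η f (q.out : T.Sb τ)))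

theorem out_z {τ : ℍ} (γ : T.Sb τ) : (γ : G0)⁻¹ *
    ((γ : T.Sb τ ⧸ T.Z0.subgroupOf (T.Sb τ)).out : T.Sb τ) ∈ T.Z0 :=
  out_mk_mem (T.Z0.subgroupOf (T.Sb τ)) γ

theorem vq_eq (ok : T.Ok) (hU : U ∈ T.Lev) (hf : Tf U f)
    (hη : η ∈ T.H0 (Representation.trivial ℂ G0 ℂ) U) {τ : ℍ} (γ : T.Sb τ) {val : ℂ}
    (h : HasOrb ((T.Sb τ).map T.j ⊔ T.Z) T.Z (T.oi U η f γ) val) : vq T U η f τ γ = val := by
  rw [vq, oi_z ok hU hf (out_z γ)]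
  exact HasOrb.unique (oi_iv ok hU hf hη γ.2) (fun z _ hz => z_smul ok hU hz)
    (Classical.epsilon_spec ⟨val, h⟩) h

theorem mu_out {τ : ℍ} (γ : T.Sb τ) :
    T.mu ((γ : T.Sb τ ⧸ T.Z0.subgroupOf (T.Sb τ)).out : T.Sb τ) τ = T.mu γ τ := by
  have h := out_z γ
  generalize (γ : T.Sb τ ⧸ T.Z0.subgroupOf (T.Sb τ)).out = δ at h
  rw [← mul_inv_cancel_left (γ : G0) δ, mu_mul, mu_z0 h, mul_one,
    mem_Sb.1 (mul_mem (inv_mem γ.2) δ.2)]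

end

variable {F E : Type} [Field F] [NumberField F] [Field E] [NumberField E] [Algebra F E]

theorem ov_neg (C : CM F E) (Ψ : Pl E → ℂˣ) (W : Finset (Pl F)) (s t : F) :
    C.Ov Ψ W s (-1 * t) = C.Ov Ψ W s t := funext fun v => by
  have e : ordv v (-t) = ordv v t := by rw [ordv, ordv, Valuation.map_neg]
  have e' : mv v s (-t) = mv v s t := by rw [mv, mv, e]
  rw [CM.Ov, CM.Ov, neg_one_mul, e, e', neg_sq]


variable {X : QD F} {C : CM F E} {Ψ : Pl E → ℂˣ} {η : ∀ w : Pl F, (Fw w)ˣ →* ℂˣ} {ε : E →ₐ[F] X.D}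
  {τ₀ : ℍ} {S : Finset (Pl F)} {V T1 : ∀ w, Subgroup (X.Dw w)ˣ} {f φ : ∀ w, (X.Dw w)ˣ → ℂ}
  {h : X.G →* ℂˣ}

theorem ex_iso (sb : ∀ γ : X.G0, γ ∈ X.tw.Sb τ₀ ↔ ((γ : X.Dˣ) : X.D) ∈ ε.range)
    (g0 : ∀ γ : Eˣ, Units.map ε.toRingHom.toMonoidHom γ ∈ X.G0)
    (mu : ∀ (γ : X.G0) x, ((γ : X.Dˣ) : X.D) = ε x →
      X.tw.mu γ τ₀ = C.sec C.t1 (C.c x) / C.sec C.t1 x) :
    ∃ (ι : Eˣ →* X.tw.Sb τ₀) (e : TF F E ≃ X.tw.Sb τ₀ ⧸ X.tw.Z0.subgroupOf (X.tw.Sb τ₀)),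
      (∀ x, (((ι x : X.G0) : X.Dˣ) : X.D) = ε x) ∧ Function.Surjective ι ∧
      (∀ x, (ι x : X.G0) ∈ X.tw.Z0 ↔ x ∈ (Tor.sc F E).range) ∧ ∀ x : Eˣ, e x = ι x := by
  let ι : Eˣ →* X.tw.Sb τ₀ := ((Units.map ε.toRingHom.toMonoidHom).codRestrict X.G0 g0).codRestrict
    _ fun x => (sb _).2 ⟨x, rfl⟩
  have ιv : ∀ x, (((ι x : X.G0) : X.Dˣ) : X.D) = ε x := fun _ => rfl
  have ιs : Function.Surjective ι := fun γ => by
    obtain ⟨x, e⟩ := (sb _).1 γ.2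
    have x0 : x ≠ 0 := fun k => ((γ : X.G0) : X.Dˣ).ne_zero (by rw [← e, k]; exact map_zero ε)
    exact ⟨Units.mk0 x x0, Subtype.ext (Subtype.ext (Units.ext e))⟩
  have s0 : ∀ x : Eˣ, C.sec C.t1 x ≠ 0 := fun x => (map_ne_zero _).2 x.ne_zero
  have ιz : ∀ x, (ι x : X.G0) ∈ X.tw.Z0 ↔ x ∈ (Tor.sc F E).range := fun x => by
    constructor
    · intro k
      have k1 := mu_z0 k τ₀
      rw [mu _ _ (ιv x), div_eq_one_iff_eq (s0 x)] at k1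
      obtain ⟨s, e⟩ := C.fix ((C.sec C.t1).injective k1)
      exact ⟨Units.mk0 s fun a => x.ne_zero (by rw [e, a, map_zero]), Units.ext e.symm⟩
    · rintro ⟨s, rfl⟩
      refine z0_of_mu (ι _).2 ?_
      rw [mu _ _ (ιv _), div_eq_one_iff_eq (s0 _)]
      exact congrArg _ (C.c.commutes _)
  let e : TF F E ≃ X.tw.Sb τ₀ ⧸ X.tw.Z0.subgroupOf (X.tw.Sb τ₀) := Equiv.ofBijective
    (Quotient.map' ι fun a b k => QuotientGroup.leftRel_apply.2 (by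
      rw [← map_inv, ← map_mul]; exact (ιz _).2 (QuotientGroup.leftRel_apply.1 k)))
    ⟨fun a b => Quotient.inductionOn₂' a b fun a b k => QuotientGroup.eq.2 ((ιz _).1 (by
      rw [map_mul, map_inv]
      exact (QuotientGroup.eq (s := X.tw.Z0.subgroupOf _) (a := ι a) (b := ι b)).1 k)),
      fun q => Quotient.inductionOn' q fun γ =>
      (ιs γ).elim fun x k => ⟨x, congrArg _ k⟩⟩
  exact ⟨ι, e, ιv, ιs, ιz, fun _ => rfl⟩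

open Classical in
theorem orbs (hL : All fun T => T.LEFT) (dic : DIC) (prd : PRD) (hΨ : C.Hk Ψ) (hK : Kp C Ψ)
    (hη : Eta C Ψ η) (ld : X.Ld C η S V f φ T1) (nt : X.tw.Neat (X.PU V)) (hU : X.PU V ∈ X.tw.Lev)
    (hε : X.Cm C ε) (sb : ∀ γ : X.G0, γ ∈ X.tw.Sb τ₀ ↔ ((γ : X.Dˣ) : X.D) ∈ ε.range)
    (g0 : ∀ γ : Eˣ, Units.map ε.toRingHom.toMonoidHom γ ∈ X.G0) (hh : X.IsH η h)
    (hT : ∀ x : X.G, (x : X.DA).imJ = 0 → (x : X.DA).imK = 0 → h x = 1)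
    (hH : (fun y => (h y : ℂ)) ∈ X.tw.H0 (Representation.trivial ℂ X.G0 ℂ) (X.PU V))
    {g : Finset (Pl F) → X.G → ℂ} (hg : ∀ W, g W = X.gf (S ∪ W) V (X.fT W f))
    (tg : ∀ W, (∀ w ∈ W, C.Gd w) → Tf (X.PU V) (g W)) {ι : Eˣ →* X.tw.Sb τ₀}
    (ιv : ∀ x, (((ι x : X.G0) : X.Dˣ) : X.D) = ε x) (ιs : Function.Surjective ι)
    (ιz : ∀ x, (ι x : X.G0) ∈ X.tw.Z0 ↔ x ∈ (Tor.sc F E).range) : ∃ c : ℂ, c ≠ 0 ∧
    (∀ W, (∀ w ∈ W, C.Gd w) → ∀ (γ : C.G) (s t : F), t ≠ 0 →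
      ((γ : Eˣ) : E) = algebraMap F E s + algebraMap F E t * C.δ →
      HasOrb ((X.tw.Sb τ₀).map X.tw.j ⊔ X.tw.Z) X.tw.Z
        (X.tw.oi (X.PU V) (fun y => h y) (g W) (ι γ)) (c * ((∏ w ∈ S, φ w (X.lc ε w γ)) *
          C.rho Ψ t * ∏ᶠ (v : Pl F) (_ : (C.D : 𝓞 F) ∉ v.asIdeal), C.Ov Ψ W s t v))) ∧
    ∀ W, (∀ w ∈ W, C.Gd w) → ∀ x : Eˣ, (∀ γ : C.G, ((γ : Eˣ) : TF F E) ≠ x) →
      HasOrb ((X.tw.Sb τ₀).map X.tw.j ⊔ X.tw.Z) X.tw.Z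
        (X.tw.oi (X.PU V) (fun y => h y) (g W) (ι x)) 0 := by
  have ok := X.ok
  obtain rfl := funext hg
  obtain ⟨-, -, d3⟩ := dic F E X C Ψ hΨ hK ε hε
  have hA := d3 _ _ sb g0 rfl
  obtain ⟨T', t1, t2, t3, t4⟩ := prd F E X C Ψ hΨ hK ε η S V f φ T1 h _ hε hη ld hh hA
  have hc : ∀ s ∈ Subgroup.centralizer ((X.tw.Sb τ₀).map X.tw.j : Set X.G),
      ∀ t ∈ Subgroup.centralizer ((X.tw.Sb τ₀).map X.tw.j : Set X.G), s * t = t * s :=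
    fun s a t b => Units.ext (by
      obtain ⟨a1, a2⟩ := (hA s).1 a
      obtain ⟨b1, b2⟩ := (hA t).1 b
      rw [Units.val_mul, Units.val_mul]
      refine QuaternionAlgebra.ext ?_ ?_ ?_ ?_ <;> simp [a1, a2, b1, b2] <;> ring)
  obtain ⟨c, c0, hd⟩ := down ok hU nt (cls hL _ _ X.tw ok) (ι (Units.mk0 _ C.δ0)).2 (fun k => by
    obtain ⟨s, k⟩ := (ιz _).1 k
    have k1 : algebraMap F E s = C.δ := congrArg Units.val k
    have k2 := C.cδ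
    rw [← k1, AlgEquiv.commutes, k1, eq_neg_iff_add_eq_zero, add_self_eq_zero] at k2
    exact C.δ0 k2) rfl hc (fun a ha b hb => by
      obtain ⟨x, k⟩ := ιs ⟨a, ha⟩
      obtain ⟨y, k'⟩ := ιs ⟨b, hb⟩
      have := ((Commute.all x y).map ι).map (X.tw.Sb τ₀).subtype
      rwa [k, k'] at this) t1 t2 t3
  obtain ⟨σ, σ1, σ2⟩ : ∃ σ : F, (σ = 1 ∨ σ = -1) ∧ ε C.δ = ⟨0, σ, 0, 0⟩ :=
    hε.i.elim (fun k => ⟨_, .inl rfl, k⟩) fun k => ⟨_, .inr rfl, k⟩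
  have σ0 : σ ≠ 0 := by rcases σ1 with rfl | rfl <;> simp
  refine ⟨c * C.rho Ψ σ, mul_ne_zero c0 (C.rho_ne Ψ σ0), fun W a γ s t t0 k => ?_, fun W a x k =>
    hasOrb_zero fun y => mul_eq_zero_of_right _ ((t4 W a x _ (ιv x)).2 k _)⟩
  · have k1 : ε (γ : Eˣ) = ⟨s, σ * t, 0, 0⟩ := by
      rw [k, map_add, map_mul, AlgHom.commutes, AlgHom.commutes, σ2]
      ext <;> simp [mul_comm]
    have k2 := (t4 W a γ _ (ιv γ)).1 (σ * t) (mul_ne_zero σ0 t0) (by rw [k1]) γ.2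
    rw [k1, C.rho_mul Ψ σ0 t0, show C.Ov Ψ W s (σ * t) = C.Ov Ψ W s t by
      rcases σ1 with rfl | rfl
      exacts [by rw [one_mul], ov_neg C Ψ W s t]] at k2
    rw [mul_assoc c, ← mul_assoc (C.rho Ψ σ), mul_left_comm (C.rho Ψ σ)]
    refine hd _ _ (fun z hz y => ?_) k2
    obtain ⟨y, rfl⟩ := QuotientGroup.mk_surjective y
    rw [Fxa.smul_mk, oi_mk ok hU (tg W a) hH (ι γ).2, oi_mk ok hU (tg W a) hH (ι γ).2, map_mul,
      hT z ((hA z).1 hz).1 ((hA z).1 hz).2, one_mul, mul_inv_rev, mul_assoc y⁻¹, mul_assoc y⁻¹,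
      mul_assoc z⁻¹, ← mul_assoc _ z, hz _ ⟨_, (ι γ).2, rfl⟩, mul_assoc z, inv_mul_cancel_left,
      ← mul_assoc]

open Classical in
theorem ell (hL : All fun T => T.LEFT) (dic : DIC) (prd : PRD) (hΨ : C.Hk Ψ) (hK : Kp C Ψ)
    (hη : Eta C Ψ η) (ld : X.Ld C η S V f φ T1) (nt : X.tw.Neat (X.PU V)) (hU : X.PU V ∈ X.tw.Lev)
    (hε : X.Cm C ε) (sb : ∀ γ : X.G0, γ ∈ X.tw.Sb τ₀ ↔ ((γ : X.Dˣ) : X.D) ∈ ε.range)
    (g0 : ∀ γ : Eˣ, Units.map ε.toRingHom.toMonoidHom γ ∈ X.G0)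
    (mu : ∀ (γ : X.G0) x, ((γ : X.Dˣ) : X.D) = ε x →
      X.tw.mu γ τ₀ = C.sec C.t1 (C.c x) / C.sec C.t1 x) (hh : X.IsH η h)
    (hT : ∀ x : X.G, (x : X.DA).imJ = 0 → (x : X.DA).imK = 0 → h x = 1)
    (hH : (fun y => (h y : ℂ)) ∈ X.tw.H0 (Representation.trivial ℂ X.G0 ℂ) (X.PU V))
    (nl : ∀ w ∈ S, Nl C Ψ w fun γ => φ w (X.lc ε w γ))
    {g : Finset (Pl F) → X.G → ℂ} (hg : ∀ W, g W = X.gf (S ∪ W) V (X.fT W f))
    (tg : ∀ W, (∀ w ∈ W, C.Gd w) → Tf (X.PU V) (g W)) : ∃ φ' wt, C.Geo Ψ φ' S wt ∧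
    ∀ W, (∀ w ∈ W, C.Gd w) → g W 1 = 0 → ∃ v : X.tw.Sb τ₀ ⧸ X.tw.Z0.subgroupOf (X.tw.Sb τ₀) → ℂ,
      (∀ γ : X.tw.Sb τ₀, HasOrb ((X.tw.Sb τ₀).map X.tw.j ⊔ X.tw.Z) X.tw.Z
        (X.tw.oi (X.PU V) (fun y => h y) (g W) γ) (v γ)) ∧
      ∑ᶠ q, v q / (X.tw.mu (q.out : X.tw.Sb τ₀) τ₀ - 1) = ∑ᶠ q, wt W q := by
  have ok := X.ok
  obtain ⟨ι, e, ιv, ιs, ιz, ev⟩ := ex_iso sb g0 mu
  obtain ⟨c, c0, orb, orb0⟩ := orbs hL dic prd hΨ hK hη ld nt hU hε sb g0 hh hT hH hg tg ιv ιs ιz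
  obtain ⟨d1, d2, -⟩ := dic F E X C Ψ hΨ hK ε hε
  have s0 : ∀ x : Eˣ, C.sec C.t1 x ≠ 0 := fun x => (map_ne_zero _).2 x.ne_zero
  let wt : Finset (Pl F) → TF F E → ℂ := fun W q => vq X.tw (X.PU V) (fun y => h y) (g W) τ₀ (e q) /
    (X.tw.mu ((e q).out : X.tw.Sb τ₀) τ₀ - 1)
  have geo : C.Geo Ψ (fun γ => -c * ∏ w ∈ S, φ w (X.lc ε w γ)) S wt := by
    have per : ∀ w ∈ S, ∀ u ∈ C.G1 {P | Ab w P}, ∀ γ : C.G,
        φ w (X.lc ε w (u * γ : C.G)) = φ w (X.lc ε w γ) := fun w a u b γ => by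
      rw [Subgroup.coe_mul, map_mul]
      exact (ld.tr w a).per _ (d1 w _) _ (d1 w _) ((d2 w ((ld.mem w).1 a)).1 γ)
        ((d2 w ((ld.mem w).1 a)).2 u b)
    refine ⟨fun u a γ => ?_, ?_, fun W a q k => ?_, fun W a γ s t t0 k => ?_⟩
    · rw [Finset.prod_congr rfl fun w b => per w b u (fun P _ => a P trivial) γ]
    · have := nel F E X C Ψ hΨ hK S (fun w γ => φ w (X.lc ε w γ)) ld.mem per nl
      simp only [mul_assoc (-c)]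
      rw [← mul_finsum]
      exact mul_ne_zero (neg_ne_zero.2 c0) this
    · obtain ⟨x, rfl⟩ := QuotientGroup.mk_surjective q
      simp only [wt, ev]
      rcases k with k | k
      · rw [mu_out, mu_z0 ((ιz x).2 ((QuotientGroup.eq_one_iff x).1 k)), sub_self, div_zero]
      · rw [vq_eq ok hU (tg W fun w b => (a w b).1) hH _ (orb0 W (fun w b => (a w b).1) x k),
          zero_div]
    · simp only [wt, ev]
      rw [vq_eq ok hU (tg W fun w b => (a w b).1) hH _ (orb W (fun w b => (a w b).1) γ s t t0 k),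
        mu_out, mu _ _ (ιv _), div_sub_one (s0 _), div_div_eq_mul_div, ← neg_sub, div_neg]
      ring
  refine ⟨_, wt, geo, fun W a2 g1 => ⟨vq X.tw (X.PU V) (fun y => h y) (g W) τ₀, fun γ => ?_,
    (finsum_comp_equiv e).symm⟩⟩
  obtain ⟨x, rfl⟩ := ιs γ
  suffices ∃ val, HasOrb ((X.tw.Sb τ₀).map X.tw.j ⊔ X.tw.Z) X.tw.Z
      (X.tw.oi (X.PU V) (fun y => h y) (g W) (ι x)) val by
    obtain ⟨val, k⟩ := this
    rwa [vq_eq ok hU (tg W a2) hH _ k]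
  by_cases k : ∀ γ : C.G, ((γ : Eˣ) : TF F E) ≠ x
  · exact ⟨_, orb0 W a2 x k⟩
  obtain ⟨γ, k⟩ := not_forall.1 k
  rw [oi_z ok hU (tg W a2) (γ := ι γ) (by
    rw [← Subgroup.coe_inv, ← Subgroup.coe_mul, ← map_inv, ← map_mul]
    exact (ιz _).2 (QuotientGroup.eq.1 (not_not.1 k)))]
  obtain ⟨s, t, k⟩ := C.span (γ : Eˣ)
  by_cases t0 : t = 0
  · rw [t0, map_zero, zero_mul, add_zero] at k
    refine ⟨0, ?_⟩
    rw [oi_z ok hU (tg W a2) (γ := 1) (by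
      rw [inv_one, one_mul]
      exact (ιz _).2 ⟨Units.mk0 s fun c => (γ : Eˣ).ne_zero (by rw [k, c, map_zero]),
        Units.ext k.symm⟩)]
    exact hasOrb_zero fun y => by rw [oi, map_one, mul_one, inv_mul_cancel, g1, mul_zero]
  · exact ⟨_, orb W a2 γ s t t0 k⟩

theorem cu_val (w : Pl F) (x : X.G) : (X.cu w x : X.Dw w) = X.cw w x := rfl

theorem Ld.nD (ld : X.Ld C η S V f φ T1) {w : Pl F} (a : w ∉ S) : (C.D : 𝓞 F) ∉ w.asIdeal :=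
  fun b => a ((ld.mem w).2 b)

theorem Ld.nS (ld : X.Ld C η S V f φ T1) {w : Pl F} (a : C.Gd w) : w ∉ S :=
  fun b => a.1 ((ld.mem w).1 b)

theorem tf1 (hkt : HKT) (ld : X.Ld C η S V f φ T1) (hε : X.Cm C ε) {W : Finset (Pl F)} {w : Pl F}
    (a : w ∉ S) (b : w ∈ W) : Tf (V w) (X.fT W f w) := by
  rw [ld.off w a, fT_mem (g := f) b]; exact (hkt F X w (good hε (Ld.nD ld a))).1 f

open Classical in
theorem tf2 (hkt : HKT) (ld : X.Ld C η S V f φ T1) (hε : X.Cm C ε) {W : Finset (Pl F)}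
    (a : ∀ w ∈ W, C.Gd w) : ∀ w ∈ S ∪ W, Tf (V w) (X.fT W f w) := fun w b => by
  by_cases c : w ∈ W
  · exact tf1 hkt ld hε (Ld.nS ld (a w c)) c
  · rw [fT_not c]
    exact (ld.tr w ((Finset.mem_union.1 b).resolve_right c)).tf

theorem tf3 (hkt : HKT) (ld : X.Ld C η S V f φ T1) (hε : X.Cm C ε) {w : Pl F} (a : w ∉ S) :
    ∀ v ∈ ({w} : Finset (Pl F)), Tf (V v) (X.fT {w} f v) := fun _ b =>
  tf1 hkt ld hε (Finset.mem_singleton.1 b ▸ a) b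

theorem ex_L (hkt : HKT) (ld : X.Ld C η S V f φ T1) (hε : X.Cm C ε) (hU : X.PU V ∈ X.tw.Lev)
    {w : Pl F} (a : w ∉ S) : ∃ L : X.tw.Lc (Oc w) (Fw w), X.IsPl w L ∧
      L.At (KK (Oc w) (Fw w)) (X.PU V) ∧
      ∀ x, x ∈ L.To (X.PU V) ↔ (∀ v, v ≠ w → X.cu v x ∈ V v) ∧ X.cu w x ∈ X.Tq w :=
  (hkt F X w (good hε (Ld.nD ld a))).2.2.imp fun _ k => ⟨k.1, k.2 V hU (ld.off w a)⟩

theorem ex_h (etg : ETG) (hkt : HKT) (hΨ : C.Hk Ψ) (hK : Kp C Ψ) (hη : Eta C Ψ η)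
    (ld : X.Ld C η S V f φ T1) (hε : X.Cm C ε) (hU : X.PU V ∈ X.tw.Lev) :
    ∃ h : X.G →* ℂˣ, X.IsH η h ∧
    (∀ x : X.G, (x : X.DA).imJ = 0 → (x : X.DA).imK = 0 → h x = 1) ∧
    (fun y => (h y : ℂ)) ∈ X.tw.H0 (Representation.trivial ℂ X.G0 ℂ) (X.PU V) ∧
    (∀ w x, w ∉ S → ¬ C.Gd w → X.Sup w x → Odd (ow (nrd (X.cw w x))) → (h x : ℂ) = -1) ∧
    ∀ w, w ∉ S → ¬ C.Gd w → ∀ y, X.gf {w} V (X.fT {w} f) y ≠ 0 → ∀ x, (h (x * y) : ℂ) = -h x := by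
  classical
  obtain ⟨h, hh, hj, hT, hs, hu⟩ := etg F E X C Ψ hΨ hK ε η hε hη
  have hu1 : ∀ u ∈ X.PU V, h u = 1 := fun u a => by
    have m : ∀ w, X.cu w u ∈ V w := Subgroup.mem_iInf.1 a
    refine hu u (fun w b => ?_) fun w b _ => ?_
    · rw [← cu_val]
      exact (ld.tr w ((ld.mem w).2 b)).eta _ (m w)
    have m' := m w
    rw [ld.off w fun c => b ((ld.mem w).1 c)] at m'
    rw [← cu_val]
    exact even_U0 m'
  have odd : ∀ w x, w ∉ S → ¬ C.Gd w → X.Sup w x → Odd (ow (nrd (X.cw w x))) → (h x : ℂ) = -1 :=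
    fun w x a b c d => (hs w x c).trans (ap_odd hK hη (Ld.nD ld a) b d)
  refine ⟨h, hh, hT, hom_H0 h hj hu1, odd, fun w a b y c x => ?_⟩
  obtain ⟨L, l1, -, l2⟩ := ex_L hkt ld hε hU a
  rw [gf_one l2] at c
  obtain ⟨u', hu', u, hu, e⟩ : y ∈ L.To (X.PU V) := by_contra fun k => c (if_neg k)
  have m := ((l2 (L.ι (dg L.ϖ))).1 ⟨1, one_mem _, 1, one_mem _, by rw [mul_one, one_mul]⟩).2
  obtain ⟨_, _, -, -, -, sp⟩ := l1
  rw [e, map_mul, map_mul, map_mul, hu1 u hu, hu1 u' hu', one_mul, mul_one, Units.val_mul,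
    odd w _ a b (sp _) (cu_val (X := X) w _ ▸ (hkt F X w (good hε (Ld.nD ld a))).2.1 _ m),
    mul_neg_one]

open Classical in
theorem trace (hL : All fun T => T.LEFT) (sa : SAQ) (gft : GFT) (cnv : CNV) (hkt : HKT)
    (ld : X.Ld C η S V f φ T1) (nt : X.tw.Neat (X.PU V)) (hU : X.PU V ∈ X.tw.Lev) (hε : X.Cm C ε)
    (hH : (fun y => (h y : ℂ)) ∈ X.tw.H0 (Representation.trivial ℂ X.G0 ℂ) (X.PU V))
    (odd : ∀ w x, w ∉ S → ¬ C.Gd w → X.Sup w x → Odd (ow (nrd (X.cw w x))) → (h x : ℂ) = -1)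
    (sgn : ∀ w, w ∉ S → ¬ C.Gd w → ∀ y, X.gf {w} V (X.fT {w} f) y ≠ 0 →
      ∀ x, (h (x * y) : ℂ) = -h x) (inert : ∀ B : Finset (Pl F), ∃ w, w ∉ B ∧ ¬ C.Gd w)
    (fl : ∀ τ γ, γ ∈ X.tw.Sb τ → γ ∉ X.tw.Z0 → (∀ δ, X.tw.r δ • τ₀ ≠ τ) → ∀ B : Finset (Pl F),
      ∃ w, w ∉ B ∧ ¬ C.Gd w ∧ ∃ g : X.G, X.Sup w g ∧ (∀ δ ∈ X.tw.Sb τ, Commute g (X.tw.j δ)) ∧
        ow (nrd (X.cw w g)) = 1) {W : Finset (Pl F)} (a : W.Nonempty) (a2 : ∀ v ∈ W, C.Gd v)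
    {g : X.G → ℂ} (hg : g = X.gf (S ∪ W) V (X.fT W f)) {val : ℂ}
    (el : g 1 = 0 → ∃ v : X.tw.Sb τ₀ ⧸ X.tw.Z0.subgroupOf (X.tw.Sb τ₀) → ℂ,
      (∀ γ : X.tw.Sb τ₀, HasOrb ((X.tw.Sb τ₀).map X.tw.j ⊔ X.tw.Z) X.tw.Z
        (X.tw.oi (X.PU V) (fun y => h y) g γ) (v γ)) ∧
      ∑ᶠ q, v q / (X.tw.mu (q.out : X.tw.Sb τ₀) τ₀ - 1) = val) :
    LinearMap.trace ℂ _ (mO hH * wO _ _ g) = val := by
  have ok := X.ok
  obtain ⟨fd, fd0, -⟩ := hL _ _ X.tw ok _ hU nt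
  have tg : Tf (X.PU V) g := hg ▸ gft F X _ V _ (tf2 hkt ld hε a2)
  have g1 : g 1 = 0 := by
    obtain ⟨w, k⟩ := a
    rw [hg, QD.gf, Finset.prod_eq_zero (Finset.mem_union_right S k), ite_self]
    rw [QD.fT, if_pos k, map_one, if_neg fun m => ?_]
    have := (hkt F X w (good hε (a2 w k).1)).2.1 _ m
    rw [ow_one] at this
    exact Int.not_odd_zero this
  obtain ⟨v, hv, ev⟩ := el g1
  obtain ⟨-, k⟩ := fixa hL _ _ X.tw ok _ hU nt g _ tg g1 hH τ₀ (fun τ γ p q r => by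
      obtain ⟨w, w1, w2, z, z1, z2, z3⟩ := fl τ γ p q r S
      refine ⟨z, z2, fun x => ?_⟩
      rw [map_mul, Units.val_mul, odd w z w1 w2 z1 (z3 ▸ odd_one), neg_one_mul])
    (mO hH * wO _ _ g) (mC hH * wC tg) (fun ω x => by rw [← wO_val tg]; rfl) (fun _ _ => rfl) v hv
  obtain ⟨w, w1, w2⟩ := inert (S ∪ W)
  have w3 := (Finset.notMem_union.1 w1).1
  obtain ⟨L, l1, l3, l2⟩ := ex_L hkt ld hε hU w3
  rw [k, tr_C tg hH (gft F X _ V _ (tf3 hkt ld hε w3)) (c := ((qq (Oc w) + 1) ^ 2 : ℕ))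
    (Nat.cast_ne_zero.2 (by positivity)) (sgn w w3 w2) (fun k m => hg ▸ comm cnv
      (Finset.disjoint_singleton_left.2 w1) (tf3 hkt ld hε w3) (tf2 hkt ld hε a2) m)
    fun k m => ?_, zero_add, ev]
  rw [wk_ind (gf_one l2), wk_ind (gf_one l2), Nat.cast_smul_eq_nsmul]
  exact pi0 _ _ X.tw ok _ _ L (sa F X _ _ _ w l1) _ hU l3 ℂ k m

end Sd

open Sd in
/-- **SEEDC** -/
theorem seedc (hL : All fun T => T.LEFT) (sa : SAQ) (lvp : LVP) (gft : GFT) (cnv : CNV)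
    (hkt : HKT) (etg : ETG) (dic : DIC) (prd : PRD) (torn : TORN2) : SEEDC := by
  classical
  intro F E _ _ _ _ _ X C Ψ hΨ hK η S V f φ T1 hη ld nt ⟨ε0, h0⟩ nl
  have ok := X.ok
  have hU : X.PU V ∈ X.tw.Lev := lvp F X S V (fun w hw => (ld.tr w hw).opn) ld.off
  refine ⟨hU, ?_⟩
  obtain ⟨ε, τ₀, hε, sb, g0, mu, inert, fl⟩ := orient hΨ hK h0
  obtain ⟨h, hh, hT, hH, odd, sgn⟩ := ex_h etg hkt hΨ hK hη ld hε hU
  obtain ⟨fd, -, -⟩ := hL _ _ X.tw ok _ hU nt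
  have tf3 := fun w => tf3 hkt ld hε (w := w)
  have tf4 : ∀ w ∈ S, Tf (V w) (f w) := fun w a => (ld.tr w a).tf
  let g : Finset (Pl F) → X.G → ℂ := fun W => X.gf (S ∪ W) V (X.fT W f)
  have tg : ∀ W, (∀ w ∈ W, C.Gd w) → Tf (X.PU V) (g W) := fun W a =>
    gft F X _ V _ (tf2 hkt ld hε a)
  obtain ⟨φ', wt, geo, el⟩ := ell hL dic prd hΨ hK hη ld nt hU hε sb g0 mu hh hT hH (nl ε hε)
    (fun _ => rfl) tg
  let T : Pl F → Module.End ℂ (X.tw.Om (X.PU V)) := fun w =>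
    if w ∈ S then 0 else wO _ _ (X.gf {w} V (X.fT {w} f))
  have Tv : ∀ w, w ∉ S → ∀ ω, (T w ω).1 = wk (X.gf {w} V (X.fT {w} f)) (X.PU V) ω.1 :=
    fun w a ω => by rw [← wO_val (gft F X _ V _ (tf3 w a))]; simp only [T, a, if_false]
  have T0 : ∀ w ∈ S, T w = 0 := fun w a => if_pos a
  have tP := gft F X S V f tf4
  refine (torn F E X C Ψ hΨ hK _ S wt geo _ T (fun W => wO _ _ (g W))
    (wO _ _ (X.gf S V f)) (mO hH) (fun w w' => ?_) (fun w => ?_) ?_ (fun W w a b => ?_)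
    (fun W a b => ?_) fun w a b => LinearMap.ext fun ω => Subtype.ext ?_).elim
    fun y ⟨y0, Z, hZ⟩ => ?_
  · by_cases a : w ∈ S
    · rw [T0 w a]; exact Commute.zero_left _
    by_cases b : w' ∈ S
    · rw [T0 w' b]; exact Commute.zero_right _
    by_cases k : w = w'
    · rw [k]
    refine LinearMap.ext fun ω => Subtype.ext ?_
    rw [Module.End.mul_apply, Module.End.mul_apply, Tv w a, Tv w' b, Tv w' b, Tv w a]
    exact comm cnv (Finset.disjoint_singleton.2 k) (tf3 w a) (tf3 w' b) ω.2.2.1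
  · by_cases a : w ∈ S
    · rw [T0 w a]; exact Commute.zero_left _
    refine LinearMap.ext fun ω => Subtype.ext ?_
    rw [Module.End.mul_apply, Module.End.mul_apply, Tv w a, wO_val tP, wO_val tP, Tv w a]
    exact comm cnv (Finset.disjoint_singleton_left.2 a) (tf3 w a) tf4 ω.2.2.1
  · simp only [g, Finset.union_empty]
    rw [gf_congr fun w _ => fT_not (Finset.notMem_empty w)]
  · have a1 := (b w (Finset.mem_insert_self _ _)).2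
    have a2 : ∀ v ∈ W, C.Gd v := fun v k => (b v (Finset.mem_insert_of_mem k)).1
    have a3 : w ∉ S ∪ W := Finset.notMem_union.2 ⟨a1, a⟩
    refine LinearMap.ext fun ω => Subtype.ext ?_
    rw [Module.End.mul_apply, Tv w a1, wO_val (tg _ fun v k => (b v k).1), wO_val (tg W a2),
      ← cnv' cnv (k := X.fT (insert w W) f) (Finset.disjoint_singleton_left.2 a3) (tf3 w a1)
        (tf2 hkt ld hε a2) (fun v k => fT_mem (g := f) (by simp_all) |>.trans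
          (fT_mem (g := f) k).symm) (fun v k => funext fun u => by
            have : v ≠ w := fun c => a3 (c ▸ k)
            simp only [QD.fT, Finset.mem_insert, this, false_or]) ω.2.2.1]
    simp only [g]
    congr 2
    ext
    simp only [Finset.mem_union, Finset.mem_insert, Finset.mem_singleton, or_left_comm]
  · exact trace hL sa gft cnv hkt ld nt hU hε hH odd sgn inert fl a (fun v k => (b v k).1) rfl
      (el W fun v k => (b v k).1)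
  · rw [Module.End.mul_apply, Tv w a]
    refine (anti (gft F X _ V _ (tf3 w a)) (sgn w a b) ω.1).trans ?_
    rw [← Tv w a]
    rfl
  · refine ⟨y.1, y.2, fun k => y0 (Subtype.ext ((wO_val tP y).trans k)), Z ∪ S, fun w a => ?_⟩
    rw [Finset.notMem_union] at a
    obtain ⟨L, l1, l3, l2⟩ := ex_L hkt ld hε hU a.2
    refine ⟨L, l1, l3, ?_⟩
    rw [← wk_ind (gf_one (f := f) l2), ← wO_val tP, ← Tv w a.2, hZ w a.1, Submodule.coe_smul]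

end Vale.Agent.P022K.Sh
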