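import Vale.Agent.P022K.F0.Torn2

/-!
# P022K, block F0: the rows TOR, TORN, TORN2 with one controlled place (helper80, after helper6)
-/

set_option linter.all false

open NumberField IsDedekindDomain WithZero Finset

noncomputable section

namespace Vale.Agent.P022K.Sh

open Tor Tor.CM Vale.Agent.P022
open Vale.Agent.P022.C (ordv)
open Vale.Agent.P027M.S (Pr Nr)

namespace T2

variable {F E : Type} [Field F] [NumberField F] [Field E] [NumberField E] [Algebra F E]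
  {C : CM F E} {Ψ : Pl E → ℂˣ} {Z : Finset (Pl F)} {val : Finset (Pl F) → ℂ}

variable (C Ψ Z val) in
/-- `val` is a sum of multiplicative functions, one of them given by `Ψ` -/
def Exq : Prop := ∃ (K : Type) (_ : Fintype K) (s : K → Pl F → ℂ) (c : K → ℂ) (k0 : K), c k0 ≠ 0 ∧
  (∀ k, k ≠ k0 → ∀ Z : Finset (Pl F), ∃ w ∈ {v | C.Gd v}, w ∉ Z ∧ s k w ≠ s k0 w) ∧
  (∀ w, C.Gd w → s k0 w = Tor.tw Ψ w) ∧
  ∀ W : Finset (Pl F), (∀ w ∈ W, C.Gd w ∧ w ∉ Z) → val W = ∑ k, c k * ∏ w ∈ W, s k w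

theorem Exq.key (G : Exq C Ψ Z val) (R V : Type) [CommRing R] [Algebra ℂ R] [AddCommGroup V]
    [Module ℂ V] [FiniteDimensional ℂ V] (ρ : R →ₐ[ℂ] Module.End ℂ V) (T : Pl F → R)
    (A : Module.End ℂ V) (hL : ∀ W : Finset (Pl F), (∀ w ∈ W, C.Gd w ∧ w ∉ Z) →
      LinearMap.trace ℂ V (A * ρ (∏ w ∈ W, T w)) = val W) :
    ∃ x : V, x ≠ 0 ∧ ∃ Z' : Finset (Pl F), ∀ w, C.Gd w → w ∉ Z' → ρ (T w) x = Tor.tw Ψ w • x := by
  obtain ⟨K, _, s, c, k0, a, b, d, e⟩ := G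
  exact (Tor.key ρ T s c k0 a b A Z fun W h => (hL W h).trans (e W h)).imp fun x h =>
    ⟨h.1, h.2.imp fun Z' hx w a b => by rw [hx w a b, d w a]⟩

open Classical in
theorem Exq.shift (G : Exq C Ψ Z val) {v : Pl F} (g : C.Gd v) (z : v ∉ Z) {μ : ℂ}
    (h : μ ≠ Tor.tw Ψ v) : Exq C Ψ (insert v Z) fun W => val (insert v W) - μ * val W := by
  obtain ⟨K, _, s, c, k0, a, b, d, e⟩ := G
  refine ⟨K, inferInstance, s, fun k => c k * (s k v - μ), k0,
    mul_ne_zero a (sub_ne_zero.2 (d v g ▸ h.symm)), b, d, fun W k => ?_⟩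
  have k' : ∀ w ∈ W, C.Gd w ∧ w ∉ Z := fun w a => ⟨(k w a).1, fun b => (k w a).2 (mem_insert_of_mem b)⟩
  beta_reduce
  rw [e W k', e _ (forall_mem_insert _ _ _ |>.2 ⟨⟨g, z⟩, k'⟩), mul_sum, ← sum_sub_distrib]
  refine sum_congr rfl fun j _ => ?_
  rw [prod_insert fun a => (k v a).2 (mem_insert_self _ _)]
  ring

theorem torx {φ : C.G → ℂ} {wt : Finset (Pl F) → TF F E → ℂ} (hΨ : C.Hk Ψ)
    (G : C.Geo Ψ φ Z wt) : Exq C Ψ Z fun W => ∑ᶠ q, wt W q := by
  classical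
  choose ξ ξ1 ξ2 using C.exists_xi
  let _ : Fintype C.U := Fintype.ofFinite _
  let _ : Fintype ((C.U × C.I) ⧸ C.H →* ℂˣ) := Fintype.ofFinite _
  let g : C.U → ℂ := fun u => φ (Quotient.out u) * C.eps Ψ ((Quotient.out u : C.G) : Eˣ)
  have gr : ∀ γ, g (C.r γ) = φ γ * C.eps Ψ (γ : Eˣ) := fun γ => by
    obtain ⟨u, hu⟩ := QuotientGroup.mk_out_eq_mul (C.G1 Set.univ) γ
    have : Quotient.out (C.r γ) = u * γ := hu.trans (mul_comm _ _)
    simp only [g]
    rw [this, G.per u u.2, Subgroup.coe_mul, Units.val_mul,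
      C.eps_mul Ψ (Units.ne_zero _) (Units.ne_zero _), C.eps_one hΨ u.2, one_mul]
  have d0 : ∀ γ ∈ (sc F E).range.subgroupOf C.G, C.d γ = 1 := by
    rintro γ ⟨l, hl⟩
    refine C.ta_inj fun v => ?_
    rw [d_apply, ordv_pi, show ((γ : Eˣ) : E) = algebraMap F E l from
      congrArg Units.val hl.symm, AlgEquiv.commutes, sub_self]
    rfl
  have hp : ∀ γ γ' : C.G, ((γ : Eˣ) : TF F E) = (γ' : Eˣ) ↔
      γ⁻¹ * γ' ∈ (sc F E).range.subgroupOf C.G := fun γ γ' => QuotientGroup.eq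
  have dp : ∀ γ γ' : C.G, ((γ : Eˣ) : TF F E) = (γ' : Eˣ) → C.d γ = C.d γ' := fun γ γ' h => by
    have := d0 _ ((hp _ _).1 h)
    rwa [map_mul, map_inv, inv_mul_eq_one] at this
  have t0 : ∀ (γ : C.G) (s : F), ((γ : Eˣ) : E) = algebraMap F E s → ((γ : Eˣ) : TF F E) = 1 :=
    fun γ s h => (QuotientGroup.eq_one_iff _).2 ⟨Units.mk0 s fun k => (γ : Eˣ).ne_zero (by
      rw [h, k, map_zero]), Units.ext h.symm⟩
  obtain ⟨M, M0, hM⟩ := expand (Γ := C.G) C.r C.d ((sc F E).range.subgroupOf C.G)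
    (fun γ => ((γ : Eˣ) : TF F E)) hp d0 (fun γ a b => by
      obtain ⟨s, hs⟩ := C.fix (C.neat' a b)
      exact (QuotientGroup.eq_one_iff (γ : Eˣ)).1 (t0 γ s hs))
    (fun k : C.KT => ξ k.1) (fun k => (-1) ^ k.1.card) g
  let χ : C.KT × ((C.U × C.I) ⧸ C.H →* ℂˣ) → C.U × C.I →* ℂˣ := fun k =>
    ξ k.1 * k.2.comp (QuotientGroup.mk' _)
  let K0 : ℂ := (∏ τ, 2 * C.sec τ C.δ)⁻¹
  have K1 : K0 ≠ 0 := inv_ne_zero (prod_ne_zero_iff.2 fun τ _ =>
    mul_ne_zero two_ne_zero ((map_ne_zero _).2 C.δ0))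
  let k0 : C.KT × ((C.U × C.I) ⧸ C.H →* ℂˣ) := (⟨∅, notMem_empty _⟩, 1)
  have χ0 : χ k0 = 1 := by
    refine MonoidHom.ext fun y => ?_
    simp only [χ, k0, ξ2 ∅ rfl, MonoidHom.mul_apply, MonoidHom.comp_apply, MonoidHom.one_apply,
      mul_one]
  have s0 : ∀ w, (Ψ (up E w) : ℂ) * χ k0 (1, C.e w) + Ψ (C.pi (up E w)) * χ k0 (1, (C.e w)⁻¹) =
      Ψ (up E w) + Ψ (C.pi (up E w)) := fun w => by simp [χ0]
  refine ⟨_, inferInstance,
    (fun k w => (Ψ (up E w) : ℂ) * χ k (1, C.e w) + Ψ (C.pi (up E w)) * χ k (1, (C.e w)⁻¹)),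
    (fun k => K0 * (M * (-1) ^ k.1.1.card * ∑ u, g u * χ k (u, 1))), k0,
    (mul_ne_zero K1 (mul_ne_zero (mul_ne_zero M0 (pow_ne_zero _ (by norm_num))) (by
      have : ∑ᶠ u, g u ≠ 0 := G.ne
      rw [finsum_eq_sum_of_fintype] at this
      simpa [χ0] using this))),
    (fun k hk Z => by
      by_contra n
      push Not at n
      obtain ⟨a, b⟩ := C.iso hΨ k.1.2 (χ k) (fun γ => by
        simp only [χ, MonoidHom.mul_apply, MonoidHom.comp_apply, QuotientGroup.mk'_apply, ξ1]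
        rw [(QuotientGroup.eq_one_iff (N := C.H) (C.r γ, C.d γ)).2 ⟨γ, rfl⟩, map_one, mul_one]) Z
        fun w a b => (n w a b).trans (s0 w)
      refine hk (Prod.ext (Subtype.ext a) (MonoidHom.ext fun q => ?_))
      obtain ⟨y, rfl⟩ := QuotientGroup.mk'_surjective _ q
      simpa [χ, k0, ξ2 _ a] using DFunLike.congr_fun b y),
    fun w a => (s0 w).trans (C.tw_eq Ψ a).symm, fun W hW => ?_⟩
  have hW1 : ∀ w ∈ W, C.Gd w := fun w h => (hW w h).1
  let w' : Finset (Pr F) → TF F E → ℂ := fun W' q =>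
    if ∃ γ : C.G, ((γ : Eˣ) : TF F E) = q ∧ C.d γ = C.aW W W' then wt W q else 0
  have h1 := fun W' (h' : W' ∈ W.powerset) => hM (C.aW W W') (w' W') (K0 * C.zW Ψ W W')
    (fun q h => if_neg fun ⟨γ, a, b⟩ => h γ a b) fun γ h => by
      rw [show w' W' _ = wt W _ from if_pos ⟨γ, rfl, h⟩]
      simp only [ξ1]
      obtain ⟨s, t, e⟩ := C.span (γ : Eˣ)
      by_cases ht : t = 0
      · rw [ht, map_zero, zero_mul, add_zero] at e
        obtain ⟨τ, hτ⟩ := C.two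
        rw [G.w0 W hW _ (Or.inl (t0 γ s e)), sum_nu, prod_eq_zero (mem_erase.2 ⟨hτ, mem_univ τ⟩),
          mul_zero]
        rw [e, AlgEquiv.commutes, ← e, div_self ((map_ne_zero _).2 (Units.ne_zero _)), sub_self]
      rw [G.w1 W hW γ s t ht e, mul_assoc, mul_assoc,
        C.prod_Ov Ψ hW1 (mem_powerset.1 h') h ht e, gr, eps]
      linear_combination (φ γ * C.zW Ψ W W' / pv Ψ ((γ : Eˣ) : E)) * C.arch γ ht e
  have h2 : ∀ q, wt W q = ∑ W' ∈ W.powerset, w' W' q := fun q => by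
    by_cases h : ∃ W' ∈ W.powerset, ∃ γ : C.G, ((γ : Eˣ) : TF F E) = q ∧ C.d γ = C.aW W W'
    · obtain ⟨W', a, γ, b, c⟩ := h
      rw [sum_eq_single_of_mem W' a fun W2 a2 n => if_neg fun ⟨γ', b', c'⟩ => n
        (C.aW_inj hW1 (mem_powerset.1 a2) (mem_powerset.1 a)
          (c'.symm.trans ((dp _ _ (b'.trans b.symm)).trans c)))]
      exact (if_pos ⟨γ, b, c⟩).symm
    rw [sum_eq_zero fun W' a => if_neg fun k => h ⟨W', a, k⟩]
    by_contra n
    obtain ⟨γ, rfl⟩ : ∃ γ : C.G, ((γ : Eˣ) : TF F E) = q := by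
      by_contra k
      exact n (G.w0 W hW q (Or.inr fun γ e => k ⟨γ, e⟩))
    obtain ⟨s, t, e⟩ := C.span (γ : Eˣ)
    have ht : t ≠ 0 := fun k => n (G.w0 W hW _ (Or.inl (t0 γ s (by
      rwa [k, map_zero, zero_mul, add_zero] at e))))
    rw [G.w1 W hW γ s t ht e] at n
    obtain ⟨W', a, b⟩ := C.prod_Ov_ne Ψ hW1 ht e (right_ne_zero_of_mul n)
    exact h ⟨W', mem_powerset.2 a, γ, rfl, b⟩
  beta_reduce
  rw [finsum_congr h2, finsum_sum_comm _ _ fun W' a => (h1 W' a).1,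
    sum_congr rfl fun W' a => (h1 W' a).2, sum_comm]
  refine sum_congr rfl fun k _ => ?_
  rw [prod_add, mul_sum W.powerset]
  refine sum_congr rfl fun W' _ => ?_
  have e1 : ∀ S : Finset (Pr F), χ k (1, ∏ w ∈ S, C.e w) = ∏ w ∈ S, χ k (1, C.e w) := fun S =>
    map_prod ((χ k).comp (MonoidHom.inr _ _)) _ S
  have e2 : χ k (1, C.aW W W') = (∏ w ∈ W', χ k (1, C.e w)) * ∏ w ∈ W \ W', χ k (1, (C.e w)⁻¹) := by
    rw [aW, ← one_mul (1 : C.U), r_mul, one_mul, r_inv, e1, e1, ← prod_inv_distrib]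
    simp only [r_inv]
  change _ * (_ * (χ k (1, C.aW W W') : ℂ)) = _
  rw [e2, zW, prod_mul_distrib, prod_mul_distrib]
  simp only [Units.val_mul, Units.coe_prod, χ]
  ring

open scoped IsMulCommutative Classical in
theorem tornx (X : QD F) (hΨ : C.Hk Ψ) (hK : Kp C Ψ)
    (G : Exq C Ψ Z val) (M : Type) [AddCommGroup M] [Module ℂ M] [FiniteDimensional ℂ M]
    (T : Pl F → Module.End ℂ M) (TW : Finset (Pl F) → Module.End ℂ M) (P H : Module.End ℂ M)
    (c1 : ∀ w w', Commute (T w) (T w')) (c2 : ∀ w, Commute (T w) P) (t0 : TW ∅ = P)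
    (t1 : ∀ W w, w ∉ W → (∀ v ∈ insert w W, C.Gd v ∧ v ∉ Z) → TW (insert w W) = T w * TW W)
    (hL : ∀ W : Finset (Pl F), W.Nonempty → (∀ w ∈ W, C.Gd w ∧ w ∉ Z) →
      LinearMap.trace ℂ M (H * TW W) = val W) :
    ∃ y, P y ≠ 0 ∧ ∃ Z' : Finset (Pl F), ∀ w, C.Gd w → w ∉ Z' → T w (P y) = Tor.tw Ψ w • P y := by
  let N := LinearMap.range P
  have m : ∀ w, ∀ x ∈ N, T w x ∈ N := by
    rintro w _ ⟨y, rfl⟩
    exact ⟨T w y, (LinearMap.congr_fun (c2 w).eq y).symm⟩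
  let T' : Pl F → Module.End ℂ (N × ℂ) := fun w => ((T w).restrict (m w)).prodMap 0
  let c : ℂ := val ∅ - LinearMap.trace ℂ M (H * P)
  let A : Module.End ℂ (N × ℂ) :=
    ((P * H).restrict (p := N) (q := N) fun x _ => ⟨_, rfl⟩).prodMap (c • 1)
  have := Algebra.isMulCommutative_adjoin ℂ (s := Set.range T') (by
    rintro _ ⟨w, rfl⟩ _ ⟨w', rfl⟩
    exact LinearMap.ext fun x => Prod.ext
      (Subtype.ext (LinearMap.congr_fun (c1 w w').eq (x.1 : M))) rfl)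
  let T1 : Pl F → Algebra.adjoin ℂ (Set.range T') := fun w => ⟨T' w, Algebra.subset_adjoin ⟨w, rfl⟩⟩
  have k : ∀ W : Finset (Pl F), (∀ w ∈ W, C.Gd w ∧ w ∉ Z) → ∃ B, TW W = B * P ∧ ∀ x : N × ℂ,
      (((∏ w ∈ W, T1 w).1 x).1 : M) = B x.1 ∧
        ((∏ w ∈ W, T1 w).1 x).2 = if W = ∅ then x.2 else 0 := fun W => by
    induction W using Finset.induction_on with
    | empty => exact fun _ => ⟨1, t0, fun x => ⟨rfl, (if_pos rfl).symm⟩⟩
    | insert w W a ih =>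
      intro h
      obtain ⟨B, b1, b2⟩ := ih fun v k => h v (mem_insert_of_mem k)
      refine ⟨T w * B, by rw [t1 W w a h, b1, mul_assoc], fun x => ?_⟩
      rw [prod_insert a, if_neg (insert_ne_empty _ _)]
      exact ⟨congrArg (T w) (b2 x).1, rfl⟩
  obtain ⟨⟨⟨_, y, rfl⟩, z⟩, x0, Z', hx⟩ := G.key (Algebra.adjoin ℂ (Set.range T'))
    (N × ℂ) (Subalgebra.val _) T1 A fun W hW => by
      obtain ⟨B, b1, b2⟩ := k W hW
      have e : A * (∏ w ∈ W, T1 w).1 = ((P * (H * B)).restrict (p := N) (q := N)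
          fun x _ => ⟨_, rfl⟩).prodMap ((if W = ∅ then c else 0) • 1) :=
        LinearMap.ext fun x => Prod.ext (Subtype.ext (congrArg (P * H) (b2 x).1)) (by
          change c • ((∏ w ∈ W, T1 w).1 x).2 = (if W = ∅ then c else 0) • x.2
          rw [(b2 x).2]
          split_ifs <;> simp)
      refine (congrArg _ e).trans ?_
      rw [LinearMap.trace_prodMap', LinearMap.trace_restrict_eq_of_forall_mem N (P * (H * B))
        fun x => ⟨_, rfl⟩, LinearMap.trace_mul_comm, mul_assoc, ← b1]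
      split_ifs with a
      · simp [a, t0, c]
      · simpa using hL W (nonempty_iff_ne_empty.2 a) hW
  obtain ⟨w, w1, w2, w3⟩ := (twn F E X C Ψ hΨ hK).1 Z'
  have z0 : z = 0 := (mul_eq_zero.1 (congrArg Prod.snd (hx w w1 w2)).symm).resolve_left w3
  exact ⟨y, fun a => x0 (Prod.ext (Subtype.ext a) z0), Z', fun w a b =>
    congrArg (fun x : N × ℂ => (x.1 : M)) (hx w a b)⟩

open Classical in
theorem torn2x (X : QD F) (hΨ : C.Hk Ψ) (hK : Kp C Ψ)
    (G : Exq C Ψ Z val) (M : Type) [AddCommGroup M] [Module ℂ M] [FiniteDimensional ℂ M]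
    (T : Pl F → Module.End ℂ M) (TW : Finset (Pl F) → Module.End ℂ M) (P H : Module.End ℂ M)
    (c1 : ∀ w w', Commute (T w) (T w')) (c2 : ∀ w, Commute (T w) P) (t0 : TW ∅ = P)
    (t1 : ∀ W w, w ∉ W → (∀ v ∈ insert w W, C.Gd v ∧ v ∉ Z) → TW (insert w W) = T w * TW W)
    (hL : ∀ W : Finset (Pl F), W.Nonempty → (∀ w ∈ W, C.Gd w ∧ w ∉ Z) →
      LinearMap.trace ℂ M (H * TW W) = val W)
    (ha : ∀ w, w ∉ Z → ¬ C.Gd w → T w * H = -(H * T w)) :
    ∃ y, P y ≠ 0 ∧ ∃ Z' : Finset (Pl F), ∀ w, w ∉ Z' → T w (P y) = ta C Ψ w • P y := by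
  induction hA : LinearMap.range P using WellFoundedLT.induction generalizing P TW with
  | ind A ih =>
  subst hA
  have m : ∀ w, ∀ x ∈ LinearMap.range P, T w x ∈ LinearMap.range P := by
    rintro w _ ⟨y, rfl⟩
    exact ⟨T w y, (LinearMap.congr_fun (c2 w).eq y).symm⟩
  by_cases h : ∀ w, w ∉ Z ∧ ¬ C.Gd w → ∀ x ∈ LinearMap.range P, ∀ μ : ℂ, μ ≠ 0 →
      T w x = μ • x → x = 0
  · obtain ⟨y, y0, Z', hy⟩ := tornx X hΨ hK G M T TW P H c1 c2 t0 t1 hL
    let B : Submodule ℂ M := LinearMap.range P ⊓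
      ⨅ (w) (_ : C.Gd w) (_ : w ∉ Z'), Module.End.eigenspace (T w) (Tor.tw Ψ w)
    have hB : ∀ x, x ∈ B ↔ x ∈ LinearMap.range P ∧
        ∀ w, C.Gd w → w ∉ Z' → T w x = Tor.tw Ψ w • x := fun x => by
      simp only [B, Submodule.mem_inf, Submodule.mem_iInf, Module.End.mem_eigenspace_iff]
    obtain ⟨x, x1, x0, x2⟩ := ex_ker T c1 (fun w => w ∉ Z ∧ ¬ C.Gd w) B
      ((Submodule.ne_bot_iff _).2 ⟨_, (hB _).2 ⟨⟨y, rfl⟩, hy⟩, y0⟩)
      (fun v x hx => (hB _).2 ⟨m v x ((hB _).1 hx).1, fun w a b => by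
        rw [← Module.End.mul_apply, (c1 w v).eq, Module.End.mul_apply, ((hB _).1 hx).2 w a b,
          map_smul]⟩) fun w k x hx => h w k x ((hB _).1 hx).1
    obtain ⟨⟨y, rfl⟩, x1⟩ := (hB _).1 x1
    refine ⟨y, x0, Z ∪ Z', fun w k => ?_⟩
    rw [mem_union, not_or] at k
    unfold ta
    split_ifs with g
    · exact x1 w g k.2
    · rw [x2 w ⟨k.1, g⟩, zero_smul]
  push Not at h
  obtain ⟨v, ⟨v1, v2⟩, x, x1, μ, μ0, x2, x0⟩ := h
  have cw : ∀ W : Finset (Pl F), (∀ w ∈ W, C.Gd w ∧ w ∉ Z) → Commute (T v) (TW W) := fun W => by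
    induction W using Finset.induction_on with
    | empty => exact fun _ => t0 ▸ c2 v
    | insert w W a ih =>
      exact fun k => t1 W w a k ▸ (c1 v w).mul_right (ih fun u b => k u (mem_insert_of_mem b))
  let Q : Module.End ℂ M := 1 - μ⁻¹ • T v
  have cq : ∀ {B : Module.End ℂ M}, Commute B (T v) → Commute B Q := fun k =>
    (Commute.one_right _).sub_right (k.smul_right _)
  have mq : ∀ x ∈ LinearMap.range P, Q x ∈ LinearMap.range P := fun x k =>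
    sub_mem k (Submodule.smul_mem _ _ (m v x k))
  obtain ⟨y, hy⟩ := ih (LinearMap.range (P * Q)) (lt_of_le_of_ne (LinearMap.range_comp_le_range _ _)
    fun e => x0 (congrArg Subtype.val (LinearMap.injective_iff_surjective (f := Q.restrict mq).2
      (fun ⟨y, hy⟩ => by
        obtain ⟨z, rfl⟩ := e.ge hy
        exact ⟨⟨P z, z, rfl⟩, Subtype.ext (LinearMap.congr_fun (cq (c2 v).symm).eq z).symm⟩)
      (a₁ := ⟨x, x1⟩) (a₂ := 0) (Subtype.ext (by
        change x - μ⁻¹ • T v x = Q 0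
        rw [x2, inv_smul_smul₀ μ0, sub_self, map_zero])))))
    (fun W => TW W * Q) (P * Q) (fun w => (c2 w).mul_right (cq (c1 w v))) (by rw [t0])
    (fun W w a b => by rw [t1 W w a b, mul_assoc]) (fun W a b => by
      have e : LinearMap.trace ℂ M (H * (TW W * T v)) = 0 := by
        have := LinearMap.trace_mul_comm ℂ (H * TW W) (T v)
        rw [← mul_assoc, ha v v1 v2, neg_mul, map_neg, mul_assoc H (T v), (cw W b).eq,
          mul_assoc] at this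
        linear_combination this / 2
      rw [← hL W a b, mul_sub, mul_one, mul_sub, map_sub, mul_smul_comm, mul_smul_comm, map_smul, e,
        smul_zero, sub_zero]) rfl
  exact ⟨Q y, hy⟩

open scoped IsMulCommutative in
/-- the Fitting idempotent -/
theorem fit {M : Type} [AddCommGroup M] [Module ℂ M] [FiniteDimensional ℂ M] (N : Module.End ℂ M) :
    ∃ Q : Module.End ℂ M, (∀ {B}, Commute B N → Commute B Q) ∧ IsNilpotent (N * (1 - Q)) ∧
      ∀ y, N (Q y) = 0 → Q y = 0 := by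
  let R := Algebra.adjoin ℂ {N}
  have : IsArtinianRing R := IsArtinianRing.of_finite ℂ R
  let n : R := ⟨N, Algebra.self_mem_adjoin_singleton ℂ N⟩
  obtain ⟨k, g, e⟩ := IsArtinian.exists_pow_succ_smul_dvd n (1 : R)
  simp only [smul_eq_mul, mul_one, Nat.succ_eq_add_one] at e
  have e1 : n ^ k * (1 - (n * g) ^ k) = 0 := by
    obtain ⟨d, hd⟩ := one_sub_dvd_one_sub_pow (n * g) k
    rw [hd]
    linear_combination (exp := 1) -d * e
  refine ⟨((n * g) ^ k : R), fun h => Algebra.commute_of_mem_adjoin_singleton_of_commute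
    ((n * g) ^ k).2 h, ⟨k + 1, congrArg Subtype.val (show (n * (1 - (n * g) ^ k)) ^ (k + 1) = 0 by
      rw [mul_pow]
      generalize 1 - (n * g) ^ k = u at e1
      linear_combination (exp := 1) n * u ^ k * e1)⟩, fun y h => ?_⟩
  have e2 : (n * g) ^ k = g * (n * (n * g) ^ k) := by linear_combination (exp := 1) -g ^ k * e
  exact (LinearMap.congr_fun (congrArg Subtype.val e2) y).trans
    ((congrArg (g : Module.End ℂ M) h).trans (map_zero _))

open Classical in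
/-- **TORN2 with an eigenvalue `≠ μ` at `v`** -/
theorem torn3 (X : QD F) (hΨ : C.Hk Ψ) (hK : Kp C Ψ)
    (G : Exq C Ψ Z val) (M : Type) [AddCommGroup M] [Module ℂ M] [FiniteDimensional ℂ M]
    (T : Pl F → Module.End ℂ M) (TW : Finset (Pl F) → Module.End ℂ M) (P H : Module.End ℂ M)
    (c1 : ∀ w w', Commute (T w) (T w')) (c2 : ∀ w, Commute (T w) P) (t0 : TW ∅ = P)
    (t1 : ∀ W w, w ∉ W → (∀ v ∈ insert w W, C.Gd v ∧ v ∉ Z) → TW (insert w W) = T w * TW W)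
    (hL : ∀ W : Finset (Pl F), W.Nonempty → (∀ w ∈ W, C.Gd w ∧ w ∉ Z) →
      LinearMap.trace ℂ M (H * TW W) = val W)
    (ha : ∀ w, w ∉ Z → ¬ C.Gd w → T w * H = -(H * T w)) {v : Pl F} (g : C.Gd v) (z : v ∉ Z)
    (hc : Commute H (T v)) {μ : ℂ} (h : μ ≠ Tor.tw Ψ v) : ∃ y, P y ≠ 0 ∧ ∃ μ' : ℂ, μ' ≠ μ ∧
      T v (P y) = μ' • P y ∧ ∃ Z' : Finset (Pl F), ∀ w, w ∉ Z' → T w (P y) = ta C Ψ w • P y := by
  let N : Module.End ℂ M := T v - μ • 1
  have cn : ∀ {B : Module.End ℂ M}, Commute B (T v) → Commute B N := fun k =>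
    k.sub_right ((Commute.one_right _).smul_right _)
  obtain ⟨Q, q1, q2, q3⟩ := fit N
  have k' : ∀ W : Finset (Pl F), (∀ w ∈ W, C.Gd w ∧ w ∉ insert v Z) → ∀ w ∈ W, C.Gd w ∧ w ∉ Z :=
    fun W k w a => ⟨(k w a).1, fun b => (k w a).2 (mem_insert_of_mem b)⟩
  have cw : ∀ W : Finset (Pl F), (∀ w ∈ W, C.Gd w ∧ w ∉ Z) → Commute (T v) (TW W) := fun W => by
    induction W using Finset.induction_on with
    | empty => exact fun _ => t0 ▸ c2 v
    | insert w W a ih =>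
      exact fun k => t1 W w a k ▸ (c1 v w).mul_right (ih fun u b => k u (mem_insert_of_mem b))
  have cq : ∀ {B : Module.End ℂ M}, Commute B (T v) → Commute B (N * Q) := fun k =>
    (cn k).mul_right (q1 (cn k))
  obtain ⟨y, y0, Z', hy⟩ := torn2x X hΨ hK (G.shift g z h) M T (fun W => TW W * (N * Q))
    (P * (N * Q)) H c1 (fun w => (c2 w).mul_right (cq (c1 w v))) (by rw [t0])
    (fun W w a b => by rw [t1 W w a (k' _ b), mul_assoc]) (fun W a b => by
      have c := hc.mul_left (cw W (k' W b)).symm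
      have e := LinearMap.trace_comp_eq_mul_of_commute_of_isNilpotent (f := H * TW W)
        (g := N * (1 - Q)) 0 ((cn c).mul_right ((Commute.one_right _).sub_right (q1 (cn c))))
        (by rwa [map_zero, sub_zero])
      have i : ∀ w ∈ insert v W, C.Gd w ∧ w ∉ Z := (forall_mem_insert _ _ _).2 ⟨⟨g, z⟩, k' W b⟩
      rw [← Module.End.mul_eq_comp, zero_mul, mul_sub, mul_one, mul_sub, map_sub, sub_eq_zero] at e
      rw [← mul_assoc, ← e, ← hL W a (k' W b), ← hL _ (insert_nonempty _ _) i,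
        t1 W v (fun a => (b v a).2 (mem_insert_self _ _)) i, (cw W (k' W b)).eq, mul_sub, map_sub,
        mul_smul_comm, mul_one, map_smul, mul_assoc, smul_eq_mul])
    fun w a => ha w fun b => a (mem_insert_of_mem b)
  let B : Submodule ℂ M := LinearMap.range (P * (N * Q)) ⊓
    ⨅ (w) (_ : w ∉ Z'), Module.End.eigenspace (T w) (ta C Ψ w)
  have hB : ∀ x, x ∈ B ↔ x ∈ LinearMap.range (P * (N * Q)) ∧
      ∀ w, w ∉ Z' → T w x = ta C Ψ w • x := fun x => by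
    simp only [B, Submodule.mem_inf, Submodule.mem_iInf, Module.End.mem_eigenspace_iff]
  have m : ∀ x ∈ B, T v x ∈ B := fun x hx => by
    obtain ⟨⟨u, rfl⟩, a⟩ := (hB x).1 hx
    exact (hB _).2 ⟨⟨T v u, (LinearMap.congr_fun ((c2 v).mul_right (cq (c1 v v))).eq u).symm⟩,
      fun w b => by rw [← Module.End.mul_apply, (c1 w v).eq, Module.End.mul_apply, a w b, map_smul]⟩
  have := Submodule.nontrivial_iff_ne_bot.2
    ((Submodule.ne_bot_iff B).2 ⟨_, (hB _).2 ⟨⟨y, rfl⟩, hy⟩, y0⟩)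
  obtain ⟨ν, hν⟩ := Module.End.exists_eigenvalue ((T v).restrict m)
  obtain ⟨⟨x, x1⟩, x2⟩ := hν.exists_hasEigenvector
  have e : T v x = ν • x := congrArg Subtype.val x2.apply_eq_smul
  have x0 : x ≠ 0 := fun k => x2.2 (Subtype.ext k)
  obtain ⟨⟨u, rfl⟩, a⟩ := (hB x).1 x1
  refine ⟨_, x0, ν, fun k => x0 ?_, e, Z', a⟩
  have e' : P * (N * Q) = Q * (P * N) := by
    rw [← mul_assoc]
    exact (q1 ((cn (c2 v).symm).mul_left (Commute.refl N))).eq
  rw [e'] at e ⊢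
  exact q3 _ (sub_eq_zero.2 (e.trans (by rw [k]; rfl)))

end T2

end Vale.Agent.P022K.Sh
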