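import Vale.Agent.P022K.F0.StS2
import Vale.Agent.P022K.F0.Fixa

/-!
# P022K, block F0: operators of test functions
-/

set_option autoImplicit false

open UpperHalfPlane
open scoped MatrixGroups

noncomputable section

namespace Vale.Agent.P022K.Sh

open Vale.Agent.P022 Vale.Agent.P022.H218.L3 Orb Tw Fxa

namespace Sd

variable {G0 G : Type} [Group G0] [Group G] {T : Tw G0 G} {U : Subgroup G} {f η : G → ℂ}
  {B : Type} [AddCommMonoid B] [Module ℂ B]

theorem wk_sum (hf : Tf U f) (ω : G → B) (x : G) :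
    wk f U ω x = ∑ c ∈ hf.fin.toFinset, f c.out • ω (x * c.out) :=
  finsum_eq_sum_of_support_subset _ fun c hc => by simpa using left_ne_zero_of_smul hc

theorem wk_inv (hf : Tf U f) {ω : G → B} (h : Inv U ω) : Inv U (wk f U ω) := fun x u hu => by
  classical
  rw [wk_eq hf, wk_eq hf]
  refine Finset.sum_congr rfl fun a ha => ?_
  obtain ⟨c, hc, rfl⟩ := Finset.mem_image.1 ha
  have c0 : f c.out ≠ 0 := by simpa using hc
  rw [hk_inv (cor_lev hf (P := fun b => b = f c.out) c0.symm) h x u hu]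

open Classical in
theorem wk_ind {O : Set G} (h : ∀ x, f x = if x ∈ O then 1 else 0) (ω : G → B) :
    wk f U ω = hk O U ω := by
  funext x
  rw [wk, hk, finsum_mem_def]
  refine finsum_congr fun c => ?_
  by_cases hc : c.out ∈ O
  · rw [h, if_pos hc, one_smul, Set.indicator_of_mem (by exact hc)]
  · rw [h, if_neg hc, zero_smul, Set.indicator_of_notMem (by exact hc)]

/-- the operator of `f` on all functions -/
def wL (hf : Tf U f) (B : Type) [AddCommMonoid B] [Module ℂ B] : Module.End ℂ (G → B) where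
  toFun := wk f U
  map_add' ω ω' := funext fun x => by
    simp only [wk_sum hf, Pi.add_apply, smul_add, Finset.sum_add_distrib]
  map_smul' c ω := funext fun x => by
    simp only [wk_sum hf, Pi.smul_apply, Finset.smul_sum, RingHom.id_apply, smul_comm c]

/-- multiplication by a function -/
def mL (η : G → ℂ) (B : Type) [AddCommMonoid B] [Module ℂ B] : Module.End ℂ (G → B) where
  toFun ω x := η x • ω x
  map_add' _ _ := funext fun _ => smul_add _ _ _
  map_smul' _ _ := funext fun _ => smul_comm _ _ _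

theorem wk_Om (hf : Tf U f) {ω : G → ℍ → ℂ} (h : ω ∈ T.Om U) : wk f U ω ∈ T.Om U :=
  ⟨fun x => by
    rw [wk_sum hf]
    exact sum_mem fun c _ => Hol.smul_mem (h.1 _) _, wk_inv hf h.2.1, fun γ x τ => by
    simp only [wk_sum hf, Pi.smul_apply, Finset.sum_apply, smul_eq_mul, mul_assoc,
      Finset.sum_mul, h.2.2, Finset.mul_sum]
    exact Finset.sum_congr rfl fun _ _ => mul_left_comm _ _ _⟩

theorem wk_H0 (hf : Tf U f) {k : G → ℂ} (h : k ∈ T.H0 (Representation.trivial ℂ G0 ℂ) U) :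
    wk f U k ∈ T.H0 (Representation.trivial ℂ G0 ℂ) U :=
  ⟨wk_inv hf h.1, fun γ => funext fun x => by
    simp only [lt, Representation.trivial_apply, ← map_inv, wk_sum hf, mul_assoc, eta_j h]⟩

theorem mul_Om (hη : η ∈ T.H0 (Representation.trivial ℂ G0 ℂ) U) {ω : G → ℍ → ℂ}
    (h : ω ∈ T.Om U) : mL η _ ω ∈ T.Om U :=
  ⟨fun x => Hol.smul_mem (h.1 _) _, fun x u hu => by
    show η _ • ω _ = η _ • ω _
    rw [hη.1 x u hu, h.2.1 x u hu], fun γ x τ => by
    show η _ * ω _ _ * _ = _ * (η _ * ω _ _)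
    rw [eta_j hη, mul_assoc, h.2.2, mul_left_comm]⟩

theorem mul_H0 (hη : η ∈ T.H0 (Representation.trivial ℂ G0 ℂ) U) {k : G → ℂ}
    (h : k ∈ T.H0 (Representation.trivial ℂ G0 ℂ) U) :
    mL η _ k ∈ T.H0 (Representation.trivial ℂ G0 ℂ) U :=
  ⟨fun x u hu => by
    show η _ • k _ = η _ • k _
    rw [hη.1 x u hu, h.1 x u hu], fun γ => funext fun x => by
    show η _ • k _ = η _ • k _
    rw [← map_inv, eta_j hη, eta_j h]⟩

open Classical in
variable (T U) in
/-- the operator of `f` on one-forms -/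
def wO (f : G → ℂ) : Module.End ℂ (T.Om U) :=
  if hf : Tf U f then (wL hf _).restrict fun _ => wk_Om hf else 0

theorem wO_val (hf : Tf U f) (ω : T.Om U) : (wO T U f ω).1 = wk f U ω.1 := by
  rw [wO, dif_pos hf]; rfl

/-- the operator of `f` on the components -/
def wC (hf : Tf U f) : Module.End ℂ (T.H0 (Representation.trivial ℂ G0 ℂ) U) :=
  (wL hf _).restrict fun _ => wk_H0 hf

/-- multiplication on one-forms -/
def mO (hη : η ∈ T.H0 (Representation.trivial ℂ G0 ℂ) U) : Module.End ℂ (T.Om U) :=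
  (mL η _).restrict fun _ => mul_Om hη

/-- multiplication on the components -/
def mC (hη : η ∈ T.H0 (Representation.trivial ℂ G0 ℂ) U) :
    Module.End ℂ (T.H0 (Representation.trivial ℂ G0 ℂ) U) :=
  (mL η _).restrict fun _ => mul_H0 hη

theorem tr_zero {M : Type} [AddCommGroup M] [Module ℂ M] [FiniteDimensional ℂ M]
    {A P : Module.End ℂ M} {c : ℂ} (hc : c ≠ 0) (h : P * A = -(A * P)) (h2 : P * P = c • 1) :
    LinearMap.trace ℂ M A = 0 := by
  have e1 : LinearMap.trace ℂ M (P * (P * A)) = c * LinearMap.trace ℂ M A := by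
    rw [← mul_assoc, h2, smul_mul_assoc, one_mul, map_smul, smul_eq_mul]
  have e2 : LinearMap.trace ℂ M (P * A * P) = -(c * LinearMap.trace ℂ M A) := by
    rw [h, neg_mul, mul_assoc, h2, mul_smul_comm, mul_one, map_neg, map_smul, smul_eq_mul]
  rw [LinearMap.trace_mul_comm, e2] at e1
  exact (mul_eq_zero.1 (by linear_combination -e1 / 2 : c * _ = 0)).resolve_left hc

/-- the trace on the components vanishes -/
theorem tr_C [FiniteDimensional ℂ (T.H0 (Representation.trivial ℂ G0 ℂ) U)] (hf : Tf U f)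
    (hη : η ∈ T.H0 (Representation.trivial ℂ G0 ℂ) U) {g : G → ℂ} (hg : Tf U g) {c : ℂ} (hc : c ≠ 0)
    (h1 : ∀ y, g y ≠ 0 → ∀ x, η (x * y) = -η x)
    (h2 : ∀ k : G → ℂ, Inv U k → wk g U (wk f U k) = wk f U (wk g U k))
    (h3 : ∀ k ∈ T.H0 (Representation.trivial ℂ G0 ℂ) U, wk g U (wk g U k) = c • k) :
    LinearMap.trace ℂ _ (mC hη * wC hf) = 0 := by
  refine tr_zero (P := wC hg) hc (LinearMap.ext fun k => Subtype.ext ?_)
    (LinearMap.ext fun k => Subtype.ext (h3 k.1 k.2))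
  show wk g U (mL η ℂ (wk f U k.1)) = -mL η ℂ (wk f U (wk g U k.1))
  rw [← h2 _ k.2.1]
  funext x
  show _ = -(η x • wk g U (wk f U k.1) x)
  rw [wk_sum hg, wk_sum hg, Finset.smul_sum, ← Finset.sum_neg_distrib]
  refine Finset.sum_congr rfl fun y hy => ?_
  show g _ • (η _ • wk f U k.1 _) = _
  rw [h1 _ (hg.fin.mem_toFinset.1 hy)]
  simp only [smul_eq_mul]
  ring

/-- from the adelic torus to the global torus -/
theorem down (ok : T.Ok) (hU : U ∈ T.Lev) (nt : T.Neat U) (cls : T.CLS) {τ : ℍ} {γ : G0}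
    (hγ : γ ∈ T.Sb τ) (h0 : γ ∉ T.Z0) {A A' : Subgroup G}
    (hA : A = Subgroup.centralizer ((T.Sb τ).map T.j)) (hc : ∀ s ∈ A, ∀ t ∈ A, s * t = t * s)
    (com : ∀ a ∈ T.Sb τ, ∀ b ∈ T.Sb τ, Commute a b) (h1 : A' ≤ A) (h2 : A ⊓ U ≤ A')
    (h3 : U.relIndex A' ≠ 0) : ∃ c : ℂ, c ≠ 0 ∧ ∀ (φ : G ⧸ U → ℂ) val, Iv A φ → HasOrb A A' φ val →
      HasOrb ((T.Sb τ).map T.j ⊔ T.Z) T.Z φ (c * val) := by
  set Γ := (T.Sb τ).map T.j ⊔ T.Z with hΓ
  have le : Γ ≤ A := hA ▸ sup_le (by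
    rintro _ ⟨a, ha, rfl⟩ _ ⟨b, hb, rfl⟩
    exact ((com b hb a ha).map T.j).eq) fun z hz g _ => ok.com hz g
  have hn : ∀ t ∈ Γ, ∀ y : G ⧸ U, t • y = y → t ∈ T.Z := fun t ht y e => by
    obtain ⟨δ, hδ, z, hz, rfl⟩ := mem_Gm ok ht
    obtain ⟨x, rfl⟩ := QuotientGroup.mk_surjective y
    rw [mul_smul, z_smul ok hU hz, Fxa.smul_mk, eq_comm, QuotientGroup.eq, ← mul_assoc] at e
    exact mul_mem ((ok.z0 δ).1 (nt x δ (T.mem_Gam.2 e) τ hδ)) hz
  have f1 : (Γ ⊔ A').relIndex A ≠ 0 := by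
    have := cls U hU τ γ hγ h0 com
    rw [← hA] at this
    exact ne_zero_of_dvd_ne_zero this (Subgroup.relIndex_dvd_of_le_left _
      (sup_le_sup le_sup_left (inf_comm U A ▸ h2)))
  have f2 : T.Z.relIndex (Γ ⊓ A') ≠ 0 := fun e => h3 (Subgroup.relIndex_eq_zero_of_le_right
    (inf_le_right (a := Γ)) (by
      rw [← Subgroup.inf_relIndex_right]
      refine Subgroup.relIndex_eq_zero_of_le_left (fun t ht => hn t ht.2.1 (1 : G) ?_) e
      rw [Fxa.smul_mk, eq_comm, QuotientGroup.eq]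
      simpa using ht.1))
  have f2' : (T.Z.relIndex (Γ ⊓ A') : ℂ) ≠ 0 := Nat.cast_ne_zero.2 f2
  refine ⟨(Γ ⊔ A').relIndex A / T.Z.relIndex (Γ ⊓ A'), div_ne_zero (Nat.cast_ne_zero.2 f1) f2',
    fun φ val hi h => ?_⟩
  obtain ⟨v, a, b, -⟩ := orbA hc le h1 hi (fun z hz => z_smul ok hU hz) hn f1 h
  rwa [div_mul_eq_mul_div, ← b, mul_div_cancel_left₀ _ f2']

end Sd

end Vale.Agent.P022K.Sh
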