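import Vale.Agent.P022K.F0.StS3
import Vale.Agent.P022K.F0.Prd
import Vale.Agent.P022K.F0.Lvp
import Vale.Agent.P022K.F0.SeedA
import Vale.Agent.P022K.F0.Nel
import Vale.Agent.P022K.F0.Eta

/-!
# P022K, block F0: the row SEED3 (helper80)
-/

set_option autoImplicit false

open NumberField IsDedekindDomain

noncomputable section

namespace Vale.Agent.P022K.Sh

open Vale.Agent.P022K.F0 Tor Orb Dc Prd

/-- **TRD2**: deep test functions, for both embeddings -/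
def TRD2 : Prop := AllC fun {F _} _ _ _ _ _ X C Ψ => ∀ η, (∃ ε, X.Cm C ε) → Eta C Ψ η →
  ∀ w : Pl F, (C.D : 𝓞 F) ∈ w.asIdeal → X.Spl w → ∀ N, 0 < N →
    ∃ (V : _) (f φ : _) (T1 : _) (k : ℕ),
    V ≤ X.U1 w N ∧ f 1 = 0 ∧ X.Tr w (C.D ^ (k + 1)) (η w) V f φ T1 ∧ ∀ ε, X.Cm C ε →
    ∀ C' : CM F _, C'.δ = C.δ → C'.a = C.a → C'.c = C.c → C'.sec = C.sec → ∀ m, k ≤ m →
      C'.D = C.D ^ (m + 1) → Nl C' Ψ w fun γ => φ (X.lc ε w γ)

namespace S3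

theorem tf_mono {G : Type} [Group G] {U V : Subgroup G} {f : G → ℂ} (h : Tf V f) (le : U ≤ V)
    (hf : U.relIndex V ≠ 0) : Tf U f := by
  refine ⟨fun u hu => h.left u (le hu), fun x u hu => h.right x u (le hu), ?_⟩
  have := Subgroup.index_ne_zero_iff_finite.1 hf
  refine ((h.fin.prod (Set.finite_univ (α := V ⧸ U.subgroupOf V))).image
    fun p => ((p.1.out * p.2.out : G) : G ⧸ U)).subset fun c hc => ?_
  obtain ⟨k, e⟩ := QuotientGroup.mk_out_eq_mul V c.out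
  obtain ⟨u, e'⟩ := QuotientGroup.mk_out_eq_mul (U.subgroupOf V) k⁻¹
  refine ⟨((c.out : G ⧸ V), (k⁻¹ : V)), ⟨by rwa [Set.mem_ofPred_eq, e, h.right _ _ k.2], trivial⟩,
    Eq.trans ?_ c.out_eq'⟩
  beta_reduce
  rw [e, e', eq_comm, QuotientGroup.eq]
  simpa [mul_assoc] using Subgroup.mem_subgroupOf.1 u.2

variable {F : Type} [Field F] [NumberField F] {X : QD F}

theorem u1_idx (w : Pl F) {M N : ℕ} (hM : 0 < M) (hN : 0 < N) :
    (X.U1 w M).relIndex (X.U1 w N) ≠ 0 := fun h =>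
  X.ok_fi _ (X.UN_mem hM) _ (X.UN_mem hN) (Subgroup.relIndex_eq_zero_of_le_left
    (Subgroup.le_comap_map (X.cu w) _) ((Subgroup.relIndex_comap _ _ _).trans h))

variable {w : Pl F} {N : ℕ} {η : (Fw w)ˣ →* ℂˣ} {V T1 : Subgroup (X.Dw w)ˣ}
  {f φ : (X.Dw w)ˣ → ℂ}

theorem tr_le (h : X.Tr w N η V f φ T1) {N' : ℕ} (e : N ∣ N') : X.Tr w N' η V f φ T1 := by
  obtain ⟨k, rfl⟩ := e
  have l : vw w ((N * k : ℕ) : Fw w) ≤ vw w (N : Fw w) := by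
    rw [Nat.cast_mul, map_mul]
    exact mul_le_of_le_one_right' (v_nat_le w k)
  exact { h with
    per := fun γ a u b c d => h.per γ a u b c ⟨d.1.trans (pow_le_pow_left' l 2), d.2.trans l⟩ }

theorem tr_shrink (h : X.Tr w N η V f φ T1) {M : ℕ} (hM : 0 < M) :
    ∃ c : ℂ, c ≠ 0 ∧ X.Tr w N η (V ⊓ X.U1 w M) f (fun u => c * φ u) T1 := by
  obtain ⟨K, K0, h1, h2⟩ := h.opn
  have i : (V ⊓ X.U1 w M).relIndex V ≠ 0 := by
    rw [Subgroup.inf_relIndex_left]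
    exact Subgroup.relIndex_ne_zero_trans (u1_idx w hM K0) h2
  have c : ∀ k ∈ V, ∀ z, f (k⁻¹ * z * k) = f z := fun k hk z => by
    rw [h.tf.right _ k hk, h.tf.left _ (inv_mem hk)]
  refine ⟨_, Nat.cast_ne_zero.2 i, ⟨K * M, mul_pos K0 hM, le_inf
    ((X.U1_mono w (dvd_mul_right _ _)).trans h1) (X.U1_mono w (dvd_mul_left _ _)), fun e =>
      u1_idx w (mul_pos K0 hM) hM (Subgroup.relIndex_eq_zero_of_le_right inf_le_right e)⟩,
    fun u hu => h.eta u hu.1, tf_mono h.tf inf_le_left i, h.le,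
    (inf_le_inf_left _ inf_le_left).trans h.ge, Subgroup.relIndex_ne_zero_trans i h.idx, h.orb0,
    fun γ a b d => ?_, fun γ a u b d e => congrArg _ (h.per γ a u b d e),
    fun γ a z x b d e => by rw [mul_assoc, h.scal γ a z x b d e]⟩
  rw [mul_assoc]
  exact HasOrb.level (ψ := fq η V f γ) (ψ' := fq η (V ⊓ X.U1 w M) f γ) inf_le_left i (fun x => by
    rw [fq_mk h.eta c, fq_mk (V := V ⊓ X.U1 w M) (fun k hk => h.eta k hk.1)
      fun k hk => c k hk.1]) (h.orb1 γ a b d)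

variable {E : Type} [Field E] [NumberField E] [Algebra F E] {C : CM F E} {Ψ : Pl E → ℂˣ}

theorem nl_mul {φ : Eˣ → ℂ} (h : Nl C Ψ w φ) {c : ℂ} (hc : c ≠ 0) : Nl C Ψ w fun γ => c * φ γ := by
  simp only [Nl, mul_assoc, ← mul_finsum]
  exact mul_ne_zero hc h

variable (C) in
/-- a power of the modulus -/
def pw (m : ℕ) : CM F E := enl C (C.D ^ m) (pow_pos (Nat.pos_of_ne_zero C.D0) m)

theorem pw_D (m : ℕ) : (pw C m).D = C.D ^ (m + 1) := (pow_succ' _ _).symm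

theorem pw_mem (m : ℕ) {K : Type} [Field K] [NumberField K] (P : Pl K) :
    ((pw C m).D : 𝓞 K) ∈ P.asIdeal ↔ (C.D : 𝓞 K) ∈ P.asIdeal := by
  rw [pw_D, Nat.cast_pow]
  exact P.isPrime.pow_mem_iff_mem _ m.succ_pos

theorem pw_gd (m : ℕ) (v : Pl F) : (pw C m).Gd v ↔ C.Gd v :=
  and_congr (pw_mem m v).not Iff.rfl

theorem pw_hk (m : ℕ) (h : C.Hk Ψ) : (pw C m).Hk Ψ := fun u hu =>
  h ⟨u, fun P k => u.2 P ((pw_mem m P).2 k)⟩ fun P _ k =>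
    (hu P trivial ((pw_mem m P).2 k)).trans (by
      rw [pw_D, Nat.cast_pow, pow_succ, map_mul]
      exact mul_le_of_le_one_left' (by exact_mod_cast val_le P ((C.D : 𝓞 E) ^ m)))

theorem pw_kp (m : ℕ) (h : Kp C Ψ) : Kp (pw C m) Ψ := fun v k => by
  classical
  rw [h v (mt (pw_mem m v).2 k)]
  exact if_congr (pw_gd m v).symm rfl rfl

theorem pw_eta (m : ℕ) {η : ∀ w : Pl F, (Fw w)ˣ →* ℂˣ} (h : Eta C Ψ η) : Eta (pw C m) Ψ η :=
  ⟨h.sq, fun v k => h.off v (mt (pw_mem m v).2 k), h.nrm, fun v x a b => h.lev v x a (b.trans (by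
    rw [pw_D, Nat.cast_pow, pow_succ, map_mul, ← Nat.cast_pow]
    exact mul_le_of_le_one_left' (v_nat_le v _))), fun t t0 => by
    simp only [CM.rho, pw_mem]
    exact h.pf t t0, h.glob⟩

theorem pw_cm (m : ℕ) {ε : E →ₐ[F] X.D} : X.Cm (pw C m) ε ↔ X.Cm C ε :=
  ⟨fun h => ⟨h.a, h.t1, h.i, fun v k => h.b v (mt (pw_mem m v).1 k)⟩,
    fun h => ⟨h.a, h.t1, h.i, fun v k => h.b v (mt (pw_mem m v).2 k)⟩⟩

end S3

open S3 in
/-- **SEED3** -/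
theorem seed3 (hC : SEEDC) (trm : TRM) (trs : TRS) (trd : TRD2) (gft : GFT) (cnv : CNV) :
    SEED3 := by
  classical
  intro F E _ _ _ _ _ X C Ψ hk kp S S' V f φ w0 dj m0 hS sp ⟨ε0, h0⟩ ty
  obtain ⟨η, hη, ur⟩ := eta F E X C Ψ hk kp
  obtain ⟨N, N0, hN⟩ := X.ntw w0
  have ex : ∀ w, ∃ (V2 : Subgroup (X.Dw w)ˣ) (f2 φ2 : (X.Dw w)ˣ → ℂ) (T2 : Subgroup (X.Dw w)ˣ)
      (k : ℕ), (w ∈ S → f2 = f w ∧ (w ≠ w0 → V2 = V w)) ∧ (w = w0 → V2 ≤ X.U1 w N) ∧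
      (w ∉ S → w ∉ S' → V2 = X.U0 w) ∧ ((w ∈ S ∨ w ∈ S') →
        X.Tr w (C.D ^ (k + 1)) (η w) V2 f2 φ2 T2 ∧ ∀ ε, X.Cm C ε → ∀ m, k ≤ m →
          Nl (pw C m) Ψ w fun γ => φ2 (X.lc ε w γ)) := fun w => by
    by_cases a : w ∈ S
    · have d := (hS w).1 (.inl a)
      obtain ⟨T, c, c0, t⟩ : ∃ (T : _) (c : ℂ), c ≠ 0 ∧
          X.Tr w C.D (η w) (V w) (f w) (fun u => c * φ w u) T := by
        rcases (ty w a).1 with ⟨κ, t | t, k⟩ | ⟨t, k⟩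
        · exact (trm F E X C Ψ hk kp ε0 η h0 hη w d _ _ _).1 κ t (ur w κ d k)
        · exact trs F E X C Ψ hk kp ε0 η h0 hη w d _ _ _ κ t (ur w κ d k)
        · exact (trm F E X C Ψ hk kp ε0 η h0 hη w d _ _ _).2 t (ur w _ d k)
      have nl : ∀ ε, X.Cm C ε → ∀ m, Nl (pw C m) Ψ w fun γ => c * φ w (X.lc ε w γ) :=
        fun ε h m => nlm F E X C Ψ hk kp w _ (fun u hu γ => by
          rw [Subgroup.coe_mul, map_mul]
          exact t.per _ (lc_mem h w _) _ (lc_mem h w _) (un_lc h d γ) (cg_lc h d hu))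
          (nl_mul ((ty w a).2 ε h) c0) _ rfl m (pw_D m)
      by_cases e : w = w0
      · obtain ⟨c', c1, t'⟩ := tr_shrink t N0
        exact ⟨_, _, _, T, 0, fun _ => ⟨rfl, fun k => absurd e k⟩, fun _ => inf_le_right,
          fun k => absurd a k, fun _ => ⟨tr_le t' (by simp),
            fun ε h m _ => nl_mul (nl ε h m) c1⟩⟩
      · exact ⟨_, _, _, T, 0, fun _ => ⟨rfl, fun _ => rfl⟩, fun k => absurd k e,
          fun k => absurd a k, fun _ => ⟨tr_le t (by simp), fun ε h m _ => nl ε h m⟩⟩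
    · by_cases b : w ∈ S'
      · obtain ⟨V2, f2, φ2, T, k, -, -, t, n⟩ :=
          trd F E X C Ψ hk kp η ⟨ε0, h0⟩ hη w ((hS w).1 (.inr b)) (sp w b) 1 one_pos
        exact ⟨V2, f2, φ2, T, k, fun k => absurd k a, fun k => absurd (k ▸ m0) a,
          fun _ k => absurd b k,
          fun _ => ⟨t, fun ε h m l => n ε h _ rfl rfl rfl rfl m l (pw_D m)⟩⟩
      · exact ⟨X.U0 w, 0, 0, ⊥, 0, fun k => absurd k a, fun k => absurd (k ▸ m0) a,
          fun _ _ => rfl, fun k => absurd k (not_or.2 ⟨a, b⟩)⟩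
  choose V2 f2 φ2 T2 k h1 h2 h3 h4 using ex
  have le : ∀ w ∈ S ∪ S', k w ≤ (S ∪ S').sup k := fun w => Finset.le_sup
  generalize (S ∪ S').sup k = m at le
  have L : X.Ld (pw C m) η (S ∪ S') V2 f2 φ2 T2 :=
    ⟨fun w => by rw [pw_mem, ← hS, Finset.mem_union],
      fun w a => h3 w (mt (Finset.mem_union_left _) a) (mt (Finset.mem_union_right _) a),
      fun w a => tr_le (h4 w (Finset.mem_union.1 a)).1
        (pw_D (C := C) m ▸ pow_dvd_pow _ (Nat.succ_le_succ (le w a)))⟩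
  have lev := X.lvp _ _ (fun w a => (L.tr w a).opn) L.off
  have nt := hN _ lev fun u hu => h2 w0 rfl (mem_PU.1 hu w0)
  obtain ⟨-, ω, o1, o2, Z, hZ⟩ := hC F E X (pw C m) Ψ (pw_hk m hk) (pw_kp m kp) η _ V2 f2 φ2 T2
    (pw_eta m hη) L nt ⟨ε0, (pw_cm m).2 h0⟩ fun ε h w a =>
      (h4 w (Finset.mem_union.1 a)).2 ε ((pw_cm m).1 h) m (le w a)
  have t1 : ∀ w ∈ S, Tf (V2 w) (f2 w) := fun w a => (h4 w (.inl a)).1.tf
  have t2 : ∀ w ∈ S', Tf (V2 w) (f2 w) := fun w a => (h4 w (.inr a)).1.tf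
  have e : X.gf S V2 f2 = X.gf S V2 f := funext fun x =>
    if_congr Iff.rfl (Finset.prod_congr rfl fun w a => by rw [(h1 w a).1]) rfl
  rw [cnv F X S S' V2 f2 dj t1 t2 _ ω o1.2.1, e] at o2 hZ
  refine ⟨V2, fun w a => (h1 w a).2, h3, lev, nt, fun w a => (h1 w a).1 ▸ t1 w a, _,
    Sd.wk_Om (gft F X S' V2 f2 t2) o1, o2, Z, fun w a => ?_⟩
  obtain ⟨L, l1, l2, l3⟩ := hZ w a
  exact ⟨L, l1, l2, l3.trans (congrArg (· • _) (if_congr (pw_gd m w) rfl rfl))⟩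

end Vale.Agent.P022K.Sh
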