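import Vale.Agent.P022K.F0.Prd
import Vale.Agent.P022K.F0.OrbN

/-!
# P022K, block F0: from local transfers to `QD.Tr`; rows TRM and TRS
-/

set_option autoImplicit false

open NumberField IsDedekindDomain WithZero
open scoped MatrixGroups

noncomputable section

namespace Vale.Agent.P022K.Sh

open Orb Tor F0

variable {F : Type} [Field F] [NumberField F]

theorem cpO (w : Pl F) : LocA.Cp (Oc w) (RingEquiv.refl (Fw w)) :=
  ⟨Subtype.val_injective, fun x => ⟨fun h => ⟨⟨x, h⟩, rfl⟩, fun ⟨o, e⟩ => by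
    rw [show x = o from e.symm]; exact o.2⟩⟩

theorem ex_vdw (w : Pl F) : ∃ ϖ : (Fw w)ˣ, Vd (Oc w) (vw w) ϖ := by
  obtain ⟨p, hp⟩ := w.valuation_exists_uniformizer F
  rw [← v_alg] at hp
  exact ⟨Units.mk0 _ ((Valuation.ne_zero_iff _).1 (hp ▸ exp_ne_zero)), (cpO w).inj, (cpO w).int, hp, (cpO w).fin⟩

theorem ex_pi (w : Pl F) : ∃ ϖ : (Fw w)ˣ, vw w ϖ = exp (-1) ∧ Cnt (vw w) (qw w) :=
  let ⟨ϖ, h⟩ := ex_vdw w; ⟨ϖ, h.uni, (show qq (Oc w) = qw w from (cpO w).qq_eq) ▸ h.cnt⟩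

theorem qw_ne (w : Pl F) : qw w ≠ 0 := fun h => w.ne_bot (Ideal.absNorm_eq_zero_iff.1 h)

theorem v_lt {w : Pl F} {N : ℕ} (h : (N : 𝓞 F) ∈ w.asIdeal) : vw w (N : Fw w) < 1 := by
  rw [v_nat]; exact (w.intValuation_lt_one_iff_mem _).2 h

namespace QD

variable (X : QD F) (w : Pl F)

theorem qi : QI (vw w) (algebraMap (𝓞 F) (Fw w) X.a) (algebraMap (𝓞 F) (Fw w) X.b) :=
  ⟨(Ow w).algebraMap_mem _, (Ow w).algebraMap_mem _, LocA.alg_ne X.a0, LocA.alg_ne X.b0,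
    two_ne_zero⟩

variable {X w}

theorem nrd_nq (x : X.Dw w) : nrd x = nq x := by simp [nrd, nq]; ring

theorem Tl_eq : X.Tl w = TQ _ _ := Subgroup.ext fun _ => Dc.mem_Tl

theorem sm_iff {M m : ℕ} (hM : vw w (M : Fw w) = exp (-(m : ℤ))) (x : X.Dw w) :
    (∃ y ∈ X.ODw w, x = 1 + (M : X.Dw w) * y) ↔ Orb.Sm (vw w) m (x - 1) := by
  have M0 : (M : Fw w) ≠ 0 := (Valuation.ne_zero_iff _).1 (hM ▸ exp_ne_zero)
  have e : ∀ c : Fw w, c ∈ Ow w ↔ vw w (M * c) ≤ exp (-(m : ℤ)) := fun c => by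
    rw [map_mul, hM, mul_le_iff_le_one_right exp_pos, mem_Ow]
  have k : ∀ y : X.Dw w, y ∈ X.ODw w ↔ Orb.Sm (vw w) m ((M : Fw w) • y) := fun y => by
    rw [ODw, mem_qint, e, e, e, e]
    exact ⟨fun h => ⟨h.1, h.2.1, h.2.2.1, h.2.2.2⟩, fun h => ⟨h.1, h.2, h.3, h.4⟩⟩
  constructor
  · rintro ⟨y, hy, rfl⟩
    rwa [add_sub_cancel_left, nat_mul_eq, ← k]
  · intro h
    exact ⟨(M : Fw w)⁻¹ • (x - 1), by rwa [k, smul_inv_smul₀ M0], by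
      rw [nat_mul_eq, smul_inv_smul₀ M0, add_sub_cancel]⟩

theorem U1_UQ {M m : ℕ} (hM : vw w (M : Fw w) = exp (-(m : ℤ))) : X.U1 w M ≤ UQ (X.qi w) m := by
  rintro _ ⟨x, ⟨c, h1, -⟩, rfl⟩
  refine ⟨Units.map (ev w).toRingHom.toMonoidHom c, (sm_iff hM _).1 ?_⟩
  have := X.one_iff.1 h1 w
  rwa [cw, qmap_smul] at this

theorem UQ_U1 {M m : ℕ} (hM : vw w (M : Fw w) = exp (-(m : ℤ))) (m0 : 0 < m) :
    UQ (X.qi w) m ≤ X.U1 w M := by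
  have one : ∀ g : (X.Dw w)ˣ, (∃ y ∈ X.ODw w, g.val = 1 + (M : X.Dw w) * y) →
      X.One M (X.sup w g) := fun g h =>
    X.one_of_sup (fun _ hv => X.cw_sup_ne hv _) (by rwa [cw_sup])
  have hs : ∀ g : (X.Dw w)ˣ, X.cu w (Units.map (X.sup w) g) = g := fun g =>
    Units.ext (X.cw_sup w _)
  have hc : ∀ c : (Fw w)ˣ, cs c ∈ X.U1 w M := fun c => ⟨Units.map (X.sup w) (cs c),
    X.Z_le_UN M (X.mem_Z_of_cw fun v => by
      by_cases hv : v = w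
      · subst hv; exact ⟨c, X.cw_sup _ _⟩
      · exact ⟨1, (X.cw_sup_ne hv _).trans (map_one _).symm⟩), hs _⟩
  rintro u ⟨c, hu⟩
  rw [← cs_mul_val] at hu
  refine ((X.U1 w M).mul_mem_cancel_left (hc c)).1 ?_
  generalize cs c * u = g at hu
  have h1 : Orb.Sm (vw w) 0 (g⁻¹).val := by
    obtain ⟨d, hd⟩ := UQ_un (X.qi w) m0 (g := g) ⟨1, by simpa using hu⟩
    have h3 := (hu.mono (n := 1) (by omega)).re
    have h4 : vw w g.val.re = 1 := by simpa using (vw w).map_one_add_of_lt (lt_one_iff.2 h3)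
    have h5 := hd.1.re
    rw [cs_mul_val, QuaternionAlgebra.re_smul, smul_eq_mul, map_mul, h4, mul_one] at h5
    have := hd.2.smul h5
    rwa [← cs_mul_val, mul_inv_rev, cs_comm, inv_mul_cancel_right] at this
  have h2 := (h1.mul (X.qi w).ha (X.qi w).hb hu).smul (c := -1) (by simp)
  rw [mul_sub, Units.inv_mul, mul_one, neg_one_smul, neg_sub, zero_add] at h2
  exact ⟨Units.map (X.sup w) g, ⟨1, by simpa using one g ((sm_iff hM _).2 hu),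
    by simpa using one g⁻¹ ((sm_iff hM _).2 h2)⟩, hs g⟩

theorem ex_M (w : Pl F) (k : ℕ) :
    ∃ M m : ℕ, 0 < M ∧ k < m ∧ vw w (M : Fw w) = exp (-(m : ℤ)) := by
  obtain ⟨M, M0, hM⟩ := exists_nat_le w (γ := exp (-(k : ℤ))) exp_ne_zero
  obtain ⟨m, hm⟩ := ex_nat (v := vw w) (Nat.cast_ne_zero.2 M0.ne') (v_nat_le w M)
  rw [show Valued.v (M : Fw w) = _ from hm, exp_lt_exp] at hM
  exact ⟨M, m, M0, by omega, hm⟩

theorem un_iff {x : (X.Dw w)ˣ} : Un x ↔ UnL (vw w) x := by rw [Un, nrd_nq]; rfl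

theorem cg_iff {N : ℕ} {x : (X.Dw w)ˣ} : Cg N x ↔ CgL (vw w) (N : Fw w) x := by
  rw [Cg, nrd_nq]; rfl

/-- the bridge -/
theorem tr_of {N : ℕ} {η : (Fw w)ˣ →* ℂˣ} {V T1 : Subgroup (X.Dw w)ˣ} {f φ : (X.Dw w)ˣ → ℂ}
    (h : TrL (X.qi w) (qw w) (N : Fw w) η V f φ T1) : X.Tr w N η V f φ T1 := by
  obtain ⟨ϖ, hϖ, hq⟩ := ex_pi w
  obtain ⟨k, -, hk⟩ := h.opn
  obtain ⟨M, m, M0, km, hM⟩ := ex_M w k
  have he : ∀ u ∈ V, ap η (nrd (u : X.Dw w)) = 1 := fun u hu => nrd_nq u.val ▸ h.eta u hu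
  refine ⟨⟨M, M0, (U1_UQ hM).trans ((UQ_mono _ km.le).trans hk),
    h.bd.relIndex _ hϖ hq (UQ_U1 hM (by omega))⟩, he, ⟨h.left, h.right,
      (finite_up hk (h.sup.finite _ hϖ hq k)).subset fun c hc => ⟨_, hc, c.out_eq'.symm⟩⟩,
    h.le.trans Tl_eq.ge, (inf_le_inf_right V Tl_eq.le).trans h.ge, h.bd1.relIndex _ hϖ hq hk, fun γ _ hz x => ?_,
    fun γ hγ hu ht => ?_, fun γ hγ u hu h1 h2 => ?_, fun γ hγ z c e hc hu => ?_⟩
  · by_contra hx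
    obtain ⟨c, hc⟩ := h.orb0 _ hx
    exact hz _ ((center_iff (X.qi w) _).2 ⟨c, rfl⟩) (un_iff.2 hc.conj)
  · rw [Tl_eq] at hγ ⊢
    refine h.orb1 γ hγ (un_iff.1 hu) ht _ fun x => ?_
    rw [← nrd_nq]
    exact oi_mk (η := fun x : (X.Dw w)ˣ => ap η (nrd (x : X.Dw w)))
      (fun x u hu => by rw [Prd.ap_mul, he u hu, mul_one]) h.left h.right γ x
  · exact h.per γ (Tl_eq.le hγ) u (Tl_eq.le hu) (un_iff.1 h1) (cg_iff.1 h2)
  · have c0 : c ≠ 0 := fun e => by simp [e] at hc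
    obtain rfl : z = cs (Units.mk0 c c0) := Units.ext e
    exact h.scal γ (Tl_eq.le hγ) _ hc (un_iff.1 hu)

theorem sec_of {s : X.Dw w ≃ₐ[Fw w] Matrix (Fin 2) (Fin 2) (Fw w)}
    {ω : Matrix (Fin 2) (Fin 2) (Fw w)} {x y : Fw w} (hω : Et (vw w) ω) (hy : y ≠ 0)
    (hs : s ⟨0, 1, 0, 0⟩ = x • 1 + y • ω) {κ : ℂ}
    (hκ : (κ = qw w ∧ IsSquare (algebraMap (𝓞 F) (Fw w) X.a)) ∨
      (κ = -(qw w : ℂ) ∧ ¬ IsSquare (algebraMap (𝓞 F) (Fw w) X.a))) :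
    ∃ (ε : ℂ) (ϖ : (Fw w)ˣ), κ = ε * qw w ∧ ε ^ 2 = 1 ∧ vw w ϖ = exp (-1) ∧
      ∃ P, Sec (vw w) ϖ ω ε (ε * qw w) P := by
  obtain ⟨ϖ, h⟩ := ex_vdw w
  have h1 := s_trace (X.qi w) s ⟨0, 1, 0, 0⟩
  have h2 := s_det (X.qi w) s ⟨0, 1, 0, 0⟩
  rw [hs, tr_lin] at h1
  rw [hs, det_lin] at h2
  simp only [nq] at h1 h2
  have e : IsSquare (ω.trace ^ 2 - 4 * ω.det) ↔ IsSquare (algebraMap (𝓞 F) (Fw w) X.a) :=
    ⟨fun ⟨d, hd⟩ => ⟨y * d / 2, by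
      linear_combination h2 + y ^ 2 / 4 * hd - (2 * x + y * ω.trace) / 4 * h1⟩,
    fun ⟨d, hd⟩ => ⟨2 * d / y, by
      field_simp
      linear_combination 4 * hd - 4 * h2 + (2 * x + y * ω.trace) * h1⟩⟩
  have i := h.ine_iff (cpO w).cpl two_ne_zero hω
  rw [e] at i
  have q : qq (Oc w) = qw w := (cpO w).qq_eq
  rcases h.sec (cpO w).cpl hω with ⟨k1, k2⟩ | ⟨k1, P, k2⟩
  · exact ⟨-1, ϖ, by simpa using (hκ.resolve_left fun k => i.1 k1 k.2).1, by simp, h.uni, _,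
      by simpa [q] using k2⟩
  · exact ⟨1, ϖ, by simpa using (hκ.resolve_right fun k => k1 (i.2 k.2)).1, by simp, h.uni, P,
      by simpa [q] using k2⟩

end QD

open QD

theorem ur_eq {w : Pl F} {η : (Fw w)ˣ →* ℂˣ} {ε : ℂ} (h : Ur η (ε * qw w)) (x : (Fw w)ˣ) :
    (η x : ℂ) = ε ^ od (vw w) (x : Fw w) := by
  rw [h x, mul_div_cancel_right₀ _ (Nat.cast_ne_zero.2 (qw_ne w))]; rfl

theorem trs : TRS := by
  intro F E _ _ _ _ _ X C Ψ _ _ _ η _ _ w hw V f φ κ ⟨s, ω, x, y, hω, hy, hs, hV, hf, hφ, hκ⟩ hu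
  obtain ⟨ε, ϖ, rfl, hε, hϖ, P, hS⟩ := sec_of hω hy hs hκ
  obtain ⟨-, -, hq⟩ := ex_pi w
  classical
  obtain ⟨T1, c, c0, h⟩ := trG (X.qi w) hϖ hq (qw_ne w) s hω hy hs hε hS (ur_eq hu)
    (typ_unit (f := fun g => if g ∈ ZV (vw w) then 1 else 0) (fun g hg => if_neg hg)
      fun g hg => if_pos hg) (V := V) (f := f) (φ := φ) (fun u => (hV u).1)
    (fun u k _ => (hV u).2 (KV_le k)) (fun c => (hV _).2 (sU_cs s c ▸ sc_mem c))
    (fun u => by rw [hf]; exact if_congr (hV u) rfl rfl)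
    (fun x u k => by rw [hf, hf]; exact if_congr (V.mul_mem_cancel_right k) rfl rfl)
    (fun _ _ _ => by rw [hφ, hφ]) (fun _ _ _ => by simp [hφ])
    (fun γ k _ => by rw [hφ, hf, if_pos ((hV γ).2 (KV_le k))]) (v_lt hw)
  exact ⟨T1, c, c0, tr_of h⟩

theorem trm : TRM := by
  intro F E _ _ _ _ _ X C Ψ _ _ _ η _ _ w hw V f φ
  obtain ⟨-, -, hq⟩ := ex_pi w
  constructor
  · rintro κ ⟨s, ω, x, y, f0, c1, cu, hω, hy, hs, h0, hK, hV, hf, hφ, hκ⟩ hu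
    obtain ⟨ε, ϖ, rfl, hε, hϖ, P, hS⟩ := sec_of hω hy hs hκ
    replace hV : ∀ u, u ∈ V ↔ ∃ z, Orb.sc z * Orb.sU s u ∈ KV (vw w) ∧
      Sc (vw w) (Orb.sc z * Orb.sU s u) := hV
    replace hf : ∀ u, f u = f0 (Orb.sU s u) := hf
    have hZ : ∀ u ∈ V, Orb.sU s u ∈ ZV (vw w) := fun u k => let ⟨z, k, _⟩ := (hV u).1 k; ⟨z, k⟩
    have hm : ∀ u, Orb.sU s u ∈ KV (vw w) → Sc (vw w) (Orb.sU s u) → u ∈ V := fun u k k' =>
      (hV u).2 ⟨1, by rwa [map_one, one_mul], by rwa [map_one, one_mul]⟩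
    have hr : ∀ x, ∀ u ∈ V, f (x * u) = f x := fun x u k => by
      rw [hf, hf, map_mul, hK _ ((hV u).1 k)]
    have hl : ∀ u ∈ V, ∀ x, f (u * x) = f x := fun u k g => by
      rw [← hr g u k, hf, hf, ← h0.clsZ (hZ u k), map_mul, map_mul, inv_mul_cancel_left]
    obtain ⟨T1, c, c0, h⟩ := trG (X.qi w) hϖ hq (qw_ne w) s hω hy hs hε hS (ur_eq hu) h0
      (V := V) (f := f) (φ := φ) hZ hm
      (fun c => (hV _).2 ⟨c⁻¹, by
        rw [sU_cs, ← map_mul, inv_mul_cancel, map_one]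
        exact sc_of (by simp)⟩) hf hr
      (fun u k g => by
        rw [hφ, hφ, hl u k]
        by_cases m : g ∈ V
        · rw [if_pos m, if_pos (mul_mem k m)]
        · rw [if_neg m, if_neg (mt (V.mul_mem_cancel_left k).1 m)])
      (fun γ k k' => by rw [hφ, if_pos (hm γ k k')])
      (fun γ k k' => by
        rw [hφ, if_neg fun m => ?_]
        obtain ⟨z, z1, z2⟩ := (hV γ).1 m
        have := z1.2
        rw [det_sc_mul, map_mul, k.2, mul_one, map_pow] at this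
        exact k' (z2.smul (sq_eq_one this))) (v_lt hw)
    exact ⟨T1, c, c0, tr_of h⟩
  · intro h hu
    obtain ⟨ϖ, hv⟩ := ex_vdw w
    have h2 : vw w (2 : Fw w) = 1 := by
      simpa only [map_ofNat] using Prd.v_one (r := 2) fun k => h.a (Ideal.mul_mem_right _ _ k)
    have ha := Prd.v_one fun k => h.a (Ideal.mul_mem_left _ _ k)
    have R := hv.ram (b := algebraMap (𝓞 F) (Fw w) X.b) (cpO w).cpl h2 ha h.ns
      (Prd.od_alg w (X.b : F) ▸ h.b :) (X.qi w).b0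
    obtain rfl : V = R.UR := Subgroup.ext fun u => (h.lev u).trans
      ⟨fun ⟨z, hz, k⟩ => by
        obtain ⟨c, rfl⟩ := (center_iff (X.qi w) z).1 hz
        exact ⟨c, by rwa [nrd_nq, cs_mul_val] at k⟩,
      fun ⟨c, k⟩ => ⟨cs c, (center_iff (X.qi w) _).2 ⟨c, rfl⟩, by rwa [nrd_nq, cs_mul_val]⟩⟩
    exact ⟨_, 1, one_ne_zero, tr_of (by
      simpa only [one_mul] using R.trR h2 ha (X.qi w) hv.uni (qw w)
        (ur_eq (by rwa [neg_one_mul])) (fun u k => h.zero u (nrd_nq u.val ▸ k)) h.one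
        (fun u u' k => h.mul u u' (nrd_nq u.val ▸ k)) h.tr (v_lt hw))⟩

end Vale.Agent.P022K.Sh
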