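import Vale.Agent.P022K.F0.TrdA
import Vale.Agent.P022K.F0.TrB
import Vale.Agent.P022K.F0.Seed3

/-!
# P022K, block F0: the rows TRD2, TRD
-/

set_option autoImplicit false

open NumberField IsDedekindDomain WithZero
open scoped WithZero Quaternion

noncomputable section

namespace Vale.Agent.P022K.Sh

open Vale.Agent.P022K.F0 Tor Orb Dc EtaP
open Vale.Agent.P022.C (ordv)

namespace Trd

theorem eta_b {K : Type} [Field K] [CharZero K] {v : Valuation K ℤᵐ⁰} {a b : K} (h : QI v a b)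
    (s : ℍ[K,a,b] ≃ₐ[K] Matrix (Fin 2) (Fin 2) K) {η : Kˣ →* ℂˣ}
    (nrm : ∀ (x : Kˣ) (s t : K), (x : K) = s ^ 2 - a * t ^ 2 → η x = 1) : apL η b = 1 := by
  have n : ∀ s t : K, s ^ 2 - a * t ^ 2 ≠ 0 → apL η (s ^ 2 - a * t ^ 2) = 1 := fun s t e => by
    rw [apL_of η e, nrm _ s t rfl, Units.val_one]
  have sq : ∀ d : K, a = d ^ 2 → apL η b = 1 := fun d e => by
    have d0 : d ≠ 0 := fun k => h.a0 (by rw [e, k, zero_pow two_ne_zero])
    have : b = ((b + 1) / 2) ^ 2 - a * ((b - 1) / (2 * d)) ^ 2 := by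
      rw [e]
      field_simp
      ring
    rw [this]
    exact n _ _ (this ▸ h.b0)
  obtain ⟨x, x0, hx⟩ : ∃ x : ℍ[K,a,b], x ≠ 0 ∧ nq x = 0 :=
    ⟨s.symm (Matrix.single 0 0 1), fun e => by
      have := congrFun (congrFun ((map_eq_zero_iff _ s.symm.injective).1 e) 0) 0
      simp at this, by rw [← s_det h s, s.apply_symm_apply, Matrix.det_fin_two]; simp⟩
  rw [nq, sub_eq_zero] at hx
  have z : ∀ s t : K, s ^ 2 - a * t ^ 2 = 0 → (s = 0 ∧ t = 0) ∨ apL η b = 1 := fun s t e => by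
    by_cases t0 : t = 0
    · exact Or.inl ⟨by simpa [t0] using e, t0⟩
    · exact Or.inr (sq (s / t) (by field_simp; linear_combination -e))
  by_cases e : x.imJ ^ 2 - a * x.imK ^ 2 = 0
  · rw [e, mul_zero] at hx
    rcases z _ _ e with e1 | e1
    · exact (z _ _ hx).resolve_left fun e2 => x0 (QuaternionAlgebra.ext e2.1 e2.2 e1.1 e1.2)
    · exact e1
  · have := n _ _ (hx ▸ mul_ne_zero h.b0 e)
    rwa [hx, apL_mul, n _ _ e, mul_one] at this

variable {F E : Type} [Field F] [NumberField F] [Field E] [NumberField E] [Algebra F E]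
  {X : QD F} {C : CM F E} {Ψ : Pl E → ℂˣ} {η : ∀ w : Pl F, (Fw w)ˣ →* ℂˣ} {ε : E →ₐ[F] X.D}
  {w : Pl F}

theorem val_δ (C : CM F E) (P : Pl E) : P.valuation E C.δ ≤ 1 := by
  obtain ⟨e, -, he⟩ := (ab_un (F := F) P).pow
  refine le_of_pow_le_pow_left₀ two_ne_zero zero_le ?_
  rw [← map_pow, C.sq, he, one_pow]
  exact pow_le_one' (val_le _ _) e

theorem lev (h : Eta C Ψ η) {v : Pl F} (hv : (C.D : 𝓞 F) ∈ v.asIdeal) {x : Fw v}
    (hx : vw v (x - 1) ≤ v.valuation F (C.D : F)) : apL (η v) x = 1 := by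
  have l := hx.trans_lt (vDlt hv)
  have x0 : x ≠ 0 := fun e => by simp [e] at l
  rw [apL_of _ x0, h.lev v (Units.mk0 x x0) l (hx.trans_eq (vD C v).symm), Units.val_one]

theorem rho_loc (h : Eta C Ψ η) (hw : (C.D : 𝓞 F) ∈ w.asIdeal) {l : Fˣ} (a : l ∈ A C w)
    (l1 : w.valuation F (l : F) = 1) : C.rho Ψ l = apL (η w) (algebraMap F (Fw w) l) := by
  classical
  refine (h.pf l l.ne_zero).trans ?_
  rw [finprod_eq_single _ w]
  · rw [finprod_eq_if, if_pos hw, ordv_one l1, zpow_zero, mul_one]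
    rfl
  · intro v k
    rw [finprod_eq_if]
    split_ifs with m
    swap
    · rfl
    have e := mem_A.1 a v k m
    rw [ordv_one (val_of_cong m e), zpow_zero, mul_one]
    exact lev h m (by rwa [← map_one (algebraMap F (Fw v)), ← map_sub, val_comp])

omit [NumberField E] in
theorem lc_co (h : X.Cm C ε) (w : Pl F) {γ : Eˣ} {s t : F}
    (e : (γ : E) = algebraMap F E s + algebraMap F E t * C.δ) :
    (X.lc ε w γ : X.Dw w) = ⟨algebraMap F _ s, algebraMap F _ t, 0, 0⟩ ∨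
      (X.lc ε w γ : X.Dw w) = ⟨algebraMap F _ s, -algebraMap F _ t, 0, 0⟩ := by
  rw [lc_val, e, map_add, map_mul ε, ε.commutes, ε.commutes, QuaternionAlgebra.algebraMap_eq,
    QuaternionAlgebra.algebraMap_eq]
  refine h.i.imp (fun k => ?_) fun k => ?_ <;> rw [k] <;> ext <;>
    simp [QD.cw, QD.jD, qmap, ← ev_alg]

theorem eps_loc (hk : C.Hk Ψ) (h : Eta C Ψ η) (hε : X.Cm C ε) (hw : (C.D : 𝓞 F) ∈ w.asIdeal)
    (qi : QI (vw w) (algebraMap (𝓞 F) (Fw w) X.a) (algebraMap (𝓞 F) (Fw w) X.b)) {r : ℕ}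
    (hr : exp (-(r : ℤ)) = w.valuation F (C.D : F)) {γ : C.G} (hγ : γ ∈ C.G1 {P | ¬ Ab w P})
    {c : (Fw w)ˣ} (hc : Sm (vw w) r ((c : Fw w) • (X.lc ε w γ : X.Dw w) - 1)) :
    C.eps Ψ (γ : Eˣ) = Wf (vw w) (η w) (qw w) c := by
  have lt := vDlt hw
  have r0 : 0 < r := Nat.pos_of_ne_zero fun e => by simp [← hr, e] at lt
  have c1 : vw w (c : Fw w) = 1 := by
    have e1 := v_of_sub r0 (nq_sub qi hc)
    have e2 := (un_lc hε hw γ).1
    rw [show ∀ x : X.Dw w, nrd x = nq x from fun x => by simp [nrd, nq]; ring] at e2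
    rwa [nq_smul, map_mul, e2, mul_one, map_pow, pow_eq_one_iff_left two_ne_zero] at e1
  obtain ⟨l, a, hl⟩ := exists_cl C w c
  rw [c1, mul_one] at hl
  have l1 : w.valuation F (l : F) = 1 := by
    rw [← val_comp, ← sub_add_cancel (algebraMap F (Fw w) l) c,
      Valuation.map_add_eq_of_lt_right _ (c1 ▸ hl.trans lt), c1]
  obtain ⟨g, hg⟩ := C.exists_G l.ne_zero fun v k => by
    by_cases e : v = w
    · rw [e, l1]
    · exact val_of_cong k (mem_A.1 a v e k)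
  have g1 : g ∈ C.G1 {P | ¬ Ab w P} := fun P n k => hg ▸ CM.cong_ab (ab_un P)
    (mem_A.1 a _ (fun e => n (ab_iff.2 e)) (((ab_un P).nat _).1 k))
  obtain ⟨s, t, e⟩ := C.span ((γ : Eˣ) : E)
  have k : ∀ y : F, vw w (c * algebraMap F (Fw w) y) ≤ 1 → ∀ z : F,
      vw w (c * algebraMap F (Fw w) y - algebraMap F _ z) ≤ w.valuation F (C.D : F) →
      w.valuation F (l * y - z) ≤ w.valuation F (C.D : F) := fun y h1 z h2 => by
    rw [map_mul, c1, one_mul] at h1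
    rw [← val_comp, map_sub, map_mul, show algebraMap F (Fw w) l * algebraMap F _ y -
      algebraMap F _ z = (algebraMap F _ l - c) * algebraMap F _ y + (c * algebraMap F _ y -
        algebraMap F _ z) by ring]
    exact Valuation.map_add_le _ (by rw [map_mul]; exact mul_le_of_le_of_le_one hl.le h1) h2
  have st : w.valuation F (l * s - 1) ≤ w.valuation F (C.D : F) ∧
      w.valuation F (l * t - 0) ≤ w.valuation F (C.D : F) := by
    have h1 := hc.re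
    have h2 := hc.i
    have h3 := hc.int.re
    have h4 := hc.int.i
    rw [hr] at h1 h2
    rcases lc_co hε w e with e | e <;> rw [e] at h1 h2 h3 h4 <;>
      exact ⟨k s (by simpa using h3) 1 (by simpa using h1),
        k t (by simpa using h4) 0 (by simpa using h2)⟩
  have u := C.eps_one hk (u := g * γ) fun P _ m => by
    by_cases n : Ab w P
    · rw [Subgroup.coe_mul, Units.val_mul, hg, e, show algebraMap F E l * (algebraMap F E s +
        algebraMap F E t * C.δ) - 1 = algebraMap F E (l * s - 1) +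
          algebraMap F E (l * t - 0) * C.δ by simp; ring, ← map_natCast (algebraMap F E)]
      refine Valuation.map_add_le _ ((ab_le n _ _).2 st.1) ?_
      rw [map_mul]
      exact mul_le_of_le_of_le_one ((ab_le n _ _).2 st.2) (val_δ C P)
    · exact mul_mem g1 hγ P n m
  have e1 : apL (η w) (algebraMap F (Fw w) l) = apL (η w) c := by
    rw [← div_mul_cancel₀ (algebraMap F (Fw w) l) c.ne_zero, apL_mul, lev h hw, one_mul]
    rw [div_sub_one c.ne_zero, map_div₀, c1, div_one]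
    exact hl.le
  rw [Subgroup.coe_mul, Units.val_mul, C.eps_mul Ψ (Units.ne_zero _) (Units.ne_zero _),
    C.eps_rho Ψ hg, rho_loc h hw a l1, e1] at u
  rw [Wf_unit c1, ← one_mul (C.eps Ψ _), ← apL_sq (h.sq w) c.ne_zero, mul_assoc, u, mul_one]

theorem ex_near (hε : X.Cm C ε) (C' : CM F E) {x : Fw w} (hx : vw w x < 1) {m : ℕ}
    (m0 : 0 < m) : ∃ γ ∈ C'.G1 {P | ¬ Ab w P},
      Sm (vw w) m ((X.lc ε w (γ : Eˣ) : X.Dw w) - ⟨1, x, 0, 0⟩) ∨
        Sm (vw w) m ((X.lc ε w (γ : Eˣ) : X.Dw w) - ⟨1, -x, 0, 0⟩) := by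
  obtain ⟨t, h1, h2⟩ := EtaP.apx C' w x 0 (b := exp (-(m : ℤ))) exp_ne_zero
  have t1 : w.valuation F t < 1 := by
    rw [← val_comp, ← sub_add_cancel (algebraMap F (Fw w) t) x]
    exact Valuation.map_add_lt _ (h1.trans (exp_lt m0)) hx
  have k1 : ∀ P : Pl E, ¬ Ab w P → (C'.D : 𝓞 E) ∈ P.asIdeal →
      P.valuation E (algebraMap F E t * C.δ) ≤ P.valuation E (C'.D : E) := fun P n k => by
    rw [map_mul, ← map_natCast (algebraMap F E)]
    exact mul_le_of_le_of_le_one ((ab_le (ab_un P) _ _).2 (by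
      simpa using (h2 _ (fun e => n (ab_iff.2 e)) (((ab_un P).nat _).1 k)).le)) (val_δ C P)
  have k2 : ∀ P : Pl E, Ab w P ∨ (C'.D : 𝓞 E) ∈ P.asIdeal →
      P.valuation E (algebraMap F E 1 + algebraMap F E t * C.δ) = 1 := fun P k => by
    rw [map_one]
    refine Valuation.map_one_add_of_lt _ ?_
    by_cases n : Ab w P
    · rw [map_mul]
      exact mul_lt_one_of_lt_of_le ((n.lt t).2 t1) (val_δ C P)
    · exact (k1 P n (k.resolve_left n)).trans_lt (C'.val_D_lt (k.resolve_left n))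
  have g0 : algebraMap F E 1 + algebraMap F E t * C.δ ≠ 0 := fun e =>
    zero_ne_one (by rw [← k2 _ (Or.inl (ab_up w)), e, map_zero])
  refine ⟨⟨Units.mk0 _ g0, fun P k => k2 P (Or.inr k)⟩, fun P n k => by simpa using k1 P n k,
    (lc_co hε w (γ := Units.mk0 _ g0) rfl).imp (fun e => ?_) fun e => ?_⟩ <;> rw [e]
  · exact ⟨by simp, by simpa using h1.le, by simp, by simp⟩
  · exact ⟨by simp, by
      simpa [add_comm, ← sub_eq_add_neg] using ((vw w).map_sub_swap _ _).trans_le h1.le,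
      by simp, by simp⟩

end Trd

open Trd in
/-- **TRD2** -/
theorem trd2 : TRD2 := by
  intro F E _ _ _ _ _ X C Ψ hk _ η ⟨ε0, h0⟩ h w hw ⟨s⟩ N N0
  obtain ⟨ϖ, hϖ, hq⟩ := ex_pi w
  have qi := X.qi w
  obtain ⟨r, hr⟩ := ex_nat (v := vw w) (Nat.cast_ne_zero.2 C.D0) (v_nat_le w C.D)
  obtain ⟨n, hn⟩ := ex_nat (v := vw w) (Nat.cast_ne_zero.2 N0.ne') (v_nat_le w N)
  obtain ⟨α, hα⟩ := ex_nat (v := vw w) (mul_ne_zero qi.two qi.a0) (v_mul_le v_two qi.ha)
  have r0 : 0 < r := Nat.pos_of_ne_zero fun e => by simpa [hr, e] using v_lt hw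
  have hr' := hr.symm.trans (vD C w)
  obtain ⟨m, f, φ, T1, W, κ, x, m1, W0, f1, x1, tr, val, pos⟩ := deep (qw_ne w) (h.sq w) qi hϖ hq r0
    (fun x hx => lev h hw (hr' ▸ hx))
    (eta_b qi s fun x s t e => h.nrm w x s t (by rw [h0.a]; exact e)) (n + r)
  have tr' : X.Tr w (C.D ^ (m + α + 1)) (η w) _ f φ T1 := QD.tr_of (tr _ (by
    rw [Nat.cast_pow, map_pow, hr, hα, ← exp_nsmul, ← exp_add, exp_le_exp, nsmul_eq_mul]
    push_cast
    nlinarith))
  refine ⟨_, f, φ, T1, m + α, (UQ_mono qi m1).trans ((QD.UQ_U1 (M := N * C.D) (by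
    rw [Nat.cast_mul, map_mul, hn, hr, ← exp_add, Nat.cast_add, neg_add]) (by omega)).trans
      (X.U1_mono w (dvd_mul_right _ _))), f1, tr', fun ε hε C' hδ ha _ hs j hj hD => ?_⟩
  have mem : ∀ {K : Type} [Field K] [NumberField K] (P : Pl K),
      (C'.D : 𝓞 K) ∈ P.asIdeal ↔ (C.D : 𝓞 K) ∈ P.asIdeal := fun P => by
    rw [hD, Nat.cast_pow]
    exact P.isPrime.pow_mem_iff_mem _ j.succ_pos
  have term : ∀ γ ∈ C'.G1 {P | ¬ Ab w P},
      φ (X.lc ε w γ) * C'.eps Ψ (γ : Eˣ) = κ (X.lc ε w γ) * W := fun γ hγ =>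
    val _ _ fun c hc => (show C'.eps Ψ _ = C.eps Ψ _ by simp only [CM.eps, CM.NT, hs]).trans
      (eps_loc hk h hε hw qi hr' (γ := ⟨γ, fun P k => γ.2 P ((mem P).2 k)⟩) (fun P a k =>
        (hγ P a ((mem P).2 k)).trans (by
          rw [hD, Nat.cast_pow, pow_succ, map_mul]
          exact mul_le_of_le_one_left' (by exact_mod_cast val_le P ((C.D : 𝓞 E) ^ j)))) hc)
  obtain ⟨γ, hγ, near⟩ := ex_near hε C' x1 (show 0 < m by omega)
  have := Nel.fin_sub (C'.G1 Set.univ) (C'.G1 {P | ¬ Ab w P})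
  have := Fintype.ofFinite (C'.G1 {P | ¬ Ab w P} ⧸
    (C'.G1 Set.univ).subgroupOf (C'.G1 {P | ¬ Ab w P}))
  rw [Nl, finsum_eq_sum_of_fintype, Finset.sum_congr rfl fun q _ => term _ q.out.2,
    ← Finset.sum_mul, ← Nat.cast_sum]
  refine mul_ne_zero (Nat.cast_ne_zero.2 fun e => ?_) W0
  obtain ⟨u, hu⟩ := QuotientGroup.mk_out_eq_mul
    ((C'.G1 Set.univ).subgroupOf (C'.G1 {P | ¬ Ab w P})) ⟨γ, hγ⟩
  have e1 := term _ (mul_mem hγ u.1.2)
  have e2 := Finset.sum_eq_zero_iff.1 e _ (Finset.mem_univ (QuotientGroup.mk ⟨γ, hγ⟩))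
  rw [hu] at e2
  have cm : X.Cm { C' with t1 := C.t1, two := C.two } ε :=
    ⟨ha.trans hε.a, hε.t1, hδ ▸ hε.i, fun v k => hε.b v (mt (mem v).2 k)⟩
  have e3 := (S3.tr_le tr' (N' := C'.D) (hD ▸ pow_dvd_pow _ (by omega))).per _ (lc_mem hε w γ) _
    (lc_mem hε w u.1.1) (un_lc cm ((mem w).2 hw) γ)
    (cg_lc cm ((mem w).2 hw) (u := u.1.1) fun P _ => u.2 P trivial)
  rw [← map_mul, mul_comm, ← Subgroup.coe_mul] at e3
  rw [show κ (X.lc ε w (γ * u.1.1 : C'.G)) = 0 from e2, e3, Nat.cast_zero, zero_mul,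
    mul_eq_zero] at e1
  replace e1 := e1.resolve_right ((Group.isUnit (γ * u.1.1)).map (Nel.eH C' Ψ)).ne_zero
  have e4 := term γ hγ
  rw [e1, zero_mul, eq_comm, mul_eq_zero, or_iff_left W0, Nat.cast_eq_zero] at e4
  exact (pos _ near).ne' e4

/-- **TRD** -/
theorem trd : TRD := fun F E _ _ _ _ _ X C Ψ h1 h2 ε η hε h w hw sp N N0 =>
  let ⟨V, f, φ, T1, k, a, b, c, d⟩ := trd2 F E X C Ψ h1 h2 η ⟨ε, hε⟩ h w hw sp N N0
  ⟨V, f, φ, T1, k, a, b, c, d ε hε⟩

end Vale.Agent.P022K.Sh
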