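import Vale.Agent.P022K.F0.StS3
import Vale.Agent.P022K.F0.Dic
import Vale.Agent.P022K.F0.Nel
import Vale.Agent.P022K.F0.OrbM

/-!
# P022K, block F0, row TYR: the type at the place where `D` is ramified
-/

set_option autoImplicit false
set_option linter.unusedSectionVars false

open NumberField IsDedekindDomain IsDedekindDomain.HeightOneSpectrum WithZero
open scoped Quaternion

noncomputable section

namespace Vale.Agent.P022K.Sh

open Vale.Agent.P022 Orb Tor F0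
open Vale.Agent.P022.C (ordv)

namespace Tyr

variable {F : Type} [Field F] [NumberField F] {w : Pl F}

section loc

variable {a : 𝓞 F} (h2 : 2 * a ∉ w.asIdeal) (ns : ¬ IsSquare (algebraMap (𝓞 F) (Fw w) a))
include h2

theorem v_a : vw w (algebraMap (𝓞 F) (Fw w) a) = 1 := by
  rw [vw, v_int, intValuation_eq_one_iff]
  exact fun h => h2 (Ideal.mul_mem_left _ _ h)

include ns

theorem v_sq {x : Fw w} (hx : vw w x ≤ 1) : vw w (x ^ 2 - algebraMap (𝓞 F) (Fw w) a) = 1 := by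
  refine le_antisymm (Valuation.map_sub_le _ (by rw [map_pow]; exact pow_le_one' hx 2)
    (v_a h2).le) (not_lt.1 fun h => ns ?_)
  obtain ⟨r, hr⟩ := dense_O hx one_ne_zero
  have h1 : r ^ 2 - a ∈ w.asIdeal := by
    rw [← intValuation_lt_one_iff_mem, ← v_int, map_sub, map_pow,
      show algebraMap (𝓞 F) (Fw w) r ^ 2 - algebraMap (𝓞 F) (Fw w) a =
        (x ^ 2 - algebraMap (𝓞 F) (Fw w) a) - (x - algebraMap (𝓞 F) (Fw w) r) *
          (x + algebraMap (𝓞 F) (Fw w) r) by ring]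
    exact Valuation.map_sub_lt _ h (v_mul_lt hr (Valuation.map_add_le _ hx
      (by rw [v_int]; exact intValuation_le_one w r)))
  obtain ⟨y, -, hy⟩ := LocA.exists_sqrt h1 fun k => h2 (by
    rcases w.isPrime.mem_or_mem k with k | k
    · exact Ideal.mul_mem_right _ _ k
    · refine Ideal.mul_mem_left _ _ ?_
      simpa using w.asIdeal.sub_mem (w.asIdeal.pow_mem_of_mem k 2 two_pos) h1)
  exact ⟨y, by rw [← hy, sq]⟩

theorem v_nm (s t : Fw w) :
    vw w (s ^ 2 - algebraMap (𝓞 F) (Fw w) a * t ^ 2) = max (vw w s) (vw w t) ^ 2 := by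
  rcases le_or_gt (vw w s) (vw w t) with h | h
  · rw [max_eq_right h]
    by_cases h0 : t = 0
    · rw [h0, map_zero, le_zero_iff, map_eq_zero] at h
      simp [h, h0]
    · rw [show s ^ 2 - algebraMap (𝓞 F) (Fw w) a * t ^ 2 =
        t ^ 2 * ((s / t) ^ 2 - algebraMap (𝓞 F) (Fw w) a) by field_simp, map_mul,
        v_sq h2 ns (by rw [map_div₀]; exact div_le_one_of_le₀ h zero_le), mul_one, map_pow]
  · rw [max_eq_left h.le, Valuation.map_sub_eq_of_lt_left, map_pow]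
    rw [map_mul, v_a h2, one_mul, map_pow, map_pow]
    exact pow_lt_pow_left₀ h zero_le two_ne_zero

end loc

theorem ram {X : QD F} (h2 : 2 * X.a ∉ w.asIdeal)
    (ns : ¬ IsSquare (algebraMap (𝓞 F) (Fw w) X.a)) (hs : ¬ X.Spl w) :
    Ram (vw w) (algebraMap (𝓞 F) (Fw w) X.a) (algebraMap (𝓞 F) (Fw w) X.b) := by
  obtain ⟨π, hπ⟩ := w.valuation_exists_uniformizer F
  refine ⟨⟨algebraMap F _ π, (v_alg w π).trans hπ⟩, fun s t h => ?_, ?_⟩
  · have e := v_nm h2 ns s t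
    have h0 : max (vw w s) (vw w t) ≠ 0 := fun k => h (by
      rwa [k, zero_pow two_ne_zero, map_eq_zero] at e)
    refine ⟨log (max (vw w s) (vw w t)), ?_⟩
    rw [e, two_mul, exp_add, exp_log h0, sq]
  · obtain ⟨n, hn⟩ := ex_exp (v := vw w) (LocA.alg_ne (w := w) X.b0)
    rcases Int.even_or_odd' (-n) with ⟨k, hk | hk⟩
    · refine absurd ?_ hs
      have π0 : π ≠ 0 := fun e => exp_ne_zero (by rw [← hπ, e, map_zero])
      have h1 : w.valuation F (X.b * (π ^ k) ^ 2) = 1 := by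
        rw [map_mul, map_pow, map_zpow₀, hπ, ← v_alg, ← IsScalarTower.algebraMap_apply, hn, hk,
          ← exp_zsmul, ← exp_nsmul, ← exp_add, ← exp_zero]
        congr 1
        simp
      obtain ⟨r, d, e⟩ := exists_primeCompl_mul_eq_of_integer w _ h1.le
      have hd : w.valuation F (algebraMap (𝓞 F) F d) = 1 := by
        rw [valuation_of_algebraMap, intValuation_eq_one_iff]
        exact d.2
      have hr : r ∉ w.asIdeal := by
        rw [← intValuation_eq_one_iff, ← valuation_of_algebraMap (K := F)]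
        show w.valuation F (algebraMap (𝓞 F) F r) = 1
        rw [← e, map_mul, h1, hd, one_mul]
      obtain ⟨x, -, y, -, e1⟩ := LocA.exists_norm (w := w) (a := X.a) (b := r * d) fun k =>
        (w.isPrime.mem_or_mem k).elim h2 fun k => (w.isPrime.mem_or_mem k).elim hr d.2
      have e2 := congrArg (algebraMap F (Fw w)) e
      simp only [map_mul, map_pow, ← IsScalarTower.algebraMap_apply] at e1 e2
      have c0 : algebraMap F (Fw w) (π ^ k) ≠ 0 := (map_ne_zero _).2 (zpow_ne_zero _ π0)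
      have d0 : algebraMap (𝓞 F) (Fw w) d ≠ 0 := LocA.alg_ne fun k => d.2 (k ▸ zero_mem _)
      generalize algebraMap F (Fw w) (π ^ k) = c at e2 c0
      exact ⟨LocA.spl (LocA.alg_ne X.a0) (LocA.alg_ne X.b0) (x := x / (c * algebraMap _ _ (d : 𝓞 F)))
        (y := y / (c * algebraMap _ _ (d : 𝓞 F))) (by
          field_simp
          linear_combination e1 - algebraMap (𝓞 F) (Fw w) d * e2)⟩
    · exact ⟨k, hk ▸ hn⟩

theorem nrd_nq {X : QD F} (x : X.Dw w) : nrd x = nq x := by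
  rw [nrd_eq]
  simp only [nq, Fuj.nrd]
  ring

variable {E : Type} [Field E] [NumberField E] [Algebra F E] {X : QD F} {C : CM F E}
  {Ψ : Pl E → ℂˣ} {ε : E →ₐ[F] X.D}

theorem lc_co (h : X.Cm C ε) : ∃ σ : F, σ * σ = 1 ∧ ∀ (γ : Eˣ) (s t : F),
    (γ : E) = algebraMap F E s + algebraMap F E t * C.δ →
    (X.lc ε w γ : X.Dw w) = ⟨algebraMap F _ s, algebraMap F _ (σ * t), 0, 0⟩ := by
  obtain ⟨σ, h1, h2⟩ : ∃ σ : F, σ * σ = 1 ∧ ε C.δ = ⟨0, σ, 0, 0⟩ :=
    h.i.elim (fun e => ⟨1, one_mul 1, e⟩) fun e => ⟨-1, by ring, e⟩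
  refine ⟨σ, h1, fun γ s t e => ?_⟩
  rw [Dc.lc_val, e, map_add ε, map_mul ε, ε.commutes, ε.commutes, h2,
    QuaternionAlgebra.algebraMap_eq, QuaternionAlgebra.algebraMap_eq]
  refine QuaternionAlgebra.ext ?_ ?_ ?_ ?_ <;> simp [QD.cw, QD.jD, ev_alg, mul_comm]

theorem val_δ (P : Pl E) : P.valuation E C.δ ≤ 1 := by
  have := (Dc.ab_le (ab_un (F := F) P) C.a 1).2 (by rw [map_one]; exact val_le _ _)
  rwa [← C.sq, map_one, map_one, map_pow, pow_le_one_iff two_ne_zero] at this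

theorem co_le {v : Pl F} {P : Pl E} (h : Ab v P) {s t d : F}
    (h1 : v.valuation F s ≤ v.valuation F d) (h2 : v.valuation F t ≤ v.valuation F d) :
    P.valuation E (algebraMap F E s + algebraMap F E t * C.δ) ≤ P.valuation E (algebraMap F E d) :=
  Valuation.map_add_le _ ((Dc.ab_le h _ _).2 h1) (by
    rw [map_mul]
    exact mul_le_of_le_of_le_one ((Dc.ab_le h _ _).2 h2) (val_δ P))

theorem co_lt {v : Pl F} {P : Pl E} (h : Ab v P) {s t : F}
    (h1 : v.valuation F s < 1) (h2 : v.valuation F t < 1) :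
    P.valuation E (algebraMap F E s + algebraMap F E t * C.δ) < 1 :=
  Valuation.map_add_lt _ ((h.lt _).2 h1) (v_mul_lt ((h.lt _).2 h2) (val_δ P))

theorem v_σ {σ : F} (h : σ * σ = 1) : w.valuation F σ = 1 := by
  have := congrArg (w.valuation F) h
  rwa [map_mul, map_one, ← sq, pow_eq_one_iff_left two_ne_zero] at this

/-- approximation at `w` and at the other places above `D` -/
theorem apx (C : CM F E) (x y : F) : ∃ l : F, (C.D : 𝓞 F) ∈ w.asIdeal →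
    w.valuation F (l - x) < 1 ∧ ∀ v : Pl F, v ≠ w → (C.D : 𝓞 F) ∈ v.asIdeal →
      v.valuation F (l - y) ≤ v.valuation F (C.D : F) := by
  classical
  obtain ⟨l, hl⟩ := crt1 (fin_nat (E := F) C.D0) (fun v => if v = w then x else y)
    (fun v => v.valuation F (C.D : F)) fun v =>
      (Valuation.ne_zero_iff _).2 (Nat.cast_ne_zero.2 C.D0)
  refine ⟨l, fun h => ⟨?_, fun v hv k => ?_⟩⟩
  · have := hl w h
    rw [if_pos rfl] at this
    exact this.trans_le (by exact_mod_cast val_le w (C.D : 𝓞 F))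
  · have := hl v k
    rw [if_neg hv] at this
    exact this.le

variable (hr : Ram (vw w) (algebraMap (𝓞 F) (Fw w) X.a) (algebraMap (𝓞 F) (Fw w) X.b))

/-- the character is trivial on the level -/
theorem wd (h : X.Cm C ε) (hM : Mr C Ψ w) {κ : ℂ} (hK : Kw C Ψ w κ) {γ : C.G}
    (hγ : γ ∈ C.G1 {P | ¬ Ab w P}) (hu : X.lc ε w γ ∈ hr.UR) : Nel.eH C Ψ γ = 1 := by
  obtain ⟨σ, hσ, hl⟩ := lc_co (w := w) h
  obtain ⟨s, t, e⟩ := C.span ((γ : Eˣ) : E)
  obtain ⟨c, hc⟩ := hu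
  have h1 := hr.nq_one hc
  rw [nq_smul, map_mul, ← nrd_nq, (Dc.un_lc h hM.mem γ).1, mul_one, map_pow,
    pow_eq_one_iff_left two_ne_zero] at h1
  rw [hl _ s t e, show nq ((c : Fw w) • (⟨algebraMap F _ s, algebraMap F _ (σ * t), 0, 0⟩ :
      X.Dw w) - 1) = (c * algebraMap F _ s - 1) ^ 2 - algebraMap (𝓞 F) (Fw w) X.a *
        (c * algebraMap F _ (σ * t)) ^ 2 by simp [nq],
    v_nm (h.a ▸ hM.a) (h.a ▸ hM.ns), pow_lt_one_iff two_ne_zero, max_lt_iff] at hc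
  have h2 : w.valuation F t < 1 := by
    have := hc.2
    rwa [map_mul, h1, one_mul, vw, v_alg, map_mul, v_σ hσ, one_mul] at this
  have h3 : w.valuation F s = 1 := by
    have := Valuation.map_one_add_of_lt _ hc.1
    rwa [add_sub_cancel, map_mul, h1, one_mul, vw, v_alg] at this
  obtain ⟨l, hl⟩ := apx (w := w) C s 1
  obtain ⟨l1, l2⟩ := hl hM.mem
  have l3 : w.valuation F l = 1 := by
    rw [← sub_add_cancel l s, Valuation.map_add_eq_of_lt_right _ (h3 ▸ l1), h3]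
  have l0 : l ≠ 0 := fun k => by rw [k, map_zero] at l3; exact zero_ne_one l3
  obtain ⟨β, hβ⟩ := C.exists_G l0 fun v k => by
    by_cases e : v = w
    exacts [e ▸ l3, val_of_cong k (l2 v e k)]
  have b1 : β ∈ C.G1 {P | ¬ Ab w P} := fun P a k => hβ ▸ CM.cong_ab (ab_un P)
    (l2 _ (fun e => a (e ▸ ab_un P)) (((ab_un P).nat _).1 k))
  have b2 : Nel.eH C Ψ β = 1 :=
    (C.eps_rho Ψ hβ).trans (by rw [hK l l0 l2, ordv_one l3, zpow_zero])
  have b3 : Nel.eH C Ψ (β⁻¹ * γ) = 1 := hM.tame _ (mul_mem (inv_mem b1) hγ) fun P a => by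
    have i : (((β⁻¹ : C.G) : Eˣ) : E) * (β : Eˣ) = 1 := by
      rw [← Units.val_mul, ← Subgroup.coe_mul, inv_mul_cancel]; rfl
    rw [show (((β⁻¹ * γ : C.G) : Eˣ) : E) - 1 = ((β⁻¹ : C.G) : Eˣ) *
      (algebraMap F E (s - l) + algebraMap F E t * C.δ) by
        rw [Subgroup.coe_mul, Units.val_mul, e, map_sub, ← hβ]
        linear_combination i, map_mul, (β⁻¹).2 P ((a.nat _).2 hM.mem), one_mul]
    exact co_lt a (by rwa [Valuation.map_sub_swap]) h2
  rw [← mul_inv_cancel_left β γ, map_mul, b2, b3, one_mul]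

/-- the torus is covered -/
theorem cov (h : X.Cm C ε) (hM : Mr C Ψ w) {u : (X.Dw w)ˣ} (hu : u ∈ TQ _ _) :
    ∃ γ ∈ C.G1 {P | ¬ Ab w P}, (X.lc ε w γ)⁻¹ * u ∈ hr.UR := by
  obtain ⟨σ, hσ, hl⟩ := lc_co (w := w) h
  have nm := v_nm (h.a ▸ hM.a) (h.a ▸ hM.ns)
  have h0 : max (vw w u.val.re) (vw w u.val.imI) ≠ 0 := fun k => nq_ne u (by
    have := nm u.val.re u.val.imI
    rw [k, zero_pow two_ne_zero, map_eq_zero] at this
    simp [nq, hu.1, hu.2, this])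
  obtain ⟨c, hc⟩ := valuedAdicCompletion_surjective F w (max (vw w u.val.re) (vw w u.val.imI))⁻¹
  have c0 : c ≠ 0 := fun k => inv_ne_zero h0 (by rw [← hc, k, map_zero])
  have h1 : max (vw w (c * u.val.re)) (vw w (c * u.val.imI)) = 1 := by
    rw [map_mul, map_mul, max_mul_mul_left, vw, hc, inv_mul_cancel₀ h0]
  obtain ⟨s0, hs0⟩ := dense_F (c * u.val.re) one_ne_zero
  obtain ⟨t0, ht0⟩ := dense_F (c * u.val.imI) one_ne_zero
  obtain ⟨s, hs⟩ := apx (w := w) C s0 1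
  obtain ⟨t, ht⟩ := apx (w := w) C (σ * t0) 0
  obtain ⟨s1, s2⟩ := hs hM.mem
  obtain ⟨t1, t2⟩ := ht hM.mem
  have s3 : vw w (c * u.val.re - algebraMap F _ s) < 1 := by
    rw [show c * u.val.re - algebraMap F _ s = c * u.val.re - algebraMap F _ s0 -
      algebraMap F (Fw w) (s - s0) by rw [map_sub]; ring]
    exact Valuation.map_sub_lt _ hs0 (by rwa [v_alg])
  have t3 : vw w (c * u.val.imI - algebraMap F _ (σ * t)) < 1 := by
    rw [show c * u.val.imI - algebraMap F _ (σ * t) = c * u.val.imI - algebraMap F _ t0 -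
      algebraMap F (Fw w) (σ * (t - σ * t0)) by
        rw [mul_sub, ← mul_assoc, hσ, one_mul, map_sub]; ring]
    exact Valuation.map_sub_lt _ ht0 (by rwa [v_alg, map_mul, v_σ hσ, one_mul])
  have key : ∀ x y : Fw w, vw w (x - y) < 1 →
      (vw w x ≤ 1 → vw w y ≤ 1) ∧ (vw w y < 1 → vw w x < 1) := fun x y k =>
    ⟨fun k' => by simpa using Valuation.map_sub_le _ k' k.le,
      fun k' => by simpa using Valuation.map_add_lt _ k k'⟩
  have s4 : w.valuation F s ≤ 1 := v_alg w s ▸ (key _ _ s3).1 (h1 ▸ le_max_left _ _)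
  have t4 : w.valuation F t ≤ 1 := by
    have := (key _ _ t3).1 (h1 ▸ le_max_right _ _)
    rwa [vw, v_alg, map_mul, v_σ hσ, one_mul] at this
  have n1 : w.valuation F (s ^ 2 - C.a * t ^ 2) = 1 := by
    rw [← v_alg, map_sub, map_mul, map_pow, map_pow, ← IsScalarTower.algebraMap_apply, h.a, nm,
      pow_eq_one_iff_left two_ne_zero, vw, v_alg, v_alg]
    refine le_antisymm (max_le s4 t4) (not_lt.1 fun k => ?_)
    rw [max_lt_iff] at k
    refine (max_lt ((key _ _ s3).2 (by rw [vw, v_alg]; exact k.1)) ((key _ _ t3).2 ?_)).ne h1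
    rw [vw, v_alg, map_mul, v_σ hσ, one_mul]
    exact k.2
  have e := C.nm_co s t
  have g0 : algebraMap F E s + algebraMap F E t * C.δ ≠ 0 := fun z => by
    rw [z, zero_mul, eq_comm, map_eq_zero] at e
    rw [e, map_zero] at n1
    exact zero_ne_one n1
  have g1 : ∀ P : Pl E, ¬ Ab w P → (C.D : 𝓞 E) ∈ P.asIdeal →
      P.valuation E (algebraMap F E s + algebraMap F E t * C.δ - 1) ≤ P.valuation E (C.D : E) :=
    fun P a k => by
      have n : un F P ≠ w := fun e => a (e ▸ ab_un P)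
      have m := ((ab_un (F := F) P).nat _).1 k
      have := co_le (C := C) (ab_un P) (s2 _ n m) (by simpa using t2 _ n m)
      rwa [map_sub, map_one, map_natCast, sub_add_eq_add_sub] at this
  have g2 : ∀ P : Pl E, (C.D : 𝓞 E) ∈ P.asIdeal →
      P.valuation E (algebraMap F E s + algebraMap F E t * C.δ) = 1 := fun P k => by
    by_cases a : Ab w P
    · have k1 := co_le (C := C) (d := 1) a (by simpa using s4) (by simpa using t4)
      have k2 := co_le (C := C) (d := 1) (C.ab_pi a) (by simpa using s4) (by simpa using t4)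
      rw [map_one, map_one] at k1 k2
      rw [C.val_pi] at k2
      have k3 := (a.eq_one _).2 n1
      rw [← e, map_mul] at k3
      exact eq_one_of_one_le_mul_left k1 k2 k3.ge
    · exact val_of_cong k (g1 P a k)
  refine ⟨⟨Units.mk0 _ g0, g2⟩, g1, Units.mk0 c c0, ?_⟩
  have u1 := (Dc.un_lc h hM.mem ⟨Units.mk0 _ g0, g2⟩).1
  have u2 := hl (Units.mk0 _ g0) s t rfl
  dsimp only at u1 ⊢
  generalize X.lc ε w (Units.mk0 _ g0) = y at u1 u2 ⊢
  have u3 : vw w (nq (y⁻¹).val) = 1 := by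
    have := congrArg (vw w) (nq_mul y.val (y⁻¹).val)
    rw [Units.mul_inv, map_mul, ← nrd_nq y.val, u1, one_mul] at this
    rw [← this]
    simp [nq]
  rw [show ((Units.mk0 c c0 : (Fw w)ˣ) : Fw w) • (y⁻¹ * u).val - 1 = (y⁻¹).val * (c • u.val - y.val) by
    rw [mul_sub, Units.inv_mul, Units.val_mul, mul_smul_comm, Units.val_mk0], nq_mul, map_mul, u3,
    one_mul, u2, show nq (c • u.val - (⟨algebraMap F _ s, algebraMap F _ (σ * t), 0, 0⟩ : X.Dw w)) =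
      (c * u.val.re - algebraMap F _ s) ^ 2 - algebraMap (𝓞 F) (Fw w) X.a *
        (c * u.val.imI - algebraMap F _ (σ * t)) ^ 2 by simp [nq, hu.1, hu.2], nm,
    pow_lt_one_iff two_ne_zero]
  exact max_lt s3 t3

theorem ow_mul (u u' : (X.Dw w)ˣ) :
    ow (nrd ((u * u' : (X.Dw w)ˣ) : X.Dw w)) = ow (nrd (u : X.Dw w)) + ow (nrd (u' : X.Dw w)) := by
  rw [nrd_nq, nrd_nq, nrd_nq, Units.val_mul, nq_mul, ow, ow, ow, map_mul,
    log_mul ((Valuation.ne_zero_iff _).2 (nq_ne u)) ((Valuation.ne_zero_iff _).2 (nq_ne u')),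
    neg_add]

theorem ev_tor {u : (X.Dw w)ˣ} (hr : Ram (vw w) (algebraMap (𝓞 F) (Fw w) X.a)
    (algebraMap (𝓞 F) (Fw w) X.b)) (hu : u ∈ TQ _ _) : Even (ow (nrd (u : X.Dw w))) := by
  have e : nq u.val = u.val.re ^ 2 - algebraMap (𝓞 F) (Fw w) X.a * u.val.imI ^ 2 := by
    simp [nq, hu.1, hu.2]
  obtain ⟨n, hn⟩ := hr.ev _ _ (e ▸ nq_ne u)
  rw [nrd_nq, e, ow, hn, log_exp]
  exact ⟨-n, by ring⟩

theorem ev_UR {u : (X.Dw w)ˣ} (hu : u ∈ hr.UR) : Even (ow (nrd (u : X.Dw w))) := by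
  obtain ⟨c, hc⟩ := hu
  have h := congrArg log (hr.nq_one hc)
  rw [nq_smul, map_mul, log_mul (by simp) ((Valuation.ne_zero_iff _).2 (nq_ne u)), map_pow,
    log_pow, log_one] at h
  rw [nrd_nq, ow]
  exact ⟨log (vw w (c : Fw w)), by simp only [nsmul_eq_mul] at h; push_cast at h; omega⟩

theorem od_j : Odd (ow (nrd ((jQ _ hr.b0 : (X.Dw w)ˣ) : X.Dw w))) := by
  obtain ⟨n, hn⟩ := hr.od
  rw [nrd_nq, show nq (jQ (algebraMap (𝓞 F) (Fw w) X.a) hr.b0).val =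
    -algebraMap (𝓞 F) (Fw w) X.b by simp [jQ_val, nq], ow, Valuation.map_neg, hn, log_exp]
  exact ⟨-n - 1, by ring⟩

theorem lc_tor (h : X.Cm C ε) (γ : Eˣ) : X.lc ε w γ ∈ TQ _ _ := Dc.mem_Tl.1 (Dc.lc_mem h w γ)

theorem lc_star (h : X.Cm C ε) (γ : C.G) :
    star (X.lc ε w γ) = X.lc ε w (C.cG γ : C.G) := by
  obtain ⟨σ, -, hl⟩ := lc_co (w := w) h
  obtain ⟨s, t, e⟩ := C.span ((γ : Eˣ) : E)
  refine Units.ext ?_
  rw [Units.coe_star, hl _ s t e, hl _ s (-t) (by rw [C.coe_cG, e, C.c_co, map_neg]; ring)]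
  refine QuaternionAlgebra.ext ?_ ?_ ?_ ?_ <;> simp

theorem lc_or {ε' : E →ₐ[F] X.D} (h : X.Cm C ε) (h' : X.Cm C ε') :
    (∀ γ : C.G, X.lc ε' w γ = X.lc ε w γ) ∨ ∀ γ : C.G, X.lc ε' w γ = X.lc ε w (C.cG γ : C.G) := by
  have k : ε' C.δ = ε C.δ ∨ ε' C.δ = -ε C.δ := by
    rcases h.i with e | e <;> rcases h'.i with e' | e' <;> rw [e, e'] <;> simp
  refine k.imp (fun k γ => Units.ext ?_) fun k γ => Units.ext ?_ <;>
    obtain ⟨s, t, e⟩ := C.span ((γ : Eˣ) : E) <;> rw [Dc.lc_val, Dc.lc_val]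
  · rw [e, map_add ε, map_mul ε, map_add ε', map_mul ε', k, ε.commutes, ε.commutes, ε'.commutes,
      ε'.commutes]
  · rw [C.coe_cG, e, C.c_co, map_sub ε, map_mul ε, map_add ε', map_mul ε', k, ε.commutes,
      ε.commutes, ε'.commutes, ε'.commutes, mul_neg, sub_eq_add_neg]

theorem cG_mem {S : Set (Pl E)} (hS : ∀ P ∈ S, C.pi P ∈ S) {γ : C.G} (h : γ ∈ C.G1 S) :
    C.cG γ ∈ C.G1 S := fun P a k => by
  have := h _ (hS P a) ((C.nat_pi P _).2 k)
  rwa [C.val_pi, C.val_pi, map_sub, map_one, map_natCast] at this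

theorem cG_cG (γ : C.G) : C.cG (C.cG γ) = γ := Subtype.ext (Units.ext (C.cc _))

/-- the sum of a non trivial character -/
theorem sum_char {Γ : Type} [CommGroup Γ] (N : Subgroup Γ) [Finite (Γ ⧸ N)] (χ : Γ →* ℂ)
    (h1 : ∀ u ∈ N, χ u = 1) (h2 : ∃ γ, χ γ ≠ 1) {σ : ℂ} (hσ : σ ≠ 0) {g : Γ → ℂ}
    (hg : ∀ γ, g γ = σ * (1 - χ γ)) : ∑ᶠ q : Γ ⧸ N, g q.out ≠ 0 := by
  let _ := Fintype.ofFinite (Γ ⧸ N)
  obtain ⟨γ, hγ⟩ := h2
  have e := sum_hom_units_eq_zero (QuotientGroup.lift N χ h1) fun k =>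
    hγ (DFunLike.congr_fun k (γ : Γ ⧸ N))
  have e2 : ∀ q : Γ ⧸ N, χ q.out = QuotientGroup.lift N χ h1 q := fun q => by
    conv_rhs => rw [← q.out_eq']
    rfl
  simp only [finsum_eq_sum_of_fintype, hg, e2, ← Finset.mul_sum, Finset.sum_sub_distrib, e,
    sub_zero, Finset.sum_const, Finset.card_univ, nsmul_one]
  exact mul_ne_zero hσ (Nat.cast_ne_zero.2 Fintype.card_ne_zero)

end Tyr

open Tyr in
/-- **TYR** -/
theorem tyr : TYR := by
  classical
  intro F E _ _ _ _ _ X C Ψ hΨ _ w ⟨ε, h⟩ hs hM hK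
  have hr := ram (h.a ▸ hM.a) (h.a ▸ hM.ns) hs
  have qi : QI (vw w) (algebraMap (𝓞 F) (Fw w) X.a) (algebraMap (𝓞 F) (Fw w) X.b) :=
    ⟨mem_Ow.1 ((Ow w).algebraMap_mem _), mem_Ow.1 ((Ow w).algebraMap_mem _), LocA.alg_ne X.a0,
      LocA.alg_ne X.b0, two_ne_zero⟩
  obtain ⟨e, he⟩ : ∃ e : C.G →* ℂˣ, ∀ γ, (e γ : ℂ) = Nel.eH C Ψ γ :=
    ⟨(Nel.eH C Ψ).toHomUnits, fun _ => rfl⟩
  obtain ⟨f, f1, f0⟩ : ∃ f : (X.Dw w)ˣ → ℂ, (∀ u, ∀ γ ∈ C.G1 {P | ¬ Ab w P},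
      (X.lc ε w (γ : C.G))⁻¹ * u ∈ hr.UR → f u = ((e γ)⁻¹ : ℂˣ)) ∧
      ∀ u : (X.Dw w)ˣ, Odd (ow (nrd (u : X.Dw w))) → f u = 0 := by
    refine ⟨fun u => if k : ∃ γ ∈ C.G1 {P | ¬ Ab w P}, (X.lc ε w (γ : C.G))⁻¹ * u ∈ hr.UR then
      ((e k.choose)⁻¹ : ℂˣ) else 0, fun u γ h1 h2 => ?_, fun u hu => dif_neg ?_⟩
    · have k : ∃ γ ∈ C.G1 {P | ¬ Ab w P}, (X.lc ε w (γ : C.G))⁻¹ * u ∈ hr.UR := ⟨γ, h1, h2⟩
      have h3 := wd hr h hM hK (mul_mem (inv_mem h1) k.choose_spec.1) (by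
        convert mul_mem h2 (inv_mem k.choose_spec.2) using 1
        rw [Subgroup.coe_mul, Subgroup.coe_inv, map_mul, map_inv]
        group)
      rw [← he, Units.val_eq_one, map_mul, map_inv, inv_mul_eq_one] at h3
      simp only [dif_pos k, h3]
    · rintro ⟨γ, -, h2⟩
      have := (ev_tor hr (lc_tor (w := w) h γ)).add (ev_UR hr h2)
      rw [← ow_mul, mul_inv_cancel_left] at this
      exact Int.not_odd_iff_even.2 this hu
  have ex : ∀ u : (X.Dw w)ˣ, Even (ow (nrd (u : X.Dw w))) →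
      ∃ γ ∈ C.G1 {P | ¬ Ab w P}, (X.lc ε w (γ : C.G))⁻¹ * u ∈ hr.UR := fun u hu => by
    obtain ⟨t, ht, y, hy, rfl | rfl⟩ := hr.UR_cov u
    · obtain ⟨γ, h1, h2⟩ := cov hr h hM ht
      exact ⟨γ, h1, mul_assoc _ t y ▸ mul_mem h2 hy⟩
    · rw [ow_mul, ow_mul] at hu
      exact absurd ((od_j hr).add_even ((ev_tor hr ht).add (ev_UR hr hy)))
        (Int.not_odd_iff_even.2 hu)
  have fl : ∀ γ ∈ C.G1 {P | ¬ Ab w P}, f (X.lc ε w (γ : C.G)) = ((e γ)⁻¹ : ℂˣ) :=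
    fun γ hγ => f1 _ γ hγ (by rw [inv_mul_cancel]; exact one_mem _)
  have hc : ∀ γ ∈ C.G1 {P | ¬ Ab w P}, C.cG γ ∈ C.G1 {P | ¬ Ab w P} := fun γ =>
    cG_mem fun P (a : ¬ Ab w P) (k : Ab w (C.pi P)) => a (C.pi_pi P ▸ C.ab_pi k)
  refine ⟨hr.UR, f, fun u => f u - f (star u), ⟨h.a ▸ hM.a, h.a ▸ hM.ns, ?_, fun u => ?_, f0,
    fun u hu => ?_, fun u u' hu => ?_, fun _ => rfl⟩, fun ε' h' => ?_⟩
  · obtain ⟨n, hn⟩ := hr.od
    rw [ordv, ← v_alg, ← IsScalarTower.algebraMap_apply, hn, log_exp]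
    exact ⟨-n - 1, by ring⟩
  · constructor
    · rintro ⟨c, hc⟩
      exact ⟨cs c, (center_iff qi _).2 ⟨c, rfl⟩, by rwa [nrd_nq, cs_mul_val]⟩
    · rintro ⟨z, hz, k⟩
      obtain ⟨c, rfl⟩ := (center_iff qi _).1 hz
      exact ⟨c, by rwa [nrd_nq, cs_mul_val] at k⟩
  · rw [f1 u 1 (one_mem _) (by simpa using hu)]
    simp
  · rcases Int.even_or_odd (ow (nrd (u' : X.Dw w))) with hu' | hu'
    · obtain ⟨γ, h1, h2⟩ := ex u hu
      obtain ⟨γ', h1', h2'⟩ := ex u' hu'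
      rw [f1 u γ h1 h2, f1 u' γ' h1' h2', f1 _ (γ * γ') (mul_mem h1 h1'), map_mul, mul_inv,
        Units.val_mul]
      convert mul_mem (hr.UR_conj (X.lc ε w (γ' : C.G)) _ h2) h2' using 1
      rw [Subgroup.coe_mul, map_mul]
      group
    · rw [f0 u' hu', f0 _ (ow_mul u u' ▸ hu.add_odd hu'), mul_zero]
  · have := Nel.fin_sub (C.G1 Set.univ) (C.G1 {P | ¬ Ab w P})
    have k1 : ∀ u ∈ (C.G1 Set.univ).subgroupOf (C.G1 {P | ¬ Ab w P}), (Units.coeHom ℂ).comp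
        ((e / e.comp C.cG).comp (C.G1 {P | ¬ Ab w P}).subtype) u = 1 := fun u hu => by
      have a1 : e u = 1 := Units.ext ((he _).trans (C.eps_one hΨ hu))
      have a2 : e (C.cG u) = 1 := Units.ext ((he _).trans (C.eps_one hΨ (C.cG_mem hu)))
      simp [a1, a2]
    have k2 : ∃ γ, (Units.coeHom ℂ).comp
        ((e / e.comp C.cG).comp (C.G1 {P | ¬ Ab w P}).subtype) γ ≠ 1 := by
      obtain ⟨γ, h1, h2⟩ := hM.ne
      refine ⟨⟨γ, h1⟩, fun k => h2 ?_⟩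
      have a : e γ = e (C.cG γ) := div_eq_one.1 (Units.ext k)
      exact (he γ).symm.trans ((congrArg Units.val a).trans (he _))
    rcases lc_or (w := w) h h' with k | k
    · refine sum_char _ _ k1 k2 one_ne_zero (g := fun γ : C.G1 {P | ¬ Ab w P} =>
        (f (X.lc ε' w (γ : C.G)) - f (star (X.lc ε' w (γ : C.G)))) * Nel.eH C Ψ γ) fun γ => ?_
      simp only [k, lc_star h, fl _ γ.2, fl _ (hc _ γ.2), ← he]
      simp [sub_mul, div_eq_inv_mul]
    · refine sum_char _ _ k1 k2 (neg_ne_zero.2 one_ne_zero) (g := fun γ : C.G1 {P | ¬ Ab w P} =>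
        (f (X.lc ε' w (γ : C.G)) - f (star (X.lc ε' w (γ : C.G)))) * Nel.eH C Ψ γ) fun γ => ?_
      simp only [k, lc_star h, cG_cG, fl _ γ.2, fl _ (hc _ γ.2), ← he]
      simp [sub_mul, div_eq_inv_mul]

end Vale.Agent.P022K.Sh
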