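import Vale.Agent.P022K.F0.Dg1
import Vale.Agent.P022K.F0.Dex

/-!
# P022K, block F0, row YEX
-/

set_option autoImplicit false

namespace Vale.Agent.P022K.Sh

/-- **YEX** -/
theorem yex : YEX := yex_of dex

end Vale.Agent.P022K.Sh
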