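import Vale.Agent.P022K.F0.Saut
import Vale.Agent.P022K.F0.Tor2
import Vale.Agent.P022K.F0.SeedC
import Vale.Agent.P022K.F0.Trd
import Vale.Agent.P022K.F0.Kron2
import Vale.Agent.P022K.F0.Yex
import Vale.Agent.P022K.F0.Gft
import Vale.Agent.P022K.F0.Jnt
import Vale.Agent.P022K.F0.Typ
import Vale.Agent.P022K.F0.Tyr
import Vale.Agent.P022K.F0.LefC

/-!
# P022K, block F0: the eigenvalues of the seed at prescribed split places (helper80)
-/

set_option autoImplicit false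
set_option linter.unusedSectionVars false

open UpperHalfPlane NumberField IsDedekindDomain
open scoped MatrixGroups

noncomputable section

namespace Vale.Agent.P022K.Sh

open Vale.Agent.P022 Orb Tor CH Tw Fxa Vale.Agent.P022K.F0
open Vale.Agent.P022.C (ordv FrI)
open Vale.Agent.P022E.GW (Ov)

/-- **SAUT2**: the eigenvalues at the split places over a prime where the level is maximal -/
def SAUT2 : Prop := ∀ (X : Fd) (S : Finset ℕ) (L : Lv) (E : Type) [Field E] [NumberField E]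
  [Algebra X.F E] (C : CM X.F E) (Ψ : Pl E → ℂˣ) (io : Qb →+* ℂ) (Δ : ℕ), Shy X S L C Ψ io Δ →
  ∃ b, Aut X 0 S L b ∧ (∃ Z : Finset X.Pl, ∀ w, w ∉ Z → io (b w) = ta C Ψ w) ∧
    ∀ q : ℕ, q.Prime → (∀ w : X.Pl, (q : 𝓞 X.F) ∈ w.asIdeal → SphW X S w) →
      ∀ v : X.Pl, (q : 𝓞 X.F) ∈ v.asIdeal → C.Gd v → io (b v) = Tor.tw Ψ v

/-- **strong multiplicity one** -/
theorem smo (rep : REPF) {X : Fd} {m m' : ℕ} {S : Finset ℕ} {L L' : Lv} {b b' : X.Pl → Qb}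
    (h : Aut X m S L b) (h' : Aut X m' S L' b') {Z : Finset X.Pl} (e : ∀ w, w ∉ Z → b w = b' w)
    {w : X.Pl} (hw : SphW X S w) : b w = b' w := by
  classical
  obtain ⟨l, P, o, a, sp⟩ := hw
  obtain ⟨p, p1, p2⟩ := Nat.exists_infinite_primes (l + 1)
  have := Fact.mk p2
  let ι : Qb →+* Cp p := (IsAlgClosed.lift (R := ℚ) (S := Qb) (M := Cp p)).toRingHom
  have r := rep ⟨Aut, fun _ _ _ _ => True, fun _ _ => True⟩ rfl X
  obtain ⟨ρ, r1, -, r3⟩ := r m S L b h p ι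
  obtain ⟨ρ', r1', -, r3'⟩ := r m' S L' b' h' p ι
  have k : tr ρ = tr ρ' := Continuous.ext_on (((Cheb.dense_fr
    (insert p (S ∪ (insert X.v0 Z).image qw))).preimage
      (Tw.isOpen_GK X.j).isOpenMap_subtype_val)) (Units.continuous_val.comp r1).matrix_trace
    (Units.continuous_val.comp r1').matrix_trace (by
      rintro φ ⟨l, l1, l2, P, h1, h2, h3⟩
      have o : Ov l P := ⟨l1, h1, h2⟩
      obtain ⟨w, hw⟩ := exists_below X.j o
      obtain ⟨f, -, f1, f2⟩ := CH.norm_pow o hw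
      rw [Nat.dvd_one.1 (f2 φ φ.2 1 (by rw [pow_one]; exact h3)), pow_one] at f1
      rw [Finset.mem_insert, Finset.mem_union, not_or, not_or] at l2
      have n : w ∉ insert X.v0 Z := fun k => l2.2.2 (Finset.mem_image.2 ⟨w, k, f1⟩)
      rw [Finset.mem_insert, not_or] at n
      have s : X.Sph S l P := ⟨fun k => n.1 (HeightOneSpectrum.ext (hw.symm.trans k)), .inl l2.2.1⟩
      have fr : FrI X.j w P φ := ⟨h1, hw, f1 ▸ h3⟩
      rw [(r3 l P w o l2.1 hw s).2 φ fr, (r3' l P w o l2.1 hw s).2 φ fr, e w n.2])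
  obtain ⟨g, hg⟩ := H916.exists_frob X.j o.2.1 o.1 o.2.2
  have fr : FrI X.j w P g := ⟨o.2.1, a, a ▸ hg⟩
  exact ι.injective (((r3 l P w o (by omega) a sp).2 g fr).symm.trans
    ((congrFun k g).trans ((r3' l P w o (by omega) a sp).2 g fr)))

namespace S2

variable {F E : Type} [Field F] [NumberField F] [Field E] [NumberField E] [Algebra F E]

/-- an eigenform in the image of `f` whose eigenvalue at `v` is not `μ` -/
def Sg (X : QD F) (C : CM F E) (Ψ : Pl E → ℂˣ) (v : Pl F) (μ : ℂ) (U : Subgroup X.G) (f : X.G → ℂ) :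
    Prop := ∃ ω₀ ∈ X.tw.Om U, wk f U ω₀ ≠ 0 ∧ ∃ (Z : Finset (Pl F)) (t : Pl F → ℂ), v ∉ Z ∧ t v ≠ μ ∧
  (∀ w, w ≠ v → t w = ta C Ψ w) ∧ ∀ w, w ∉ Z → ∃ L : X.tw.Lc (Oc w) (Fw w), X.IsPl w L ∧
    L.At (KK (Oc w) (Fw w)) U ∧ hk (L.To U) U (wk f U ω₀) = t w • wk f U ω₀

/-- `SEEDC` with one controlled place -/
def SEEDD : Prop := AllC fun {_ _} _ _ _ _ _ X C Ψ => ∀ η S V f φ T1, Eta C Ψ η →
  X.Ld C η S V f φ T1 → X.tw.Neat (X.PU V) → (∃ ε, X.Cm C ε) →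
  (∀ ε, X.Cm C ε → ∀ w ∈ S, Nl C Ψ w fun γ => φ w (X.lc ε w γ)) → ∀ v μ, C.Gd v → μ ≠ Tor.tw Ψ v →
  X.PU V ∈ X.tw.Lev ∧ Sg X C Ψ v μ (X.PU V) (X.gf S V f)

/-- `SEED3` with one controlled place -/
def SEED4 : Prop := AllC fun {F _} _ _ _ _ _ X C Ψ => ∀ (S S' : Finset (Pl F))
  (V : ∀ w, Subgroup (X.Dw w)ˣ) (f φ : ∀ w, (X.Dw w)ˣ → ℂ) (w0 : Pl F), Disjoint S S' → w0 ∈ S →
  (∀ w, (w ∈ S ∨ w ∈ S') ↔ (C.D : 𝓞 F) ∈ w.asIdeal) → (∀ w ∈ S', X.Spl w) → (∃ ε, X.Cm C ε) →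
  (∀ w ∈ S, ((∃ κ, (X.TyM w κ (V w) (f w) (φ w) ∨ X.TyS w κ (V w) (f w) (φ w)) ∧ Kw C Ψ w κ) ∨
      (X.TyR w (V w) (f w) (φ w) ∧ Kw C Ψ w (-(qw w : ℂ)))) ∧
    ∀ ε, X.Cm C ε → Nl C Ψ w fun γ => φ w (X.lc ε w γ)) → ∀ v μ, C.Gd v → μ ≠ Tor.tw Ψ v →
  ∃ V' : ∀ w, Subgroup (X.Dw w)ˣ, (∀ w ∈ S, w ≠ w0 → V' w = V w) ∧
    (∀ w, w ∉ S → w ∉ S' → V' w = X.U0 w) ∧ X.PU V' ∈ X.tw.Lev ∧ X.tw.Neat (X.PU V') ∧
    (∀ w ∈ S, Tf (V' w) (f w)) ∧ Sg X C Ψ v μ (X.PU V') (X.gf S V' f)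

open Sd in
theorem same {G : Type} [Group G] {U : Subgroup G} {f η : G → ℂ} (hf : Tf U f)
    (h : ∀ y, f y ≠ 0 → ∀ x, η (x * y) = η x) {B : Type} [AddCommGroup B] [Module ℂ B] (ω : G → B) :
    wk f U (mL η B ω) = mL η B (wk f U ω) := by
  funext x
  show _ = η x • wk f U ω x
  rw [wk_sum hf, wk_sum hf, Finset.smul_sum]
  refine Finset.sum_congr rfl fun y hy => ?_
  show f _ • (η _ • ω _) = _
  rw [h _ (hf.fin.mem_toFinset.1 hy), smul_comm]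

theorem h_gd {X : QD F} {C : CM F E} {Ψ : Pl E → ℂˣ} {η : ∀ w : Pl F, (Fw w)ˣ →* ℂˣ}
    {h : X.G →* ℂˣ} (hK : Kp C Ψ) (hη : Eta C Ψ η) (hh : X.IsH η h) {v : Pl F} (g : C.Gd v) {x : X.G}
    (hx : X.Sup v x) : (h x : ℂ) = 1 := by
  rw [hh]
  refine finprod_eq_one_of_forall_eq_one fun w => ?_
  rw [← Sd.cu_val, Prd.ap_ne _ (Prd.nrd_ne _)]
  by_cases e : w = v
  · subst e
    rw [hη.off w g.1, hK w g.1, if_pos g, div_self (nr_ne w), one_zpow]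
  · rw [hη.nrm w _ 1 0 (by simp [Sd.cu_val, hx w e, nrd]), Units.val_one]

open Sd in
theorem seedd (hL : All fun T => T.LEFT) (sa : SAQ) : SEEDD := by
  classical
  intro F E _ _ _ _ _ X C Ψ hΨ hK η S V f φ T1 hη ld nt ⟨ε0, h0⟩ nl v μ gv hμ
  have ok := X.ok
  have hU : X.PU V ∈ X.tw.Lev := lvp F X S V (fun w hw => (ld.tr w hw).opn) ld.off
  refine ⟨hU, ?_⟩
  obtain ⟨ε, τ₀, hε, sb, g0, mu, inert, fl⟩ := orient hΨ hK h0
  obtain ⟨h, hh, hT, hH, odd, sgn⟩ := ex_h etg hkt hΨ hK hη ld hε hU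
  obtain ⟨fd, -, -⟩ := hL _ _ X.tw ok _ hU nt
  have tf3 := fun w => tf3 hkt ld hε (w := w)
  have tf4 : ∀ w ∈ S, Tf (V w) (f w) := fun w a => (ld.tr w a).tf
  let g : Finset (Pl F) → X.G → ℂ := fun W => X.gf (S ∪ W) V (X.fT W f)
  have tg : ∀ W, (∀ w ∈ W, C.Gd w) → Tf (X.PU V) (g W) := fun W a =>
    gft F X _ V _ (tf2 hkt ld hε a)
  obtain ⟨φ', wt, geo, el⟩ := ell hL dic prd hΨ hK hη ld nt hU hε sb g0 mu hh hT hH (nl ε hε)
    (fun _ => rfl) tg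
  let T : Pl F → Module.End ℂ (X.tw.Om (X.PU V)) := fun w =>
    if w ∈ S then 0 else wO _ _ (X.gf {w} V (X.fT {w} f))
  have Tv : ∀ w, w ∉ S → ∀ ω, (T w ω).1 = wk (X.gf {w} V (X.fT {w} f)) (X.PU V) ω.1 :=
    fun w a ω => by rw [← wO_val (gft F X _ V _ (tf3 w a))]; simp only [T, a, if_false]
  have T0 : ∀ w ∈ S, T w = 0 := fun w a => if_pos a
  have tP := gft F X S V f tf4
  have vS := Ld.nS ld gv
  refine (T2.torn3 X hΨ hK (T2.torx hΨ geo) _ T (fun W => wO _ _ (g W))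
    (wO _ _ (X.gf S V f)) (mO hH) (fun w w' => ?_) (fun w => ?_) ?_ (fun W w a b => ?_)
    (fun W a b => ?_) (fun w a b => LinearMap.ext fun ω => Subtype.ext ?_) gv vS
    (LinearMap.ext fun ω => Subtype.ext ?_) hμ).elim fun y ⟨y0, ν, n1, n2, Z, hZ⟩ => ?_
  · by_cases a : w ∈ S
    · rw [T0 w a]; exact Commute.zero_left _
    by_cases b : w' ∈ S
    · rw [T0 w' b]; exact Commute.zero_right _
    by_cases k : w = w'
    · rw [k]
    refine LinearMap.ext fun ω => Subtype.ext ?_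
    rw [Module.End.mul_apply, Module.End.mul_apply, Tv w a, Tv w' b, Tv w' b, Tv w a]
    exact comm cnv (Finset.disjoint_singleton.2 k) (tf3 w a) (tf3 w' b) ω.2.2.1
  · by_cases a : w ∈ S
    · rw [T0 w a]; exact Commute.zero_left _
    refine LinearMap.ext fun ω => Subtype.ext ?_
    rw [Module.End.mul_apply, Module.End.mul_apply, Tv w a, wO_val tP, wO_val tP, Tv w a]
    exact comm cnv (Finset.disjoint_singleton_left.2 a) (tf3 w a) tf4 ω.2.2.1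
  · simp only [g, Finset.union_empty]
    rw [gf_congr fun w _ => fT_not (Finset.notMem_empty w)]
  · have a1 := (b w (Finset.mem_insert_self _ _)).2
    have a2 : ∀ v ∈ W, C.Gd v := fun v k => (b v (Finset.mem_insert_of_mem k)).1
    have a3 : w ∉ S ∪ W := Finset.notMem_union.2 ⟨a1, a⟩
    refine LinearMap.ext fun ω => Subtype.ext ?_
    rw [Module.End.mul_apply, Tv w a1, wO_val (tg _ fun v k => (b v k).1), wO_val (tg W a2),
      ← cnv' cnv (k := X.fT (insert w W) f) (Finset.disjoint_singleton_left.2 a3) (tf3 w a1)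
        (tf2 hkt ld hε a2) (fun v k => fT_mem (g := f) (by simp_all) |>.trans
          (fT_mem (g := f) k).symm) (fun v k => funext fun u => by
            have : v ≠ w := fun c => a3 (c ▸ k)
            simp only [QD.fT, Finset.mem_insert, this, false_or]) ω.2.2.1]
    simp only [g]
    congr 2
    ext
    simp only [Finset.mem_union, Finset.mem_insert, Finset.mem_singleton, or_left_comm]
  · exact trace hL sa gft cnv hkt ld nt hU hε hH odd sgn inert fl a (fun v k => (b v k).1) rfl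
      (el W fun v k => (b v k).1)
  · rw [Module.End.mul_apply, Tv w a]
    refine (anti (gft F X _ V _ (tf3 w a)) (sgn w a b) ω.1).trans ?_
    rw [← Tv w a]
    rfl
  · obtain ⟨L, l1, -, l2⟩ := ex_L hkt ld hε hU vS
    have u1 : ∀ u ∈ X.PU V, (h u : ℂ) = 1 := fun u a => by simpa using hH.1 1 u a
    rw [Module.End.mul_apply, Module.End.mul_apply, Tv v vS]
    refine Eq.trans ?_ (same (gft F X _ V _ (tf3 v vS)) (fun y c x => ?_) ω.1).symm
    · rw [← Tv v vS]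
      rfl
    rw [gf_one l2] at c
    obtain ⟨u', hu', u, hu, e⟩ : y ∈ L.To (X.PU V) := by_contra fun k => c (if_neg k)
    obtain ⟨_, _, -, -, -, sp⟩ := l1
    simp only [e, map_mul, Units.val_mul, u1 u hu, u1 u' hu', h_gd hK hη hh gv (sp _), mul_one]
  · refine ⟨y.1, y.2, fun k => y0 (Subtype.ext ((wO_val tP y).trans k)), (Z ∪ S).erase v,
      Function.update (ta C Ψ) v ν, Finset.notMem_erase _ _, by rwa [Function.update_self],
      fun w => (Function.update_of_ne · _ _), fun w a => ?_⟩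
    have a2 : w ∉ S := fun k => a (Finset.mem_erase.2
      ⟨fun e => vS (e ▸ k), Finset.mem_union_right _ k⟩)
    obtain ⟨L, l1, l3, l2⟩ := ex_L hkt ld hε hU a2
    refine ⟨L, l1, l3, ?_⟩
    rw [← wk_ind (gf_one (f := f) l2), ← wO_val tP, ← Tv w a2]
    by_cases e : w = v
    · rw [e, n2, Function.update_self, Submodule.coe_smul]
    · rw [hZ w fun k => a (Finset.mem_erase.2 ⟨e, Finset.mem_union_left _ k⟩),
        Function.update_of_ne e, Submodule.coe_smul]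

open S3 Dc Prd in
theorem seed4 (hC : SEEDD) : SEED4 := by
  classical
  intro F E _ _ _ _ _ X C Ψ hk kp S S' V f φ w0 dj m0 hS sp ⟨ε0, h0⟩ ty v μ gv hμ
  obtain ⟨η, hη, ur⟩ := eta F E X C Ψ hk kp
  obtain ⟨N, N0, hN⟩ := X.ntw w0
  have ex : ∀ w, ∃ (V2 : Subgroup (X.Dw w)ˣ) (f2 φ2 : (X.Dw w)ˣ → ℂ) (T2 : Subgroup (X.Dw w)ˣ)
      (k : ℕ), (w ∈ S → f2 = f w ∧ (w ≠ w0 → V2 = V w)) ∧ (w = w0 → V2 ≤ X.U1 w N) ∧
      (w ∉ S → w ∉ S' → V2 = X.U0 w) ∧ ((w ∈ S ∨ w ∈ S') →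
        X.Tr w (C.D ^ (k + 1)) (η w) V2 f2 φ2 T2 ∧ ∀ ε, X.Cm C ε → ∀ m, k ≤ m →
          Nl (pw C m) Ψ w fun γ => φ2 (X.lc ε w γ)) := fun w => by
    by_cases a : w ∈ S
    · have d := (hS w).1 (.inl a)
      obtain ⟨T, c, c0, t⟩ : ∃ (T : _) (c : ℂ), c ≠ 0 ∧
          X.Tr w C.D (η w) (V w) (f w) (fun u => c * φ w u) T := by
        rcases (ty w a).1 with ⟨κ, t | t, k⟩ | ⟨t, k⟩
        · exact (trm F E X C Ψ hk kp ε0 η h0 hη w d _ _ _).1 κ t (ur w κ d k)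
        · exact trs F E X C Ψ hk kp ε0 η h0 hη w d _ _ _ κ t (ur w κ d k)
        · exact (trm F E X C Ψ hk kp ε0 η h0 hη w d _ _ _).2 t (ur w _ d k)
      have nl : ∀ ε, X.Cm C ε → ∀ m, Nl (pw C m) Ψ w fun γ => c * φ w (X.lc ε w γ) :=
        fun ε h m => nlm F E X C Ψ hk kp w _ (fun u hu γ => by
          rw [Subgroup.coe_mul, map_mul]
          exact t.per _ (lc_mem h w _) _ (lc_mem h w _) (un_lc h d γ) (cg_lc h d hu))
          (nl_mul ((ty w a).2 ε h) c0) _ rfl m (pw_D m)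
      by_cases e : w = w0
      · obtain ⟨c', c1, t'⟩ := tr_shrink t N0
        exact ⟨_, _, _, T, 0, fun _ => ⟨rfl, fun k => absurd e k⟩, fun _ => inf_le_right,
          fun k => absurd a k, fun _ => ⟨tr_le t' (by simp),
            fun ε h m _ => nl_mul (nl ε h m) c1⟩⟩
      · exact ⟨_, _, _, T, 0, fun _ => ⟨rfl, fun _ => rfl⟩, fun k => absurd k e,
          fun k => absurd a k, fun _ => ⟨tr_le t (by simp), fun ε h m _ => nl ε h m⟩⟩
    · by_cases b : w ∈ S'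
      · obtain ⟨V2, f2, φ2, T, k, -, -, t, n⟩ :=
          trd2 F E X C Ψ hk kp η ⟨ε0, h0⟩ hη w ((hS w).1 (.inr b)) (sp w b) 1 one_pos
        exact ⟨V2, f2, φ2, T, k, fun k => absurd k a, fun k => absurd (k ▸ m0) a,
          fun _ k => absurd b k,
          fun _ => ⟨t, fun ε h m l => n ε h _ rfl rfl rfl rfl m l (pw_D m)⟩⟩
      · exact ⟨X.U0 w, 0, 0, ⊥, 0, fun k => absurd k a, fun k => absurd (k ▸ m0) a,
          fun _ _ => rfl, fun k => absurd k (not_or.2 ⟨a, b⟩)⟩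
  choose V2 f2 φ2 T2 k h1 h2 h3 h4 using ex
  have le : ∀ w ∈ S ∪ S', k w ≤ (S ∪ S').sup k := fun w => Finset.le_sup
  generalize (S ∪ S').sup k = m at le
  have L : X.Ld (pw C m) η (S ∪ S') V2 f2 φ2 T2 :=
    ⟨fun w => by rw [pw_mem, ← hS, Finset.mem_union],
      fun w a => h3 w (mt (Finset.mem_union_left _) a) (mt (Finset.mem_union_right _) a),
      fun w a => tr_le (h4 w (Finset.mem_union.1 a)).1
        (pw_D (C := C) m ▸ pow_dvd_pow _ (Nat.succ_le_succ (le w a)))⟩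
  have lev := X.lvp _ _ (fun w a => (L.tr w a).opn) L.off
  have nt := hN _ lev fun u hu => h2 w0 rfl (mem_PU.1 hu w0)
  obtain ⟨-, ω, o1, o2, Z, t, z1, z2, z3, hZ⟩ := hC F E X (pw C m) Ψ (pw_hk m hk) (pw_kp m kp) η _ V2 f2 φ2 T2
    (pw_eta m hη) L nt ⟨ε0, (pw_cm m).2 h0⟩ (fun ε h w a =>
      (h4 w (Finset.mem_union.1 a)).2 ε ((pw_cm m).1 h) m (le w a)) v μ ((pw_gd m v).2 gv) hμ
  have t1 : ∀ w ∈ S, Tf (V2 w) (f2 w) := fun w a => (h4 w (.inl a)).1.tf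
  have t2 : ∀ w ∈ S', Tf (V2 w) (f2 w) := fun w a => (h4 w (.inr a)).1.tf
  have e : X.gf S V2 f2 = X.gf S V2 f := funext fun x =>
    if_congr Iff.rfl (Finset.prod_congr rfl fun w a => by rw [(h1 w a).1]) rfl
  rw [cnv F X S S' V2 f2 dj t1 t2 _ ω o1.2.1, e] at o2 hZ
  exact ⟨V2, fun w a => (h1 w a).2, h3, lev, nt, fun w a => (h1 w a).1 ▸ t1 w a, _,
    Sd.wk_Om (gft F X S' V2 f2 t2) o1, o2, Z, t, z1, z2,
    fun w a => (z3 w a).trans (if_congr (pw_gd m w) rfl rfl), hZ⟩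

theorem yex2 (C : CM F E) (v : Pl F) (W : Finset (Pl F)) (hW : v ∉ W)
    (hev : Even (Module.finrank ℚ F)) (hns : ¬ IsSquare (algebraMap (𝓞 F) (Fw v) C.a)) :
    ∃ (Y : QD F) (hn : 0 < Ideal.absNorm (Ideal.span {Y.b})), (∀ w ∈ W, Y.b ∉ w.asIdeal) ∧
      (∀ w, Y.Spl w ↔ w ≠ v) ∧ (∃ ε, Y.Cm (enl C _ hn) ε) ∧ ∃ s, Y.IsSp s := by
  have hr : ∀ φ : F →+* ℂ, ComplexEmbedding.IsReal φ := fun φ =>
    ComplexEmbedding.isReal_iff.2 (RingHom.ext fun x => by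
      rw [ComplexEmbedding.conjugate_coe_eq, ← C.ovr φ, ← C.cj, AlgEquiv.commutes])
  have he : ∀ φ : F →+* ℂ, Complex.ofRealHom.comp (hr φ).embedding = φ := fun φ =>
    RingHom.ext (hr φ).coe_embedding_apply
  obtain ⟨τ, hτ⟩ := C.two
  obtain ⟨X, h1, h2, h4, h3⟩ := dex1 C.a (hr C.t1).embedding {v} W
    (fun φ x => Complex.conj_eq_iff_im.1 (RingHom.congr_fun (hr φ) x))
    ⟨(hr τ).embedding, fun e => hτ (by rw [← he τ, e, he])⟩ (fun t => by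
      have e1 := C.cj (C.sec (Complex.ofRealHom.comp t)) C.δ
      have e2 := congrArg (C.sec (Complex.ofRealHom.comp t)) C.sq
      have e3 := (map_ne_zero (C.sec (Complex.ofRealHom.comp t))).2 C.δ0
      rw [map_pow, C.ovr] at e2
      rw [C.cδ, map_neg] at e1
      generalize C.sec (Complex.ofRealHom.comp t) C.δ = z at *
      have e4 : z.re = 0 := by linarith [show -z.re = z.re from congrArg Complex.re e1]
      have e5 : z.im ≠ 0 := fun e => e3 (Complex.ext e4 e)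
      have e6 : t C.a = -z.im ^ 2 := by simpa [sq, e4] using (congrArg Complex.re e2).symm
      rw [e6]
      exact neg_neg_of_pos (sq_pos_of_ne_zero e5))
    (by simpa using hns) (by rw [Finset.card_singleton]; exact odd_one.add_even hev)
    (Finset.disjoint_singleton_left.2 hW)
  have hb : (X.b : F) ≠ 0 := by exact_mod_cast X.b0
  have ha : (X.a : F) ≠ 0 := by exact_mod_cast X.a0
  let g : QuadraticAlgebra F (C.a : F) 0 →ₐ[F] E := QuadraticAlgebra.lift ⟨C.δ, by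
    rw [← sq, C.sq, zero_smul, add_zero, Algebra.algebraMap_eq_smul_one]⟩
  have hg : ∀ z, g z = algebraMap F E z.re + algebraMap F E z.im * C.δ := fun z => by
    rw [← Algebra.smul_def, Algebra.algebraMap_eq_smul_one]; rfl
  have bij : Function.Bijective g := by
    refine ⟨(injective_iff_map_eq_zero g).2 fun z hz => ?_, fun x => ?_⟩
    · have e1 := congrArg C.c hz
      rw [hg] at hz e1
      rw [map_add, map_mul, AlgEquiv.commutes, AlgEquiv.commutes, C.cδ, map_zero] at e1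
      have e2 : algebraMap F E z.re = 0 := by linear_combination (hz + e1) / 2
      rw [e2, zero_add, mul_eq_zero, or_iff_left C.δ0] at hz
      exact QuadraticAlgebra.ext ((map_eq_zero _).1 e2) ((map_eq_zero _).1 hz)
    · obtain ⟨s, t, rfl⟩ := C.span x
      exact ⟨⟨s, t⟩, hg _⟩
  let g' : QuadraticAlgebra F (C.a : F) 0 →ₐ[F] X.D := QuadraticAlgebra.lift ⟨⟨0, 1, 0, 0⟩, by
    ext <;> simp [h1, Algebra.smul_def]⟩
  refine ⟨X, Nat.pos_of_ne_zero fun e => X.b0 (by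
    simpa using Ideal.absNorm_eq_zero_iff.1 e), h4, fun w => ?_,
    ⟨g'.comp (AlgEquiv.ofBijective g bij).symm, h1.symm, ?_, .inl ?_, fun w hw h => hw ?_⟩, ?_⟩
  · rw [Dgo.spl_iff, h1, ← h3, Finset.mem_singleton]
  · rw [QD.tc, h2, he]
    rfl
  · have : (AlgEquiv.ofBijective g bij).symm C.δ = ⟨0, 1⟩ :=
      (AlgEquiv.symm_apply_eq _).2 ((hg _).trans (by simp)).symm
    refine (congrArg g' this).trans ?_
    ext <;> simp [g']
  · exact Nat.cast_mul (α := 𝓞 F) C.D _ ▸ w.asIdeal.mul_mem_left _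
      ((Ideal.span_singleton_le_iff_mem _).2 h (Ideal.absNorm_mem _))
  · choose r hr using fun τ : F →+* Qb => IsAlgClosed.exists_pow_nat_eq (τ X.b) two_pos
    refine ⟨fun τ => (LocA.spl ((map_ne_zero τ).2 ha) ((map_ne_zero τ).2 hb) (y := 0)
      (by rw [hr τ]; simp)).toRingEquiv.toRingHom.comp (F0.Fuj.qmap τ rfl rfl), fun τ c => ?_⟩
    rw [RingHom.comp_apply, F0.Fuj.qmap_algebraMap]
    exact AlgEquiv.commutes _ (τ c)

theorem ex_over {q : ℕ} (hq : q.Prime) {v : Pl F} (h : (q : 𝓞 F) ∈ v.asIdeal) {I : Ideal (𝓞 F)}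
    (k : (Ideal.absNorm I : 𝓞 F) ∈ v.asIdeal) : ∃ w : Pl F, (q : 𝓞 F) ∈ w.asIdeal ∧ I ≤ w.asIdeal := by
  obtain ⟨P, a, b, c⟩ := Ideal.exists_isMaximal_dvd_of_dvd_absNorm' hq I (by_contra fun n => by
    obtain ⟨x, y, e⟩ := ((Nat.Prime.coprime_iff_not_dvd hq).2 n).cast (R := 𝓞 F)
    exact v.isPrime.ne_top ((Ideal.eq_top_iff_one _).2 (e ▸ add_mem (Ideal.mul_mem_left _ _ h)
      (Ideal.mul_mem_left _ _ k))))
  have m : (q : 𝓞 F) ∈ P := by
    simpa using Ideal.mem_comap.1 (b.ge (Ideal.mem_span_singleton_self _))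
  exact ⟨⟨P, a.isPrime, fun e => hq.ne_zero (by simpa [e] using m)⟩, m, Ideal.le_of_dvd c⟩

variable {X : Fd} {S : Finset ℕ} {L : Lv} {E : Type} [Field E] [NumberField E] [Algebra X.F E]
  {C : CM X.F E} {Ψ : Pl E → ℂˣ} {io : Qb →+* ℂ} {Δ : ℕ} {Y : QD X.F}

open Sau in
theorem core2 (seed : SEED4) (h : Shy X S L C Ψ io Δ)
    (spl : ∀ w, Y.Spl w ↔ w ≠ X.v0) (cm : ∃ ε, Y.Cm C ε) {s : Y.Sp Qb} (sp : Y.IsSp s)
    (hD : ∀ w : Pl X.F, (C.D : 𝓞 X.F) ∉ w.asIdeal → SphW X S w) {v : Pl X.F} {μ : ℂ} (gv : C.Gd v)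
    (hμ : μ ≠ Tor.tw Ψ v) :
    ∃ b, Aut X 0 S L b ∧ io (b v) ≠ μ ∧ ∃ Z : Finset X.Pl, ∀ w, w ∉ Z → io (b w) = ta C Ψ w := by
  classical
  obtain ⟨-, p2, p3, -⟩ := plc3 X S
  let D := (fin_nat (E := X.F) C.D0).toFinset
  let N : Pl X.F → Prop := fun w => ∃ l, l.Prime ∧ TyW X S l w ∧ L l = none
  have m : ∀ w, w ∈ D.filter (¬ N ·) ↔ (C.D : 𝓞 X.F) ∈ w.asIdeal ∧ ¬ N w := fun w => by
    simp only [D, Finset.mem_filter, Set.Finite.mem_toFinset, Set.mem_ofPred_eq]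
  have m' : ∀ w, w ∈ D.filter N ↔ (C.D : 𝓞 X.F) ∈ w.asIdeal ∧ N w := fun w => by
    simp only [D, Finset.mem_filter, Set.Finite.mem_toFinset, Set.mem_ofPred_eq]
  choose! V f φ l1 l2 l3 using Sau.loc kron2 dg1 plc3 tys typ tyr h spl cm
  obtain ⟨V', v1, v2, lev, ne, tf, ω, ω1, ω0, Z, t, t1, t2, t3, hZ⟩ := seed _ E Y C Ψ h.hk h.kp (D.filter (¬ N ·))
    (D.filter N) V f φ X.v0 (Finset.disjoint_filter_filter_not _ _ _).symm
    ((m _).2 ⟨h.v0.mem, fun ⟨_, _, k, _⟩ => k.2.1 rfl⟩)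
    (fun w => by rw [m, m', ← and_or_left, or_comm, and_iff_left (em _)])
    (fun w k => by obtain ⟨_, _, k, _⟩ := ((m' w).1 k).2; exact (spl w).2 k.2.1) cm
    (fun w k => l1 w ((m w).1 k).1 ((m w).1 k).2) v μ gv hμ
  have hx := Sd.wk_Om (gft _ Y _ V' f tf) ω1
  generalize e : wk (Y.gf (D.filter (¬ N ·)) V' f) (Y.PU V') ω = x at ω0 hZ hx
  have ex : ∀ w, ∃ A A', Opw io (Y.PU V') w A A' ∧
      (SphW X S w → (w ∉ Z → op A' x = t w • x) ∧ ∃ Lw : Y.tw.Lc (Oc w) (Fw w), Y.IsPl w Lw ∧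
        Lw.At (KK (Oc w) (Fw w)) (Y.PU V') ∧ A = Lw.fT Qb) ∧
      ∀ (l : ℕ) [Fact l.Prime] c, TyW X S l w → L l = some c →
        (∃ φ, Inv (Y.PU V') φ ∧ x = op A' φ) ∧ (∀ φ : Y.G → ℍ → ℂ, Inv (Y.PU V') φ →
          op A' (op A' φ) = 0 → op A' φ = 0) ∧ ∃ Lw : Y.tw.Lc ℤ_[l] ℚ_[l], Y.IsPl w Lw ∧
            Lw.At (Km ℤ_[l] ℚ_[l] 1) (Y.PU V') ∧ A = eF Lw c := fun w => by
    by_cases k : SphW X S w
    · obtain ⟨Lw, a1, a2, a3⟩ : ∃ Lw : Y.tw.Lc (Oc w) (Fw w), Y.IsPl w Lw ∧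
          Lw.At (KK (Oc w) (Fw w)) (Y.PU V') ∧
          (w ∉ Z → hk (Lw.To (Y.PU V')) (Y.PU V') x = t w • x) := by
        by_cases z : w ∉ Z
        · exact (hZ w z).imp fun _ a => ⟨a.1, a.2.1, fun _ => a.2.2⟩
        have n : ¬ N w := fun ⟨l, _, a, _⟩ => (p2 w l k).2 a
        by_cases d : (C.D : 𝓞 X.F) ∈ w.asIdeal
        · obtain ⟨Lw, a1, a2⟩ := l2 w d n k
          exact ⟨Lw, a1, a2 V' (v1 w ((m w).2 ⟨d, n⟩) (p2 w 0 k).1), fun a => absurd a z⟩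
        · obtain ⟨ε, cm⟩ := cm
          obtain ⟨-, -, Lw, a1, a2⟩ := hkt _ Y w (std cm d)
          exact ⟨Lw, a1, (a2 V' lev (v2 w (fun a => d ((m w).1 a).1) fun a => d ((m' w).1 a).1)).1,
            fun a => absurd a z⟩
      refine ⟨_, Lw.fT ℂ, ⟨fun g => (Lw.fT_map io g).symm, fun g hg => ?_,
        fun B _ _ φ i => a2.op_fT (R := Qb) lev i ▸ hk_inv (QD.cor_To Lw lev) i,
        fun φ i => a2.op_fT (R := ℂ) lev i ▸ hk_inv (QD.cor_To Lw lev) i⟩,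
        fun _ => ⟨fun z => (a2.op_fT lev hx.2.1).trans (a3 z), Lw, a1, a2, rfl⟩,
        fun l _ c k' => absurd k' (p2 w l k).2⟩
      obtain ⟨y, rfl⟩ := Lw.fT_sup hg
      obtain ⟨-, -, -, -, -, a⟩ := a1
      exact a y
    by_cases t : ∃ (l : ℕ) (_ : Fact l.Prime) (c : _), TyW X S l w ∧ L l = some c
    · obtain ⟨l, hl, c, t, hc⟩ := t
      have mc := h.ty l c w hl.out t hc
      have n : ¬ N w := fun ⟨l', _, a, b⟩ => by
        obtain rfl := p3 w l l' t a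
        exact Option.some_ne_none _ (hc.symm.trans b)
      have mem := (m w).2 ⟨mc.mem, n⟩
      obtain ⟨r, Lw, a1, a2⟩ := l3 w mc.mem n l c t hc
      obtain ⟨a2, a3⟩ := a2 V' (v1 w mem t.2.1)
      have ec := eca _ _ _ Y.ok l Lw _ lev a2
      have ec' := ec ℂ (ℍ → ℂ) (fun x => io (c x)) fun g x => congrArg io (mc.cls g x)
      refine ⟨_, eF Lw fun x => io (c x), ⟨eF_map Lw io c, fun g hg => ?_,
        fun B _ _ φ i => op_eF Lw c φ ▸ (ec Qb B c mc.cls φ i).1,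
        fun φ i => op_eF Lw (fun x => io (c x)) φ ▸ (ec' φ i).1⟩, fun a => absurd a k, fun l' _ c' t' hc' => ?_⟩
      · obtain ⟨y, rfl⟩ := eF_sup Lw hg
        obtain ⟨-, -, -, -, -, a⟩ := a1
        exact a y
      obtain rfl := p3 w l l' t t'
      obtain rfl := Option.some.inj (hc.symm.trans hc')
      have tf' : ∀ v ∈ (D.filter (¬ N ·)).erase w, Tf (V' v) (f v) :=
        fun v a => tf v (Finset.mem_of_mem_erase a)
      have i := Sd.wk_inv (gft _ Y _ V' f tf') ω1.2.1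
      refine ⟨⟨r • _, fun y u a => congrArg (r • ·) (i y u a), ?_⟩, fun φ i => ?_,
        Lw, a1, a2, rfl⟩
      · rw [op_smul, op_eF, ← a3 f rfl _ i, ← cnv _ Y {w} _ V' f (by simp)
          (fun v a => Finset.mem_singleton.1 a ▸ tf w mem) tf' _ ω ω1.2.1, ← e]
        congr 2
        rw [← Finset.insert_eq, Finset.insert_erase mem]
      · simpa only [op_eF] using (ec' φ i).2
    · exact ⟨0, 0, ⟨fun g => (map_zero io).symm, fun g hg => absurd hg (Finset.notMem_empty g),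
        fun _ _ _ _ _ _ _ _ => rfl, fun _ _ _ _ _ => rfl⟩, fun a => absurd a k,
        fun l hl c a b => absurd ⟨l, hl, c, a, b⟩ t⟩
  choose A A' o1 o2 o3 using ex
  obtain ⟨b, z, z1, z2, z3, z4, z5⟩ := jnt2 jnt s lev ne o1 hx ω0
  have fin : ∀ w, w ∉ Z → (C.D : 𝓞 X.F) ∉ w.asIdeal → io (b w) = t w :=
    fun w a d => z4 w _ ((o2 w (hD w d)).1 a)
  refine ⟨b, ⟨Y, io, s, V', z, h.emb.trans (cm.elim fun _ k => k.t1), spl, sp, lev, ne, z1, z2,
    fun w k => ?_, fun l _ c w t hc => ?_, fun B => ?_⟩, fin v t1 gv.1 ▸ t2,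
    insert v (Z ∪ D), fun w a => ?_⟩
  · obtain ⟨-, Lw, a1, a2, a3⟩ := o2 w k
    exact ⟨Lw, a1, a2, (a2.eig_fT lev z1).1 (a3 ▸ z3 w)⟩
  · obtain ⟨a, a', Lw, a1, a2, a3⟩ := o3 w l c t hc
    exact ⟨Lw, a1, a2, _, z5 w a a', by simpa only [Tw.Eig, a3, op_eF] using z3 w⟩
  · obtain ⟨t1, t2⟩ := twn _ E Y C Ψ h.hk h.kp
    obtain ⟨w, g, a, -⟩ := t1 (B ∪ insert v Z)
    rw [Finset.mem_union, Finset.mem_insert, not_or, not_or] at a
    refine ⟨w, a.1, hD w g.1, fun k => t2 w g ?_⟩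
    have := congrArg io k
    rwa [map_pow, map_pow, map_add, map_natCast, map_one, fin w a.2.2 g.1, t3 w a.2.1, ta,
      if_pos g] at this
  · rw [Finset.mem_insert, Finset.mem_union, not_or, not_or] at a
    exact (fin w a.2.1 fun k => a.2.2 ((Set.Finite.mem_toFinset _).2 k)).trans (t3 w a.1)

theorem other (seed : SEED4) (h : Shy X S L C Ψ io Δ) {q : ℕ} (hq : q.Prime)
    (sq : ∀ w : X.Pl, (q : 𝓞 X.F) ∈ w.asIdeal → SphW X S w) {v : X.Pl} (qv : (q : 𝓞 X.F) ∈ v.asIdeal)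
    (gv : C.Gd v) {μ : ℂ} (hμ : μ ≠ Tor.tw Ψ v) :
    ∃ b, Aut X 0 S L b ∧ io (b v) ≠ μ ∧ ∃ Z : Finset X.Pl, ∀ w, w ∉ Z → io (b w) = ta C Ψ w := by
  classical
  obtain ⟨-, p2, -, f⟩ := plc3 X S
  obtain ⟨Y, hn, yb, spl, ⟨ε, cm⟩, s, sp⟩ := yex2 C X.v0 (fin_nat (E := X.F) hq.ne_zero).toFinset
    (fun k => (p2 _ 0 (sq _ ((fin_nat hq.ne_zero).mem_toFinset.1 k))).1 rfl) h.ev h.v0.ns
  have N0 := mul_pos hn (Finset.prod_pos (s := f.toFinset) (f := qw) fun w _ =>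
    Nat.pos_of_ne_zero fun k => w.ne_bot (Ideal.absNorm_eq_zero_iff.1 k))
  have d : ∀ w : Pl X.F, ((enl C _ N0).D : 𝓞 X.F) ∉ w.asIdeal →
      ((enl C _ hn).D : 𝓞 X.F) ∉ w.asIdeal ∧ SphW X S w := fun w k => by
    simp only [enl, Nat.cast_mul, ← mul_assoc] at k ⊢
    refine ⟨fun a => k (Ideal.mul_mem_right _ _ a), by_contra fun a => k (Ideal.mul_mem_left _ _ ?_)⟩
    obtain ⟨c, e⟩ := Finset.dvd_prod_of_mem qw (f.mem_toFinset.2 a)
    rw [e, Nat.cast_mul]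
    exact Ideal.mul_mem_right _ _ (Ideal.absNorm_mem _)
  obtain ⟨b, a, a', Z, hZ⟩ := core2 seed (enl_row X S L E C Ψ io Δ _ N0 h) spl
    ⟨ε, cm.a, cm.t1, cm.i, fun w k => cm.b w (d w k).1⟩ sp (fun w k => (d w k).2) (v := v)
    ⟨fun k => by
      simp only [enl, Nat.cast_mul, Nat.cast_prod] at k
      rcases v.isPrime.mem_or_mem k with k | k
      · exact gv.1 k
      rcases v.isPrime.mem_or_mem k with k | k
      · obtain ⟨w, a, b⟩ := ex_over hq qv k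
        exact yb w ((Set.Finite.mem_toFinset _).2 a) (b (Ideal.mem_span_singleton_self _))
      · obtain ⟨u, a, k⟩ := (Ideal.IsPrime.prod_mem_iff (hp := v.isPrime)).1 k
        obtain ⟨w, b, c⟩ := ex_over hq qv k
        obtain rfl : u = w := HeightOneSpectrum.ext (u.isMaximal.eq_of_le w.isPrime.ne_top c)
        exact f.mem_toFinset.1 a (sq u b), gv.2⟩ hμ
  refine ⟨b, a, a', Z ∪ (fin_nat (E := X.F) (enl C _ N0).D0).toFinset, fun w k => ?_⟩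
  rw [Finset.mem_union, not_or, Set.Finite.mem_toFinset] at k
  rw [hZ w k.1, ta, ta]
  refine if_congr (and_congr (iff_of_true k.2 fun a => k.2 ?_) Iff.rfl) rfl rfl
  exact Nat.cast_mul (α := 𝓞 X.F) C.D _ ▸ Ideal.mul_mem_right _ _ a

end S2

/-- **SAUT** from strong approximation -/
theorem saut1 (sa : SAQ) : SAUT :=
  saut_of (seed3 (seedc left sa lvp gft cnv hkt etg dic prd torn2) trm trs trd2 gft cnv) kron2
    enl_row dg1 plc3 yex tys typ tyr eca jnt cnv gft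

/-- **SAUT2** -/
theorem saut2 (sa : SAQ) (rep : REPF) : SAUT2 := by
  classical
  intro X S L E _ _ _ C Ψ io Δ h
  obtain ⟨b, a, Z, hZ⟩ := saut1 sa X S L E C Ψ io Δ h
  refine ⟨b, a, ⟨Z, hZ⟩, fun q hq sq v qv gv => by_contra fun n => ?_⟩
  obtain ⟨b', a', n', Z', hZ'⟩ := S2.other (S2.seed4 (S2.seedd left sa)) h hq sq qv gv n
  exact n' (congrArg io (smo rep a' a (Z := Z ∪ Z') (fun w k => io.injective (by
    rw [Finset.notMem_union] at k
    rw [hZ w k.1, hZ' w k.2])) (sq v qv)))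

end Vale.Agent.P022K.Sh
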