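import Vale.Agent.P022K.F0.StS3
import Vale.Agent.P022K.F0.SeedA
import Vale.Agent.P022K.F0.Flip
import Vale.Agent.P022K.F0.Nel
import Vale.Agent.P022K.F0.Loc

/-!
# P022K, block F0: the row SEEDC
-/

set_option autoImplicit false
set_option linter.unusedSectionVars false

open UpperHalfPlane NumberField IsDedekindDomain
open scoped MatrixGroups

noncomputable section

namespace Vale.Agent.P022K.Sh

open Vale.Agent.P022 Orb Tor Tw Fxa Vale.Agent.P022K.F0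
open Vale.Agent.P022.C (ordv)

namespace Sd

variable {F : Type} [Field F] [NumberField F] {X : QD F} {w : Pl F}

theorem ow_mul {x y : Fw w} (hx : x ≠ 0) (hy : y ≠ 0) : ow (x * y) = ow x + ow y := by
  rw [ow, map_mul, WithZero.log_mul ((Valuation.ne_zero_iff _).2 hx)
    ((Valuation.ne_zero_iff _).2 hy), neg_add, ow, ow]

theorem nrd_ne (u : (X.Dw w)ˣ) : nrd (u : X.Dw w) ≠ 0 :=
  nrd_eq (u : X.Dw w) ▸ ((Fuj.isUnit_iff_nrd _).1 u.isUnit).ne_zero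

theorem ow_nrd (u u' : (X.Dw w)ˣ) :
    ow (nrd ((u * u' : (X.Dw w)ˣ) : X.Dw w)) = ow (nrd (u : X.Dw w)) + ow (nrd (u' : X.Dw w)) := by
  rw [← ow_mul (nrd_ne u) (nrd_ne u'), nrd_eq, nrd_eq, nrd_eq, Units.val_mul, Fuj.nrd_mul]

theorem ow_one : ow (nrd ((1 : (X.Dw w)ˣ) : X.Dw w)) = 0 := by
  have := ow_nrd (X := X) (w := w) 1 1
  rw [one_mul] at this
  omega

theorem cen_alg {u : (X.Dw w)ˣ} (h : u ∈ Subgroup.center (X.Dw w)ˣ) :
    (u : X.Dw w) = algebraMap (Fw w) _ (u : X.Dw w).re := by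
  have ha := LocA.alg_ne (w := w) X.a0
  have hb := LocA.alg_ne (w := w) X.b0
  have k : ∀ y : X.Dw w, Fuj.nrd y ≠ 0 → u * y = y * u := fun y hy => by
    obtain ⟨y, rfl⟩ := (Fuj.isUnit_iff_nrd y).2 (IsUnit.mk0 _ hy)
    exact congrArg Units.val (Subgroup.mem_center_iff.1 h y).symm
  exact Fuj.central ha hb _ (k _ (by simpa [Fuj.nrd, Fuj.qi] using ha))
    (k _ (by simpa [Fuj.nrd, Fuj.qj] using hb))

theorem even_U0 {u : (X.Dw w)ˣ} (h : u ∈ X.U0 w) : Even (ow (nrd (u : X.Dw w))) := by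
  have inv : ∀ u : (X.Dw w)ˣ, ow (nrd ((u⁻¹ : (X.Dw w)ˣ) : X.Dw w)) = -ow (nrd (u : X.Dw w)) :=
    fun u => by
      have := ow_nrd u⁻¹ u
      rw [inv_mul_cancel, ow_one] at this
      omega
  let A : Subgroup (X.Dw w)ˣ :=
    { carrier := {u | Even (ow (nrd (u : X.Dw w)))}
      mul_mem' := fun a b => by rw [Set.mem_ofPred_eq, ow_nrd]; exact Even.add a b
      one_mem' := by rw [Set.mem_ofPred_eq, ow_one]; exact Even.zero
      inv_mem' := fun a => by rw [Set.mem_ofPred_eq, inv]; exact Even.neg a }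
  refine (sup_le (fun u hu => ?_) fun u hu => ?_ : X.U0 w ≤ A) h
  · have e := cen_alg hu
    have n := nrd_ne u
    show Even _
    rw [e, nrd_eq, Fuj.nrd_algebraMap, pow_two] at n ⊢
    rw [ow_mul (left_ne_zero_of_mul n) (left_ne_zero_of_mul n)]
    exact Even.add_self _
  · have k : ∀ u : (X.Dw w)ˣ, (u : X.Dw w) ∈ X.ODw w → 0 ≤ ow (nrd (u : X.Dw w)) := fun u hu => by
      have := mem_Ow.1 (nrd_mem_qint hu)
      rw [← nrd_eq, ← WithZero.log_le_log ((Valuation.ne_zero_iff _).2 (nrd_ne u)) one_ne_zero,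
        WithZero.log_one] at this
      exact neg_nonneg.2 this
    have h1 := k u hu.1
    have h2 := k u⁻¹ hu.2
    rw [inv] at h2
    show Even _
    rw [show ow (nrd (u : X.Dw w)) = 0 by omega]
    exact Even.zero

variable {S S' : Finset (Pl F)} {V : ∀ w, Subgroup (X.Dw w)ˣ} {f g : ∀ w, (X.Dw w)ˣ → ℂ}

theorem gf_congr (h : ∀ w ∈ S, f w = g w) : X.gf S V f = X.gf S V g := funext fun x => by
  rw [QD.gf, QD.gf, Finset.prod_congr rfl fun w hw => by rw [h w hw]]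

open Classical in
theorem cnv' (cnv : CNV) {k : ∀ w, (X.Dw w)ˣ → ℂ} (d : Disjoint S S') (hf : ∀ w ∈ S, Tf (V w) (f w))
    (hg : ∀ w ∈ S', Tf (V w) (g w)) (h1 : ∀ w ∈ S, k w = f w) (h2 : ∀ w ∈ S', k w = g w)
    {B : Type} [AddCommMonoid B] [Module ℂ B] {ω : X.G → B} (h : Inv (X.PU V) ω) :
    wk (X.gf (S ∪ S') V k) (X.PU V) ω =
      wk (X.gf S V f) (X.PU V) (wk (X.gf S' V g) (X.PU V) ω) := by
  rw [cnv F X S S' V k d (fun w a => h1 w a ▸ hf w a) (fun w a => h2 w a ▸ hg w a) B ω h,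
    gf_congr h1, gf_congr h2]

theorem comm (cnv : CNV) (d : Disjoint S S') (hf : ∀ w ∈ S, Tf (V w) (f w))
    (hg : ∀ w ∈ S', Tf (V w) (g w)) {B : Type} [AddCommMonoid B] [Module ℂ B] {ω : X.G → B}
    (h : Inv (X.PU V) ω) : wk (X.gf S V f) (X.PU V) (wk (X.gf S' V g) (X.PU V) ω) =
      wk (X.gf S' V g) (X.PU V) (wk (X.gf S V f) (X.PU V) ω) := by
  classical
  have h1 : ∀ w ∈ S, (fun w => if w ∈ S then f w else g w) w = f w := fun w a => if_pos a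
  have h2 : ∀ w ∈ S', (fun w => if w ∈ S then f w else g w) w = g w := fun w a =>
    if_neg (Finset.disjoint_right.1 d a)
  have e1 := cnv' cnv d hf hg h1 h2 h
  have e2 := cnv' cnv d.symm hg hf h2 h1 h
  rw [← e1, ← e2]
  congr 2
  ext
  simp only [Finset.mem_union, or_comm]

theorem fT_mem {W : Finset (Pl F)} (h : w ∈ W) : X.fT W f w = X.fT {w} g w := funext fun u => by
  simp only [QD.fT, h, Finset.mem_singleton, if_true]

theorem fT_not {W : Finset (Pl F)} (h : w ∉ W) : X.fT W f w = f w := funext fun u => by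
  simp only [QD.fT, h, if_false]

open Classical in
theorem gf_one {O : Set X.G}
    (h : ∀ x, x ∈ O ↔ (∀ v, v ≠ w → X.cu v x ∈ V v) ∧ X.cu w x ∈ X.Tq w) (x : X.G) :
    X.gf {w} V (X.fT {w} f) x = if x ∈ O then 1 else 0 := by
  simp only [QD.gf, QD.fT, h, Finset.mem_singleton, Finset.prod_singleton, if_true, ne_eq, ite_and]

variable {E : Type} [Field E] [NumberField E] [Algebra F E] {C : CM F E} {Ψ : Pl E → ℂˣ}
  {η : ∀ w : Pl F, (Fw w)ˣ →* ℂˣ} {ε : E →ₐ[F] X.D}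

theorem ap_odd (hK : Kp C Ψ) (hη : Eta C Ψ η) (hD : (C.D : 𝓞 F) ∉ w.asIdeal) (hg : ¬ C.Gd w)
    {x : Fw w} (h : Odd (ow x)) : QD.ap (η w) x = -1 := by
  have x0 : x ≠ 0 := by
    rintro rfl
    simp [ow] at h
  have q0 : (qw w : ℂ) ≠ 0 := nr_ne w
  rw [QD.ap, dif_neg x0, hη.off w hD, hK w hD, if_neg hg, neg_div, div_self q0, Units.val_mk0,
    h.neg_one_zpow]

theorem good (hε : X.Cm C ε) (hD : (C.D : 𝓞 F) ∉ w.asIdeal) : 2 * X.a * X.b ∉ w.asIdeal :=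
  fun h => by
  rcases w.isPrime.mem_or_mem h with h | h
  · rcases w.isPrime.mem_or_mem h with h | h
    · obtain ⟨n, hn⟩ := C.D2
      exact hD (by rw [hn, Nat.cast_mul, Nat.cast_ofNat]; exact w.asIdeal.mul_mem_right _ h)
    · exact C.aD w hD (hε.a ▸ h)
  · exact hε.b w hD h

theorem Cm.conj (hε : X.Cm C ε) : X.Cm C (ε.comp C.c) := ⟨hε.a, hε.t1, by
  rcases hε.i with h | h
  · right
    rw [AlgHom.comp_apply, AlgEquiv.coe_toAlgHom, C.cδ, map_neg, h]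
    ext <;> simp
  · left
    rw [AlgHom.comp_apply, AlgEquiv.coe_toAlgHom, C.cδ, map_neg, h]
    ext <;> simp, hε.b⟩

/-- the orientation -/
theorem orient (hΨ : C.Hk Ψ) (hK : Kp C Ψ) (hε : X.Cm C ε) : ∃ (ε : E →ₐ[F] X.D) (τ₀ : ℍ),
    X.Cm C ε ∧ (∀ γ : X.G0, γ ∈ X.tw.Sb τ₀ ↔ ((γ : X.Dˣ) : X.D) ∈ ε.range) ∧
    (∀ γ : Eˣ, Units.map ε.toRingHom.toMonoidHom γ ∈ X.G0) ∧
    (∀ (γ : X.G0) x, ((γ : X.Dˣ) : X.D) = ε x →
      X.tw.mu γ τ₀ = C.sec C.t1 (C.c x) / C.sec C.t1 x) ∧ (∀ B : Finset (Pl F), ∃ w, w ∉ B ∧ ¬ C.Gd w) ∧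
    ∀ τ γ, γ ∈ X.tw.Sb τ → γ ∉ X.tw.Z0 → (∀ δ, X.tw.r δ • τ₀ ≠ τ) → ∀ B : Finset (Pl F),
      ∃ w, w ∉ B ∧ ¬ C.Gd w ∧ ∃ g : X.G, X.Sup w g ∧ (∀ δ ∈ X.tw.Sb τ, Commute g (X.tw.j δ)) ∧
        ow (nrd (X.cw w g)) = 1 := by
  obtain ⟨τ₀, h1, h2, h3 | h3, h4⟩ := flp F E X C Ψ hΨ hK ε hε
  · exact ⟨ε, τ₀, hε, h1, h2, h3, h4⟩
  · refine ⟨_, τ₀, Cm.conj hε, fun γ => (h1 γ).trans ⟨fun ⟨x, e⟩ => ⟨C.c x, ?_⟩,
      fun ⟨x, e⟩ => ⟨C.c x, e⟩⟩, fun γ => h2 (Units.map (C.c : E →* E) γ), fun γ x e => ?_, h4⟩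
    · exact (congrArg ε (C.cc x)).trans e
    · rw [h3 γ (C.c x) e, C.cc]

end Sd

end Vale.Agent.P022K.Sh
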