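import Vale.Agent.P022K.F0.Hec
import Vale.Agent.P022K.F0.Kum

/-!
# P022K, block F0: components of a level, Shapiro's lemma, change of coefficients
-/

set_option autoImplicit false

open UpperHalfPlane MulAction
open scoped MatrixGroups Pointwise

noncomputable section

namespace Vale.Agent.P022K.Sh

open Vale.Agent.P022 Vale.Agent.P022.H218.L3

variable {G0 G : Type} [Group G0] [Group G]

/-! ## orbits -/

section

variable (G0) {X : Type} [MulAction G0 X]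

/-- the orbit of a point -/
def orb (p : X) : orbitRel.Quotient G0 X := Quotient.mk _ p

variable {G0}

theorem orb_eq {p q : X} : orb G0 p = orb G0 q ↔ ∃ γ : G0, γ • q = p := Quotient.eq

theorem orb_smul (γ : G0) (p : X) : orb G0 (γ • p) = orb G0 p := orb_eq.2 ⟨γ, rfl⟩

theorem orb_out (c : orbitRel.Quotient G0 X) : orb G0 c.out = c := Quotient.out_eq c

variable (G0) in
/-- an element that moves the chosen point of the orbit to `p` -/
def dl (p : X) : G0 := (orb_eq.1 (orb_out (orb G0 p)).symm).choose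

theorem dl_smul (p : X) : dl G0 p • (orb G0 p).out = p :=
  (orb_eq.1 (orb_out (orb G0 p)).symm).choose_spec

theorem dl_mem (γ : G0) (p : X) :
    (dl G0 p)⁻¹ * γ * dl G0 (γ⁻¹ • p) ∈ stabilizer G0 (orb G0 p).out := by
  rw [mem_stabilizer_iff, mul_smul, mul_smul, inv_smul_eq_iff, dl_smul, ← orb_smul γ⁻¹ p, dl_smul,
    smul_inv_smul]

end

namespace Tw

variable (T : Tw G0 G)

/-- `G / U` as a `G0`-set -/
def XU (_T : Tw G0 G) (U : Subgroup G) : Type := G ⧸ U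

instance (U : Subgroup G) : MulAction G0 (T.XU U) := MulAction.compHom (G ⧸ U) T.j

/-- the coset of `x` -/
def xm (U : Subgroup G) (x : G) : T.XU U := QuotientGroup.mk x

variable {T} {U U' : Subgroup G}

/-- a representative of a coset -/
def XU.o (p : T.XU U) : G := Quotient.out p

theorem xm_o (p : T.XU U) : T.xm U p.o = p := QuotientGroup.out_eq' p

theorem smul_xm (γ : G0) (x : G) : γ • T.xm U x = T.xm U (T.j γ * x) := rfl

theorem xm_eq {x y : G} : T.xm U x = T.xm U y ↔ x⁻¹ * y ∈ U := QuotientGroup.eq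

theorem xm_mul (x : G) {u : G} (hu : u ∈ U) : T.xm U (x * u) = T.xm U x :=
  (xm_eq.2 (by rwa [inv_mul_cancel_left])).symm

theorem inv_xm {B : Type} {f : G → B} (hf : Inv U f) {x y : G} (h : T.xm U x = T.xm U y) :
    f x = f y := by simpa using hf.eq (xm_eq.1 h) 1

theorem stab_xm (x : G) : stabilizer G0 (T.xm U x) = T.Gam U x := by
  ext γ
  rw [mem_stabilizer_iff, smul_xm, eq_comm, xm_eq, mem_Gam, mul_assoc]

theorem stab_o (p : T.XU U) : stabilizer G0 p = T.Gam U p.o := by rw [← stab_xm, xm_o]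

variable (T U) in
/-- the components of level `U` -/
abbrev DC : Type := orbitRel.Quotient G0 (T.XU U)

variable (T U) in
/-- the component of `x` -/
def cls (x : G) : T.DC U := orb G0 (T.xm U x)

/-- a representative of a component -/
def rq (c : T.DC U) : G := XU.o c.out

theorem xm_rq (c : T.DC U) : T.xm U (rq c) = c.out := xm_o _

theorem cls_rq (c : T.DC U) : T.cls U (rq c) = c := by rw [cls, xm_rq, orb_out]

theorem cls_eq {x y : G} : T.cls U x = T.cls U y ↔ ∃ γ, ∃ u ∈ U, x = T.j γ * y * u :=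
  orb_eq.trans ⟨fun ⟨γ, h⟩ => ⟨γ, _, xm_eq.1 h, (mul_inv_cancel_left _ _).symm⟩,
    fun ⟨γ, u, hu, h⟩ => ⟨γ, by rw [h, xm_mul _ hu, smul_xm]⟩⟩

theorem cls_mul (γ : G0) (x : G) : T.cls U (T.j γ * x) = T.cls U x :=
  cls_eq.2 ⟨γ, 1, one_mem _, (mul_one _).symm⟩

theorem cls_mul' (x : G) {u : G} (hu : u ∈ U) : T.cls U (x * u) = T.cls U x :=
  cls_eq.2 ⟨1, u, hu, by simp⟩

theorem ex_rq (x : G) : ∃ γ, ∃ u ∈ U, x = T.j γ * rq (T.cls U x) * u := cls_eq.1 (cls_rq _).symm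

theorem Ok.finDC (h : T.Ok) (hU : U ∈ T.Lev) : Finite (T.DC U) := by
  obtain ⟨S, hS⟩ := h.fin U hU
  refine Finite.of_surjective (fun s : S => T.cls U s) fun c => ?_
  obtain ⟨s, hs, e⟩ := hS (rq c)
  exact ⟨⟨s, hs⟩, (cls_eq.2 e).symm.trans (cls_rq c)⟩

theorem Ok.xm_z0 (h : T.Ok) (hU : U ∈ T.Lev) {γ : G0} (hγ : γ ∈ T.Z0) (x : G) :
    T.xm U ((T.j γ)⁻¹ * x) = T.xm U x := by
  have := inv_mem ((h.z0 γ).1 hγ)
  rw [← Subgroup.mem_center_iff.1 (h.zc this) x, xm_mul _ ((sInf_le hU : T.Z ≤ U) this)]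

theorem Gam_mono (h : U' ≤ U) (x : G) : T.Gam U' x ≤ T.Gam U x := fun _ hγ =>
  T.mem_Gam.2 (h (T.mem_Gam.1 hγ))

instance : T.Z0.Normal := MonoidHom.normal_ker _

/-! ## functions -/

theorem RU.mem {φ : G → Mer} (h : φ ∈ T.RU U) (x : G) : φ x ∈ T.KF (T.Gam U x) :=
  T.mem_KF.2 fun γ hγ => by
    rw [← h.1, inv_xm (T := T) h.2 (mem_stabilizer_iff.1 (stab_xm (T := T) x ▸ hγ))]

theorem RU.ext {φ ψ : G → Mer} (h : φ ∈ T.RU U) (h' : ψ ∈ T.RU U)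
    (e : ∀ c : T.DC U, φ (rq c) = ψ (rq c)) : φ = ψ := by
  funext x
  obtain ⟨γ, u, hu, hx⟩ := ex_rq (T := T) (U := U) x
  rw [hx, h.2 _ _ hu, h'.2 _ _ hu, h.1, h'.1, e]

/-- **glueing** of functions on the components -/
theorem glue (f : T.DC U → Mer) (hf : ∀ c, f c ∈ T.KF (T.Gam U (rq c))) :
    ∃ φ ∈ T.RU U, ∀ c, φ (rq c) = f c := by
  have k : ∀ (γ : G0) (p : T.XU U), T.act γ (T.act (dl G0 (γ⁻¹ • p)) (f (orb G0 p))) =
      T.act (dl G0 p) (f (orb G0 p)) := fun γ p => by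
    have := T.mem_KF.1 (hf (orb G0 p)) _ (by
      have := dl_mem γ p
      rwa [stab_o] at this)
    rw [mul_assoc, map_mul, map_inv, AlgEquiv.mul_apply] at this
    have e := congrArg (T.act (dl G0 p)) this
    rwa [← AlgEquiv.mul_apply, mul_inv_cancel, AlgEquiv.one_apply, map_mul] at e
  refine ⟨fun x => T.act (dl G0 (T.xm U x)) (f (T.cls U x)), ⟨fun γ x => ?_, fun x u hu => ?_⟩,
    fun c => ?_⟩
  · have := k γ (γ • T.xm U x)
    rw [inv_smul_smul, orb_smul] at this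
    beta_reduce
    rw [cls_mul, ← smul_xm]
    exact this.symm
  · beta_reduce
    rw [xm_mul _ hu, cls_mul' _ hu]
  · beta_reduce
    rw [cls_rq]
    refine T.mem_KF.1 (hf c) _ ?_
    have := dl_smul (G0 := G0) c.out
    rw [orb_out] at this
    rw [← stab_xm, xm_rq]
    exact this

/-! ## cocycles -/

section

variable {Λ B Λ' B' : Type} [CommRing Λ] [AddCommGroup B] [Module Λ B] [CommRing Λ']
  [AddCommGroup B'] [Module Λ' B']

variable (T Λ B U) in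
/-- cocycles with constant coefficients -/
abbrev Zc : Submodule Λ (G0 → G → B) := T.Z1 (Representation.trivial Λ G0 B) U

variable (T Λ B U) in
/-- coboundaries with constant coefficients -/
abbrev Bc : Submodule Λ (G0 → G → B) := T.B1 (Representation.trivial Λ G0 B) U

theorem mem_Zc {z : G0 → G → B} : z ∈ T.Zc U Λ B ↔ (∀ γ, Inv U (z γ)) ∧
    (∀ γ δ x, z (γ * δ) x = z γ x + z δ ((T.j γ)⁻¹ * x)) ∧ ∀ γ ∈ T.Z0, ∀ x, z γ x = 0 :=
  ⟨fun h => ⟨h.1, fun γ δ x => congrFun (h.2.1 γ δ) x, fun γ hγ x => congrFun (h.2.2 γ hγ) x⟩,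
    fun h => ⟨h.1, fun γ δ => funext (h.2.1 γ δ), fun γ hγ => funext (h.2.2 γ hγ)⟩⟩

theorem mem_Bc {z : G0 → G → B} : z ∈ T.Bc U Λ B ↔
    ∃ f, Inv U f ∧ ∀ γ x, z γ x = f ((T.j γ)⁻¹ * x) - f x :=
  ⟨fun ⟨f, h, e⟩ => ⟨f, h, fun γ x => congrFun (e γ) x⟩,
    fun ⟨f, h, e⟩ => ⟨f, h, fun γ => funext (e γ)⟩⟩

theorem mem_H0 {f : G → B} : f ∈ T.H0 (Representation.trivial Λ G0 B) U ↔
    Inv U f ∧ ∀ γ x, f ((T.j γ)⁻¹ * x) = f x :=
  ⟨fun h => ⟨h.1, fun γ x => congrFun (h.2 γ) x⟩, fun h => ⟨h.1, fun γ => funext (h.2 γ)⟩⟩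

variable (T) in
/-- the class of a cocycle -/
abbrev mh (z : T.Zc U Λ B) : T.Hc Λ B U := Submodule.Quotient.mk z

theorem mh_eq {z z' : T.Zc U Λ B} : T.mh z = T.mh z' ↔ z.1 - z'.1 ∈ T.Bc U Λ B :=
  Submodule.Quotient.eq _

theorem mh_eq_zero {z : T.Zc U Λ B} : T.mh z = 0 ↔ z.1 ∈ T.Bc U Λ B :=
  Submodule.Quotient.mk_eq_zero _

theorem mh_surj (a : T.Hc Λ B U) : ∃ z, T.mh z = a := Submodule.Quotient.mk_surjective _ a

theorem hC_mh {O : Set G} (h : Cor U' O U) (z : T.Zc U Λ B) :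
    T.hC Λ B h (T.mh z) = T.mh (T.hZ _ h z) := rfl

theorem hZ_val {O : Set G} (h : Cor U' O U) (z : T.Zc U Λ B) (γ : G0) :
    (T.hZ _ h z).1 γ = hk O U (z.1 γ) := rfl

variable (T) in
/-- `χ` is additive on `Γ` and vanishes on `Z0` -/
def Ch (Γ : Subgroup G0) (χ : G0 → B) : Prop :=
  (∀ γ ∈ Γ, ∀ δ ∈ Γ, χ (γ * δ) = χ γ + χ δ) ∧ ∀ γ ∈ T.Z0, χ γ = 0

theorem Ch.one {Γ : Subgroup G0} {χ : G0 → B} (h : T.Ch Γ χ) : χ 1 = 0 := h.2 1 (one_mem _)

theorem Ch.inv {Γ : Subgroup G0} {χ : G0 → B} (h : T.Ch Γ χ) {γ : G0} (hγ : γ ∈ Γ) :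
    χ γ⁻¹ = -χ γ := by
  have := h.1 _ (inv_mem hγ) _ hγ
  rw [inv_mul_cancel, h.one] at this
  exact eq_neg_of_add_eq_zero_left this.symm

theorem xm_gam {x : G} {γ : G0} (hγ : γ ∈ T.Gam U x) : T.xm U ((T.j γ)⁻¹ * x) = T.xm U x := by
  rw [← map_inv, ← smul_xm]
  exact mem_stabilizer_iff.1 (stab_xm (T := T) x ▸ inv_mem hγ)

theorem res_ch {z : G0 → G → B} (h : z ∈ T.Zc U Λ B) (x : G) :
    T.Ch (T.Gam U x) fun γ => z γ x :=
  ⟨fun γ hγ δ _ => by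
    beta_reduce
    rw [(mem_Zc.1 h).2.1, inv_xm (h.1 δ) (xm_gam hγ)], fun γ hγ => (mem_Zc.1 h).2.2 γ hγ x⟩

theorem res_cob {z : G0 → G → B} (h : z ∈ T.Bc U Λ B) {x : G} {γ : G0} (hγ : γ ∈ T.Gam U x) :
    z γ x = 0 := by
  obtain ⟨f, hf, e⟩ := mem_Bc.1 h
  rw [e, inv_xm hf (xm_gam hγ), sub_self]

/-- **Shapiro**, injectivity -/
theorem res_inj {z : G0 → G → B} (h : z ∈ T.Zc U Λ B)
    (h0 : ∀ c : T.DC U, ∀ γ ∈ T.Gam U (rq c), z γ (rq c) = 0) : z ∈ T.Bc U Λ B := by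
  obtain ⟨h1, h2, -⟩ := mem_Zc.1 h
  refine mem_Bc.2 ⟨fun x => -z (dl G0 (T.xm U x)) x, fun x u hu => ?_, fun γ x => ?_⟩
  · beta_reduce
    rw [xm_mul _ hu, h1 _ _ _ hu]
  · have m := dl_mem γ (T.xm U x)
    rw [stab_o] at m
    have e := h2 (dl G0 (T.xm U x)) ((dl G0 (T.xm U x))⁻¹ * γ * dl G0 (γ⁻¹ • T.xm U x)) x
    have e' : T.xm U ((T.j (dl G0 (T.xm U x)))⁻¹ * x) = T.xm U (rq (T.cls U x)) := by
      rw [← map_inv, ← smul_xm, inv_smul_eq_iff, xm_rq]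
      exact (dl_smul _).symm
    rw [inv_xm (h1 _) e', h0 (T.cls U x) _ m, add_zero, mul_assoc, mul_inv_cancel_left, h2] at e
    beta_reduce
    rw [← map_inv, ← smul_xm, map_inv, ← e]
    abel

/-- **Shapiro**, surjectivity -/
theorem Ok.res_surj (hT : T.Ok) (hU : U ∈ T.Lev) (χ : T.DC U → G0 → B)
    (h : ∀ c, T.Ch (T.Gam U (rq c)) (χ c)) :
    ∃ z ∈ T.Zc U Λ B, ∀ c, ∀ γ ∈ T.Gam U (rq c), z γ (rq c) = χ c γ := by
  have m : ∀ (γ : G0) (p : T.XU U),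
      (dl G0 p)⁻¹ * γ * dl G0 (γ⁻¹ • p) ∈ T.Gam U (rq (orb G0 p)) := fun γ p => by
    have m := dl_mem γ p
    rwa [stab_o] at m
  refine ⟨fun γ x => χ (T.cls U x) ((dl G0 (T.xm U x))⁻¹ * γ * dl G0 (γ⁻¹ • T.xm U x)),
    mem_Zc.2 ⟨fun γ x u hu => ?_, fun γ δ x => ?_, fun γ hγ x => ?_⟩, fun c γ hγ => ?_⟩
  · beta_reduce
    rw [xm_mul _ hu, cls_mul' _ hu]
  · have m' := m δ (γ⁻¹ • T.xm U x)
    rw [orb_smul] at m'
    rw [← map_inv, cls_mul, ← smul_xm]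
    refine Eq.trans (congrArg _ ?_) ((h _).1 _ (m γ (T.xm U x)) _ m')
    rw [mul_inv_rev, mul_smul]
    group
  · refine (h _).2 _ ?_
    rw [smul_xm, map_inv, hT.xm_z0 hU hγ]
    exact Subgroup.Normal.conj_mem' inferInstance γ hγ _
  · have d : dl G0 (T.xm U (rq c)) ∈ T.Gam U (rq c) := by
      have := dl_smul (G0 := G0) c.out
      rw [orb_out] at this
      rw [← stab_xm, xm_rq]
      exact this
    beta_reduce
    rw [cls_rq, smul_xm, map_inv, xm_gam hγ, (h c).1 _ (mul_mem (inv_mem d) hγ) _ d,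
      (h c).1 _ (inv_mem d) _ hγ, (h c).inv d]
    abel

variable (T U Λ Λ') in
/-- change of coefficients on cocycles -/
def coZ (l : B →+ B') : T.Zc U Λ B →+ T.Zc U Λ' B' where
  toFun z := ⟨fun γ x => l (z.1 γ x), mem_Zc.2 ⟨fun γ x u hu => congrArg l (z.2.1 γ x u hu),
    fun γ δ x => by rw [(mem_Zc.1 z.2).2.1, map_add],
    fun γ hγ x => by rw [(mem_Zc.1 z.2).2.2 γ hγ, map_zero]⟩⟩
  map_zero' := by
    ext
    simp
  map_add' z w := by
    ext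
    simp

variable (T U Λ Λ') in
/-- change of coefficients on cohomology -/
def co (l : B →+ B') : T.Hc Λ B U →+ T.Hc Λ' B' U :=
  QuotientAddGroup.map ((T.Bc U Λ B).submoduleOf (T.Zc U Λ B)).toAddSubgroup
    ((T.Bc U Λ' B').submoduleOf (T.Zc U Λ' B')).toAddSubgroup (T.coZ U Λ Λ' l) fun z hz => by
    obtain ⟨f, hf, e⟩ := mem_Bc.1 hz
    exact mem_Bc.2 ⟨fun x => l (f x), fun x u hu => congrArg l (hf x u hu),
      fun γ x => (congrArg l (e γ x)).trans (map_sub l _ _)⟩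

theorem co_mh (l : B →+ B') (z : T.Zc U Λ B) :
    T.co U Λ Λ' l (T.mh z) = T.mh (T.coZ U Λ Λ' l z) := rfl

theorem isCo_co (l : B →+ B') (a : T.Hc Λ B U) : T.IsCo U l a (T.co U Λ Λ' l a) := by
  obtain ⟨z, rfl⟩ := mh_surj a
  exact ⟨z, T.coZ U Λ Λ' l z, rfl, rfl, fun _ _ => rfl⟩

theorem IsCo.eq {l : B →+ B'} {a : T.Hc Λ B U} {a' : T.Hc Λ' B' U} (h : T.IsCo U l a a') :
    a' = T.co U Λ Λ' l a := by
  obtain ⟨z, z', rfl, rfl, e⟩ := h
  exact congrArg T.mh (Subtype.ext (funext fun γ => funext (e γ)))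

theorem co_hC (l : B →+ B') {O : Set G} (h : Cor U' O U) (a : T.Hc Λ B U) :
    T.co U' Λ Λ' l (T.hC Λ B h a) = T.hC Λ' B' h (T.co U Λ Λ' l a) := by
  obtain ⟨z, rfl⟩ := mh_surj a
  refine congrArg T.mh (Subtype.ext (funext fun γ => funext fun x => ?_))
  show l (hk O U (z.1 γ) x) = hk O U (fun x => l (z.1 γ x)) x
  rw [hk_eq h, hk_eq h, map_sum]

variable (T Λ B) in
/-- evaluation of a class at pairs `(g i, x i)` -/
def evH {ι : Type} {g : ι → G0} {x : ι → G} (h : ∀ i, g i ∈ T.Gam U (x i)) :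
    T.Hc Λ B U →ₗ[Λ] ι → B :=
  Submodule.liftQ _
    { toFun := fun z i => z.1 (g i) (x i)
      map_add' := fun _ _ => rfl
      map_smul' := fun _ _ => rfl } fun _ hz => funext fun i => res_cob hz (h i)

theorem evH_mh {ι : Type} {g : ι → G0} {x : ι → G} (h : ∀ i, g i ∈ T.Gam U (x i))
    (z : T.Zc U Λ B) (i : ι) : T.evH Λ B h (T.mh z) i = z.1 (g i) (x i) := rfl

theorem evH_co {ι : Type} {g : ι → G0} {x : ι → G} (h : ∀ i, g i ∈ T.Gam U (x i))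
    (l : B →+ B') (a : T.Hc Λ B U) (i : ι) :
    T.evH Λ' B' h (T.co U Λ Λ' l a) i = l (T.evH Λ B h a i) := by
  obtain ⟨z, rfl⟩ := mh_surj a
  rfl

end

variable (T U) in
/-- coordinates on the cohomology with arbitrary constant coefficients -/
def Coord : Prop := ∃ (r : ℕ) (g : Fin r → G0) (x : Fin r → G) (h : ∀ i, g i ∈ T.Gam U (x i)),
  ∀ (Λ B : Type) [CommRing Λ] [AddCommGroup B] [Module Λ B], Function.Bijective (T.evH Λ B h)

end Tw

end Vale.Agent.P022K.Sh
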