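import Vale.Agent.P022K.F0.Quat

/-!
# P022K, block F0: statements of the rows (characteristic zero)
-/

set_option autoImplicit false

open UpperHalfPlane NumberField IsDedekindDomain
open scoped MatrixGroups TensorProduct

noncomputable section

namespace Vale.Agent.P022K.Sh

open Vale.Agent.P022 Vale.Agent.P022.H218.L3 Vale.Agent.P019P P025H816 P027M.K

section abstract

variable {G0 G : Type} [Group G0] [Group G] (T : Tw G0 G)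

namespace Tw

/-- no elliptic elements -/
def Fr (Γ : Subgroup G0) : Prop := ∀ γ ∈ Γ, ∀ τ : ℍ, T.r γ • τ = τ → γ ∈ T.Z0

/-- the places of the function field of `Γ` are the points of `Γ \ ℍ` -/
structure Pts (Γ : Subgroup G0) [CFF ℂ (T.KF Γ)] (pt : ℍ → Plk ℂ (T.KF Γ)) : Prop where
  onto : Function.Surjective pt
  eq : ∀ τ τ', pt τ = pt τ' ↔ ∃ γ ∈ Γ, T.r γ • τ = τ'
  val : ∀ τ (f : T.KF Γ) c, Val (pt τ) f c ↔ MVal τ f c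
  ord : T.Fr Γ → ∀ τ (f : T.KF Γ), f ≠ 0 → MOrd τ f (ord (pt τ) f)

/-- **CF**: compact quotients are algebraic -/
def CF : Prop := ∀ Γ, T.Fu Γ → ∃ _ : CFF ℂ (T.KF Γ), ∃ pt, T.Pts Γ pt

/-- **POI**: functions with a character -/
def POI : Prop := ∀ Γ, T.Fu Γ → ∀ (n : ℕ), 0 < n → ∀ χ : Γ →* ℂˣ, (∀ γ, χ γ ^ n = 1) →
  (∀ γ : Γ, γ.1 ∈ T.Z0 → χ γ = 1) →
  ∃ h : Mer, h ≠ 0 ∧ ∀ γ : Γ, T.act γ h = algebraMap ℂ Mer (χ γ) * h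

/-- `f` is a holomorphic form of weight `2 k` for `Γ` -/
def Fm (Γ : Subgroup G0) (k : ℕ) (f : ℍ → ℂ) : Prop := f ∈ Hol ∧ ∀ γ ∈ Γ, ∀ τ, f (T.r γ • τ) *
  ((T.r γ : GL (Fin 2) ℝ).det.val : ℂ) ^ k = denom (T.r γ : GL (Fin 2) ℝ) τ ^ (2 * k) * f τ

/-- **RAT**: functions are quotients of holomorphic forms; forms without a zero at a given point -/
def RAT : Prop := ∀ Γ, T.Fu Γ → (∀ φ ∈ T.KF Γ, ∃ (k : ℕ) (f g : Hol), T.Fm Γ k f ∧ T.Fm Γ k g ∧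
    g ≠ 0 ∧ φ * algebraMap Hol Mer g = algebraMap Hol Mer f) ∧
  ∀ τ : ℍ, ∃ (k : ℕ) (f : ℍ → ℂ), 0 < k ∧ T.Fm Γ k f ∧ f τ ≠ 0

/-- **GEN**: the genus is at least two -/
def GEN : Prop := ∀ Γ, T.Fu Γ → T.Fr Γ → ∀ [CFF ℂ (T.KF Γ)], 2 ≤ gen ℂ (T.KF Γ)

/-- **VOL**: a cocompact group is finitely generated modulo `Z0` -/
def VOL : Prop := ∀ Γ, T.Fu Γ → ∃ S : Finset G0, Γ = Subgroup.closure S ⊔ T.Z0

/-- **KUM**: Kummer theory -/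
def KUM : Prop := ∀ U ∈ T.Lev, T.Neat U → ∀ n : ℕ, 0 < n →
  (∀ z ∈ T.Z1 (Representation.trivial (ZMod n) G0 (ZMod n)) U, ∃ h, T.Kum n U h z) ∧
  (∀ h z, T.Kum n U h z → z ∈ T.Z1 (Representation.trivial (ZMod n) G0 (ZMod n)) U ∧
    h ^ n ∈ T.RU U) ∧
  (∀ φ ∈ T.RU U, (∀ x, φ x ≠ 0) → (∀ x τ k, MOrd τ (φ x) k → (n : ℤ) ∣ k) →
    ∃ h z, T.Kum n U h z ∧ h ^ n = φ) ∧
  ∀ h z h' z', T.Kum n U h z → T.Kum n U h' z' →
    (z - z' ∈ T.B1 (Representation.trivial (ZMod n) G0 (ZMod n)) U ↔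
      ∃ ψ ∈ T.RU U, h ^ n = h' ^ n * ψ ^ n)

/-- **PTS**: semilinear automorphisms act on points -/
def PTS : Prop :=
  (∀ σ θ, T.Sl σ θ → ∀ τ x, (∃ τ' x', T.Pt σ θ τ x τ' x') ∧ ∀ τ' x', T.Pt σ θ τ x τ' x' →
    (∀ g, T.Pt σ θ τ (x * g) τ' (x' * g)) ∧
    (∀ τ₁ x₁ τ₂ x₂, T.Same τ x τ₁ x₁ → (T.Pt σ θ τ₁ x₁ τ₂ x₂ ↔ T.Same τ' x' τ₂ x₂)) ∧
    ∀ U ∈ T.Lev, T.Neat U → ∀ φ ∈ T.RU U, ∀ k, MOrd τ (φ x) k → MOrd τ' (θ φ x') k) ∧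
  (∀ σ θ σ' θ', T.Sl σ θ → T.Sl σ' θ' → T.Sl (σ'.trans σ) (θ ∘ θ')) ∧
  ∀ σ θ, T.Sl σ θ → ∃ θ', T.Sl σ.symm θ' ∧ ∀ U ∈ T.Lev, ∀ φ ∈ T.RU U, θ' (θ φ) = φ

/-- rigidity -/
def Rig : Prop := ∀ θ, T.Sl (RingEquiv.refl ℂ) θ → ∀ U ∈ T.Lev, ∀ φ ∈ T.RU U, θ φ = φ

/-- models over number fields -/
def Mod : Prop := ∀ U ∈ T.Lev, ∃ (S : Finset ℂ) (I : Finset (G → Mer)),
  (∀ s ∈ S, IsAlgebraic ℚ s) ∧ (∀ φ ∈ I, φ ∈ T.RU U) ∧
  (∀ σ θ, T.Sl σ θ → (∀ s ∈ S, σ s = s) → ∀ φ ∈ I, θ φ = φ) ∧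
  (∀ x, T.KF (T.Gam U x) = IntermediateField.adjoin ℂ ((fun φ : G → Mer => φ x) '' (I : Set (G → Mer)))) ∧
  ∀ x y, (∃ γ, ∃ u ∈ U, y = T.j γ * x * u) ∨ ∃ φ ∈ I, φ x = 1 ∧ φ y = 0

/-- a canonical model over the field generated by `k` -/
structure Can (k : Set ℂ) : Prop where
  ex : ∀ σ : ℂ ≃+* ℂ, (∀ c ∈ k, σ c = c) → ∃ θ, T.Sl σ θ
  rig : T.Rig
  mod : T.Mod

/-- `σ` extends `g` -/
def Ext (io : Qb →+* ℂ) (g : GQ) (σ : ℂ ≃+* ℂ) : Prop := ∀ a, σ (io a) = io (g a)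

/-- `ρ` is the Galois action on the cohomology of level `U` -/
def GAct {Λ B : Type} [CommRing Λ] [AddCommGroup B] [Module Λ B] (io : Qb →+* ℂ)
    (H : Subgroup GQ) (n : ℕ) (U : Subgroup G) (ρ : H →* (T.Hc Λ B U ≃ₗ[Λ] T.Hc Λ B U)) : Prop :=
  IsOpen ((ρ.ker.map H.subtype : Subgroup GQ) : Set GQ) ∧
    ∀ (g : H) σ θ, Ext io g σ → T.Sl σ θ → ∀ a, T.IsGal θ n U a (ρ g a)

/-- **GALH**: the Galois action on cohomology -/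
def GALH : Prop := ∀ (Λ B : Type) [CommRing Λ] [AddCommGroup B] [Module Λ B] (n : ℕ), 0 < n →
  ∀ [Module (ZMod n) B] [Module.Free (ZMod n) B] [Module.Finite (ZMod n) B],
  (∀ U ∈ T.Lev, T.Neat U → ∀ σ θ, T.Sl σ θ → ∀ a a' a'' : T.Hc Λ B U,
    T.IsGal θ n U a a' → T.IsGal θ n U a a'' → a' = a'') ∧
  (∀ U ∈ T.Lev, T.Neat U → ∀ U' ∈ T.Lev, T.Neat U' → ∀ O (h : Cor U' O U) σ θ, T.Sl σ θ →
    ∀ a a' : T.Hc Λ B U, T.IsGal θ n U a a' → T.IsGal θ n U' (T.hC Λ B h a) (T.hC Λ B h a')) ∧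
  ∀ (K : Type) [Field K] [NumberField K] (j : K →+* Qb) (io : Qb →+* ℂ),
    T.Can (Set.range (io.comp j)) → ∀ U ∈ T.Lev, T.Neat U →
    ∃ ρ, T.GAct (Λ := Λ) (B := B) io (GK j) n U ρ

/-- change of coefficients -/
def IsCo {Λ Λ' B B' : Type} [CommRing Λ] [AddCommGroup B] [Module Λ B] [CommRing Λ']
    [AddCommGroup B'] [Module Λ' B'] (U : Subgroup G) (l : B →+ B') (a : T.Hc Λ B U)
    (a' : T.Hc Λ' B' U) : Prop :=
  ∃ (z : T.Z1 (Representation.trivial Λ G0 B) U) (z' : T.Z1 (Representation.trivial Λ' G0 B') U),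
    Submodule.Quotient.mk z = a ∧ Submodule.Quotient.mk z' = a' ∧ ∀ γ x, z'.1 γ x = l (z.1 γ x)

/-- **LAT**: the integral cohomology is a lattice and gives all constant coefficients -/
def LAT : Prop := ∀ U ∈ T.Lev, T.Neat U → Module.Free ℤ (T.Hc ℤ ℤ U) ∧
  Module.Finite ℤ (T.Hc ℤ ℤ U) ∧ ∀ (Λ B : Type) [CommRing Λ] [AddCommGroup B] [Module Λ B],
    ∃ e : B ⊗[ℤ] T.Hc ℤ ℤ U ≃ₗ[Λ] T.Hc Λ B U, ∀ b a,
      T.IsCo U (zmultiplesHom B b) a (e (b ⊗ₜ a))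

/-- **PER**: periods -/
def PER : Prop := ∀ U ∈ T.Lev, ∃ p : T.Om U →ₗ[ℂ] T.Hc ℂ ℂ U, Function.Injective p ∧
  ∀ O (h : Cor U O U) (ω ω' : T.Om U), ω'.1 = hk O U ω.1 → p ω' = T.hC ℂ ℂ h (p ω)

/-- **WEIL**: the perfect pairing; the adjoint of a correspondence is its transpose -/
def WEIL : Prop := ∀ n : ℕ, 0 < n → ∃ e : ∀ U, T.Hc (ZMod n) (ZMod n) U →ₗ[ZMod n]
    T.Hc (ZMod n) (ZMod n) U →ₗ[ZMod n] ZMod n,
  (∀ U ∈ T.Lev, T.Neat U → Function.Bijective (e U) ∧ ∀ a, e U a a = 0) ∧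
  (∀ U ∈ T.Lev, T.Neat U → ∀ U' ∈ T.Lev, T.Neat U' → ∀ O (h : Cor U' O U) (h' : Cor U O⁻¹ U') a b,
    e U' (T.hC (ZMod n) (ZMod n) h a) b = e U a (T.hC (ZMod n) (ZMod n) h' b)) ∧
  ∀ U ∈ T.Lev, T.Neat U → ∀ σ θ, T.Sl σ θ → ∀ k : ZMod n, σ (en n 1) = en n k →
    ∀ a a' b b', T.IsGal θ n U a a' → T.IsGal θ n U b b' → e U a' b' = k * e U a b

/-- the derivative of `γ` at `τ` -/
def mu (γ : G0) (τ : ℍ) : ℂ :=
  ((T.r γ : GL (Fin 2) ℝ).det.val : ℂ) / denom (T.r γ : GL (Fin 2) ℝ) τ ^ 2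

/-- a fixed point of the correspondence `O` -/
def IsFx (O : Set G) (p : ℍ × G × G0) : Prop :=
  T.r p.2.2 • p.1 = p.1 ∧ p.2.1⁻¹ * T.j p.2.2 * p.2.1 ∈ O

/-- the same fixed point in level `U` -/
def FxR (U : Subgroup G) (p q : ℍ × G × G0) : Prop := ∃ δ, ∃ u ∈ U, q.1 = T.r δ • p.1 ∧
  q.2.1 = T.j δ * p.2.1 * u ∧ δ * p.2.2 * δ⁻¹ * q.2.2⁻¹ ∈ T.Z0

/-- representatives of the fixed points -/
def FxRep (U : Subgroup G) (O : Set G) (R : Finset (ℍ × G × G0)) : Prop :=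
  (∀ p ∈ R, T.IsFx O p) ∧ ∀ p, T.IsFx O p → ∃! q, q ∈ R ∧ T.FxR U p q

/-- **LEFT**: the holomorphic Lefschetz formula on the tower, with a weight `η` on the components -/
def LEFT : Prop := ∀ U ∈ T.Lev, T.Neat U → FiniteDimensional ℂ (T.Om U) ∧
  FiniteDimensional ℂ (T.H0 (Representation.trivial ℂ G0 ℂ) U) ∧
  ∀ O, Cor U O U → 1 ∉ O → (∃ R, T.FxRep U O R) ∧
    ∀ η ∈ T.H0 (Representation.trivial ℂ G0 ℂ) U, ∀ (A : Module.End ℂ (T.Om U))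
      (A0 : Module.End ℂ (T.H0 (Representation.trivial ℂ G0 ℂ) U)),
      (∀ ω x, (A ω).1 x = η x • hk O U ω.1 x) → (∀ f x, (A0 f).1 x = η x * hk O U f.1 x) →
      ∀ R, T.FxRep U O R → (∀ p ∈ R, T.mu p.2.2 p.1 ≠ 1) ∧ LinearMap.trace ℂ _ A =
        LinearMap.trace ℂ _ A0 + ∑ p ∈ R, η p.2.1 / (T.mu p.2.2 p.1 - 1)

/-- integral functions as functions on the tower -/
def cz (f : G → ℤ) : G → Mer := fun x => (f x : Mer)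

section

variable {T} {O K : Type} [CommRing O] [IsDomain O] [IsDiscreteValuationRing O] [Field K]
  [Algebra O K]

/-- `σ` acts trivially on the components and on the classes of order prime to `w`, in level `U` -/
structure Lc.Unr (w : T.Lc O K) (σ : ℂ ≃+* ℂ) (U : Subgroup G) : Prop where
  one : ∀ θ, T.Sl σ θ → ∀ n : ℕ, 0 < n → n.Coprime (qq O) →
    ∀ a : T.Hc (ZMod n) (ZMod n) U, T.IsGal θ n U a a
  zero : ∀ θ, T.Sl σ θ → ∀ f ∈ T.H0 (Representation.trivial ℤ G0 ℤ) U, θ (cz f) = cz f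

/-- the relation of Eichler and Shimura for `σ` at `w`, in level `U` -/
structure Lc.ES (w : T.Lc O K) (σ : ℂ ≃+* ℂ) (U : Subgroup G) : Prop where
  one : ∀ θ, T.Sl σ θ → ∀ (h : Cor U (w.To U) U) (n : ℕ), 0 < n → n.Coprime (qq O) →
    ∀ a a₁ a₂ : T.Hc (ZMod n) (ZMod n) U, T.IsGal θ n U a a₁ → T.IsGal θ n U a₁ a₂ →
      a₂ - T.hC (ZMod n) (ZMod n) h a₁ + qq O • a = 0
  zero : ∀ θ, T.Sl σ θ → ∀ f ∈ T.H0 (Representation.trivial ℤ G0 ℤ) U,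
    qq O • θ (θ (cz f)) - hk (w.To U) U (θ (cz f)) + cz f = 0

/-- `T_w ^ 2 = (q + 1) ^ 2` on the components -/
def Lc.Eis (w : T.Lc O K) (U : Subgroup G) : Prop :=
  ∀ (B : Type) [AddCommGroup B], ∀ f ∈ T.H0 (Representation.trivial ℤ G0 B) U,
    hk (w.To U) U (hk (w.To U) U f) = (qq O + 1) ^ 2 • f

/-- strong approximation at `w` -/
def Lc.SA (w : T.Lc O K) : Prop := ∀ U ∈ T.Lev, ∀ (x : G) (g : GL (Fin 2) K), g.det = 1 →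
  ∃ γ, ∃ u ∈ U, x * w.ι g = T.j γ * x * u

end

/-- a statement about all places of a tower -/
def AllL (P : ∀ {O K : Type} [CommRing O] [IsDomain O] [IsDiscreteValuationRing O] [Field K]
    [Algebra O K], T.Lc O K → Prop) : Prop :=
  ∀ (O K : Type) [CommRing O] [IsDomain O] [IsDiscreteValuationRing O] [Field K] [Algebra O K]
    (w : T.Lc O K), P w

/-- **HEC**: calculus of correspondences -/
def HEC : Prop :=
  (∀ U ∈ T.Lev, ∀ U' ∈ T.Lev, ∀ g, Cor U' (dc U' g U) U) ∧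
  T.AllL fun {O K} _ _ _ _ _ w => (∀ U ∈ T.Lev, w.At (KK O K) U →
    (w.To U)⁻¹ = w.To U ∧ {c : G ⧸ U | c.out ∈ w.To U}.ncard = qq O + 1) ∧
    ∀ U ∈ T.Lev, ∀ U' ∈ T.Lev, ∀ V, w.At V U → w.At V U' → ∀ y : G, w.π y = 1 →
      ∀ (g : GL (Fin 2) K) (B : Type) [AddCommMonoid B] (f : G → B), Inv U f →
      hk (dc U' y U) U (hk (dc U (w.ι g) U) U f) =
        hk (dc U' (w.ι g) U') U' (hk (dc U' y U) U f)

/-- **PI0**: the components are Eisenstein -/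
def PI0 : Prop := T.AllL fun {O K} _ _ _ _ _ w => w.SA → ∀ U ∈ T.Lev, w.At (KK O K) U → w.Eis U

end Tw

/-- the part of `M` on which `t` is bijective -/
def Fit {Λ M : Type} [CommRing Λ] [AddCommGroup M] [Module Λ M] (t : Module.End Λ M) :
    Submodule Λ M := ⨅ k : ℕ, LinearMap.range (t ^ k)

namespace Tw

/-- **FREE**: on the part where `t = T_w ^ 2 - (q + 1) ^ 2` is bijective, the cohomology of a cover
with `p`-group `U / U'` is free over the group ring, and the invariants come from level `U` -/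
def FREE : Prop := ∀ (p : ℕ), p.Prime → ∀ (Λ : Type) [CommRing Λ] [IsLocalRing Λ] [Finite Λ],
  IsNilpotent (p : Λ) → T.AllL fun {O K} _ _ _ _ _ w => ∀ U ∈ T.Lev, ∀ U' ∈ T.Lev,
  T.Neat U → U' ≤ U → (∀ u ∈ U, cj u U' = U') → w.At (KK O K) U → w.At (KK O K) U' → w.Eis U' →
  ∀ (h : Cor U (w.To U) U) (h' : Cor U' (w.To U') U') (i : Cor U' (U : Set G) U)
    (d : ∀ u : U, Cor U' {y | (u : G)⁻¹ * y ∈ U'} U') (t : Module.End Λ (T.Hc Λ Λ U))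
    (t' : Module.End Λ (T.Hc Λ Λ U')), t = T.hC Λ Λ h ∘ₗ T.hC Λ Λ h - (qq O + 1) ^ 2 • 1 →
    t' = T.hC Λ Λ h' ∘ₗ T.hC Λ Λ h' - (qq O + 1) ^ 2 • 1 →
    Set.BijOn (T.hC Λ Λ i) (Fit t : Set _) {a | a ∈ Fit t' ∧ ∀ u, T.hC Λ Λ (d u) a = a} ∧
    ((∃ m, U'.relIndex U = p ^ m) → ∃ (r : ℕ) (e : Fin r → T.Hc Λ Λ U'),
      ∃ b : Module.Basis (Fin r × (U ⧸ U'.subgroupOf U)) Λ (Fit t'),
        ∀ k (u : U), (b (k, (u : U ⧸ U'.subgroupOf U)) : T.Hc Λ Λ U') = T.hC Λ Λ (d u) (e k))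

end Tw

end abstract

/-- a row that holds for all towers -/
def All (P : ∀ {G0 G : Type} [Group G0] [Group G], Tw G0 G → Prop) : Prop :=
  ∀ (G0 G : Type) [Group G0] [Group G] (T : Tw G0 G), T.Ok → P T

/-! ## rows for quaternion algebras -/

/-- a row that holds for all quaternion data -/
def AllQ (P : ∀ {F : Type} [Field F] [NumberField F], QD F → Prop) : Prop :=
  ∀ (F : Type) [Field F] [NumberField F] (X : QD F), P X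

namespace QD

variable {F : Type} [Field F] [NumberField F] (X : QD F)

/-- **OK**: the axioms (Fujisaki, completeness, neat levels) -/
def OK : Prop := X.tw.Ok

/-- **APX**: additive approximation; inner automorphisms -/
def APX : Prop := (∀ (x : AF F) (N : ℕ), 0 < N → ∃ c : F, ∃ y ∈ OA F, x = algebraMap F _ c + N * y) ∧
  (∀ x : AF F, ∃ N : ℕ, 0 < N ∧ N * x ∈ OA F) ∧
  (∀ f : X.DA ≃ₐ[AF F] X.DA, ∃ x : X.G, ∀ y, f y * x = x * y) ∧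
  (∀ f : X.D ≃ₐ[F] X.D, ∃ x : X.Dˣ, ∀ y, f y * x = x * y) ∧
  (∀ x : X.D, x ≠ 0 → IsUnit x) ∧
  ∀ x : X.G, x ∈ X.tw.Z ↔ ∃ c : AF F, (x : X.DA) = algebraMap _ _ c

/-- **LOC**: the factors at the split places -/
def LOC : Prop :=
  (∀ (O K : Type) [CommRing O] [IsDomain O] [IsDiscreteValuationRing O] [Field K] [Algebra O K]
    (w : Pl F) (e : Fw w ≃+* K) (s : X.Dw w ≃+* Matrix (Fin 2) (Fin 2) K) (p : O),
    Function.Injective (algebraMap O K) → Irreducible p →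
    (∀ x, x ∈ Ow w ↔ e x ∈ (algebraMap O K).range) →
    (∀ c, s (algebraMap _ _ c) = algebraMap K _ (e c)) → ∃ L : X.tw.Lc O K, X.IsPl w L ∧
      (L.ϖ : K) = algebraMap O K p ∧
      ∀ x : X.G, (L.π x : Matrix (Fin 2) (Fin 2) K) = s (X.cw w x)) ∧
  (∀ w : Pl F, 2 * X.a * X.b ∉ w.asIdeal →
    ∃ s : X.Dw w ≃ₐ[Fw w] Matrix (Fin 2) (Fin 2) (Fw w), ∀ x, x ∈ X.ODw w ↔ ∀ i k, s x i k ∈ Ow w) ∧
  X.tw.AllL fun {O K} _ _ _ _ _ L => ∀ w, X.IsPl w L → qq O = Ideal.absNorm w.asIdeal ∧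
    ((∀ x : X.G, X.cw w x ∈ X.ODw w ↔
        ∀ i k, (L.π x : Matrix (Fin 2) (Fin 2) K) i k ∈ (algebraMap O K).range) →
      ∀ N : ℕ, 0 < N → (N : 𝓞 F) ∉ w.asIdeal → L.At (KK O K) (X.UN N)) ∧
    (∀ U ∈ X.tw.Lev, ∀ V, L.At V U → ∀ x : X.G, (∀ v, v ≠ w → X.cw v x = 1) →
      (x ∈ U ↔ L.π x ∈ V ⊔ Zl K)) ∧
    X.tw.AllL fun {_ _} _ _ _ _ _ L' => ∀ w', X.IsPl w' L' → w ≠ w' → L.Ne L'

/-- **RIG** -/
def RIG : Prop := X.tw.Rig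

/-- **CEX**: every automorphism of `ℂ` over `F` acts on the tower -/
def CEX : Prop := ∀ σ : ℂ ≃+* ℂ, (∀ c, σ (X.tc c) = X.tc c) → ∃ θ, X.tw.Sl σ θ

/-- **MOD** -/
def MOD : Prop := X.tw.Mod

/-- **CAN**: the canonical model over `F` -/
def CAN : Prop := X.tw.Can (Set.range X.tc)

/-- `j`, `io` factor the embedding of `F` -/
def Emb (j : F →+* Qb) (io : Qb →+* ℂ) : Prop := io.comp j = X.tc

/-- **GOOD** (block FI): good reduction at every place where the level is maximal -/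
def GOOD : Prop := X.tw.AllL fun {O K} _ _ _ _ _ L => ∀ w, X.IsPl w L → L.SA ∧
  ∀ U ∈ X.tw.Lev, X.tw.Neat U → L.At (KK O K) U → ∀ j io, X.Emb j io →
    ∀ P : Ideal (𝓞 Qb), P.IsPrime → below j P = w.asIdeal → ∀ g ∈ GK j, ∀ σ, Tw.Ext io g σ →
      ((∀ x : 𝓞 Qb, g • x - x ∈ P) → L.Unr σ U) ∧
      ((∀ x : 𝓞 Qb, g • x - x ^ qq O ∈ P) → L.ES σ U)

/-- `x` is supported at `w` -/
def Sup (w : Pl F) (x : X.G) : Prop := ∀ v, v ≠ w → X.cw v x = 1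

/-- the normalised valuation of `c` is `k` -/
def Vl {w : Pl F} (c : Fw w) (k : ℤ) : Prop := Valued.v c = WithZero.exp (-k)

end QD

/-- **DEX**: quaternion algebras with prescribed ramification, and embedded quadratic fields -/
def DEX : Prop := ∀ (F : Type) [Field F] [NumberField F],
  (∀ (a : 𝓞 F) (t1 : F →+* ℝ) (R W : Finset (Pl F)), (∀ (φ : F →+* ℂ) (x : F), (φ x).im = 0) →
    (∃ t : F →+* ℝ, t ≠ t1) → (∀ t : F →+* ℝ, t a < 0) →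
    (∀ w ∈ R, ¬ IsSquare (algebraMap (𝓞 F) (Fw w) a)) → Odd (R.card + Module.finrank ℚ F) →
    Disjoint R W → ∃ X : QD F, X.a = a ∧ X.t1 = t1 ∧ (∀ w ∈ W, 2 * a ∉ w.asIdeal → X.b ∉ w.asIdeal) ∧
      ∀ w, w ∉ R ↔ ∃ x y : Fw w, x ^ 2 - algebraMap _ _ a * y ^ 2 = algebraMap _ _ X.b) ∧
  ∀ (X : QD F) (Δ : ℕ), 0 < Δ → (∀ w : Pl F, IsSquare (-(Δ : Fw w)) →
    ∃ x y z : Fw w, (x ≠ 0 ∨ y ≠ 0 ∨ z ≠ 0) ∧
      x ^ 2 - algebraMap _ _ X.a * y ^ 2 = algebraMap _ _ X.b * z ^ 2) → ∃ K : X.Kd, K.Δ = Δ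

end Vale.Agent.P022K.Sh
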