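import Vale.Agent.P022K.F0.St

/-!
# P022K, block F0: statements of the rows for the canonical model
-/

set_option autoImplicit false

open UpperHalfPlane NumberField IsDedekindDomain
open scoped MatrixGroups

noncomputable section

namespace Vale.Agent.P022K.Sh

open Vale.Agent.P022 Vale.Agent.P022.H218.L3

section abstract

variable {G0 G0' G : Type} [Group G0] [Group G0'] [Group G] (T : Tw G0 G) (T' : Tw G0' G)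

namespace Tw

/-- a `σ`-semilinear homomorphism of towers that commutes with `G` -/
structure Em (σ : ℂ ≃+* ℂ) (θ : (G → Mer) → G → Mer) : Prop where
  lev : T'.Lev = T.Lev
  mem : ∀ U ∈ T.Lev, ∀ φ ∈ T.RU U, θ φ ∈ T'.RU U
  add : ∀ U ∈ T.Lev, ∀ φ ∈ T.RU U, ∀ ψ ∈ T.RU U, θ (φ + ψ) = θ φ + θ ψ
  mul : ∀ U ∈ T.Lev, ∀ φ ∈ T.RU U, ∀ ψ ∈ T.RU U, θ (φ * ψ) = θ φ * θ ψ
  cst : ∀ c : ℂ, θ (algebraMap ℂ (G → Mer) c) = algebraMap ℂ (G → Mer) (σ c)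
  eqv : ∀ U ∈ T.Lev, ∀ φ ∈ T.RU U, ∀ g, θ (rt g φ) = rt g (θ φ)

/-- a `σ`-semilinear isomorphism of towers that commutes with `G` -/
def Is (σ : ℂ ≃+* ℂ) (θ : (G → Mer) → G → Mer) : Prop :=
  T.Em T' σ θ ∧ ∀ U ∈ T.Lev, Set.BijOn θ (T.RU U) (T'.RU U)

/-- the stabilisers of the points of `T'` are those of `T`, with conjugate multipliers -/
def Stb (σ : ℂ ≃+* ℂ) : Prop :=
  (∀ τ : ℍ, ∃ (τ' : ℍ) (x : G),
    (∀ γ, T.r γ • τ = τ → ∃ γ', ∃ z ∈ T.Z, T'.r γ' • τ' = τ' ∧ T'.j γ' = x * T.j γ * x⁻¹ * z ∧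
      T'.mu γ' τ' = σ (T.mu γ τ))) ∧
  ∀ τ' : ℍ, ∃ (τ : ℍ) (x : G),
    (∀ γ, T.r γ • τ = τ → ∃ γ', ∃ z ∈ T.Z, T'.r γ' • τ' = τ' ∧ T'.j γ' = x * T.j γ * x⁻¹ * z ∧
      T'.mu γ' τ' = σ (T.mu γ τ)) ∧
    ∀ γ', T'.r γ' • τ' = τ' → ∃ γ, ∃ z ∈ T.Z, T.r γ • τ = τ ∧ T'.j γ' = x * T.j γ * x⁻¹ * z ∧
      T'.mu γ' τ' = σ (T.mu γ τ)

/-- `T'` is contained in a conjugate of `T` -/
def Cj : Prop := ∃ (x : G) (h : GP), ∀ γ', ∃ γ, ∃ z ∈ T.Z, T'.j γ' = x * T.j γ * x⁻¹ * z ∧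
  ∀ τ : ℍ, T'.r γ' • h • τ = h • T.r γ • τ

/-- **STB**: isomorphic towers have the same stabilisers -/
def STB : Prop := ∀ (G0' : Type) [Group G0'] (T' : Tw G0' G), T'.Ok → ∀ σ θ, T.Is T' σ θ →
  T.Stb T' σ ∧ ∃ θ', T'.Is T σ.symm θ'

/-- **UNIF**: uniformisation of the conjugate tower -/
def UNIF : Prop := ∀ (σ : ℂ ≃+* ℂ) (τ : ℍ), (∀ γ, T.r γ • τ = τ → ‖σ (T.mu γ τ)‖ = 1) →
  (∃ γ, T.r γ • τ = τ ∧ ∀ n : ℕ, 0 < n → T.mu γ τ ^ n ≠ 1) →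
  ∃ (G0' : Type) (_ : Group G0') (T' : Tw G0' G), T'.Ok ∧ ∃ θ, T.Is T' σ θ

/-- **ONTO**: homomorphisms of a tower to itself are isomorphisms; conjugate towers;
composition -/
def ONTO : Prop := (∀ σ θ, T.Em T σ θ → T.Sl σ θ) ∧
  ∀ (G0' : Type) [Group G0'] (T' : Tw G0' G), T'.Ok → T'.Lev = T.Lev →
    (T.Cj T' → ∃ θ, T.Em T' (RingEquiv.refl ℂ) θ) ∧
    ∀ σ θ σ' θ', T.Em T' σ θ → T'.Em T σ' θ' → T.Em T (σ.trans σ') (θ' ∘ θ)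

/-- **MODA**: models from rigidity and one elliptic element of infinite order -/
def MODA : Prop := ∀ k : Set ℂ, k.Finite → (∀ c ∈ k, IsAlgebraic ℚ c) →
  (∀ σ : ℂ ≃+* ℂ, (∀ c ∈ k, σ c = c) → ∃ θ, T.Sl σ θ) → T.Rig →
  (∃ τ γ, T.r γ • τ = τ ∧ ∀ n : ℕ, 0 < n → T.mu γ τ ^ n ≠ 1) → T.Mod

end Tw

end abstract

namespace QD

variable {F : Type} [Field F] [NumberField F] (X : QD F)

/-- **CMP**: a point with complex multiplication -/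
def CMP : Prop :=
  (∀ σ : ℂ ≃+* ℂ, (∀ c, σ (X.tc c) = X.tc c) → ∀ τ γ, X.tw.r γ • τ = τ → ‖σ (X.tw.mu γ τ)‖ = 1) ∧
  ∃ τ γ, X.tw.r γ • τ = τ ∧ ∀ n : ℕ, 0 < n → X.tw.mu γ τ ^ n ≠ 1

/-- **TRC**: the group is determined by the stabilisers -/
def TRC : Prop := ∀ (G0' : Type) [Group G0'] (T' : Tw G0' X.G), T'.Ok → T'.Lev = X.tw.Lev →
  ∀ σ : ℂ ≃+* ℂ, (∀ c, σ (X.tc c) = X.tc c) → X.tw.Stb T' σ → X.tw.Cj T'

end QD

/-- the canonical model from the rows -/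
theorem can_of (ok : AllQ fun X => X.OK) (rig : AllQ fun X => X.RIG) (cmp : AllQ fun X => X.CMP)
    (trc : AllQ fun X => X.TRC) (stb : All fun T => T.STB) (unif : All fun T => T.UNIF)
    (onto : All fun T => T.ONTO) (moda : All fun T => T.MODA) : AllQ fun X => X.CAN := by
  intro F _ _ X
  have hk := ok F X
  obtain ⟨c1, τ, γ, c2, c3⟩ := cmp F X
  have ex : ∀ σ : ℂ ≃+* ℂ, (∀ c, σ (X.tc c) = X.tc c) → ∃ θ, X.tw.Sl σ θ := fun σ hσ => by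
    have h' : ∀ c, σ.symm (X.tc c) = X.tc c := fun c => by
      rw [RingEquiv.symm_apply_eq, hσ]
    obtain ⟨G0', _, T', ok', θ, hθ⟩ := unif _ _ X.tw hk σ.symm τ (c1 _ h' τ) ⟨γ, c2, c3⟩
    obtain ⟨s1, θ', h2⟩ := stb _ _ X.tw hk G0' T' ok' _ _ hθ
    obtain ⟨o1, o2⟩ := onto _ _ X.tw hk
    obtain ⟨o3, o4⟩ := o2 G0' T' ok' hθ.1.lev
    obtain ⟨θ₀, h0⟩ := o3 (trc F X G0' T' ok' hθ.1.lev _ h' s1)
    exact ⟨_, o1 _ _ (o4 _ _ _ _ h0 h2.1)⟩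
  obtain ⟨α, hα⟩ := Field.exists_primitive_element ℚ F
  have hal : IsAlgebraic ℚ (X.tc α) :=
    (Algebra.IsAlgebraic.isAlgebraic (R := ℚ) α).algHom X.tc.toRatAlgHom
  refine ⟨fun σ h => ex σ fun c => h _ ⟨c, rfl⟩, rig F X, moda _ _ X.tw hk {X.tc α}
    (Set.finite_singleton _) (fun c hc => hc ▸ hal) (fun σ h => ex σ fun c => ?_) (rig F X)
    ⟨τ, γ, c2, c3⟩⟩
  have e : (σ.toRingHom.comp X.tc).toRatAlgHom = X.tc.toRatAlgHom := by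
    refine (IntermediateField.adjoin.powerBasis (Algebra.IsIntegral.isIntegral (R := ℚ) α)).map
      ((IntermediateField.equivOfEq hα).trans IntermediateField.topEquiv) |>.algHom_ext ?_
    exact h _ rfl
  exact DFunLike.congr_fun e c

end Vale.Agent.P022K.Sh
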