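import Vale.Agent.P022K.F0.StS2

/-!
# P022K, block F0: from Hecke characters to automorphic systems (rows)
-/

set_option autoImplicit false

open UpperHalfPlane NumberField IsDedekindDomain
open scoped MatrixGroups

noncomputable section

namespace Vale.Agent.P022K.Sh

open Vale.Agent.P022 Orb Tor CH
open Vale.Agent.P022.C (ordv)
open Vale.Agent.P022D.W (dec)
open Vale.Agent.P022E.GW (Ov)

section

variable {F E : Type} [Field F] [NumberField F] [Field E] [NumberField E] [Algebra F E]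

/-- a multiple of the modulus -/
def enl (C : CM F E) (n : ℕ) (hn : 0 < n) : CM F E :=
  { C with
    D := C.D * n
    D3 := C.D3.trans (Nat.le_mul_of_pos_right _ hn)
    D2 := C.D2.mul_right n
    aD := fun v h => C.aD v fun k => h (Nat.cast_mul (α := 𝓞 F) C.D n ▸ v.asIdeal.mul_mem_right _ k) }

open Classical in
/-- the Hecke eigenvalues of the form attached to `Ψ` -/
def ta (C : CM F E) (Ψ : Pl E → ℂˣ) (w : Pl F) : ℂ := if C.Gd w then Tor.tw Ψ w else 0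

/-- `Ψ` is not ramified above `w` -/
def Ms (C : CM F E) (Ψ : Pl E → ℂˣ) (w : Pl F) : Prop :=
  ∀ γ ∈ C.G1 {P | ¬ Ab w P}, C.eps Ψ ((γ : C.G) : Eˣ) = 1

/-- `w` is odd and inert, `Ψ` is tamely ramified at `w` and not fixed by the conjugation -/
structure Mr (C : CM F E) (Ψ : Pl E → ℂˣ) (w : Pl F) : Prop where
  mem : (C.D : 𝓞 F) ∈ w.asIdeal
  a : 2 * C.a ∉ w.asIdeal
  ns : ¬ IsSquare (algebraMap (𝓞 F) (Fw w) C.a)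
  tame : ∀ γ ∈ C.G1 {P | ¬ Ab w P},
    (∀ P : Pl E, Ab w P → P.valuation E ((((γ : C.G) : Eˣ) : E) - 1) < 1) → C.eps Ψ ((γ : C.G) : Eˣ) = 1
  ne : ∃ γ ∈ C.G1 {P | ¬ Ab w P}, C.eps Ψ ((γ : C.G) : Eˣ) ≠ C.eps Ψ (C.c ((γ : C.G) : Eˣ))

open Classical in
/-- the class function `c` is, up to a factor, a sum of characters of types, among them the type of
`Ψ` at `w` -/
structure Mc (C : CM F E) (Ψ : Pl E → ℂˣ) (io : Qb →+* ℂ) (w : Pl F) (l : ℕ)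
    (c : GL (Fin 2) (ZMod l) → Qb) : Prop where
  mem : (C.D : 𝓞 F) ∈ w.asIdeal
  a : 2 * C.a ∉ w.asIdeal
  cls : ∀ g x, c (x⁻¹ * g * x) = c g
  cen : ∀ z ∈ Subgroup.center (GL (Fin 2) (ZMod l)), ∀ g, c (z * g) = c g
  ex : ∃ (cu : Qb) (e : ℂ × Finset ℕ), (e.1 ≠ 0 ∧ 1 ∈ e.2) ∧
    (∀ g : GL (Fin 2) (ZMod l), g ∉ Subgroup.center _ → g.val.trace ^ 2 = 4 * g.val.det →
      c g = cu) ∧
    io cu + (io (c 1) - io cu) /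
      (if IsSquare (algebraMap (𝓞 F) (Fw w) C.a) then (l : ℂ) else -(l : ℂ)) =
        2 * e.1 * e.2.card ∧
    ∀ γ ∈ C.G1 {P | ¬ Ab w P}, ∀ (s t : F) (m n : ℤ),
      (((γ : C.G) : Eˣ) : E) = algebraMap F E s + algebraMap F E t * C.δ →
      w.valuation F (2 * s - m) < 1 → w.valuation F (s ^ 2 - C.a * t ^ 2 - n) < 1 →
      ((m : ZMod l) ^ 2 = 4 * n → C.eps Ψ ((γ : C.G) : Eˣ) = 1) ∧
      ∀ g : GL (Fin 2) (ZMod l), g.val.trace = m → g.val.det = n → (m : ZMod l) ^ 2 ≠ 4 * n →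
        io (c g) = e.1 * ∑ j ∈ e.2,
          (C.eps Ψ ((γ : C.G) : Eˣ) ^ j + C.eps Ψ (C.c ((γ : C.G) : Eˣ)) ^ j)

namespace QD

variable (X : QD F)

/-- an eigenform in the image of `f` -/
def Sf (C : CM F E) (Ψ : Pl E → ℂˣ) (U : Subgroup X.G) (f : X.G → ℂ) : Prop :=
  ∃ ω₀ ∈ X.tw.Om U, wk f U ω₀ ≠ 0 ∧ ∃ Z : Finset (Pl F), ∀ w, w ∉ Z →
    ∃ L : X.tw.Lc (Oc w) (Fw w), X.IsPl w L ∧ L.At (KK (Oc w) (Fw w)) U ∧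
      hk (L.To U) U (wk f U ω₀) = ta C Ψ w • wk f U ω₀

end QD

end

/-- the hypotheses on a Hecke character of a CM extension `X.F(√-Δ)` -/
structure Shy (X : Fd) (S : Finset ℕ) (L : Lv) {E : Type} [Field E] [NumberField E] [Algebra X.F E]
    (C : CM X.F E) (Ψ : Pl E → ℂˣ) (io : Qb →+* ℂ) (Δ : ℕ) : Prop where
  hk : C.Hk Ψ
  kp : Kp C Ψ
  md : Δ % 4 = 3
  a : C.a = -(Δ : 𝓞 X.F)
  emb : io.comp X.j = C.t1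
  ev : Even (Module.finrank ℚ X.F)
  v0 : Mr C Ψ X.v0
  sph : ∀ w, SphW X S w → Even (ordv w (Δ : X.F)) ∧ Ms C Ψ w
  ty : ∀ l c w, l.Prime → TyW X S l w → L l = some c → Mc C Ψ io w l c

/-- **SAUT**: the automorphic system of a Hecke character -/
def SAUT : Prop := ∀ (X : Fd) (S : Finset ℕ) (L : Lv) (E : Type) [Field E] [NumberField E]
  [Algebra X.F E] (C : CM X.F E) (Ψ : Pl E → ℂˣ) (io : Qb →+* ℂ) (Δ : ℕ), Shy X S L C Ψ io Δ →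
  ∃ b, Aut X 0 S L b ∧ ∃ Z : Finset X.Pl, ∀ w, w ∉ Z → io (b w) = ta C Ψ w

open Classical in
/-- **TORN2**: `TORN` with the inert places -/
def TORN2 : Prop := AllC fun {F E} _ _ _ _ _ _ C Ψ => ∀ (φ : C.G → ℂ) (Z : Finset (Pl F))
  (wt : Finset (Pl F) → TF F E → ℂ), C.Geo Ψ φ Z wt →
  ∀ (M : Type) [AddCommGroup M] [Module ℂ M] [FiniteDimensional ℂ M] (T : Pl F → Module.End ℂ M)
    (TW : Finset (Pl F) → Module.End ℂ M) (P H : Module.End ℂ M),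
    (∀ w w', Commute (T w) (T w')) → (∀ w, Commute (T w) P) → TW ∅ = P →
    (∀ W w, w ∉ W → (∀ v ∈ insert w W, C.Gd v ∧ v ∉ Z) → TW (insert w W) = T w * TW W) →
    (∀ W : Finset (Pl F), W.Nonempty → (∀ w ∈ W, C.Gd w ∧ w ∉ Z) →
      LinearMap.trace ℂ M (H * TW W) = ∑ᶠ q, wt W q) →
    (∀ w, w ∉ Z → ¬ C.Gd w → T w * H = -(H * T w)) →
    ∃ y, P y ≠ 0 ∧ ∃ Z' : Finset (Pl F), ∀ w, w ∉ Z' → T w (P y) = ta C Ψ w • P y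

/-- **SEEDC** -/
def SEEDC : Prop := AllC fun {_ _} _ _ _ _ _ X C Ψ => ∀ η S V f φ T1, Eta C Ψ η →
  X.Ld C η S V f φ T1 → X.tw.Neat (X.PU V) → (∃ ε, X.Cm C ε) →
  (∀ ε, X.Cm C ε → ∀ w ∈ S, Nl C Ψ w fun γ => φ w (X.lc ε w γ)) →
  X.PU V ∈ X.tw.Lev ∧ X.Sf C Ψ (X.PU V) (X.gf S V f)

/-- **SEED3**: the level is made small at `w0` -/
def SEED3 : Prop := AllC fun {F _} _ _ _ _ _ X C Ψ => ∀ (S S' : Finset (Pl F))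
  (V : ∀ w, Subgroup (X.Dw w)ˣ) (f φ : ∀ w, (X.Dw w)ˣ → ℂ) (w0 : Pl F), Disjoint S S' → w0 ∈ S →
  (∀ w, (w ∈ S ∨ w ∈ S') ↔ (C.D : 𝓞 F) ∈ w.asIdeal) → (∀ w ∈ S', X.Spl w) → (∃ ε, X.Cm C ε) →
  (∀ w ∈ S, ((∃ κ, (X.TyM w κ (V w) (f w) (φ w) ∨ X.TyS w κ (V w) (f w) (φ w)) ∧ Kw C Ψ w κ) ∨
      (X.TyR w (V w) (f w) (φ w) ∧ Kw C Ψ w (-(qw w : ℂ)))) ∧
    ∀ ε, X.Cm C ε → Nl C Ψ w fun γ => φ w (X.lc ε w γ)) →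
  ∃ V' : ∀ w, Subgroup (X.Dw w)ˣ, (∀ w ∈ S, w ≠ w0 → V' w = V w) ∧
    (∀ w, w ∉ S → w ∉ S' → V' w = X.U0 w) ∧ X.PU V' ∈ X.tw.Lev ∧ X.tw.Neat (X.PU V') ∧
    (∀ w ∈ S, Tf (V' w) (f w)) ∧ X.Sf C Ψ (X.PU V') (X.gf S V' f)

/-- **KRON2**: `KRON` at all places where `F(√-Δ)` is not ramified -/
def KRON2 : Prop := AllC fun {F _} _ _ _ _ _ _ C Ψ => ∀ Δ : ℕ, Δ % 4 = 3 → C.a = -(Δ : 𝓞 F) →
  ∀ w : Pl F, (C.D : 𝓞 F) ∈ w.asIdeal → Even (ordv w (Δ : F)) →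
    (IsSquare (algebraMap (𝓞 F) (Fw w) C.a) → Kw C Ψ w (qw w)) ∧
    (¬ IsSquare (algebraMap (𝓞 F) (Fw w) C.a) → Kw C Ψ w (-(qw w : ℂ)))

/-- **ENL**: change of the modulus -/
def ENL : Prop := ∀ (X : Fd) (S : Finset ℕ) (L : Lv) (E : Type) [Field E] [NumberField E]
  [Algebra X.F E] (C : CM X.F E) (Ψ : Pl E → ℂˣ) (io : Qb →+* ℂ) (Δ n : ℕ) (hn : 0 < n),
  Shy X S L C Ψ io Δ → Shy X S L (enl C n hn) Ψ io Δ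

/-- **DG1**: places of degree one -/
def DG1 : Prop := ∀ (F : Type) [Field F] [NumberField F] (j : F →+* Qb) (l : ℕ) [Fact l.Prime]
  (P : Ideal (𝓞 Qb)) (w : Pl F), Ov l P → below j P = w.asIdeal → dec P ≤ GK j →
  ∃ e : Fw w ≃+* ℚ_[l], ∀ x, x ∈ Ow w ↔ e x ∈ (algebraMap ℤ_[l] ℚ_[l]).range

/-- **PLC3**: the three kinds of places -/
def PLC3 : Prop := ∀ (X : Fd) (S : Finset ℕ),
  (∀ w, w = X.v0 ∨ SphW X S w ∨ ∃ l, l.Prime ∧ TyW X S l w) ∧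
  (∀ w l, SphW X S w → w ≠ X.v0 ∧ ¬ TyW X S l w) ∧
  (∀ w l l', TyW X S l w → TyW X S l' w → l = l') ∧ {w | ¬ SphW X S w}.Finite

/-- **YEX**: the quaternion algebra -/
def YEX : Prop := ∀ (F E : Type) [Field F] [NumberField F] [Field E] [NumberField E] [Algebra F E]
  (C : CM F E) (v : Pl F), Even (Module.finrank ℚ F) →
  ¬ IsSquare (algebraMap (𝓞 F) (Fw v) C.a) → ∃ (Y : QD F) (n : ℕ) (hn : 0 < n),
    (∀ w, Y.Spl w ↔ w ≠ v) ∧ (∃ ε, Y.Cm (enl C n hn) ε) ∧ ∃ s, Y.IsSp s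

/-- **SPL**: splittings adapted to `F(√-Δ)` -/
def SPL : Prop := AllQ fun {F} _ _ X => ∀ Δ : ℕ, Δ % 4 = 3 → X.a = -(Δ : 𝓞 F) → ∀ w, X.Spl w →
  Even (ordv w (Δ : F)) →
  ∃ (s : X.Dw w ≃ₐ[Fw w] Matrix (Fin 2) (Fin 2) (Fw w)) (ω : Matrix (Fin 2) (Fin 2) (Fw w))
    (x y : Fw w), Et (vw w) ω ∧ y ≠ 0 ∧ s ⟨0, 1, 0, 0⟩ = x • 1 + y • ω

/-- **TYS**: the maximal level -/
def TYS : Prop := AllQ fun {F} _ _ X => ∀ Δ : ℕ, Δ % 4 = 3 → X.a = -(Δ : 𝓞 F) → ∀ w, X.Spl w →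
  Even (ordv w (Δ : F)) → ∃ (V : _) (f φ : _) (κ : ℂ) (L : X.tw.Lc (Oc w) (Fw w)),
    X.TyS w κ V f φ ∧ X.IsPl w L ∧
    ∀ V' : ∀ v, Subgroup (X.Dw v)ˣ, V' w = V → L.At (KK (Oc w) (Fw w)) (X.PU V')

/-- **TYP**: the types of level `K(l)` -/
def TYP : Prop := AllC fun {F _} _ _ _ _ _ X C Ψ => ∀ (io : Qb →+* ℂ) (w : Pl F) (l : ℕ)
  [Fact l.Prime] (c : GL (Fin 2) (ZMod l) → Qb) (e : Fw w ≃+* ℚ_[l]),
  (∀ x, x ∈ Ow w ↔ e x ∈ (algebraMap ℤ_[l] ℚ_[l]).range) → C.a = X.a → X.Spl w →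
  Mc C Ψ io w l c → (∃ κ, Kw C Ψ w κ) →
  ∃ (V : _) (f φ : _) (κ k : ℂ) (L : X.tw.Lc ℤ_[l] ℚ_[l]), X.TyM w κ V f φ ∧
    (∀ ε, X.Cm C ε → Nl C Ψ w fun γ => φ (X.lc ε w γ)) ∧ X.IsPl w L ∧
    ∀ V' : ∀ v, Subgroup (X.Dw v)ˣ, V' w = V → L.At (Km ℤ_[l] ℚ_[l] 1) (X.PU V') ∧
      ∀ g : ∀ v, (X.Dw v)ˣ → ℂ, g w = f → ∀ (B : Type) [AddCommGroup B] [Module ℂ B] (ω : X.G → B),
        Inv (X.PU V') ω → wk (X.gf {w} V' g) (X.PU V') ω = k • L.ec (fun x => io (c x)) ω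

/-- **TYR**: the type at the place where `D` is ramified -/
def TYR : Prop := AllC fun {F _} _ _ _ _ _ X C Ψ => ∀ w : Pl F, (∃ ε, X.Cm C ε) → ¬ X.Spl w →
  Mr C Ψ w → Kw C Ψ w (-(qw w : ℂ)) →
  ∃ V f φ, X.TyR w V f φ ∧ ∀ ε, X.Cm C ε → Nl C Ψ w fun γ => φ (X.lc ε w γ)

/-- **ECA**: the operator of a class function -/
def ECA : Prop := All fun {_ G} _ _ T => ∀ (l : ℕ) [Fact l.Prime] (L : T.Lc ℤ_[l] ℚ_[l]),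
  ∀ U ∈ T.Lev, L.At (Km ℤ_[l] ℚ_[l] 1) U → ∀ (Λ B : Type) [Field Λ] [CharZero Λ] [AddCommGroup B]
    [Module Λ B] (c : GL (Fin 2) (ZMod l) → Λ), (∀ g x, c (x⁻¹ * g * x) = c g) →
    ∀ φ : G → B, Inv U φ → Inv U (L.ec c φ) ∧ (L.ec c (L.ec c φ) = 0 → L.ec c φ = 0)

/-- **JNT**: joint eigenclasses over `ℚ̄` -/
def JNT : Prop := AllQ fun {_} _ _ Y => ∀ s : Y.Sp Qb, ∀ U ∈ Y.tw.Lev, Y.tw.Neat U →
  ∀ (io : Qb →+* ℂ) (I : Type) (A : I → Y.G →₀ Qb) (A' : I → Y.G →₀ ℂ)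
    (W : Submodule ℂ (Y.G → ℍ → ℂ)), (∀ i g, A' i g = io (A i g)) → W ≤ Y.tw.Om U → W ≠ ⊥ →
    (∀ i, ∀ ω ∈ W, op (A' i) ω ∈ W) →
    (∀ i k, ∀ ω ∈ W, op (A' i) (op (A' k) ω) = op (A' k) (op (A' i) ω)) →
    (∀ i (B : Type) [AddCommGroup B] [Module Qb B] (φ : Y.G → B), Inv U φ → Inv U (op (A i) φ)) →
    ∃ b : I → Qb, (∃ ω ∈ W, ω ≠ 0 ∧ ∀ i, op (A' i) ω = io (b i) • ω) ∧
      ∃ z ∈ Y.tw.Z1 (Y.rw 0 s) U, z ∉ Y.tw.B1 (Y.rw 0 s) U ∧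
        ∀ i, Y.tw.Eig (Y.rw 0 s) U z (op (A i)) (b i)

end Vale.Agent.P022K.Sh
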