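import Vale.Agent.P022K.F0.TorE

/-!
# P022K, block F0, row TOR
-/

set_option linter.all false

open NumberField IsDedekindDomain WithZero Finset

noncomputable section

namespace Vale.Agent.P022K.Sh.Tor

open Vale.Agent.P022.C (ordv)
open Vale.Agent.P027M.S (Pr Nr)
open Vale.Agent.P027M.S.Cls (val_eq ordv_of ordv_mul ordv_zpow ordv_pow le_exp gen_pow)

variable {F E : Type} [Field F] [NumberField F] [Field E] [NumberField E] [Algebra F E]

theorem fp_S {α M : Type} [CommMonoid M] {p : α → Prop} {g : α → M} {S : Finset α}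
    (hS : ∀ v ∈ S, p v) (h : ∀ v, p v → v ∉ S → g v = 1) :
    ∏ᶠ (v) (_ : p v), g v = ∏ v ∈ S, g v :=
  finprod_cond_eq_prod_of_cond_iff _ fun k => ⟨fun a => by_contra fun b => k (h _ a b), hS _⟩

namespace CM

variable (C : CM F E)

theorem pv_S (Ψ : Pr E → ℂˣ) {γ : E} {S : Finset (Pr F)}
    (h : ∀ P, un F P ∉ S → ordv P γ = 0) : pv Ψ γ = ∏ v ∈ S, ∏ P ∈ C.pr v, Ψ P ^ ordv P γ := by
  classical
  rw [pv, finprod_eq_prod_of_mulSupport_subset (s := S.biUnion C.pr) _ fun P k => ?_,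
    prod_biUnion fun v _ w _ k => disjoint_left.2 fun P a b =>
      k ((C.mem_pr.1 a).eq.symm.trans (C.mem_pr.1 b).eq)]
  by_contra n
  refine k ?_
  simp only [h P fun a => n (mem_coe.2 (mem_biUnion.2 ⟨_, a, C.mem_pr.2 (ab_un P)⟩)), zpow_zero]

theorem exists_S (W : Finset (Pr F)) (hW : ∀ w ∈ W, C.Gd w) (γ : C.G) {t : F} (ht : t ≠ 0) :
    ∃ S : Finset (Pr F), W ⊆ S ∧ (∀ v ∈ S, (C.D : 𝓞 F) ∉ v.asIdeal) ∧
      (∀ v : Pr F, (C.D : 𝓞 F) ∉ v.asIdeal → v ∉ S → ordv v t = 0) ∧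
      ∀ P, un F P ∉ S → ordv P ((γ : Eˣ) : E) = 0 := by
  classical
  refine ⟨(W ∪ (ordv_fin ht).toFinset ∪ (ordv_fin (γ : Eˣ).ne_zero).toFinset.image (un F)).filter
    fun v => (C.D : 𝓞 F) ∉ v.asIdeal, fun w h => mem_filter.2 ⟨by simp [h], (hW w h).1⟩,
    fun v h => (mem_filter.1 h).2, fun v a b => by_contra fun k => b (mem_filter.2 ⟨?_, a⟩),
    fun P b => by_contra fun k => b (mem_filter.2 ⟨?_, fun a => k ?_⟩)⟩
  · exact mem_union_left _ (mem_union_right _ ((Set.Finite.mem_toFinset _).2 k))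
  · exact mem_union_right _ (mem_image_of_mem _ ((Set.Finite.mem_toFinset _).2 k))
  · exact ordv_one (γ.2 P (((ab_un P).nat _).2 a))

open Classical in
/-- the divisor attached to a choice of primes above `W` -/
def aW (W W' : Finset (Pr F)) : C.I := (∏ w ∈ W', C.e w) * (∏ w ∈ W \ W', C.e w)⁻¹

open Classical in
/-- the value of `Ψ` on the ideal attached to a choice of primes above `W` -/
def zW (Ψ : Pr E → ℂˣ) (W W' : Finset (Pr F)) : ℂˣ :=
  (∏ w ∈ W', Ψ (up E w)) * ∏ w ∈ W \ W', Ψ (C.pi (up E w))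

open Classical in
theorem ta_aW (W W' : Finset (Pr F)) (v : C.J) :
    C.ta (C.aW W W') v = (if v.1 ∈ W' then 1 else 0) - if v.1 ∈ W \ W' then 1 else 0 := by
  rw [aW, ta_mul, ta_inv, Finsupp.add_apply, Finsupp.neg_apply, prod_e, prod_e, sub_eq_add_neg]

theorem aW_inj {W W1 W2 : Finset (Pr F)} (hW : ∀ w ∈ W, C.Gd w) (h1 : W1 ⊆ W) (h2 : W2 ⊆ W)
    (h : C.aW W W1 = C.aW W W2) : W1 = W2 := by
  classical
  ext v
  by_cases k : v ∈ W
  · have := congrArg (fun a => C.ta a ⟨v, hW v k⟩) h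
    simp only [ta_aW, mem_sdiff, k, true_and] at this
    by_cases a : v ∈ W1 <;> by_cases b : v ∈ W2 <;> simp_all
  · exact iff_of_false (fun a => k (h1 a)) fun a => k (h2 a)

open Classical in
theorem dif {W W' : Finset (Pr F)} (hW : ∀ w ∈ W, C.Gd w) (h' : W' ⊆ W) {γ : C.G}
    (h : C.d γ = C.aW W W') {v : Pr F} (hv : (C.D : 𝓞 F) ∉ v.asIdeal) :
    ordv (up E v) ((γ : Eˣ) : E) - ordv (C.pi (up E v)) ((γ : Eˣ) : E) =
      (if v ∈ W' then 1 else 0) - if v ∈ W \ W' then 1 else 0 := by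
  by_cases g : C.Gd v
  · rw [← C.d_apply γ ⟨v, g⟩, h, ta_aW]
  · have : C.pi (up E v) = up E v := by_contra fun k => g (gd_of_ne hv (ab_up v) k)
    rw [this, if_neg fun k => g (hW v (h' k)), if_neg fun k => g (hW v (mem_sdiff.1 k).1),
      sub_self, sub_self]

theorem prod_Ov (Ψ : Pr E → ℂˣ) {W W' : Finset (Pr F)} (hW : ∀ w ∈ W, C.Gd w) (h' : W' ⊆ W)
    {γ : C.G} (h : C.d γ = C.aW W W') {s t : F} (ht : t ≠ 0)
    (e : ((γ : Eˣ) : E) = algebraMap F E s + algebraMap F E t * C.δ) :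
    C.rho Ψ t * ∏ᶠ (v : Pr F) (_ : (C.D : 𝓞 F) ∉ v.asIdeal), C.Ov Ψ W s t v =
      (∏ τ : F →+* ℂ, τ t) * C.zW Ψ W W' / pv Ψ ((γ : Eˣ) : E) := by
  classical
  obtain ⟨S, S1, S2, S3, S4⟩ := C.exists_S W hW γ ht
  have nD : ∀ {v : Pr F}, (C.D : 𝓞 F) ∉ v.asIdeal → (C.D : 𝓞 E) ∉ (up E v).asIdeal :=
    fun a k => a (((ab_up _).nat _).1 k)
  have o : ∀ v : Pr F, (C.D : 𝓞 F) ∉ v.asIdeal →
      C.Ov Ψ W s t v = (kap Ψ v ^ (ordv v t - mv v s t) : ℂˣ) := fun v a => by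
    obtain ⟨m1, m2⟩ := mv_eq (ab_up v) (nD a) ht (γ : Eˣ).ne_zero e
    have := C.dif hW h' h a
    refine if_pos ?_
    rw [m1, m2]
    by_cases b : v ∈ W'
    · simp only [b, h' b, mem_sdiff, if_true, not_true, and_false, if_false] at this ⊢
      omega
    · by_cases c : v ∈ W <;>
        simp only [b, c, mem_sdiff, if_true, not_false_iff, and_true, if_false] at this ⊢ <;> omega
  have l : ∀ v ∈ S, ∏ P ∈ C.pr v, Ψ P ^ ordv P ((γ : Eˣ) : E) = kap Ψ v ^ mv v s t *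
      ((if v ∈ W' then Ψ (up E v) else 1) * if v ∈ W \ W' then Ψ (C.pi (up E v)) else 1) :=
    fun v hv => by
    have m1 := (mv_eq (ab_up v) (nD (S2 v hv)) ht (γ : Eˣ).ne_zero e).1
    have := C.dif hW h' h (S2 v hv)
    rw [C.kap_eq, ← prod_zpow]
    by_cases c : v ∈ W
    · rw [pr, prod_pair ((hW v c).ne (ab_up v)).symm, prod_pair ((hW v c).ne (ab_up v)).symm]
      by_cases b : v ∈ W'
      · simp only [b, c, mem_sdiff, if_true, not_true, and_false, if_false] at this ⊢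
        rw [show ordv (up E v) ((γ : Eˣ) : E) = mv v s t + 1 by omega,
          show ordv (C.pi (up E v)) ((γ : Eˣ) : E) = mv v s t by omega, zpow_add_one, mul_one,
          mul_right_comm]
      · simp only [b, c, mem_sdiff, if_true, not_false_iff, and_true, if_false] at this ⊢
        rw [show ordv (up E v) ((γ : Eˣ) : E) = mv v s t by omega,
          show ordv (C.pi (up E v)) ((γ : Eˣ) : E) = mv v s t + 1 by omega, zpow_add_one, one_mul,
          mul_assoc]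
    · rw [if_neg fun k => c (h' k), if_neg fun k => c (mem_sdiff.1 k).1] at this ⊢
      rw [mul_one, mul_one]
      refine prod_congr rfl fun P hP => ?_
      rcases C.ab_or (ab_up v) (C.mem_pr.1 hP) with rfl | rfl <;> congr 1 <;> omega
  rw [rho, fp_S S2 fun v a b => by rw [S3 v a b, zpow_zero], fp_S S2 fun v a b => by
      have m1 := (mv_eq (ab_up v) (nD a) ht (γ : Eˣ).ne_zero e).1
      rw [S4 _ (by rwa [(ab_up v).eq]), S4 _ (by rwa [un_pi, (ab_up v).eq])] at m1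
      rw [o v a, S3 v a b, m1, min_self, sub_self, zpow_zero, Units.val_one],
    prod_congr rfl fun v hv => o v (S2 v hv), C.pv_S Ψ S4, prod_congr rfl l, prod_mul_distrib,
    prod_mul_distrib, prod_ite_mem, prod_ite_mem, inter_eq_right.2 (h'.trans S1),
    inter_eq_right.2 (sdiff_subset.trans S1), ← zW, ← Units.coe_prod]
  simp only [zpow_sub, prod_mul_distrib, prod_inv_distrib, Units.val_mul, Units.val_inv_eq_inv_val]
  generalize ∏ v ∈ S, kap Ψ v ^ ordv v t = A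
  field_simp

theorem prod_Ov_ne (Ψ : Pr E → ℂˣ) {W : Finset (Pr F)} (hW : ∀ w ∈ W, C.Gd w)
    {γ : C.G} {s t : F} (ht : t ≠ 0)
    (e : ((γ : Eˣ) : E) = algebraMap F E s + algebraMap F E t * C.δ)
    (h : ∏ᶠ (v : Pr F) (_ : (C.D : 𝓞 F) ∉ v.asIdeal), C.Ov Ψ W s t v ≠ 0) :
    ∃ W' ⊆ W, C.d γ = C.aW W W' := by
  classical
  obtain ⟨S, S1, S2, S3, S4⟩ := C.exists_S W hW γ ht
  have nD : ∀ {v : Pr F}, (C.D : 𝓞 F) ∉ v.asIdeal → (C.D : 𝓞 E) ∉ (up E v).asIdeal :=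
    fun a k => a (((ab_up _).nat _).1 k)
  have z : ∀ v, v ∉ S → ordv (up E v) ((γ : Eˣ) : E) = 0 ∧
      ordv (C.pi (up E v)) ((γ : Eˣ) : E) = 0 := fun v b =>
    ⟨S4 _ (by rwa [(ab_up v).eq]), S4 _ (by rwa [un_pi, (ab_up v).eq])⟩
  rw [fp_S S2 fun v a b => by
    obtain ⟨m1, m2⟩ := mv_eq (ab_up v) (nD a) ht (γ : Eˣ).ne_zero e
    rw [(z v b).1, (z v b).2] at m1 m2
    rw [Ov, m1, m2, S3 v a b, if_neg fun k => b (S1 k), if_pos (by simp)]
    simp] at h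
  refine ⟨W.filter fun v => ordv (up E v) ((γ : Eˣ) : E) =
    ordv (C.pi (up E v)) ((γ : Eˣ) : E) + 1, filter_subset _ _, C.ta_inj fun v => ?_⟩
  rw [d_apply, ta_aW]
  simp only [mem_sdiff, mem_filter]
  by_cases b : v.1 ∈ S
  · have c := prod_ne_zero_iff.1 h _ b
    obtain ⟨m1, m2⟩ := mv_eq (ab_up v.1) (nD v.2.1) ht (γ : Eˣ).ne_zero e
    rw [Ov, m1, m2] at c
    have c' := by_contra fun k => c (if_neg k)
    by_cases a : v.1 ∈ W <;>
      simp only [a, if_true, if_false, true_and, false_and] at c' ⊢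
    · split_ifs <;> omega
    · omega
  · have a : v.1 ∉ W := fun k => b (S1 k)
    simp only [a, if_false, false_and, (z _ b).1, (z _ b).2]

/-- the signs and types -/
abbrev KT : Type := {S : Finset (F →+* ℂ) // C.t1 ∉ S}

instance : Fintype C.KT := Fintype.ofFinite _

open Classical in
theorem sum_nu (γ : C.G) : ∑ k : C.KT, (-1) ^ k.1.card * (C.nu k.1 γ : ℂ) =
    ∏ τ ∈ univ.erase C.t1, (1 - C.sec τ (C.c (γ : Eˣ)) / C.sec τ (γ : Eˣ)) := by
  simp only [sub_eq_add_neg, prod_one_add, prod_neg, nu_apply]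
  exact (sum_subtype (p := fun S : Finset (F →+* ℂ) => C.t1 ∉ S) (univ.erase C.t1).powerset
    (fun S => by simp [subset_erase])
    fun S => (-1) ^ S.card * ∏ τ ∈ S, C.sec τ (C.c (γ : Eˣ)) / C.sec τ (γ : Eˣ)).symm

theorem arch (γ : C.G) {s t : F} (ht : t ≠ 0)
    (e : ((γ : Eˣ) : E) = algebraMap F E s + algebraMap F E t * C.δ) :
    C.sec C.t1 (γ : Eˣ) / (C.sec C.t1 (γ : Eˣ) - C.sec C.t1 (C.c (γ : Eˣ))) *
      ∏ τ : F →+* ℂ, τ t = (∏ τ, 2 * C.sec τ C.δ)⁻¹ * C.NT (γ : Eˣ) *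
        ∑ k : C.KT, (-1) ^ k.1.card * (C.nu k.1 γ : ℂ) := by
  classical
  have e1 : ∀ τ, C.sec τ (γ : Eˣ) - C.sec τ (C.c (γ : Eˣ)) = τ t * (2 * C.sec τ C.δ) := fun τ => by
    rw [e, c_co, map_add, map_sub, map_mul, C.ovr, C.ovr]
    ring
  have n1 : ∀ τ, C.sec τ C.δ ≠ 0 := fun τ => (map_ne_zero _).2 C.δ0
  have n2 : ∀ τ, C.sec τ (γ : Eˣ) ≠ 0 := fun τ => (map_ne_zero _).2 (Units.ne_zero _)
  have n3 : C.t1 t ≠ 0 := (map_ne_zero _).2 ht
  have n4 : ∏ τ ∈ univ.erase C.t1, 2 * C.sec τ C.δ ≠ 0 :=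
    prod_ne_zero_iff.2 fun τ _ => mul_ne_zero two_ne_zero (n1 τ)
  have n5 : ∏ τ ∈ univ.erase C.t1, C.sec τ (γ : Eˣ) ≠ 0 := prod_ne_zero_iff.2 fun τ _ => n2 τ
  have := n1 C.t1
  have sp : ∀ f : (F →+* ℂ) → ℂ, ∏ τ, f τ = f C.t1 * ∏ τ ∈ univ.erase C.t1, f τ := fun f =>
    (mul_prod_erase _ _ (mem_univ C.t1)).symm
  rw [sum_nu, prod_congr (s₁ := univ.erase C.t1) rfl fun τ _ => by rw [one_sub_div (n2 τ), e1],
    prod_div_distrib, prod_mul_distrib (s := univ.erase C.t1), NT, e1, sp, sp, sp]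
  generalize ∏ τ ∈ univ.erase C.t1, 2 * C.sec τ C.δ = A at n4 ⊢
  field_simp

theorem NT_mul (x y : E) : C.NT (x * y) = C.NT x * C.NT y := by
  simp only [NT, map_mul, prod_mul_distrib]

theorem eps_mul (Ψ : Pr E → ℂˣ) {x y : E} (hx : x ≠ 0) (hy : y ≠ 0) :
    C.eps Ψ (x * y) = C.eps Ψ x * C.eps Ψ y := by
  rw [eps, eps, eps, NT_mul, pv_mul Ψ hx hy, Units.val_mul, mul_div_mul_comm]

theorem eps_one {Ψ : Pr E → ℂˣ} (h : C.Hk Ψ) {u : C.G} (hu : u ∈ C.G1 Set.univ) :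
    C.eps Ψ (u : Eˣ) = 1 := by
  rw [eps, ← h u hu, div_self (Units.ne_zero _)]

end CM

open CM

theorem tor : TOR := by
  classical
  intro F E _ _ _ _ _ C Ψ φ Z wt hΨ G R V _ _ _ _ _ ρ T A hL
  choose ξ ξ1 ξ2 using C.exists_xi
  let _ : Fintype C.U := Fintype.ofFinite _
  let _ : Fintype ((C.U × C.I) ⧸ C.H →* ℂˣ) := Fintype.ofFinite _
  let g : C.U → ℂ := fun u => φ (Quotient.out u) * C.eps Ψ ((Quotient.out u : C.G) : Eˣ)
  have gr : ∀ γ, g (C.r γ) = φ γ * C.eps Ψ (γ : Eˣ) := fun γ => by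
    obtain ⟨u, hu⟩ := QuotientGroup.mk_out_eq_mul (C.G1 Set.univ) γ
    have : Quotient.out (C.r γ) = u * γ := hu.trans (mul_comm _ _)
    simp only [g]
    rw [this, G.per u u.2, Subgroup.coe_mul, Units.val_mul,
      C.eps_mul Ψ (Units.ne_zero _) (Units.ne_zero _), C.eps_one hΨ u.2, one_mul]
  have d0 : ∀ γ ∈ (sc F E).range.subgroupOf C.G, C.d γ = 1 := by
    rintro γ ⟨l, hl⟩
    refine C.ta_inj fun v => ?_
    rw [d_apply, ordv_pi, show ((γ : Eˣ) : E) = algebraMap F E l from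
      congrArg Units.val hl.symm, AlgEquiv.commutes, sub_self]
    rfl
  have hp : ∀ γ γ' : C.G, ((γ : Eˣ) : TF F E) = (γ' : Eˣ) ↔
      γ⁻¹ * γ' ∈ (sc F E).range.subgroupOf C.G := fun γ γ' => QuotientGroup.eq
  have dp : ∀ γ γ' : C.G, ((γ : Eˣ) : TF F E) = (γ' : Eˣ) → C.d γ = C.d γ' := fun γ γ' h => by
    have := d0 _ ((hp _ _).1 h)
    rwa [map_mul, map_inv, inv_mul_eq_one] at this
  have t0 : ∀ (γ : C.G) (s : F), ((γ : Eˣ) : E) = algebraMap F E s → ((γ : Eˣ) : TF F E) = 1 :=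
    fun γ s h => (QuotientGroup.eq_one_iff _).2 ⟨Units.mk0 s fun k => (γ : Eˣ).ne_zero (by
      rw [h, k, map_zero]), Units.ext h.symm⟩
  obtain ⟨M, M0, hM⟩ := expand (Γ := C.G) C.r C.d ((sc F E).range.subgroupOf C.G)
    (fun γ => ((γ : Eˣ) : TF F E)) hp d0 (fun γ a b => by
      obtain ⟨s, hs⟩ := C.fix (C.neat' a b)
      exact (QuotientGroup.eq_one_iff (γ : Eˣ)).1 (t0 γ s hs))
    (fun k : C.KT => ξ k.1) (fun k => (-1) ^ k.1.card) g
  let χ : C.KT × ((C.U × C.I) ⧸ C.H →* ℂˣ) → C.U × C.I →* ℂˣ := fun k =>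
    ξ k.1 * k.2.comp (QuotientGroup.mk' _)
  let K0 : ℂ := (∏ τ, 2 * C.sec τ C.δ)⁻¹
  have K1 : K0 ≠ 0 := inv_ne_zero (prod_ne_zero_iff.2 fun τ _ =>
    mul_ne_zero two_ne_zero ((map_ne_zero _).2 C.δ0))
  let k0 : C.KT × ((C.U × C.I) ⧸ C.H →* ℂˣ) := (⟨∅, notMem_empty _⟩, 1)
  have χ0 : χ k0 = 1 := by
    refine MonoidHom.ext fun y => ?_
    simp only [χ, k0, ξ2 ∅ rfl, MonoidHom.mul_apply, MonoidHom.comp_apply, MonoidHom.one_apply,
      mul_one]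
  have s0 : ∀ w, (Ψ (up E w) : ℂ) * χ k0 (1, C.e w) + Ψ (C.pi (up E w)) * χ k0 (1, (C.e w)⁻¹) =
      Ψ (up E w) + Ψ (C.pi (up E w)) := fun w => by simp [χ0]
  have KEY := key ρ T (S := {v | C.Gd v})
    (fun k w => (Ψ (up E w) : ℂ) * χ k (1, C.e w) + Ψ (C.pi (up E w)) * χ k (1, (C.e w)⁻¹))
    (fun k => K0 * (M * (-1) ^ k.1.1.card * ∑ u, g u * χ k (u, 1))) k0
    (mul_ne_zero K1 (mul_ne_zero (mul_ne_zero M0 (pow_ne_zero _ (by norm_num))) (by
      have : ∑ᶠ u, g u ≠ 0 := G.ne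
      rw [finsum_eq_sum_of_fintype] at this
      simpa [χ0] using this)))
    (fun k hk Z => by
      by_contra n
      push Not at n
      obtain ⟨a, b⟩ := C.iso hΨ k.1.2 (χ k) (fun γ => by
        simp only [χ, MonoidHom.mul_apply, MonoidHom.comp_apply, QuotientGroup.mk'_apply, ξ1]
        rw [(QuotientGroup.eq_one_iff (N := C.H) (C.r γ, C.d γ)).2 ⟨γ, rfl⟩, map_one, mul_one]) Z
        fun w a b => (n w a b).trans (s0 w)
      refine hk (Prod.ext (Subtype.ext a) (MonoidHom.ext fun q => ?_))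
      obtain ⟨y, rfl⟩ := QuotientGroup.mk'_surjective _ q
      simpa [χ, k0, ξ2 _ a] using DFunLike.congr_fun b y) A Z
  refine (KEY fun W hW => ?_).imp fun x h => ⟨h.1, h.2.imp fun Z' hx w a b => by
    rw [hx w a b, s0, C.tw_eq Ψ a]⟩
  have hW1 : ∀ w ∈ W, C.Gd w := fun w h => (hW w h).1
  let w' : Finset (Pr F) → TF F E → ℂ := fun W' q =>
    if ∃ γ : C.G, ((γ : Eˣ) : TF F E) = q ∧ C.d γ = C.aW W W' then wt W q else 0
  have h1 := fun W' (h' : W' ∈ W.powerset) => hM (C.aW W W') (w' W') (K0 * C.zW Ψ W W')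
    (fun q h => if_neg fun ⟨γ, a, b⟩ => h γ a b) fun γ h => by
      rw [show w' W' _ = wt W _ from if_pos ⟨γ, rfl, h⟩]
      simp only [ξ1]
      obtain ⟨s, t, e⟩ := C.span (γ : Eˣ)
      by_cases ht : t = 0
      · rw [ht, map_zero, zero_mul, add_zero] at e
        obtain ⟨τ, hτ⟩ := C.two
        rw [G.w0 W hW _ (Or.inl (t0 γ s e)), sum_nu, prod_eq_zero (mem_erase.2 ⟨hτ, mem_univ τ⟩),
          mul_zero]
        rw [e, AlgEquiv.commutes, ← e, div_self ((map_ne_zero _).2 (Units.ne_zero _)), sub_self]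
      rw [G.w1 W hW γ s t ht e, mul_assoc, mul_assoc,
        C.prod_Ov Ψ hW1 (mem_powerset.1 h') h ht e, gr, eps]
      linear_combination (φ γ * C.zW Ψ W W' / pv Ψ ((γ : Eˣ) : E)) * C.arch γ ht e
  have h2 : ∀ q, wt W q = ∑ W' ∈ W.powerset, w' W' q := fun q => by
    by_cases h : ∃ W' ∈ W.powerset, ∃ γ : C.G, ((γ : Eˣ) : TF F E) = q ∧ C.d γ = C.aW W W'
    · obtain ⟨W', a, γ, b, c⟩ := h
      rw [sum_eq_single_of_mem W' a fun W2 a2 n => if_neg fun ⟨γ', b', c'⟩ => n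
        (C.aW_inj hW1 (mem_powerset.1 a2) (mem_powerset.1 a)
          (c'.symm.trans ((dp _ _ (b'.trans b.symm)).trans c)))]
      exact (if_pos ⟨γ, b, c⟩).symm
    rw [sum_eq_zero fun W' a => if_neg fun k => h ⟨W', a, k⟩]
    by_contra n
    obtain ⟨γ, rfl⟩ : ∃ γ : C.G, ((γ : Eˣ) : TF F E) = q := by
      by_contra k
      exact n (G.w0 W hW q (Or.inr fun γ e => k ⟨γ, e⟩))
    obtain ⟨s, t, e⟩ := C.span (γ : Eˣ)
    have ht : t ≠ 0 := fun k => n (G.w0 W hW _ (Or.inl (t0 γ s (by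
      rwa [k, map_zero, zero_mul, add_zero] at e))))
    rw [G.w1 W hW γ s t ht e] at n
    obtain ⟨W', a, b⟩ := C.prod_Ov_ne Ψ hW1 ht e (right_ne_zero_of_mul n)
    exact h ⟨W', mem_powerset.2 a, γ, rfl, b⟩
  rw [hL W hW, finsum_congr h2, finsum_sum_comm _ _ fun W' a => (h1 W' a).1,
    sum_congr rfl fun W' a => (h1 W' a).2, sum_comm]
  refine sum_congr rfl fun k _ => ?_
  rw [prod_add, mul_sum W.powerset]
  refine sum_congr rfl fun W' _ => ?_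
  have e1 : ∀ S : Finset (Pr F), χ k (1, ∏ w ∈ S, C.e w) = ∏ w ∈ S, χ k (1, C.e w) := fun S =>
    map_prod ((χ k).comp (MonoidHom.inr _ _)) _ S
  have e2 : χ k (1, C.aW W W') = (∏ w ∈ W', χ k (1, C.e w)) * ∏ w ∈ W \ W', χ k (1, (C.e w)⁻¹) := by
    rw [aW, ← one_mul (1 : C.U), r_mul, one_mul, r_inv, e1, e1, ← prod_inv_distrib]
    simp only [r_inv]
  change _ * (_ * (χ k (1, C.aW W W') : ℂ)) = _
  rw [e2, zW, prod_mul_distrib, prod_mul_distrib]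
  simp only [Units.val_mul, Units.coe_prod, χ]
  ring

end Vale.Agent.P022K.Sh.Tor
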