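import Mathlib

/-!
# P022K, block F0, row TOR: abstract lemmas (spectral side, finite Fourier analysis)
-/

set_option linter.all false

open Finset

noncomputable section

namespace Vale.Agent.P022K.Sh.Tor

/-- characters extend -/
theorem ext_char {A B : Type} [CommGroup A] [CommGroup B] (f : A →* B) (χ : A →* ℂˣ)
    (h : ∀ a, f a = 1 → χ a = 1) : ∃ θ : B →* ℂˣ, ∀ a, θ (f a) = χ a := by
  let _ : DivisibleBy (Additive ℂˣ) ℤ := by
    refine divisibleByOfSMulRightSurj _ _ fun {n} hn x => ?_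
    obtain ⟨y, hy⟩ := IsAlgClosed.exists_pow_nat_eq ((x.toMul : ℂˣ) : ℂ) (Int.natAbs_pos.2 hn)
    have y0 : y ≠ 0 := by
      rintro rfl
      exact x.toMul.ne_zero (by rw [← hy, zero_pow (Int.natAbs_ne_zero.2 hn)])
    refine ⟨n.sign • Additive.ofMul (Units.mk0 y y0), ?_⟩
    show n • _ = x
    rw [smul_smul, Int.mul_sign_self, natCast_zsmul]
    exact Additive.toMul.injective (Units.ext (by simpa using hy))
  let g : A ⧸ f.ker →* ℂˣ := QuotientGroup.lift _ χ h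
  obtain ⟨k, hk⟩ := (Module.Baer.of_divisible (Additive ℂˣ)).extension_property_addMonoidHom
    (MonoidHom.toAdditive (QuotientGroup.kerLift f))
    (fun a b hab => QuotientGroup.kerLift_injective f hab) (MonoidHom.toAdditive g)
  refine ⟨MonoidHom.toAdditive.symm k, fun a => ?_⟩
  exact congrArg (fun g : Additive (A ⧸ f.ker) →+ Additive ℂˣ =>
    (g (Additive.ofMul (a : A ⧸ f.ker))).toMul) hk

open Classical in
/-- orthogonality -/
theorem orth {C : Type} [CommGroup C] [Finite C] [Fintype (C →* ℂˣ)] (c : C) :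
    ∑ θ : C →* ℂˣ, (θ c : ℂ) = if c = 1 then (Fintype.card (C →* ℂˣ) : ℂ) else 0 := by
  split_ifs with h
  · simp [h]
  · obtain ⟨θ0, h0⟩ := CommGroup.exists_apply_ne_one_of_hasEnoughRootsOfUnity C ℂ h
    have e := Equiv.sum_comp (Equiv.mulLeft θ0) fun θ : C →* ℂˣ => (θ c : ℂ)
    simp only [Equiv.coe_mulLeft, MonoidHom.mul_apply, Units.val_mul, ← mul_sum] at e
    have : ((θ0 c : ℂ) - 1) * ∑ θ : C →* ℂˣ, (θ c : ℂ) = 0 := by linear_combination e
    exact (mul_eq_zero.1 this).resolve_left (sub_ne_zero.2 fun k => h0 (Units.ext k))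

section Spec

variable {R V J : Type} [CommRing R] [Algebra ℂ R] [AddCommGroup V] [Module ℂ V]
  [FiniteDimensional ℂ V] (ρ : R →ₐ[ℂ] Module.End ℂ V) (T : J → R) (a : J → ℂ) (S : Set J)

/-- a set of places with wrong eigenvalues -/
def Wr (Z W : Finset J) (μ : J → ℂ) : Prop := ∀ w ∈ W, w ∈ S ∧ w ∉ Z ∧ μ w ≠ a w

variable {a S}

open Classical in
theorem Wr.union {Z W W' : Finset J} {μ μ' : J → ℂ} (h : Wr a S Z W μ) (h' : Wr a S (Z ∪ W) W' μ') :
    Disjoint W W' ∧ Wr a S Z (W ∪ W') (W.piecewise μ μ') ∧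
      (∀ w ∈ W, W.piecewise μ μ' w = μ w) ∧ ∀ w ∈ W', W.piecewise μ μ' w = μ' w := by
  have d : ∀ w ∈ W', w ∉ W := fun w hw k => (h' w hw).2.1 (mem_union_right _ k)
  refine ⟨disjoint_right.2 d, fun w hw => ?_, fun w hw => W.piecewise_eq_of_mem _ _ hw,
    fun w hw => W.piecewise_eq_of_notMem _ _ (d w hw)⟩
  by_cases k : w ∈ W
  · rw [W.piecewise_eq_of_mem _ _ k]
    exact h w k
  · rw [W.piecewise_eq_of_notMem _ _ k]
    have := h' w ((mem_union.1 hw).resolve_left k)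
    exact ⟨this.1, fun k => this.2.1 (mem_union_left _ k), this.2.2⟩

theorem spec_aux (h : ∀ x : V, x ≠ 0 → ∀ Z : Finset J, ∃ w ∈ S, w ∉ Z ∧ ρ (T w) x ≠ a w • x)
    (n : ℕ) : ∀ U : Submodule ℂ V, Module.finrank ℂ U = n → (∀ r, ∀ x ∈ U, ρ r x ∈ U) →
    ∀ Z : Finset J, ∃ W μ, Wr a S Z W μ ∧
      ∀ x ∈ U, ρ (∏ w ∈ W, (T w - algebraMap ℂ R (μ w))) x = 0 := by
  classical
  induction n using Nat.strong_induction_on with
  | _ n ih =>
  intro U hn hU Z
  by_cases h0 : U = ⊥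
  · exact ⟨∅, 0, fun w hw => absurd hw (notMem_empty w), fun x hx => by
      rw [h0, Submodule.mem_bot] at hx
      rw [hx, map_zero]⟩
  obtain ⟨x0, x1, x2⟩ := U.ne_bot_iff.1 h0
  obtain ⟨w, w1, w2, w3⟩ := h x0 x2 Z
  have : Nontrivial U := Submodule.nontrivial_iff_ne_bot.2 h0
  obtain ⟨m, hm⟩ := Module.End.exists_eigenvalue ((ρ (T w)).restrict (hU (T w)))
  obtain ⟨y, y1, y2⟩ := hm.exists_hasEigenvector
  have N : ∀ x, ρ (T w - algebraMap ℂ R m) x = ρ (T w) x - m • x := fun x => by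
    rw [map_sub, AlgHom.commutes, LinearMap.sub_apply, Module.algebraMap_end_apply]
  have y3 : ρ (T w - algebraMap ℂ R m) y = 0 := by
    rw [N, sub_eq_zero]
    exact congrArg Subtype.val (Module.End.mem_eigenspace_iff.1 y1)
  by_cases k : ∀ x ∈ U, ρ (T w - algebraMap ℂ R m) x = 0
  · refine ⟨{w}, fun _ => m, fun v hv => ?_, fun x hx => by rw [prod_singleton]; exact k x hx⟩
    rw [mem_singleton.1 hv]
    refine ⟨w1, w2, fun e => w3 ?_⟩
    have := k x0 x1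
    rwa [N, sub_eq_zero, show m = a w from e] at this
  have cm : ∀ r s x, ρ r (ρ s x) = ρ s (ρ r x) := fun r s x => by
    rw [← Module.End.mul_apply, ← map_mul, mul_comm, map_mul, Module.End.mul_apply]
  set p := ρ (T w - algebraMap ℂ R m) with hp
  have l1 : U ⊓ LinearMap.ker p < U := lt_of_le_of_ne inf_le_left fun e =>
    k fun x hx => (e.ge hx).2
  have l2 : Module.finrank ℂ (U.map p) < n := by
    have e1 := LinearMap.finrank_range_add_finrank_ker (p.domRestrict U)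
    rw [LinearMap.range_domRestrict, hn] at e1
    have e2 : 0 < Module.finrank ℂ (LinearMap.ker (p.domRestrict U)) :=
      Module.finrank_pos_iff_exists_ne_zero.2 ⟨⟨y, y3⟩, fun e => y2 (congrArg Subtype.val e)⟩
    omega
  obtain ⟨W1, μ1, a1, b1⟩ := ih _ (hn ▸ Submodule.finrank_lt_finrank_of_lt l1)
    (U ⊓ LinearMap.ker p) rfl (fun r x hx => ⟨hU r x hx.1, by
      have : p x = 0 := hx.2
      show p _ = 0
      rw [hp, cm, ← hp, this, map_zero]⟩) Z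
  obtain ⟨W2, μ2, a2, b2⟩ := ih _ l2 _ rfl (by
    rintro r _ ⟨x, hx, rfl⟩
    exact ⟨_, hU r x hx, cm _ _ _⟩) (Z ∪ W1)
  obtain ⟨c1, c2, c3, c4⟩ := a1.union a2
  refine ⟨_, _, c2, fun x hx => ?_⟩
  rw [prod_union c1, prod_congr rfl fun v hv => by rw [c3 v hv],
    prod_congr (s₁ := W2) rfl fun v hv => by rw [c4 v hv], map_mul, Module.End.mul_apply]
  refine b1 _ ⟨hU _ x hx, ?_⟩
  show p _ = 0
  rw [hp, cm]
  exact b2 _ ⟨x, hx, rfl⟩

theorem pick {K : Type} (s : K → J → ℂ) (K' : Finset K)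
    (h : ∀ k ∈ K', ∀ Z : Finset J, ∃ w ∈ S, w ∉ Z ∧ s k w ≠ a w) :
    ∀ Z : Finset J, ∃ W μ, Wr a S Z W μ ∧ ∀ k ∈ K', ∏ w ∈ W, (s k w - μ w) = 0 := by
  classical
  induction K' using Finset.induction_on with
  | empty => exact fun Z => ⟨∅, 0, fun w hw => absurd hw (notMem_empty w),
      fun k hk => absurd hk (notMem_empty k)⟩
  | insert k K' _ ih =>
    intro Z
    obtain ⟨w, w1, w2, w3⟩ := h k (mem_insert_self _ _) Z
    obtain ⟨W, μ, a2, b2⟩ := ih (fun k hk => h k (mem_insert_of_mem hk)) (Z ∪ {w})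
    have a1 : Wr a S Z {w} (s k) := fun v hv => by rw [mem_singleton.1 hv]; exact ⟨w1, w2, w3⟩
    obtain ⟨c1, c2, c3, c4⟩ := a1.union a2
    refine ⟨_, _, c2, fun j hj => ?_⟩
    rw [prod_union c1, prod_singleton, c3 w (mem_singleton_self w),
      prod_congr (s₁ := W) rfl fun v hv => by rw [c4 v hv]]
    rcases mem_insert.1 hj with rfl | hj
    · rw [sub_self, zero_mul]
    · rw [b2 j hj, mul_zero]

/-- comparison of the spectral side with a finite sum of characters -/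
theorem key {K : Type} [Fintype K] (s : K → J → ℂ) (c : K → ℂ) (k0 : K) (h0 : c k0 ≠ 0)
    (hs : ∀ k, k ≠ k0 → ∀ Z : Finset J, ∃ w ∈ S, w ∉ Z ∧ s k w ≠ s k0 w)
    (A : Module.End ℂ V) (Z : Finset J)
    (hL : ∀ W : Finset J, (∀ w ∈ W, w ∈ S ∧ w ∉ Z) →
      LinearMap.trace ℂ V (A * ρ (∏ w ∈ W, T w)) = ∑ k, c k * ∏ w ∈ W, s k w) :
    ∃ x : V, x ≠ 0 ∧ ∃ Z' : Finset J, ∀ w ∈ S, w ∉ Z' → ρ (T w) x = s k0 w • x := by
  classical
  by_contra hc
  push Not at hc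
  obtain ⟨W1, μ1, a1, b1⟩ := spec_aux ρ T (a := s k0) (S := S) hc _ ⊤ rfl
    (fun _ _ _ => trivial) Z
  obtain ⟨W2, μ2, a2, b2⟩ := pick (a := s k0) (S := S) s (univ.erase k0)
    (fun k hk => hs k (ne_of_mem_erase hk)) (Z ∪ W1)
  obtain ⟨c1, c2, c3, c4⟩ := a1.union a2
  set μ := W1.piecewise μ1 μ2
  have e1 : ρ (∏ w ∈ W1 ∪ W2, (T w - algebraMap ℂ R (μ w))) = 0 := by
    rw [prod_union c1, prod_congr rfl fun v hv => by rw [c3 v hv], map_mul]
    ext x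
    exact b1 _ trivial
  have e2 : LinearMap.trace ℂ V (A * ρ (∏ w ∈ W1 ∪ W2, (T w - algebraMap ℂ R (μ w)))) =
      ∑ k, c k * ∏ w ∈ W1 ∪ W2, (s k w - μ w) := by
    simp only [sub_eq_add_neg, prod_add, map_sum, mul_sum]
    rw [sum_comm]
    refine sum_congr rfl fun W hW => ?_
    have e3 : ∏ w ∈ (W1 ∪ W2) \ W, -algebraMap ℂ R (μ w) =
        algebraMap ℂ R (∏ w ∈ (W1 ∪ W2) \ W, -μ w) := by
      rw [map_prod]
      exact prod_congr rfl fun _ _ => (map_neg _ _).symm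
    rw [e3, mul_comm (∏ w ∈ W, T w), ← Algebra.smul_def, map_smul, mul_smul_comm, map_smul,
      hL W fun w hw => ⟨(c2 w (mem_powerset.1 hW hw)).1, (c2 w (mem_powerset.1 hW hw)).2.1⟩,
      smul_eq_mul, mul_sum]
    exact sum_congr rfl fun k _ => by ring
  rw [e1, mul_zero, map_zero, sum_eq_single k0 (fun k _ hk => by
    rw [prod_union c1, prod_congr (s₁ := W2) rfl fun v hv => by rw [c4 v hv],
      b2 k (mem_erase.2 ⟨hk, mem_univ k⟩), mul_zero, mul_zero]) fun h => absurd (mem_univ _) h] at e2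
  exact mul_ne_zero h0 (prod_ne_zero_iff.2 fun w hw => sub_ne_zero.2 (c2 w hw).2.2.symm) e2.symm

end Spec

section Fou

variable {Γ U I : Type} [CommGroup Γ] [CommGroup U] [Fintype U] [CommGroup I]
  (r : Γ →* U) (d : Γ →* I) (Γ0 : Subgroup Γ)

open Classical in
/-- counting the classes with a given divisor -/
theorem count {Q : Type} (p : Γ → Q) (hp : ∀ γ γ', p γ = p γ' ↔ γ⁻¹ * γ' ∈ Γ0)
    (h0 : ∀ γ ∈ Γ0, d γ = 1) (neat : ∀ γ, d γ = 1 → r γ = 1 → γ ∈ Γ0) (a : I) (f : U → ℂ)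
    (w : Q → ℂ) (w0 : ∀ q, (∀ γ, p γ = q → d γ ≠ a) → w q = 0)
    (w1 : ∀ γ, d γ = a → w (p γ) = f (r γ)) :
    (Function.support w).Finite ∧ (Nat.card (Γ0.map r) : ℂ) * ∑ᶠ q, w q =
      ∑ u, if (u, a) ∈ (r.prod d).range then f u else 0 := by
  let Y : Finset U := univ.filter fun u => (u, a) ∈ (r.prod d).range
  have hY : ∀ u : U, ∃ γ : Γ, u ∈ Y → r γ = u ∧ d γ = a := fun u => by
    by_cases h : u ∈ Y
    · obtain ⟨γ, hγ⟩ := (mem_filter.1 h).2
      exact ⟨γ, fun _ => Prod.ext_iff.1 hγ⟩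
    · exact ⟨1, fun k => absurd k h⟩
  choose g hg using hY
  have mY : ∀ γ, d γ = a → r γ ∈ Y := fun γ h => mem_filter.2 ⟨mem_univ _, γ, Prod.ext rfl h⟩
  have pg : ∀ γ, d γ = a → p (g (r γ)) = p γ := fun γ h => by
    obtain ⟨e1, e2⟩ := hg _ (mY γ h)
    exact (hp _ _).2 (neat _ (by rw [map_mul, map_inv, e2, h, inv_mul_cancel])
      (by rw [map_mul, map_inv, e1, inv_mul_cancel]))
  have sup : Function.support w ⊆ (Y.image fun u => p (g u) : Finset Q) := fun q hq => by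
    by_contra n
    refine hq (w0 q fun γ e1 e2 => n ?_)
    exact mem_coe.2 (mem_image.2 ⟨_, mY γ e2, (pg γ e2).trans e1⟩)
  refine ⟨(Finset.finite_toSet _).subset sup, ?_⟩
  rw [finsum_eq_sum_of_support_subset _ sup, ← sum_filter,
    sum_congr rfl fun u (hu : u ∈ Y) => show f u = w (p (g u)) by
      rw [w1 _ (hg u hu).2, (hg u hu).1], sum_comp w fun u => p (g u), mul_sum]
  refine sum_congr rfl fun q hq => ?_
  obtain ⟨u0, u1, rfl⟩ := mem_image.1 hq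
  rw [nsmul_eq_mul]
  congr 2
  rw [← Nat.card_eq_finsetCard]
  refine Nat.card_congr ⟨fun x => ⟨u0 * x.1, ?_⟩, fun u => ⟨u0⁻¹ * u.1, ?_⟩,
    fun x => Subtype.ext (inv_mul_cancel_left _ _), fun u => Subtype.ext (mul_inv_cancel_left _ _)⟩
  · obtain ⟨l, l1, l2⟩ := x.2
    have e1 : d (g u0 * l) = a := by rw [map_mul, (hg u0 u1).2, h0 l l1, mul_one]
    have e2 : r (g u0 * l) = u0 * x.1 := by rw [map_mul, (hg u0 u1).1, l2]
    rw [← e2]
    refine mem_filter.2 ⟨mY _ e1, (pg _ e1).trans ((hp _ _).2 ?_).symm⟩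
    rwa [inv_mul_cancel_left]
  · obtain ⟨e1, e2⟩ := mem_filter.1 u.2
    exact ⟨_, (hp _ _).1 e2.symm, by rw [map_mul, map_inv, (hg u0 u1).1, (hg _ e1).1]⟩

open Classical in
/-- the Fourier expansion -/
theorem fou [Finite ((U × I) ⧸ (r.prod d).range)] [Fintype ((U × I) ⧸ (r.prod d).range →* ℂˣ)]
    (a : I) (f : U → ℂ) :
    (Fintype.card ((U × I) ⧸ (r.prod d).range →* ℂˣ) : ℂ) *
      ∑ u, (if (u, a) ∈ (r.prod d).range then f u else 0) =
      ∑ θ : (U × I) ⧸ (r.prod d).range →* ℂˣ,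
        (∑ u, f u * θ ((u, 1) : U × I)) * θ ((1, a) : U × I) := by
  simp only [sum_mul, mul_sum]
  rw [sum_comm]
  refine sum_congr rfl fun u _ => ?_
  have e : ∀ θ : (U × I) ⧸ (r.prod d).range →* ℂˣ,
      f u * θ ((u, 1) : U × I) * θ ((1, a) : U × I) = f u * θ ((u, a) : U × I) := fun θ => by
    rw [mul_assoc, ← Units.val_mul, ← map_mul, ← QuotientGroup.mk_mul, Prod.mk_mul_mk, mul_one,
      one_mul]
  simp only [e, ← mul_sum, orth, QuotientGroup.eq_one_iff]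
  split_ifs <;> ring

/-- the expansion of the sum over the classes -/
theorem expand [Finite ((U × I) ⧸ (r.prod d).range)] [Fintype ((U × I) ⧸ (r.prod d).range →* ℂˣ)]
    {Q K : Type} [Fintype K] (p : Γ → Q) (hp : ∀ γ γ', p γ = p γ' ↔ γ⁻¹ * γ' ∈ Γ0)
    (h0 : ∀ γ ∈ Γ0, d γ = 1) (neat : ∀ γ, d γ = 1 → r γ = 1 → γ ∈ Γ0)
    (ξ : K → U × I →* ℂˣ) (σ : K → ℂ) (g : U → ℂ) : ∃ M : ℂ, M ≠ 0 ∧
    ∀ (a : I) (w : Q → ℂ) (z : ℂ), (∀ q, (∀ γ, p γ = q → d γ ≠ a) → w q = 0) →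
      (∀ γ, d γ = a → w (p γ) = z * g (r γ) * ∑ k, σ k * ξ k (r γ, d γ)) →
      (Function.support w).Finite ∧ ∑ᶠ q, w q =
        ∑ k : K × ((U × I) ⧸ (r.prod d).range →* ℂˣ),
          (M * σ k.1 * ∑ u, g u * (ξ k.1 * k.2.comp (QuotientGroup.mk' _)) (u, 1)) *
            (z * (ξ k.1 * k.2.comp (QuotientGroup.mk' _)) (1, a)) := by
  classical
  have n1 : (Nat.card (Γ0.map r) : ℂ) ≠ 0 := Nat.cast_ne_zero.2 Nat.card_pos.ne'
  have n2 : (Fintype.card ((U × I) ⧸ (r.prod d).range →* ℂˣ) : ℂ) ≠ 0 :=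
    Nat.cast_ne_zero.2 Fintype.card_ne_zero
  refine ⟨_, inv_ne_zero (mul_ne_zero n2 n1), fun a w z w0 w1 => ?_⟩
  obtain ⟨f1, f2⟩ := count r d Γ0 p hp h0 neat a
    (fun u => ∑ k, z * σ k * ξ k (1, a) * (g u * ξ k (u, 1))) w w0 fun γ h => by
      rw [w1 γ h, h, mul_sum]
      refine sum_congr rfl fun k _ => ?_
      rw [show (r γ, a) = (1, a) * (r γ, 1) by simp, map_mul, Units.val_mul]
      ring
  refine ⟨f1, mul_left_cancel₀ (mul_ne_zero n2 n1) ?_⟩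
  rw [mul_assoc, f2, fou, Fintype.sum_prod_type_right, mul_sum]
  refine sum_congr rfl fun θ _ => ?_
  simp only [sum_mul, mul_sum]
  rw [sum_comm]
  refine sum_congr rfl fun k _ => sum_congr rfl fun u _ => ?_
  simp only [MonoidHom.mul_apply, MonoidHom.comp_apply, QuotientGroup.mk'_apply, Units.val_mul]
  field_simp

end Fou

end Vale.Agent.P022K.Sh.Tor
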