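import Vale.Agent.P022K.F0.TorD
import Vale.Agent.P027M.S.Gen
import Vale.Agent.P027M.S.Cls
import Vale.Agent.P027M.S.Xfin

/-!
# P022K, block F0, row TOR: primes and valuations in a CM extension
-/

set_option linter.all false

open NumberField IsDedekindDomain WithZero

noncomputable section

namespace Vale.Agent.P022K.Sh.Tor

open Vale.Agent.P022.C (ordv)
open Vale.Agent.P027M.S (Pr Nr)
open Vale.Agent.P027M.S.Gen (cm val_cm mem_cm val_int norm_cm)
open Vale.Agent.P027M.S.Cls (val_eq ordv_of ordv_mul ordv_zpow ordv_pow le_exp)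

variable {F E : Type} [Field F] [NumberField F] [Field E] [NumberField E] [Algebra F E]

theorem mem_iff (P : Pr E) (x : 𝓞 E) : x ∈ P.asIdeal ↔ P.valuation E (x : E) < 1 :=
  (P.valuation_lt_one_iff_mem (K := E) x).symm

theorem val_le (P : Pr E) (x : 𝓞 E) : P.valuation E (x : E) ≤ 1 := P.valuation_le_one (K := E) x

theorem val_one {P : Pr E} {x : 𝓞 E} (h : x ∉ P.asIdeal) : P.valuation E (x : E) = 1 :=
  le_antisymm (val_le P x) (not_lt.1 fun k => h ((mem_iff P x).2 k))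

theorem val_nat {P : Pr E} {n : ℕ} (h : (n : 𝓞 E) ∉ P.asIdeal) : P.valuation E (n : E) = 1 := by
  exact_mod_cast val_one h

theorem ext_val {P P' : Pr E} (h : ∀ y : E, P.valuation E y = P'.valuation E y) : P = P' :=
  HeightOneSpectrum.ext (Ideal.ext fun x => by rw [mem_iff, mem_iff, h])

theorem ordv_fin {x : E} (hx : x ≠ 0) : (Function.support fun v : Pr E => ordv v x).Finite := by
  refine ((HeightOneSpectrum.Support.finite (𝓞 E) x).union
    (HeightOneSpectrum.Support.finite (𝓞 E) x⁻¹)).subset fun v hv => ?_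
  by_contra hc
  apply hv
  simp only [Set.mem_union, HeightOneSpectrum.Support, Set.mem_setOf_eq, not_or, not_lt,
    map_inv₀] at hc
  have h0 : v.valuation E x ≠ 0 := (Valuation.ne_zero_iff _).2 hx
  have h1 : v.valuation E x = 1 := le_antisymm hc.1 ((inv_le_one₀ (zero_lt_iff.2 h0)).1 hc.2)
  simp [ordv, h1]

theorem ordv_one {P : Pr E} {x : E} (h : P.valuation E x = 1) : ordv P x = 0 := ordv_of h

theorem val_of_ordv {P : Pr E} {x : E} (hx : x ≠ 0) (h : ordv P x = 0) : P.valuation E x = 1 := by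
  rw [val_eq P hx, h]; rfl

variable (F) in
/-- the prime below -/
def un (P : Pr E) : Pr F := P.under (𝓞 F)

theorem ab_un (P : Pr E) : Ab (un F P) P := rfl

theorem Ab.eq {v : Pr F} {P : Pr E} (h : Ab v P) : un F P = v := HeightOneSpectrum.ext h

theorem ab_iff {v : Pr F} {P : Pr E} : Ab v P ↔ un F P = v := ⟨Ab.eq, fun h => h ▸ ab_un P⟩

theorem exists_ab (v : Pr F) : ∃ P : Pr E, Ab v P := by
  have := v.isMaximal
  obtain ⟨Q, h1, h2⟩ := Ideal.exists_maximal_ideal_liesOver_of_isIntegral (S := 𝓞 E) v.asIdeal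
  exact ⟨⟨Q, h1.isPrime, Ideal.ne_bot_of_liesOver_of_ne_bot v.ne_bot Q⟩, h2.over.symm⟩

variable (E) in
/-- a prime above -/
def up (v : Pr F) : Pr E := (exists_ab v).choose

theorem ab_up (v : Pr F) : Ab v (up E v) := (exists_ab v).choose_spec

theorem Ab.mem {v : Pr F} {P : Pr E} (h : Ab v P) (x : 𝓞 F) :
    algebraMap (𝓞 F) (𝓞 E) x ∈ P.asIdeal ↔ x ∈ v.asIdeal := by
  rw [← show _ = v.asIdeal from h, Ideal.mem_comap]

theorem Ab.nat {v : Pr F} {P : Pr E} (h : Ab v P) (n : ℕ) :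
    (n : 𝓞 E) ∈ P.asIdeal ↔ (n : 𝓞 F) ∈ v.asIdeal := by
  rw [← h.mem, map_natCast]

theorem Ab.pow {v : Pr F} {P : Pr E} (h : Ab v P) : ∃ e : ℕ, e ≠ 0 ∧
    ∀ x : F, P.valuation E (algebraMap F E x) = v.valuation F x ^ e := by
  have : P.asIdeal.LiesOver v.asIdeal := ⟨Eq.symm h⟩
  exact ⟨_, Ideal.IsDedekindDomain.ramificationIdx'_ne_zero_of_liesOver P.asIdeal v.ne_bot,
    fun x => (HeightOneSpectrum.valuation_liesOver E v P x).symm⟩

theorem Ab.lt {v : Pr F} {P : Pr E} (h : Ab v P) (x : F) :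
    P.valuation E (algebraMap F E x) < 1 ↔ v.valuation F x < 1 := by
  obtain ⟨e, e0, he⟩ := h.pow
  rw [he, pow_lt_one_iff e0]

theorem Ab.eq_one {v : Pr F} {P : Pr E} (h : Ab v P) (x : F) :
    P.valuation E (algebraMap F E x) = 1 ↔ v.valuation F x = 1 := by
  obtain ⟨e, e0, he⟩ := h.pow
  rw [he, pow_eq_one_iff_left e0]

namespace CM

variable (C : CM F E)

theorem c_co (s t : F) : C.c (algebraMap F E s + algebraMap F E t * C.δ) =
    algebraMap F E s - algebraMap F E t * C.δ := by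
  rw [map_add, map_mul, AlgEquiv.commutes, AlgEquiv.commutes, C.cδ]
  ring

theorem cc (x : E) : C.c (C.c x) = x := by
  obtain ⟨s, t, rfl⟩ := C.span x
  rw [c_co, map_sub, map_mul, AlgEquiv.commutes, AlgEquiv.commutes, C.cδ]
  ring

theorem nm_co (s t : F) : (algebraMap F E s + algebraMap F E t * C.δ) *
    C.c (algebraMap F E s + algebraMap F E t * C.δ) = algebraMap F E (s ^ 2 - C.a * t ^ 2) := by
  rw [c_co, map_sub, map_mul, map_pow, map_pow, ← C.sq]
  ring

theorem fix {x : E} (h : C.c x = x) : ∃ s, x = algebraMap F E s := by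
  obtain ⟨s, t, rfl⟩ := C.span x
  rw [c_co] at h
  have : algebraMap F E t * C.δ = 0 := by linear_combination (-1 / 2 : E) * h
  exact ⟨s, by rw [this, add_zero]⟩

/-- the conjugate prime -/
def pi (P : Pr E) : Pr E := cm (C.c : E ≃+* E) P

theorem val_pi (P : Pr E) (y : E) : (C.pi P).valuation E y = P.valuation E (C.c y) := val_cm _ P y

theorem ordv_pi (P : Pr E) (y : E) : ordv (C.pi P) y = ordv P (C.c y) := by
  rw [ordv, ordv, val_pi]

theorem pi_pi (P : Pr E) : C.pi (C.pi P) = P := ext_val fun y => by rw [val_pi, val_pi, cc]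

theorem ab_pi {v : Pr F} {P : Pr E} (h : Ab v P) : Ab v (C.pi P) := by
  refine Ideal.ext fun x => ?_
  rw [Ideal.mem_comap, ← h.mem, mem_iff, mem_iff, val_pi]
  exact Iff.of_eq (congrArg (fun y => P.valuation E y < 1) (C.c.commutes (x : F)))

theorem un_pi (P : Pr E) : un F (C.pi P) = un F P := (C.ab_pi (ab_un P)).eq

theorem nat_pi (P : Pr E) (n : ℕ) : (n : 𝓞 E) ∈ (C.pi P).asIdeal ↔ (n : 𝓞 E) ∈ P.asIdeal := by
  rw [(C.ab_pi (ab_un P)).nat, (ab_un (F := F) P).nat]

theorem ab_or {v : Pr F} {P P' : Pr E} (h : Ab v P) (h' : Ab v P') : P' = P ∨ P' = C.pi P := by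
  by_contra k
  push Not at k
  have n : ¬ (P'.asIdeal : Set (𝓞 E)) ⊆ P.asIdeal ∪ (C.pi P).asIdeal := by
    rw [Ideal.subset_union]
    rintro (l | l)
    · exact k.1 (HeightOneSpectrum.ext (P'.isMaximal.eq_of_le P.isPrime.ne_top l))
    · exact k.2 (HeightOneSpectrum.ext (P'.isMaximal.eq_of_le (C.pi P).isPrime.ne_top l))
  obtain ⟨x, x1, x2⟩ := Set.not_subset.1 n
  rw [Set.mem_union, not_or] at x2
  obtain ⟨s, t, e⟩ := C.span x
  have e1 := C.nm_co s t
  rw [← e] at e1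
  have l : P'.valuation E (algebraMap F E (s ^ 2 - C.a * t ^ 2)) < 1 := by
    rw [← e1, map_mul, ← val_pi]
    exact mul_lt_one_of_lt_of_le ((mem_iff P' x).1 x1) (val_le _ x)
  rw [h'.lt, ← h.lt, ← e1, map_mul, ← val_pi, val_one x2.1, val_one x2.2, one_mul] at l
  exact lt_irrefl _ l

variable {C}

theorem val_two {P : Pr E} (h : (C.D : 𝓞 E) ∉ P.asIdeal) : P.valuation E 2 = 1 := by
  obtain ⟨k, hk⟩ := C.D2
  refine val_nat (n := 2) fun m => h ?_
  rw [hk, Nat.cast_mul]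
  exact Ideal.mul_mem_right _ _ m

theorem val_δ {P : Pr E} (h : (C.D : 𝓞 E) ∉ P.asIdeal) : P.valuation E C.δ = 1 := by
  have := ((ab_un (F := F) P).eq_one _).2 (val_one (C.aD _ fun m => h (((ab_un P).nat _).2 m)))
  rwa [← C.sq, map_pow, pow_eq_one_iff_left two_ne_zero] at this

theorem max_val {P : Pr E} (h : (C.D : 𝓞 E) ∉ P.asIdeal) (s t : F) :
    max (P.valuation E (algebraMap F E s + algebraMap F E t * C.δ))
      (P.valuation E (algebraMap F E s - algebraMap F E t * C.δ)) =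
      max (P.valuation E (algebraMap F E s)) (P.valuation E (algebraMap F E t)) := by
  have e : P.valuation E (algebraMap F E t * C.δ) = P.valuation E (algebraMap F E t) := by
    rw [map_mul, val_δ h, mul_one]
  refine le_antisymm (max_le ?_ ?_) (max_le ?_ ?_)
  · rw [← e]; exact Valuation.map_add _ _ _
  · rw [← e]; exact Valuation.map_sub _ _ _
  · refine le_of_eq_of_le ?_ (Valuation.map_add _ _ _)
    rw [add_add_sub_cancel, ← two_mul, map_mul, val_two h, one_mul]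
  · refine le_of_eq_of_le ?_ (Valuation.map_sub _ _ _)
    rw [add_sub_sub_cancel, ← two_mul, map_mul, val_two h, one_mul, e]

theorem exists_notMem {P P' : Pr E} (h : P ≠ P') : ∃ y ∈ P.asIdeal, y ∉ P'.asIdeal :=
  Set.not_subset.1 fun l => h (HeightOneSpectrum.ext (P.isMaximal.eq_of_le P'.isPrime.ne_top l))

/-- unramified -/
theorem val_ab {v : Pr F} {P : Pr E} (h : Ab v P) (hD : (C.D : 𝓞 E) ∉ P.asIdeal) (x : F) :
    P.valuation E (algebraMap F E x) = v.valuation F x := by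
  obtain ⟨e, e0, he⟩ := h.pow
  obtain ⟨γ, h1, h2⟩ : ∃ γ : E, P.valuation E γ = exp (-1 : ℤ) ∧
      P.valuation E (C.c γ) ≤ exp (-1 : ℤ) := by
    obtain ⟨p, hp⟩ := P.intValuation_exists_uniformizer
    rw [← val_int] at hp
    by_cases k : C.pi P = P
    · exact ⟨p, hp, by rw [← val_pi, k, hp]⟩
    · obtain ⟨y, y1, y2⟩ := exists_notMem k
      refine ⟨p * y, by rw [map_mul, hp, val_one y2, mul_one], le_exp ?_⟩
      rw [← val_pi, map_mul, mul_comm]
      exact mul_lt_one_of_lt_of_le ((mem_iff _ y).1 y1) (val_le _ p)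
  obtain ⟨s, t, rfl⟩ := C.span γ
  have m := max_val hD s t
  rw [← c_co, max_eq_left (h2.trans h1.ge), h1, he, he] at m
  obtain ⟨y, hy⟩ : ∃ y : ℤᵐ⁰, exp (-1 : ℤ) = y ^ e := by
    rcases max_choice (v.valuation F s ^ e) (v.valuation F t ^ e) with k | k
    · exact ⟨_, m.trans k⟩
    · exact ⟨_, m.trans k⟩
  have e1 : (-1 : ℤ) = e * log y := by
    have := congrArg log hy
    rwa [log_exp, log_pow, nsmul_eq_mul] at this
  have e2 : e = 1 := by
    have : (e : ℤ) ∣ 1 := ⟨-log y, by linarith⟩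
    exact Nat.dvd_one.1 (by exact_mod_cast this)
  rw [he, e2, pow_one]

theorem ordv_ab {v : Pr F} {P : Pr E} (h : Ab v P) (hD : (C.D : 𝓞 E) ∉ P.asIdeal) (x : F) :
    ordv P (algebraMap F E x) = ordv v x := by
  rw [ordv, ordv, val_ab h hD]

theorem mv_eq {v : Pr F} {P : Pr E} (h : Ab v P) (hD : (C.D : 𝓞 E) ∉ P.asIdeal) {s t : F}
    (ht : t ≠ 0) {γ : E} (h0 : γ ≠ 0) (e : γ = algebraMap F E s + algebraMap F E t * C.δ) :
    mv v s t = min (ordv P γ) (ordv (C.pi P) γ) ∧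
      ordv v (s ^ 2 - C.a * t ^ 2) = ordv P γ + ordv (C.pi P) γ := by
  have c0 : C.c γ ≠ 0 := (map_ne_zero _).2 h0
  constructor
  · have m := max_val hD s t
    rw [← c_co, ← e, val_ab h hD, val_ab h hD, val_eq P h0, val_eq P c0, val_eq v ht,
      ← ordv_pi] at m
    have mx : ∀ a b : ℤ, max (exp a) (exp b) = exp (max a b) := fun a b =>
      (Monotone.map_max (f := fun a : ℤ => exp a) fun a b l => exp_le_exp.2 l).symm
    unfold mv
    split_ifs with k
    · rw [k, map_zero, max_eq_right zero_le, mx, exp_inj] at m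
      omega
    · rw [val_eq v k, mx, mx, exp_inj] at m
      omega
  · rw [← ordv_ab h hD, ← nm_co, ← e, ordv_mul P h0 c0, ordv_pi]

theorem Gd.ne {v : Pr F} (g : C.Gd v) {P : Pr E} (h : Ab v P) : C.pi P ≠ P := by
  intro k
  obtain ⟨hD, x, hx⟩ := g
  rw [← h.nat] at hD
  have e1 := C.nm_co x 1
  have l : P.valuation E (algebraMap F E ((x : F) ^ 2 - C.a * 1 ^ 2)) < 1 := by
    rw [h.lt]
    have := (mem_iff v _).1 hx
    push_cast at this
    rwa [one_pow, mul_one]
  rw [← e1, map_mul, ← val_pi, k, ← pow_two, pow_lt_one_iff two_ne_zero] at l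
  have m := max_val hD x 1
  rw [← c_co, ← val_pi, k, max_self, map_one (algebraMap F E), map_one] at m
  rw [map_one (algebraMap F E), m] at l
  exact not_lt.2 (le_max_right _ _) l

theorem gd_of_ne {v : Pr F} (hD : (C.D : 𝓞 F) ∉ v.asIdeal) {P : Pr E} (h : Ab v P)
    (k : C.pi P ≠ P) : C.Gd v := by
  have hD' := hD
  rw [← h.nat] at hD'
  obtain ⟨y, y1, y2⟩ := exists_notMem k
  obtain ⟨s, t, e⟩ := C.span y
  have v1 := val_one y2
  have v2 := (mem_iff _ y).1 y1
  rw [val_pi] at v2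
  have vt : v.valuation F t = 1 := by
    have e2 : (y : E) - C.c y = 2 * C.δ * algebraMap F E t := by rw [e, c_co]; ring
    have := Valuation.map_sub_eq_of_lt_left (P.valuation E) (v2.trans_eq v1.symm)
    rwa [e2, v1, map_mul, map_mul, val_two hD', val_δ hD', one_mul, one_mul, h.eq_one] at this
  have t0 : t ≠ 0 := fun e => by rw [e, map_zero] at vt; exact zero_ne_one vt
  have vn : v.valuation F (s ^ 2 - C.a * t ^ 2) < 1 := by
    rw [← h.lt, ← nm_co, ← e, map_mul, v1, one_mul]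
    exact v2
  have vs : v.valuation F (s / t) ≤ 1 := by
    have m := max_val hD' s t
    rw [← c_co, ← e, max_eq_left (v2.le.trans v1.ge), v1, val_ab h hD'] at m
    rw [map_div₀, vt, div_one]
    exact (le_max_left _ _).trans m.ge
  obtain ⟨x, hx⟩ := v.exists_valuation_sub_lt_of_integer vs 1
  refine ⟨hD, x, (mem_iff v _).2 ?_⟩
  have e3 : ((x ^ 2 - C.a : 𝓞 F) : F) = ((x : F) - s / t) * (x + s / t) +
      (s ^ 2 - C.a * t ^ 2) / t ^ 2 := by
    push_cast
    field_simp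
    ring
  rw [e3]
  refine Valuation.map_add_lt _ ?_ ?_
  · rw [map_mul]
    exact mul_lt_one_of_lt_of_le hx (Valuation.map_add_le _ (val_le v x) vs)
  · rwa [map_div₀, map_pow, vt, one_pow, div_one]

variable (C)

/-- conjugation on `G` -/
def cG : C.G →* C.G :=
  ((Units.map (C.c : E →* E)).comp C.G.subtype).codRestrict _ fun γ P h =>
    (C.val_pi P _).symm.trans (γ.2 _ ((C.nat_pi P _).2 h))

theorem coe_cG (γ : C.G) : ((C.cG γ : Eˣ) : E) = C.c (γ : Eˣ) := rfl

theorem cG_mem {γ : C.G} (h : γ ∈ C.G1 Set.univ) : C.cG γ ∈ C.G1 Set.univ := fun P _ k => by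
  have := h _ trivial ((C.nat_pi P _).2 k)
  rwa [val_pi, val_pi, map_sub, map_one, map_natCast] at this

/-- neatness -/
theorem neat {γ : C.G} (h : γ ∈ C.G1 Set.univ)
    (hd : ∀ v, C.Gd v → ordv (up E v) ((γ : Eˣ) : E) = ordv (C.pi (up E v)) ((γ : Eˣ) : E)) :
    C.c (γ : Eˣ) = (γ : Eˣ) := by
  have D0 : (C.D : E) ≠ 0 := Nat.cast_ne_zero.2 (by have := C.D3; omega)
  have g0 : ((γ : Eˣ) : E) ≠ 0 := Units.ne_zero _
  have hu := (C.G1 _).mul_mem (C.cG_mem h) ((C.G1 _).inv_mem h)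
  set u : E := (((C.cG γ * γ⁻¹ : C.G) : Eˣ) : E) with hu'
  have eu : u = C.c (γ : Eˣ) / (γ : Eˣ) := by
    rw [hu', Subgroup.coe_mul, Subgroup.coe_inv, Units.val_mul, Units.val_inv_eq_inv_val, coe_cG,
      div_eq_mul_inv]
  obtain ⟨z, hz⟩ := HeightOneSpectrum.mem_integers_of_valuation_le_one (R := 𝓞 E) E
    ((u - 1) / C.D) fun P => by
      by_cases k : (C.D : 𝓞 E) ∈ P.asIdeal
      · rw [map_div₀]
        exact div_le_one_of_le₀ (hu P trivial k) zero_le
      rw [map_div₀, val_nat k, div_one]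
      refine Valuation.map_sub_le _ ?_ (map_one _).le
      have o : ordv (C.pi P) ((γ : Eˣ) : E) = ordv P ((γ : Eˣ) : E) := by
        by_cases l : C.pi P = P
        · rw [l]
        have := hd _ (gd_of_ne (fun m => k (((ab_un P).nat _).2 m)) (ab_un P) l)
        rcases C.ab_or (ab_up (un F P)) (ab_un P) with e | e
        · rw [← e] at this; exact this.symm
        · rw [e, pi_pi]; exact this
      rw [eu, map_div₀, ← val_pi, val_eq _ g0, val_eq _ g0, o, div_self exp_ne_zero]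
  have z0 : (u - 1) / C.D = 0 := by
    by_contra n
    have b : ∀ φ : E →+* ℂ, ‖φ ((u - 1) / C.D)‖ ≤ 2 / 3 := fun φ => by
      have n1 : ‖φ u‖ = 1 := by
        rw [eu, map_div₀, norm_div, C.cj, Complex.norm_conj,
          div_self (norm_ne_zero_iff.2 ((map_ne_zero φ).2 g0))]
      rw [map_div₀, norm_div, map_natCast, Complex.norm_natCast, map_sub, map_one]
      refine div_le_div₀ (by norm_num) ((norm_sub_le _ _).trans ?_) (by norm_num) ?_
      · rw [n1, norm_one]; norm_num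
      · exact_mod_cast C.D3
    obtain ⟨m, m0, hm⟩ := NumberField.Embeddings.pow_eq_one_of_norm_le_one E ℂ n
      (hz ▸ z.isIntegral_coe) fun φ => (b φ).trans (by norm_num)
    have k := congrArg (fun y => ‖C.sec C.t1 y‖) hm
    simp only [map_pow, norm_pow, map_one, norm_one] at k
    exact (pow_lt_one₀ (norm_nonneg _) ((b _).trans_lt (by norm_num)) m0.ne').ne k
  rw [div_eq_zero_iff, or_iff_left D0, sub_eq_zero, eu] at z0
  exact (div_eq_one_iff_eq g0).1 z0

/-- every element of `G` has an integral multiple by an integer prime to `D` -/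
theorem exists_int (γ : C.G) : ∃ (x : 𝓞 E), ∀ P : Pr E, (C.D : 𝓞 E) ∈ P.asIdeal →
    P.valuation E (((γ : Eˣ) : E) - x) ≤ P.valuation E (C.D : E) := by
  classical
  have D0 : (C.D : 𝓞 E) ≠ 0 := Nat.cast_ne_zero.2 (by have := C.D3; omega)
  have fin : {P : Pr E | (C.D : 𝓞 E) ∈ P.asIdeal}.Finite :=
    (Ideal.finite_factors (I := Ideal.span {(C.D : 𝓞 E)}) (by simpa using D0)).subset
      fun P h => Ideal.dvd_span_singleton.2 h
  have : Finite {P : Pr E | (C.D : 𝓞 E) ∈ P.asIdeal} := fin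
  have h1 : ∀ P : {P : Pr E | (C.D : 𝓞 E) ∈ P.asIdeal}, ∃ (a : 𝓞 E) (n : ℕ),
      P.1.valuation E ((a : E) - (γ : Eˣ)) < P.1.valuation E (C.D : E) ∧
      exp (-(n : ℤ)) = P.1.valuation E (C.D : E) := fun P => by
    have d0 : (C.D : E) ≠ 0 := by exact_mod_cast D0
    obtain ⟨a, ha⟩ := P.1.exists_valuation_sub_lt_of_integer (γ.2 P P.2).le
      (Units.mk0 _ ((Valuation.ne_zero_iff (P.1.valuation E)).2 d0))
    have l := C.val_D_lt P.2
    rw [val_eq _ d0, ← exp_zero, exp_lt_exp] at l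
    obtain ⟨n, hn⟩ := Int.eq_ofNat_of_zero_le (show 0 ≤ ordv P.1 (C.D : E) by omega)
    exact ⟨a, n, ha, by rw [val_eq _ d0, hn]⟩
  choose a n ha hn using h1
  obtain ⟨x, hx⟩ := Ideal.exists_forall_sub_mem_ideal
    (I := fun P : {P : Pr E | (C.D : 𝓞 E) ∈ P.asIdeal} => P.1.asIdeal ^ n P)
    (fun P P' h => ((P.1.isCoprime_of_ne P'.1 fun e => h (Subtype.ext e)).pow)) a
  refine ⟨x, fun P h => ?_⟩
  have e : ((γ : Eˣ) : E) - x = -((a ⟨P, h⟩ : E) - (γ : Eˣ)) - ((x - a ⟨P, h⟩ : 𝓞 E) : E) := by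
    push_cast; ring
  rw [e]
  refine Valuation.map_sub_le _ (by rw [Valuation.map_neg]; exact (ha ⟨P, h⟩).le) ?_
  rw [← hn ⟨P, h⟩, val_int]
  exact (P.intValuation_le_pow_iff_mem _ _).2 (hx ⟨P, h⟩)

instance : Finite (C.G ⧸ C.G1 Set.univ) := by
  have D0 : (C.D : 𝓞 E) ≠ 0 := Nat.cast_ne_zero.2 (by have := C.D3; omega)
  choose x hx using C.exists_int
  have : Finite (𝓞 E ⧸ Ideal.span {(C.D : 𝓞 E)}) :=
    Ideal.finiteQuotientOfFreeOfNeBot _ (by simpa using D0)
  refine Finite.of_injective (fun q => Ideal.Quotient.mk (Ideal.span {(C.D : 𝓞 E)}) (x q.out))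
    fun q q' h => ?_
  rw [← q.out_eq', ← q'.out_eq', QuotientGroup.eq]
  intro P _ k
  obtain ⟨z, hz⟩ := Ideal.mem_span_singleton'.1 (Ideal.Quotient.eq.1 h)
  have hz' : (z : E) * C.D = x q.out - x q'.out := by exact_mod_cast congrArg (algebraMap _ E) hz
  have i : (((q.out⁻¹ : C.G) : Eˣ) : E) * (q.out : Eˣ) = 1 := by
    rw [← Units.val_mul, ← Subgroup.coe_mul, inv_mul_cancel]; rfl
  have e : (((q.out⁻¹ * q'.out : C.G) : Eˣ) : E) - 1 = ((q.out⁻¹ : C.G) : Eˣ) *
      ((((q'.out : Eˣ) : E) - x q'.out) - ((q.out : Eˣ) - x q.out) - z * C.D) := by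
    rw [Subgroup.coe_mul, Units.val_mul, hz']
    linear_combination i
  rw [e, map_mul, (q.out⁻¹).2 P k, one_mul]
  refine Valuation.map_sub_le _ (Valuation.map_sub_le _ (hx _ P k) (hx _ P k)) ?_
  rw [map_mul]
  exact mul_le_of_le_one_left' (val_le P z)

end CM

end Vale.Agent.P022K.Sh.Tor
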