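import Vale.Agent.P022K.F0.TorB
import Vale.Agent.P027M.S.Ray
import Vale.Agent.P027M.S.Eul
import Vale.Agent.P027M.S.Prime

/-!
# P022K, block F0, row TOR: primes of degree one separate types and ray class characters
-/

set_option linter.all false

open NumberField IsDedekindDomain WithZero Filter Topology

noncomputable section

namespace Vale.Agent.P022K.Sh.Tor

open Vale.Agent.P022.C (ordv)
open Vale.Agent.P027M.S (Pr Nr RayCh PI P1 LI ray eul z1)
open Vale.Agent.P027M.S.Prm (ct summ tsum_Nr)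
open Vale.Agent.P027M.S.Cls (val_eq ordv_of ordv_mul ordv_zpow ordv_pow le_exp)
open Vale.Agent.P016Z (coprime_absNorm_iff aK)

variable {E : Type} [Field E] [NumberField E]

theorem deg_one {P : Pr E} (h : (Nr P).Prime) (x : 𝓞 E) : ∃ n : ℤ, x - n ∈ P.asIdeal := by
  have : Fact (Nr P).Prime := ⟨h⟩
  have := P.isPrime
  obtain ⟨n, hn⟩ := mem_zmultiples_of_prime_card (G := 𝓞 E ⧸ P.asIdeal) (p := Nr P)
    (by rw [Nr, Ideal.absNorm_apply, Submodule.cardQuot_apply]) (g := 1)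
    (g' := Ideal.Quotient.mk _ x) one_ne_zero
  refine ⟨n, Ideal.Quotient.eq.1 ?_⟩
  rw [← hn, map_intCast]
  exact zsmul_one n

theorem not_mem_nat {P : Pr E} (h : (Nr P).Prime) {n : ℕ} (hn : ¬ Nr P ∣ n) :
    (n : 𝓞 E) ∉ P.asIdeal := fun k => by
  obtain ⟨a, b, e⟩ := Nat.isCoprime_iff_coprime.2 ((Nat.Prime.coprime_iff_not_dvd h).2 hn)
  refine P.isPrime.ne_top ((Ideal.eq_top_iff_one _).2 ?_)
  have : (a : 𝓞 E) * (Nr P : ℕ) + b * n = 1 := by exact_mod_cast congrArg (Int.cast : ℤ → 𝓞 E) e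
  rw [← this]
  exact add_mem (Ideal.mul_mem_left _ _ (Ideal.absNorm_mem _)) (Ideal.mul_mem_left _ _ k)

theorem fin_nat {n : ℕ} (hn : n ≠ 0) : {P : Pr E | (n : 𝓞 E) ∈ P.asIdeal}.Finite :=
  (Ideal.finite_factors (I := Ideal.span {(n : 𝓞 E)}) (by simpa using hn)).subset
    fun P h => Ideal.dvd_span_singleton.2 h

theorem sep (φ φ' : E →+* ℂ) : ∃ n : ℕ, n ≠ 0 ∧ ∀ Q : Ideal (𝓞 ℂ),
    (∀ x : 𝓞 E, RingOfIntegers.mapRingHom φ x - RingOfIntegers.mapRingHom φ' x ∈ Q) →
    (n : 𝓞 ℂ) ∉ Q → φ = φ' := by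
  by_cases h : φ = φ'
  · exact ⟨1, one_ne_zero, fun _ _ _ => h⟩
  obtain ⟨x, hx⟩ : ∃ x : 𝓞 E, φ x ≠ φ' x := by
    by_contra k
    push Not at k
    exact h (IsFractionRing.ringHom_ext (A := 𝓞 E) k)
  set b := RingOfIntegers.mapRingHom φ x - RingOfIntegers.mapRingHom φ' x with hb
  have b0 : b ≠ 0 := fun e => hx (sub_eq_zero.1 (congrArg (algebraMap (𝓞 ℂ) ℂ) e))
  obtain ⟨n, n1, n0⟩ := (Submodule.ne_bot_iff _).1 (Ideal.comap_ne_bot_of_integral_mem (R := ℤ) b0
    (Ideal.mem_span_singleton_self b) (Algebra.IsIntegral.isIntegral b))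
  refine ⟨n.natAbs, Int.natAbs_ne_zero.2 n0, fun Q h1 h2 => absurd ?_ h2⟩
  have : (n : 𝓞 ℂ) ∈ Q := (Ideal.span_singleton_le_iff_mem _).2 (h1 x) (Ideal.mem_comap.1 n1)
  rw [← Int.cast_natCast, Int.natCast_natAbs]
  rcases abs_choice n with e | e <;> rw [e]
  · exact this
  · rw [Int.cast_neg]; exact neg_mem this

variable (E) in
/-- the conjugates of a prime of degree one are coprime -/
theorem cop : ∃ N : ℕ, N ≠ 0 ∧ ∀ P : Pr E, (Nr P).Prime → ¬ Nr P ∣ N → ∀ α : 𝓞 E,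
    (∀ P' : Pr E, α ∈ P'.asIdeal ↔ P' = P) → α ≠ 0 → ∀ {ι : Type} [Fintype ι] (f g : ι → E →+* ℂ),
    ∏ i, f i α = ∏ j, g j α → ∀ i, ∃ j, f i = g j := by
  choose n n0 hn using sep (E := E)
  refine ⟨∏ x : (E →+* ℂ) × (E →+* ℂ), n x.1 x.2, Finset.prod_ne_zero_iff.2 fun _ _ => n0 _ _,
    fun P h1 h2 α h3 h4 ι _ f g e i => ?_⟩
  have inj : ∀ φ : E →+* ℂ, Function.Injective (RingOfIntegers.mapRingHom φ) := fun φ x y k =>
    RingOfIntegers.ext (φ.injective (congrArg (algebraMap (𝓞 ℂ) ℂ) k))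
  obtain ⟨Q, Q1, Q2⟩ : ∃ Q : Ideal (𝓞 ℂ), Q.IsPrime ∧
      Q.comap (RingOfIntegers.mapRingHom (f i)) = P.asIdeal := by
    let _ := (RingOfIntegers.mapRingHom (f i)).toAlgebra
    have : IsScalarTower ℤ (𝓞 E) (𝓞 ℂ) := IsScalarTower.of_algebraMap_eq' (RingHom.ext_int _ _)
    have : Algebra.IsIntegral (𝓞 E) (𝓞 ℂ) := Algebra.IsIntegral.tower_top ℤ
    have := P.isMaximal
    obtain ⟨Q, a, b⟩ := Ideal.exists_ideal_over_maximal_of_isIntegral (S := 𝓞 ℂ) P.asIdeal
      (((RingHom.injective_iff_ker_eq_bot _).1 (inj (f i))).le.trans bot_le)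
    exact ⟨Q, a.isPrime, b⟩
  have e' : ∏ i, RingOfIntegers.mapRingHom (f i) α = ∏ j, RingOfIntegers.mapRingHom (g j) α := by
    apply RingOfIntegers.coe_injective
    rw [map_prod, map_prod]
    exact e
  have m : ∏ j, RingOfIntegers.mapRingHom (g j) α ∈ Q := by
    rw [← e']
    exact Ideal.prod_mem _ (Finset.mem_univ i)
      (Ideal.mem_comap.1 (Q2 ▸ (h3 P).2 rfl))
  obtain ⟨j, -, hj⟩ := Ideal.IsPrime.prod_mem_iff.1 m
  have Q3 : Q.comap (RingOfIntegers.mapRingHom (g j)) = P.asIdeal :=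
    congrArg HeightOneSpectrum.asIdeal ((h3 ⟨_, Ideal.comap_isPrime _ Q,
      fun k => h4 ((Submodule.eq_bot_iff _).1 k α hj)⟩).1 hj)
  refine ⟨j, hn _ _ Q (fun x => ?_) fun k => ?_⟩
  · obtain ⟨z, hz⟩ := deg_one h1 x
    have a1 := Ideal.mem_comap.1 (Q2 ▸ hz)
    have a2 := Ideal.mem_comap.1 (Q3 ▸ hz)
    rw [map_sub, map_intCast] at a1 a2
    simpa using sub_mem a1 a2
  · refine not_mem_nat h1 (fun d => h2 (d.trans
      (Finset.dvd_prod_of_mem (fun x : (E →+* ℂ) × (E →+* ℂ) => n x.1 x.2)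
        (Finset.mem_univ (f i, g j))))) ?_
    rw [← Q2, Ideal.mem_comap, map_natCast]
    exact k

theorem ct_fin (θ : Pr E → ℂ) {I : Ideal (𝓞 E)} (hI : I ≠ 0) :
    Function.HasFiniteMulSupport fun v => θ v ^ ct v I := by
  refine (Filter.eventually_cofinite.1 (Associates.finite_factors hI)).subset fun v hv h => hv ?_
  have : ct v I = 0 := by exact_mod_cast h
  simp only [this, pow_zero]

theorem ct_mul (v : Pr E) {I J : Ideal (𝓞 E)} (hI : I ≠ 0) (hJ : J ≠ 0) :
    ct v (I * J) = ct v I + ct v J := by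
  rw [ct, ← Associates.mk_mul_mk, Associates.count_mul (Associates.mk_ne_zero.2 hI)
    (Associates.mk_ne_zero.2 hJ) v.associates_irreducible, ct, ct]

theorem ct_span (v : Pr E) {x : 𝓞 E} (hx : x ≠ 0) :
    (ct v (Ideal.span {x}) : ℤ) = ordv v (x : E) := (P027M.S.Xf.ord_int v hx).symm

open Classical in
/-- the multiplicative extension to ideals -/
def idl (θ : Pr E → ℂ) : Ideal (𝓞 E) →* ℂ where
  toFun I := if I = 0 then 0 else ∏ᶠ v, θ v ^ ct v I
  map_one' := by
    rw [if_neg one_ne_zero]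
    refine finprod_eq_one_of_forall_eq_one fun v => ?_
    have := ct_mul v (I := 1) (J := 1) one_ne_zero one_ne_zero
    rw [mul_one, left_eq_add] at this
    rw [this, pow_zero]
  map_mul' I J := by
    by_cases hI : I = 0
    · simp [hI]
    by_cases hJ : J = 0
    · simp [hJ]
    rw [if_neg hI, if_neg hJ, if_neg (mul_ne_zero hI hJ),
      ← finprod_mul_distrib (ct_fin θ hI) (ct_fin θ hJ)]
    exact finprod_congr fun v => by rw [ct_mul v hI hJ, pow_add]

theorem idl_apply (θ : Pr E → ℂ) {I : Ideal (𝓞 E)} (h : I ≠ 0) :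
    idl θ I = ∏ᶠ v, θ v ^ ct v I := if_neg h

theorem idl_prime (θ : Pr E → ℂ) (v : Pr E) : idl θ v.asIdeal = θ v := by
  classical
  rw [idl_apply θ v.ne_bot, finprod_eq_single _ v fun w hw => ?_, ct, P027M.S.Xf.cnt, if_pos rfl,
    pow_one]
  rw [ct, P027M.S.Xf.cnt, if_neg hw, pow_zero]

theorem lim_log : Tendsto (fun s : ℝ => Real.log (1 / (s - 1))) (𝓝[>] 1) atTop := by
  refine Real.tendsto_log_atTop.comp ?_
  simp only [one_div]
  refine tendsto_inv_nhdsGT_zero.comp (tendsto_nhdsWithin_iff.2 ⟨?_, ?_⟩)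
  · exact ((continuous_sub_right 1).tendsto' 1 0 (sub_self 1)).mono_left nhdsWithin_le_nhds
  · filter_upwards [self_mem_nhdsWithin] with s hs using sub_pos.2 (show 1 < s from hs)

theorem sum_one {s : ℝ} (s1 : 1 < s) : HasSum
    (fun v : Pr E => if (Nr v).Prime then (Nr v : ℝ) ^ (-s) else 0) (P1 E Set.univ s) := by
  let G : ℕ → ℝ := fun p => if p.Prime then (p : ℝ) ^ (-s) else 0
  have sG : Summable fun v : Pr E => G (Nr v) :=
    Summable.of_nonneg_of_le (fun p => by simp only [G]; positivity)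
      (fun v => by simp only [G]; split_ifs <;> [exact le_rfl; positivity]) ((z1 E).1 s s1).1
  have e3 : P1 E Set.univ s = ∑' v : Pr E, G (Nr v) := by
    rw [← tsum_Nr (F := G) (fun p h => if_neg h) sG, P1, Set.indicator_univ]
    exact tsum_congr fun p => by simp only [G]; split_ifs <;> simp
  exact e3 ▸ sG.hasSum

open Classical in
theorem sum_Z (Z : Finset (Pr E)) :
    HasSum (fun v : Pr E => if v ∈ Z then (2 : ℝ) else 0) (2 * Z.card) := by
  have := hasSum_sum_of_ne_finset_zero (f := fun v : Pr E => if v ∈ Z then (2 : ℝ) else 0)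
    (s := Z) (L := SummationFilter.unconditional _) fun p hp => if_neg hp
  rwa [Finset.sum_congr rfl fun p hp => if_pos hp, Finset.sum_const, nsmul_eq_mul, mul_comm]
    at this

/-- there are infinitely many primes of degree one -/
theorem inf_deg_one (Z : Finset (Pr E)) : ∃ P : Pr E, (Nr P).Prime ∧ P ∉ Z := by
  classical
  by_contra k
  push Not at k
  obtain ⟨C2, hC2⟩ := (z1 E).2
  obtain ⟨s, s1, ⟨-, k2⟩, k3⟩ := ((show ∀ᶠ s : ℝ in 𝓝[>] 1, 1 < s from
    self_mem_nhdsWithin).and (hC2.and (lim_log.eventually_gt_atTop (C2 + 2 * Z.card)))).exists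
  have := hasSum_le (fun v => by
    split_ifs with a b
    · exact (Real.rpow_le_one_of_one_le_of_nonpos (by exact_mod_cast a.one_le)
        (by linarith)).trans one_le_two
    · exact absurd (k v a) b
    · exact zero_le_two
    · exact le_rfl) (sum_one s1) (sum_Z Z)
  linarith [abs_le.1 k2]

theorem ray_of [IsTotallyComplex E] {D : ℕ} (hD : 2 ≤ D) {θ : Ideal (𝓞 E) →* ℂ} (R : RayCh D θ)
    (Z : Finset (Pr E)) (h : ∀ P : Pr E, (Nr P).Prime → P ∉ Z → θ P.asIdeal = 1)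
    (I : Ideal (𝓞 E)) (h0 : I ≠ ⊥) (h1 : (Ideal.absNorm I).Coprime D) : θ I = 1 := by
  classical
  by_contra k
  obtain ⟨C0, hC0⟩ := ray E D θ hD R ⟨I, h0, h1, k⟩
  obtain ⟨C1, hC1⟩ := eul E
  obtain ⟨hs, C2, hC2⟩ := z1 E
  obtain ⟨s, s1, k0, ⟨k1, k2⟩, k3⟩ := ((show ∀ᶠ s : ℝ in 𝓝[>] 1, 1 < s from
    self_mem_nhdsWithin).and (hC0.and (hC2.and
      (lim_log.eventually_gt_atTop (C0 + C1 + 3 * C2 + 2 * Z.card))))).exists
  obtain ⟨e1, e2⟩ := hC1 θ R.le s s1
  have l1 := Real.log_le_sub_one_of_pos (norm_pos_iff.2 e1)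
  have sL := (hs s s1).1
  have re1 : ∀ v : Pr E, |(θ v.asIdeal).re| ≤ 1 := fun v =>
    (Complex.abs_re_le_norm _).trans (R.le _)
  have l2 : 2 * P1 E Set.univ s ≤ PI (fun v : Pr E => (θ v.asIdeal).re) s +
      PI (fun _ : Pr E => 1) s + 2 * Z.card := by
    refine hasSum_le (fun v => ?_) ((sum_one s1).mul_left 2)
      (((summ re1 sL).hasSum.add (summ (f := fun _ => 1) (B := 1) (by simp) sL).hasSum).add
        (sum_Z Z))
    have n0 : 0 ≤ (Nr v : ℝ) ^ (-s) := by positivity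
    have n1 := mul_le_mul_of_nonneg_right (abs_le.1 (re1 v)).1 n0
    by_cases hp : (Nr v).Prime
    · have n2 : (Nr v : ℝ) ^ (-s) ≤ 1 :=
        Real.rpow_le_one_of_one_le_of_nonpos (by exact_mod_cast hp.one_le) (by linarith)
      rw [if_pos hp]
      split_ifs with hz
      · linarith
      · rw [h v hp hz, Complex.one_re]
        linarith
    · rw [if_neg hp]
      split_ifs <;> linarith
  linarith [abs_le.1 k1, abs_le.1 k2, abs_le.1 e2]

/-- a ray class character which is trivial on almost all primes of degree one is trivial -/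
theorem ray_triv [IsTotallyComplex E] {D : ℕ} (hD : 2 ≤ D) (θ : Pr E → ℂˣ)
    (h1 : ∀ P : Pr E, (D : 𝓞 E) ∉ P.asIdeal → ‖(θ P : ℂ)‖ ≤ 1)
    (h2 : ∀ x : 𝓞 E, x ≠ 0 → (D : 𝓞 E) ∣ x - 1 → pv θ (x : E) = 1)
    (Z : Finset (Pr E)) (h : ∀ P : Pr E, (Nr P).Prime → P ∉ Z → θ P = 1)
    (P : Pr E) (hP : (D : 𝓞 E) ∉ P.asIdeal) : θ P = 1 := by
  classical
  let θ0 : Pr E → ℂ := fun P => if (D : 𝓞 E) ∈ P.asIdeal then 0 else θ P
  have R : RayCh D (idl θ0) := by
    refine ⟨fun I => ?_, fun I k => ?_, fun x x0 ⟨z, hz⟩ => ?_⟩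
    · by_cases hI : I = 0
      · rw [show idl θ0 I = 0 from if_pos hI]; simp
      rw [idl_apply _ hI]
      refine finprod_induction (fun z : ℂ => ‖z‖ ≤ 1) (by simp)
        (fun a b ha hb => by rw [norm_mul]; exact mul_le_one₀ ha (norm_nonneg _) hb) fun v => ?_
      rw [norm_pow]
      refine pow_le_one₀ (norm_nonneg _) ?_
      simp only [θ0]
      split_ifs with l
      · simp
      · exact h1 v l
    · by_cases hI : I = 0
      · exact if_pos hI
      rw [coprime_absNorm_iff, Ideal.isCoprime_iff_sup_eq] at k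
      obtain ⟨M, M1, M2⟩ := Ideal.exists_le_maximal _ k
      obtain ⟨J, hJ⟩ := Ideal.dvd_iff_le.2 (le_sup_left.trans M2)
      let v : Pr E := ⟨M, M1.isPrime, fun e => hI (le_bot_iff.1 (e ▸ le_sup_left.trans M2))⟩
      rw [hJ, map_mul, show idl θ0 M = θ0 v from idl_prime θ0 v,
        show θ0 v = 0 from if_pos (le_sup_right.trans M2 (Ideal.mem_span_singleton_self _)),
        zero_mul]
    · rw [idl_apply _ (by simpa using x0), ← Units.val_one, ← h2 x x0 ⟨z, hz⟩, pv,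
        ← Units.coeHom_apply, MonoidHom.map_finprod _ ((ordv_fin (x := (x : E))
          (by exact_mod_cast x0)).subset fun v hv k => hv (by simp only [k, zpow_zero]))]
      refine finprod_congr fun v => ?_
      rw [← ct_span v x0, zpow_natCast, map_pow, Units.coeHom_apply]
      simp only [θ0]
      split_ifs with l
      · have : x ∉ v.asIdeal := fun m => v.isPrime.ne_top ((Ideal.eq_top_iff_one _).2 (by
          rw [show (1 : 𝓞 E) = x - D * z by rw [← hz]; ring]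
          exact sub_mem m (Ideal.mul_mem_right _ _ l)))
        have c : ct v (Ideal.span {x}) = 0 := by
          have c := ct_span v x0
          rw [ordv_one (val_one this)] at c
          exact_mod_cast c
        rw [c, pow_zero, pow_zero]
      · rfl
  have := ray_of hD R (Z ∪ (fin_nat (E := E) (n := D) (by omega)).toFinset) (fun Q a b => by
    rw [Finset.mem_union, not_or, Set.Finite.mem_toFinset] at b
    rw [idl_prime, show θ0 Q = θ Q from if_neg b.2, h Q a b.1, Units.val_one]) P.asIdeal P.ne_bot (by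
      rw [coprime_absNorm_iff, Ideal.isCoprime_iff_sup_eq]
      by_contra k
      exact hP ((P.isMaximal.eq_of_le k le_sup_left).ge
        (Ideal.mem_sup_right (Ideal.mem_span_singleton_self _))))
  rw [idl_prime, show θ0 P = θ P from if_neg hP] at this
  exact Units.ext this

end Vale.Agent.P022K.Sh.Tor
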