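import Vale.Agent.P022K.F0.TorA
import Vale.Agent.P022K.F0.TorC

/-!
# P022K, block F0, row TOR: divisors, the class group of the torus, rigidity of the character
-/

set_option linter.all false

open NumberField IsDedekindDomain WithZero Finset Multiplicative

noncomputable section

namespace Vale.Agent.P022K.Sh.Tor

open Vale.Agent.P022.C (ordv)
open Vale.Agent.P027M.S (Pr Nr)
open Vale.Agent.P027M.S.Gen (norm_cm)
open Vale.Agent.P027M.S.Cls (val_eq ordv_of ordv_mul ordv_zpow ordv_pow le_exp gen_pow)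
open Vale.Agent.P027M.S.Xf (cl Dv dv_of_cl)

variable {F E : Type} [Field F] [NumberField F] [Field E] [NumberField E] [Algebra F E]

section

variable {U I M : Type} [CommGroup U] [CommGroup I] [CommGroup M] (χ : U × I →* M)

theorem r_zpow (a : I) (n : ℤ) : χ (1, a ^ n) = χ (1, a) ^ n :=
  map_zpow (χ.comp (MonoidHom.inr U I)) a n

theorem r_inv (a : I) : χ (1, a⁻¹) = (χ (1, a))⁻¹ := map_inv (χ.comp (MonoidHom.inr U I)) a

theorem r_mul (u u' : U) (a b : I) : χ (u * u', a * b) = χ (u, a) * χ (u', b) :=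
  map_mul χ (u, a) (u', b)

end

theorem pv_fin (Ψ : Pr E → ℂˣ) {x : E} (hx : x ≠ 0) :
    Function.HasFiniteMulSupport fun P => Ψ P ^ ordv P x :=
  (ordv_fin hx).subset fun v hv k => hv (by simp only [k, zpow_zero])

theorem pv_mul (Ψ : Pr E → ℂˣ) {x y : E} (hx : x ≠ 0) (hy : y ≠ 0) :
    pv Ψ (x * y) = pv Ψ x * pv Ψ y := by
  rw [pv, pv, pv, ← finprod_mul_distrib (pv_fin Ψ hx) (pv_fin Ψ hy)]
  exact finprod_congr fun P => by rw [ordv_mul P hx hy, zpow_add]

open Classical in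
theorem pv_single (Ψ : Pr E → ℂˣ) {x : E} {P : Pr E} {h : ℤ}
    (e : ∀ P', ordv P' x = if P' = P then h else 0) : pv Ψ x = Ψ P ^ h := by
  rw [pv, finprod_eq_single _ P fun P' k => by rw [e, if_neg k, zpow_zero], e, if_pos rfl]

theorem hom_eq {α : Type} (ψ : Multiplicative (α →₀ ℤ) →* ℂˣ) (a : α →₀ ℤ) :
    ψ (ofAdd a) = ∏ᶠ P, ψ (ofAdd (Finsupp.single P 1)) ^ a P := by
  rw [finprod_eq_prod_of_mulSupport_subset (s := a.support) _ fun P h => by
    by_contra k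
    exact h (by simp only [Finsupp.notMem_support_iff.1 k, zpow_zero])]
  conv_lhs => rw [← a.sum_single, Finsupp.sum, ofAdd_sum, map_prod]
  refine prod_congr rfl fun P _ => ?_
  rw [← map_zpow, ← ofAdd_zsmul, Finsupp.smul_single, smul_eq_mul, mul_one]

theorem up_inj : Function.Injective (up E : Pr F → Pr E) := fun v w h => by
  rw [← (ab_up (E := E) v).eq, h, (ab_up w).eq]

namespace CM

variable (C : CM F E)

include C in
theorem totC : IsTotallyComplex E := ⟨fun w => by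
  rw [← InfinitePlace.not_isReal_iff_isComplex, InfinitePlace.isReal_iff]
  intro h
  have e := C.cj w.embedding C.δ
  rw [C.cδ, map_neg, ← ComplexEmbedding.conjugate_coe_eq, ComplexEmbedding.isReal_iff.1 h,
    neg_eq_iff_add_eq_zero, add_self_eq_zero, map_eq_zero] at e
  exact C.δ0 e⟩

theorem pi_inj : Function.Injective C.pi := fun v w h => by rw [← C.pi_pi v, h, pi_pi]

open Classical in
/-- the primes above `v` -/
def pr (v : Pr F) : Finset (Pr E) := {up E v, C.pi (up E v)}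

theorem mem_pr {v : Pr F} {P : Pr E} : P ∈ C.pr v ↔ Ab v P := by
  classical
  rw [pr, mem_insert, mem_singleton]
  refine ⟨?_, C.ab_or (ab_up v)⟩
  rintro (rfl | rfl)
  · exact ab_up v
  · exact C.ab_pi (ab_up v)

theorem kap_eq (Ψ : Pr E → ℂˣ) (v : Pr F) : kap Ψ v = ∏ P ∈ C.pr v, Ψ P :=
  finprod_cond_eq_prod_of_cond_iff _ fun _ => C.mem_pr.symm

theorem tw_eq (Ψ : Pr E → ℂˣ) {v : Pr F} (h : C.Gd v) :
    tw Ψ v = Ψ (up E v) + Ψ (C.pi (up E v)) := by
  classical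
  rw [tw, finsum_cond_eq_sum_of_cond_iff (t := C.pr v) _ fun _ => C.mem_pr.symm, pr,
    sum_pair (h.ne (ab_up v)).symm]

/-- the good primes -/
abbrev J : Type := {v : Pr F // C.Gd v}

/-- the divisors of the torus -/
def I : Type := Multiplicative (C.J →₀ ℤ)

instance : CommGroup C.I := inferInstanceAs (CommGroup (Multiplicative (C.J →₀ ℤ)))

/-- the residues -/
def U : Type := C.G ⧸ C.G1 Set.univ

instance : CommGroup C.U := inferInstanceAs (CommGroup (C.G ⧸ C.G1 Set.univ))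

instance : Finite C.U := inferInstanceAs (Finite (C.G ⧸ C.G1 Set.univ))

/-- additive to multiplicative -/
def oa (a : C.J →₀ ℤ) : C.I := ofAdd a

/-- multiplicative to additive -/
def ta (a : C.I) : C.J →₀ ℤ := toAdd a

theorem oa_add (a b : C.J →₀ ℤ) : C.oa (a + b) = C.oa a * C.oa b := rfl
theorem oa_sub (a b : C.J →₀ ℤ) : C.oa (a - b) = C.oa a / C.oa b := rfl
theorem oa_neg (a : C.J →₀ ℤ) : C.oa (-a) = (C.oa a)⁻¹ := rfl
theorem oa_zsmul (n : ℤ) (a : C.J →₀ ℤ) : C.oa (n • a) = C.oa a ^ n := rfl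
theorem ta_mul (a b : C.I) : C.ta (a * b) = C.ta a + C.ta b := rfl
theorem ta_inv (a : C.I) : C.ta a⁻¹ = -C.ta a := rfl
theorem ta_inj {a b : C.I} (h : ∀ v, C.ta a v = C.ta b v) : a = b := Finsupp.ext h

/-- from divisors of `E` to divisors of the torus -/
def dd : (Pr E →₀ ℤ) →+ (C.J →₀ ℤ) :=
  Finsupp.comapDomain.addMonoidHom (f := fun v : C.J => up E v.1)
      (up_inj.comp Subtype.val_injective) -
    Finsupp.comapDomain.addMonoidHom (f := fun v : C.J => C.pi (up E v.1))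
      (C.pi_inj.comp (up_inj.comp Subtype.val_injective))

theorem dd_apply (a : Pr E →₀ ℤ) (v : C.J) : C.dd a v = a (up E v.1) - a (C.pi (up E v.1)) := rfl

/-- the divisor -/
def dv (γ : C.G) : Pr E →₀ ℤ :=
  Finsupp.ofSupportFinite (fun P => ordv P ((γ : Eˣ) : E)) (ordv_fin (Units.ne_zero _))

/-- the divisor on the torus -/
def d : C.G →* C.I := MonoidHom.mk' (fun γ => C.oa (C.dd (C.dv γ))) fun x y => by
  rw [← oa_add, ← map_add]
  congr 2
  ext P
  exact ordv_mul P (Units.ne_zero _) (Units.ne_zero _)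

theorem d_apply (γ : C.G) (v : C.J) : C.ta (C.d γ) v =
    ordv (up E v.1) ((γ : Eˣ) : E) - ordv (C.pi (up E v.1)) ((γ : Eˣ) : E) := rfl

/-- the residue -/
def r : C.G →* C.U := QuotientGroup.mk' _

open Classical in
/-- the generators -/
def e (v : Pr F) : C.I := if h : C.Gd v then C.oa (Finsupp.single ⟨v, h⟩ 1) else 1

theorem e_eq (v : C.J) : C.e v = C.oa (Finsupp.single v 1) := dif_pos v.2

open Classical in
theorem e_apply (w : Pr F) (v : C.J) : C.ta (C.e w) v = if w = v.1 then 1 else 0 := by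
  unfold e
  by_cases h : C.Gd w
  · rw [dif_pos h]
    refine Finsupp.single_apply.trans ?_
    simp only [Subtype.ext_iff]
  · rw [dif_neg h, if_neg fun k : w = v.1 => h (k ▸ v.2)]
    rfl

open Classical in
theorem prod_e (S : Finset (Pr F)) (v : C.J) :
    C.ta (∏ w ∈ S, C.e w) v = if v.1 ∈ S then 1 else 0 := by
  rw [show C.ta (∏ w ∈ S, C.e w) = ∑ w ∈ S, C.ta (C.e w) from toAdd_prod _ _,
    Finsupp.finsetSum_apply]
  simp only [e_apply, sum_ite_eq']

theorem dd_up {v : Pr F} (h : C.Gd v) : C.oa (C.dd (Finsupp.single (up E v) 1)) = C.e v := by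
  classical
  refine C.ta_inj fun w => (C.dd_apply _ w).trans ?_
  rw [e_apply, Finsupp.single_apply, Finsupp.single_apply,
    if_neg (c := up E v = C.pi _) fun k => ?_, sub_zero]
  · simp only [up_inj.eq_iff]
  · have : v = w.1 := by rw [← (ab_up (E := E) v).eq, k, un_pi, (ab_up w.1).eq]
    exact h.ne (ab_up v) (this ▸ k.symm)

theorem dd_pi (P : Pr E) : C.dd (Finsupp.single (C.pi P) 1) = -C.dd (Finsupp.single P 1) := by
  classical
  ext w
  simp only [Finsupp.neg_apply, dd_apply, Finsupp.single_apply, C.pi_inj.eq_iff, neg_sub]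
  congr 2
  exact propext ⟨fun k => by rw [← k, pi_pi], fun k => by rw [k, pi_pi]⟩

theorem mk_G {x : E} (hx : x ≠ 0) (h : ∀ P : Pr E, (C.D : 𝓞 E) ∈ P.asIdeal → ordv P x = 0) :
    ∃ γ : C.G, ((γ : Eˣ) : E) = x :=
  ⟨⟨Units.mk0 x hx, fun P k => val_of_ordv hx (h P k)⟩, rfl⟩

open Classical in
theorem gen1 {P : Pr E} (h : (C.D : 𝓞 E) ∉ P.asIdeal) : ∃ (n : ℕ) (α : C.G), n ≠ 0 ∧
    α ∈ C.G1 Set.univ ∧ ∀ P', ordv P' ((α : Eˣ) : E) = if P' = P then (n : ℤ) else 0 := by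
  obtain ⟨x, x0, hx⟩ := gen_pow P
  obtain ⟨γ, rfl⟩ := C.mk_G x0 fun P' k => by rw [hx, if_neg fun e : P' = P => h (e ▸ k)]
  refine ⟨Nat.card C.U * classNumber E, γ ^ Nat.card C.U,
    mul_ne_zero Nat.card_pos.ne' (classNumber_ne_zero E), Subgroup.pow_index_mem _ γ, fun P' => ?_⟩
  rw [Subgroup.coe_pow, Units.val_pow_eq_pow_val, ordv_pow _ x0, hx]
  split_ifs <;> simp

open Classical in
theorem dv_single {α : C.G} {P : Pr E} {n : ℤ}
    (h : ∀ P', ordv P' ((α : Eˣ) : E) = if P' = P then n else 0) :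
    C.dv α = n • Finsupp.single P 1 := by
  ext P'
  rw [Finsupp.smul_single, smul_eq_mul, mul_one, Finsupp.single_apply]
  exact (h P').trans (by simp only [eq_comm])

theorem nD {v : Pr F} (h : C.Gd v) : (C.D : 𝓞 E) ∉ (up E v).asIdeal := fun k =>
  h.1 (((ab_up v).nat _).1 k)

/-- the global elements -/
abbrev H : Subgroup (C.U × C.I) := (C.r.prod C.d).range

theorem d_gen {α : C.G} {v : Pr F} (g : C.Gd v) {n : ℤ}
    (h : C.dv α = n • Finsupp.single (up E v) 1) : C.d α = C.e v ^ n := by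
  rw [show C.d α = C.oa (C.dd (C.dv α)) from rfl, h, map_zsmul, oa_zsmul, C.dd_up g]

theorem r_one {α : C.G} (h : α ∈ C.G1 Set.univ) : C.r α = 1 := (QuotientGroup.eq_one_iff _).2 h

instance : Finite ((C.U × C.I) ⧸ C.H) := by
  classical
  let m : C.U × C.I →* (C.U × C.I) ⧸ C.H := QuotientGroup.mk' C.H
  have mk : ∀ γ, m (C.r γ, C.d γ) = 1 := fun γ => (QuotientGroup.eq_one_iff _).2 ⟨γ, rfl⟩
  have h1 : ∀ c : ClassGroup (𝓞 E), ∃ a : C.I, ∀ v : C.J, cl (up E v.1) = c →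
      ∃ u, m (1, C.e v) = m (u, a) := fun c => by
    by_cases h : ∃ w : C.J, cl (up E w.1) = c
    swap
    · exact ⟨1, fun v k => absurd ⟨v, k⟩ h⟩
    obtain ⟨w, hw⟩ := h
    refine ⟨C.e w, fun v k => ?_⟩
    obtain ⟨x, x0, hx⟩ := dv_of_cl (hw.trans k.symm)
    obtain ⟨γ, rfl⟩ := C.mk_G x0 fun P' l => by
      rw [hx, if_neg fun e : P' = up E w.1 => C.nD w.2 (e ▸ l),
        if_neg fun e : P' = up E v.1 => C.nD v.2 (e ▸ l), sub_zero]
    have e : C.dv γ = Finsupp.single (up E w.1) 1 - Finsupp.single (up E v.1) 1 := by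
      ext P
      rw [Finsupp.sub_apply, Finsupp.single_apply, Finsupp.single_apply]
      exact (hx P).trans (by simp only [eq_comm])
    refine ⟨C.r γ, ?_⟩
    rw [← mul_one (m (1, _)), ← mk γ, ← r_mul m, one_mul,
      show C.d γ = C.oa (C.dd (C.dv γ)) from rfl, e, map_sub, oa_sub, C.dd_up v.2,
      C.dd_up w.2, mul_div_cancel]
  choose a ha using h1
  let S : Set ((C.U × C.I) ⧸ C.H) :=
    Set.range (fun u => m (u, 1)) ∪ Set.range fun v : C.J => m (1, C.e v)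
  have top : ∀ H : Subgroup ((C.U × C.I) ⧸ C.H), S ⊆ H → H = ⊤ := fun H h => by
    refine eq_top_iff.2 fun q _ => ?_
    obtain ⟨⟨u, b⟩, rfl⟩ := QuotientGroup.mk'_surjective _ q
    change m (u, b) ∈ H
    rw [← mul_one u, ← one_mul b, r_mul m]
    refine H.mul_mem (h (Or.inl ⟨u, rfl⟩)) ?_
    rw [show b = C.oa (C.ta b) from rfl]
    induction C.ta b using Finsupp.induction_linear with
    | zero => exact H.one_mem
    | add f g hf hg =>
      rw [oa_add, ← one_mul (1 : C.U), r_mul m]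
      exact H.mul_mem hf hg
    | single v n =>
      have := H.zpow_mem (h (Or.inr ⟨v, rfl⟩)) n
      rwa [← r_zpow m, e_eq, ← oa_zsmul, Finsupp.smul_single,
        smul_eq_mul, mul_one] at this
  have : Group.FG ((C.U × C.I) ⧸ C.H) := by
    refine Group.fg_iff.2 ⟨S, top _ Subgroup.subset_closure, (Set.finite_range _).union ?_⟩
    refine (Set.finite_range fun x : C.U × ClassGroup (𝓞 E) => m (x.1, a x.2)).subset ?_
    rintro _ ⟨v, rfl⟩
    obtain ⟨u, hu⟩ := ha _ v rfl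
    exact ⟨(u, _), hu.symm⟩
  refine CommGroup.finite_of_fg_isMulTorsion _ fun q => ?_
  refine (top (CommGroup.torsion _) ?_).ge (Subgroup.mem_top q)
  rintro _ (⟨u, rfl⟩ | ⟨v, rfl⟩)
  · exact (m.comp (MonoidHom.inl _ _)).isOfFinOrder (isOfFinOrder_of_finite u)
  · obtain ⟨n, α, n0, h1, h2⟩ := C.gen1 (C.nD v.2)
    refine isOfFinOrder_iff_pow_eq_one.2 ⟨n, Nat.pos_of_ne_zero n0, ?_⟩
    rw [← mk α, ← zpow_natCast, ← r_zpow m, C.r_one h1, C.d_gen v.2 (C.dv_single h2)]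

theorem neat' {γ : C.G} (h1 : C.d γ = 1) (h2 : C.r γ = 1) : C.c (γ : Eˣ) = (γ : Eˣ) :=
  C.neat ((QuotientGroup.eq_one_iff _).1 h2) fun v g => by
    have := C.d_apply γ ⟨v, g⟩
    rw [h1] at this
    exact sub_eq_zero.1 this.symm

/-- the embeddings of the type -/
def em (τ : F →+* ℂ) : C.G →* ℂˣ := (Units.map (C.sec τ : E →* ℂ)).comp C.G.subtype

/-- the change of type -/
def nu (S : Finset (F →+* ℂ)) : C.G →* ℂˣ := ∏ τ ∈ S, ((C.em τ).comp C.cG / C.em τ)

theorem nu_apply (S : Finset (F →+* ℂ)) (γ : C.G) :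
    (C.nu S γ : ℂ) = ∏ τ ∈ S, C.sec τ (C.c (γ : Eˣ)) / C.sec τ (γ : Eˣ) := by
  rw [nu, MonoidHom.finsetProd_apply, Units.coe_prod]
  exact prod_congr rfl fun τ _ => by rw [MonoidHom.div_apply, Units.val_div_eq_div_val]; rfl

theorem exists_xi (S : Finset (F →+* ℂ)) : ∃ ξ : C.U × C.I →* ℂˣ,
    (∀ γ, ξ (C.r γ, C.d γ) = C.nu S γ) ∧ (S = ∅ → ξ = 1) := by
  by_cases h : S = ∅
  · exact ⟨1, fun γ => by rw [h, nu, prod_empty]; rfl, fun _ => rfl⟩
  obtain ⟨ξ, hξ⟩ := ext_char (A := C.G) (B := C.U × C.I) (C.r.prod C.d) (C.nu S)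
    fun γ k => Units.ext (by
    rw [nu_apply, C.neat' (Prod.ext_iff.1 k).2 (Prod.ext_iff.1 k).1]
    exact prod_eq_one fun τ _ => div_self ((map_ne_zero _).2 (Units.ne_zero _)))
  exact ⟨ξ, hξ, fun k => absurd k h⟩

theorem sec_c (τ τ' : F →+* ℂ) : (C.sec τ).comp (C.c : E →+* E) ≠ C.sec τ' := fun h => by
  have e : τ = τ' := RingHom.ext fun x => by
    rw [← C.ovr τ', ← h, ← C.ovr τ]
    exact congrArg _ (C.c.commutes x).symm
  have := RingHom.congr_fun h C.δ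
  rw [← e, RingHom.comp_apply, RingHom.coe_coe, C.cδ, map_neg, neg_eq_iff_add_eq_zero,
    add_self_eq_zero, map_eq_zero] at this
  exact C.δ0 this

theorem gd_un {P : Pr E} (h : (Nr P).Prime) (hD : (C.D : 𝓞 E) ∉ P.asIdeal) : C.Gd (un F P) := by
  refine ⟨fun k => hD (((ab_un P).nat _).2 k), ?_⟩
  have i : IsIntegral ℤ C.δ := IsIntegral.of_pow two_pos (by
    rw [C.sq]; exact (algebraMap (𝓞 F) (𝓞 E) C.a).isIntegral_coe)
  obtain ⟨y, e'⟩ : ∃ y : 𝓞 E, algebraMap (𝓞 E) E y = C.δ := ⟨⟨C.δ, i⟩, rfl⟩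
  obtain ⟨n, hn⟩ := deg_one h y
  refine ⟨n, ((ab_un P).mem _).1 ?_⟩
  have : algebraMap (𝓞 F) (𝓞 E) ((n : 𝓞 F) ^ 2 - C.a) = (y - n) * (-y - n) := by
    apply RingOfIntegers.coe_injective
    have e : algebraMap (𝓞 E) E (algebraMap (𝓞 F) (𝓞 E) C.a) = C.δ ^ 2 := C.sq.symm
    simp only [map_sub, map_pow, map_intCast, map_mul, map_neg, e, e']
    ring
  rw [this]
  exact Ideal.mul_mem_right _ _ hn

/-- **ISO** -/
theorem iso {Ψ : Pr E → ℂˣ} (hΨ : C.Hk Ψ) {S : Finset (F →+* ℂ)} (hS : C.t1 ∉ S)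
    (χ : C.U × C.I →* ℂˣ) (hχ : ∀ γ, χ (C.r γ, C.d γ) = C.nu S γ) (Z : Finset (Pr F))
    (h : ∀ w, C.Gd w → w ∉ Z → (Ψ (up E w) : ℂ) * χ (1, C.e w) +
      Ψ (C.pi (up E w)) * χ (1, (C.e w)⁻¹) = Ψ (up E w) + Ψ (C.pi (up E w))) :
    S = ∅ ∧ χ = 1 := by
  classical
  obtain ⟨N, N0, hN⟩ := cop E
  have D0 : C.D ≠ 0 := by have := C.D3; omega
  have one : ∀ w, C.Gd w → w ∉ Z → (Nr (up E w)).Prime → (N : 𝓞 E) ∉ (up E w).asIdeal →
      S = ∅ ∧ χ (1, C.e w) = 1 := fun w w1 w2 w3 w4 => by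
    obtain ⟨n, α, n0, h1, h2⟩ := C.gen1 (C.nD w1)
    have α0 : ((α : Eˣ) : E) ≠ 0 := Units.ne_zero _
    obtain ⟨a, ha⟩ := HeightOneSpectrum.mem_integers_of_valuation_le_one (R := 𝓞 E) E
      ((α : Eˣ) : E) fun P => by
        rw [val_eq P α0, h2, ← exp_zero, exp_le_exp]
        split_ifs <;> omega
    replace ha : (a : E) = (α : Eˣ) := ha
    have cp := hN _ w3 (fun ⟨k, hk⟩ => w4 (by
      rw [hk, Nat.cast_mul]; exact Ideal.mul_mem_right _ _ (Ideal.absNorm_mem _))) a (fun P => by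
        rw [mem_iff, ha, val_eq P α0, h2, ← exp_zero, exp_lt_exp]
        split_ifs with k <;> simp only [k, iff_true, iff_false] <;> omega)
      (fun k => α0 (by rw [← ha, k]; rfl))
      (fun τ => if τ ∈ S then (C.sec τ).comp (C.c : E →+* E) else C.sec τ)
    have e1 : (Ψ (up E w) : ℂ) ^ n = C.NT (α : Eˣ) := by
      rw [← hΨ α h1, pv_single Ψ h2, zpow_natCast, Units.val_pow_eq_pow_val]
    have e2 : (Ψ (C.pi (up E w)) : ℂ) ^ n = C.NT (C.c (α : Eˣ)) := by
      rw [← coe_cG, ← hΨ _ (C.cG_mem h1), pv_single Ψ (P := C.pi (up E w)) (h := n) fun P => ?_,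
        zpow_natCast, Units.val_pow_eq_pow_val]
      rw [coe_cG, ← ordv_pi, h2]
      congr 1
      exact propext ⟨fun k => by rw [← k, pi_pi], fun k => by rw [k, pi_pi]⟩
    have e3 : (χ (1, C.e w) : ℂ) ^ n = C.nu S α := by
      rw [← hχ, ← Units.val_pow_eq_pow_val, ← zpow_natCast, ← r_zpow χ, C.r_one h1,
        C.d_gen w1 (C.dv_single h2)]
    have e4 : ∏ τ, (if τ ∈ S then (C.sec τ).comp (C.c : E →+* E) else C.sec τ) (a : E) =
        C.NT (α : Eˣ) * C.nu S α := by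
      rw [nu_apply, NT, ← univ_inter S, ← prod_ite_mem, univ_inter, ← prod_mul_distrib, ha]
      refine prod_congr rfl fun τ _ => ?_
      split_ifs
      · rw [mul_div_cancel₀ _ ((map_ne_zero _).2 α0)]; rfl
      · rw [mul_one]
    have e5 := h w w1 w2
    rw [r_inv χ, Units.val_inv_eq_inv_val] at e5
    have e6 : ((χ (1, C.e w) : ℂ) - 1) * (Ψ (up E w) * χ (1, C.e w) - Ψ (C.pi (up E w))) = 0 := by
      have := mul_inv_cancel₀ (χ (1, C.e w)).ne_zero
      linear_combination (χ (1, C.e w) : ℂ) * e5 - (Ψ (C.pi (up E w)) : ℂ) * this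
    rcases mul_eq_zero.1 e6 with k | k
    · rw [sub_eq_zero] at k
      refine ⟨eq_empty_of_forall_notMem fun τ hτ => ?_, Units.ext k⟩
      obtain ⟨τ', e⟩ := cp C.sec (by rw [e4, ← e3, k, one_pow, mul_one, ha, NT]) τ
      rw [if_pos hτ] at e
      exact C.sec_c _ _ e
    · rw [sub_eq_zero] at k
      obtain ⟨τ', e⟩ := cp (fun τ => (C.sec τ).comp (C.c : E →+* E))
        (by rw [e4, ← e3, ← e1, ← mul_pow, k, e2, ha]; rfl) C.t1
      rw [if_neg hS] at e
      exact absurd e.symm (C.sec_c _ _)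
  let Z' : Finset (Pr E) := (fin_nat (E := E) (mul_ne_zero N0 D0)).toFinset ∪ Z.biUnion C.pr
  have two : ∀ P : Pr E, (Nr P).Prime → P ∉ Z' →
      S = ∅ ∧ χ (1, C.oa (C.dd (Finsupp.single P 1))) = 1 := fun P p1 p2 => by
    rw [mem_union, not_or, Set.Finite.mem_toFinset, Set.mem_setOf_eq, Nat.cast_mul] at p2
    have g := C.gd_un p1 fun k => p2.1 (Ideal.mul_mem_left _ _ k)
    have o := C.ab_or (ab_up (un F P)) (ab_un P)
    obtain ⟨s1, s2⟩ := one _ g (fun k => p2.2 (mem_biUnion.2 ⟨_, k, C.mem_pr.2 (ab_un P)⟩)) (by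
      rcases o with e | e
      · rwa [← e]
      · rwa [e, pi, norm_cm] at p1) fun k => p2.1 (Ideal.mul_mem_right _ _
        (((ab_un P).nat _).2 (((ab_up _).nat _).1 k)))
    refine ⟨s1, ?_⟩
    rcases o with e | e
    · rw [e, C.dd_up g, s2]
    · rw [e, dd_pi, oa_neg, C.dd_up g, r_inv χ, s2, inv_one]
  obtain ⟨P0, p1, p2⟩ := inf_deg_one Z'
  have S0 := (two P0 p1 p2).1
  have c1 : ∀ γ, χ (C.r γ, C.d γ) = 1 := fun γ => by rw [hχ, S0, nu, prod_empty]; rfl
  have := C.totC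
  let ψ : Multiplicative (Pr E →₀ ℤ) →* ℂˣ :=
    (χ.comp (MonoidHom.inr C.U C.I)).comp (AddMonoidHom.toMultiplicative C.dd)
  have t := ray_triv (D := C.D) (by have := C.D3; omega) (fun P => ψ (ofAdd (Finsupp.single P 1)))
    (fun P hP => by
      obtain ⟨n, α, n0, h1, h2⟩ := C.gen1 hP
      refine (Complex.norm_eq_one_of_pow_eq_one ?_ n0).le
      rw [← Units.val_pow_eq_pow_val, ← zpow_natCast, ← map_zpow, ← ofAdd_zsmul, ← C.dv_single h2,
        ← Units.val_one, ← c1 α, C.r_one h1]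
      rfl)
    (fun x x0 ⟨z, hz⟩ => by
      have hz' : (x : E) - 1 = C.D * z := by exact_mod_cast congrArg (algebraMap _ E) hz
      have l : ∀ P : Pr E, P.valuation E ((x : E) - 1) ≤ P.valuation E (C.D : E) := fun P => by
        rw [hz', map_mul]
        exact mul_le_of_le_one_right' (val_le P z)
      obtain ⟨γ, hγ⟩ := C.mk_G (x := x) (by exact_mod_cast x0) fun P k => ordv_one (by
        have := Valuation.map_one_add_of_lt _ ((l P).trans_lt (C.val_D_lt k))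
        rwa [add_sub_cancel] at this)
      have := hom_eq ψ (C.dv γ)
      rw [← hγ, ← c1 γ, C.r_one fun P _ _ => hγ ▸ l P]
      exact this.symm)
    Z' fun P a b => (two P a b).2
  have c2 : ∀ a, χ (1, a) = 1 := fun a => by
    refine (hom_eq (χ.comp (MonoidHom.inr C.U C.I)) (C.ta a)).trans
      (finprod_eq_one_of_forall_eq_one fun v => ?_)
    change χ (1, C.oa _) ^ _ = 1
    rw [← e_eq, ← C.dd_up v.2]
    exact (congrArg (· ^ _) (t _ (C.nD v.2))).trans (one_zpow _)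
  refine ⟨S0, MonoidHom.ext fun ⟨u, a⟩ => ?_⟩
  obtain ⟨γ, rfl⟩ : ∃ γ, C.r γ = u := QuotientGroup.mk'_surjective _ u
  change χ (C.r γ, a) = 1
  rw [← mul_one (C.r γ), ← mul_inv_cancel_left (C.d γ) a, r_mul χ, c1, c2, one_mul]

end CM

end Vale.Agent.P022K.Sh.Tor
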