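import Vale.Agent.P022K.F0.StS3
import Vale.Agent.P022K.F0.Torn
import Vale.Agent.P022K.F0.Nel

/-!
# P022K, block F0, rows TORN2 and ENL
-/

set_option linter.all false

open NumberField IsDedekindDomain WithZero Finset

noncomputable section

namespace Vale.Agent.P022K.Sh

open Tor Tor.CM Nel Vale.Agent.P022

/-- a common zero of commuting operators without non zero eigenvalues -/
theorem ex_ker {M ι : Type} [AddCommGroup M] [Module ℂ M] [FiniteDimensional ℂ M]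
    (T : ι → Module.End ℂ M) (c : ∀ i j, Commute (T i) (T j)) (p : ι → Prop) (A : Submodule ℂ M) :
    A ≠ ⊥ → (∀ i, ∀ x ∈ A, T i x ∈ A) →
    (∀ i, p i → ∀ x ∈ A, ∀ μ : ℂ, μ ≠ 0 → T i x = μ • x → x = 0) →
    ∃ x ∈ A, x ≠ 0 ∧ ∀ i, p i → T i x = 0 := by
  induction A using WellFoundedLT.induction with
  | ind A ih =>
  intro h0 h1 h2
  by_cases h : ∀ i, p i → ∀ x ∈ A, T i x = 0
  · obtain ⟨x, a, b⟩ := (Submodule.ne_bot_iff _).1 h0
    exact ⟨x, a, b, fun i k => h i k x a⟩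
  push Not at h
  obtain ⟨i, k, x, a, b⟩ := h
  have := Submodule.nontrivial_iff_ne_bot.2 h0
  obtain ⟨μ, hμ⟩ := Module.End.exists_eigenvalue ((T i).restrict (h1 i))
  obtain ⟨y, y1⟩ := hμ.exists_hasEigenvector
  have e : T i y = μ • y := congrArg Subtype.val y1.apply_eq_smul
  have y0 : (y : M) ≠ 0 := fun z => y1.2 (Subtype.ext z)
  obtain ⟨z, z1, z2⟩ := ih (A ⊓ LinearMap.ker (T i)) (inf_lt_left.2 fun l => b (l a))
    ((Submodule.ne_bot_iff _).2 ⟨y, ⟨y.2, by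
      rw [SetLike.mem_coe, LinearMap.mem_ker, e,
        by_contra fun m : μ ≠ 0 => y0 (h2 i k y y.2 μ m e), zero_smul]⟩, y0⟩)
    (fun j x hx => ⟨h1 j x hx.1, by
      rw [SetLike.mem_coe, LinearMap.mem_ker, ← Module.End.mul_apply, (c i j).eq,
        Module.End.mul_apply, hx.2, map_zero]⟩) fun j l x hx => h2 j l x hx.1
  exact ⟨z, z1.1, z2⟩

theorem torn2 : TORN2 := by
  classical
  intro F E _ _ _ _ _ X C Ψ hΨ hK φ Z wt G M _ _ _ T TW P H c1 c2 t0 t1 hL ha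
  induction hA : LinearMap.range P using WellFoundedLT.induction generalizing P TW with
  | ind A ih =>
  subst hA
  have m : ∀ w, ∀ x ∈ LinearMap.range P, T w x ∈ LinearMap.range P := by
    rintro w _ ⟨y, rfl⟩
    exact ⟨T w y, (LinearMap.congr_fun (c2 w).eq y).symm⟩
  by_cases h : ∀ w, w ∉ Z ∧ ¬ C.Gd w → ∀ x ∈ LinearMap.range P, ∀ μ : ℂ, μ ≠ 0 →
      T w x = μ • x → x = 0
  · obtain ⟨y, y0, Z', hy⟩ := torn F E X C Ψ hΨ hK φ Z wt G M T TW P H c1 c2 t0 t1 hL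
    let B : Submodule ℂ M := LinearMap.range P ⊓
      ⨅ (w) (_ : C.Gd w) (_ : w ∉ Z'), Module.End.eigenspace (T w) (Tor.tw Ψ w)
    have hB : ∀ x, x ∈ B ↔ x ∈ LinearMap.range P ∧
        ∀ w, C.Gd w → w ∉ Z' → T w x = Tor.tw Ψ w • x := fun x => by
      simp only [B, Submodule.mem_inf, Submodule.mem_iInf, Module.End.mem_eigenspace_iff]
    obtain ⟨x, x1, x0, x2⟩ := ex_ker T c1 (fun w => w ∉ Z ∧ ¬ C.Gd w) B
      ((Submodule.ne_bot_iff _).2 ⟨_, (hB _).2 ⟨⟨y, rfl⟩, hy⟩, y0⟩)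
      (fun v x hx => (hB _).2 ⟨m v x ((hB _).1 hx).1, fun w a b => by
        rw [← Module.End.mul_apply, (c1 w v).eq, Module.End.mul_apply, ((hB _).1 hx).2 w a b,
          map_smul]⟩) fun w k x hx => h w k x ((hB _).1 hx).1
    obtain ⟨⟨y, rfl⟩, x1⟩ := (hB _).1 x1
    refine ⟨y, x0, Z ∪ Z', fun w k => ?_⟩
    rw [mem_union, not_or] at k
    unfold ta
    split_ifs with g
    · exact x1 w g k.2
    · rw [x2 w ⟨k.1, g⟩, zero_smul]
  push Not at h
  obtain ⟨v, ⟨v1, v2⟩, x, x1, μ, μ0, x2, x0⟩ := h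
  have cw : ∀ W : Finset (Pl F), (∀ w ∈ W, C.Gd w ∧ w ∉ Z) → Commute (T v) (TW W) := fun W => by
    induction W using Finset.induction_on with
    | empty => exact fun _ => t0 ▸ c2 v
    | insert w W a ih =>
      exact fun k => t1 W w a k ▸ (c1 v w).mul_right (ih fun u b => k u (mem_insert_of_mem b))
  let Q : Module.End ℂ M := 1 - μ⁻¹ • T v
  have cq : ∀ {B : Module.End ℂ M}, Commute B (T v) → Commute B Q := fun k =>
    (Commute.one_right _).sub_right (k.smul_right _)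
  have mq : ∀ x ∈ LinearMap.range P, Q x ∈ LinearMap.range P := fun x k =>
    sub_mem k (Submodule.smul_mem _ _ (m v x k))
  obtain ⟨y, hy⟩ := ih (LinearMap.range (P * Q)) (lt_of_le_of_ne (LinearMap.range_comp_le_range _ _)
    fun e => x0 (congrArg Subtype.val (LinearMap.injective_iff_surjective (f := Q.restrict mq).2
      (fun ⟨y, hy⟩ => by
        obtain ⟨z, rfl⟩ := e.ge hy
        exact ⟨⟨P z, z, rfl⟩, Subtype.ext (LinearMap.congr_fun (cq (c2 v).symm).eq z).symm⟩)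
      (a₁ := ⟨x, x1⟩) (a₂ := 0) (Subtype.ext (by
        change x - μ⁻¹ • T v x = Q 0
        rw [x2, inv_smul_smul₀ μ0, sub_self, map_zero])))))
    (fun W => TW W * Q) (P * Q) (fun w => (c2 w).mul_right (cq (c1 w v))) (by rw [t0])
    (fun W w a b => by rw [t1 W w a b, mul_assoc]) (fun W a b => by
      have e : LinearMap.trace ℂ M (H * (TW W * T v)) = 0 := by
        have := LinearMap.trace_mul_comm ℂ (H * TW W) (T v)
        rw [← mul_assoc, ha v v1 v2, neg_mul, map_neg, mul_assoc H (T v), (cw W b).eq,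
          mul_assoc] at this
        linear_combination this / 2
      rw [← hL W a b, mul_sub, mul_one, mul_sub, map_sub, mul_smul_comm, mul_smul_comm, map_smul, e,
        smul_zero, sub_zero]) rfl
  exact ⟨Q y, hy⟩

section

variable {F E : Type} [Field F] [NumberField F] [Field E] [NumberField E] [Algebra F E]
  (C : CM F E) {n : ℕ} (hn : 0 < n)

theorem enl_mem {K : Type} [Field K] [NumberField K] {P : Pl K} (h : (C.D : 𝓞 K) ∈ P.asIdeal) :
    ((enl C n hn).D : 𝓞 K) ∈ P.asIdeal :=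
  Ideal.mem_of_dvd _ (Nat.cast_dvd_cast (dvd_mul_right C.D n)) h

theorem enl_val (P : Pl E) : P.valuation E ((enl C n hn).D : E) ≤ P.valuation E (C.D : E) := by
  rw [show (enl C n hn).D = C.D * n from rfl, Nat.cast_mul, map_mul]
  exact mul_le_of_le_one_right' (by exact_mod_cast val_le P (n : 𝓞 E))

/-- the inclusion of the groups of units -/
def enlG (γ : (enl C n hn).G) : C.G := ⟨γ, fun P k => γ.2 P (enl_mem C hn k)⟩

theorem enl_G1 {S : Set (Pl E)} {γ : (enl C n hn).G} (h : γ ∈ (enl C n hn).G1 S) :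
    enlG C hn γ ∈ C.G1 S := fun P a k => (h P a (enl_mem C hn k)).trans (enl_val C hn P)

theorem enl_apx {S : Set (Pl E)} (hS : ∀ P ∉ S, (C.D : 𝓞 E) ∈ P.asIdeal) {γ : C.G}
    (h : γ ∈ C.G1 S) : ∃ x ∈ (enl C n hn).G1 S, γ⁻¹ * enlG C hn x ∈ C.G1 Set.univ := by
  classical
  have o : ∀ P : Pl E, P.valuation E (if P ∈ S then 1 else ((γ : Eˣ) : E)) = 1 := fun P => by
    split_ifs with k
    exacts [map_one _, γ.2 P (hS P k)]
  obtain ⟨a, ha⟩ := crt0 (fin_nat (E := E) (enl C n hn).D0)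
    (fun P => if P ∈ S then 1 else ((γ : Eˣ) : E)) (fun P => P.valuation E ((enl C n hn).D : E))
    (fun P _ => (o P).le) fun P => (Valuation.ne_zero_iff _).2 (Nat.cast_ne_zero.2 (enl C n hn).D0)
  have v1 : ∀ P : Pl E, ((enl C n hn).D : 𝓞 E) ∈ P.asIdeal → P.valuation E (a : E) = 1 :=
    fun P k => by
    have := Valuation.map_add_eq_of_lt_right _
      (((ha P k).trans ((enl C n hn).val_D_lt k)).trans_eq (o P).symm)
    rwa [sub_add_cancel, o] at this
  by_cases a0 : (a : E) = 0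
  · exact ⟨1, one_mem _, fun P _ k => by
      simpa [a0] using v1 P (enl_mem C hn k)⟩
  refine ⟨⟨Units.mk0 _ a0, v1⟩, fun P s k => ?_, (inv_mul_mem C).2 fun P _ k => ?_⟩
  · have := (ha P k).le
    rwa [if_pos s] at this
  · have := (ha P (enl_mem C hn k)).le.trans (enl_val C hn P)
    split_ifs at this with s
    · rw [← sub_sub_sub_cancel_right _ _ (1 : E)]
      exact Valuation.map_sub_le _ this (h P s k)
    · exact this

variable {C} {Ψ : Pl E → ℂˣ}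

theorem enl_kp (h : Kp C Ψ) : Kp (enl C n hn) Ψ := fun w k => by
  have d := mt (enl_mem C hn) k
  rw [h w d]
  congr 1
  exact propext ⟨fun g => ⟨k, g.2⟩, fun g => ⟨d, g.2⟩⟩

theorem eps_eq (h : C.Hk Ψ) {x y : C.G} (k : x⁻¹ * y ∈ C.G1 Set.univ) :
    C.eps Ψ (y : Eˣ) = C.eps Ψ (x : Eˣ) := by
  have := (eH C Ψ).map_mul x (x⁻¹ * y)
  rwa [mul_inv_cancel_left, show eH C Ψ (x⁻¹ * y) = 1 from C.eps_one h k, mul_one] at this

theorem enl_mr (hΨ : C.Hk Ψ) {w : Pl F} (h : Mr C Ψ w) : Mr (enl C n hn) Ψ w := by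
  refine ⟨enl_mem C hn h.mem, h.a, h.ns, fun γ k => h.tame _ (enl_G1 C hn k), ?_⟩
  obtain ⟨γ, a, b⟩ := h.ne
  obtain ⟨x, x1, x2⟩ := enl_apx C hn (S := {P | ¬ Ab w P})
    (fun P k => ((not_not.1 k : Ab w P).nat _).2 h.mem) a
  have x3 := C.cG_mem x2
  rw [map_mul, map_inv] at x3
  exact ⟨x, x1, fun k => b ((eps_eq hΨ x2).symm.trans (k.trans (eps_eq hΨ x3)))⟩

theorem enl_mc {io : Qb →+* ℂ} {w : Pl F} {l : ℕ} {c : GL (Fin 2) (ZMod l) → Qb}
    (h : Mc C Ψ io w l c) : Mc (enl C n hn) Ψ io w l c := by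
  obtain ⟨m1, m2, m3, m4, cu, e, m5, m6, m7, m8⟩ := h
  exact ⟨enl_mem C hn m1, m2, m3, m4, cu, e, m5, m6, m7, fun γ k => m8 _ (enl_G1 C hn k)⟩

theorem enl_hk (h : C.Hk Ψ) : (enl C n hn).Hk Ψ := fun u k => (h _ (enl_G1 C hn k) :)

theorem enl_ms {w : Pl F} (h : Ms C Ψ w) : Ms (enl C n hn) Ψ w := fun γ a => h _ (enl_G1 C hn a)

end

theorem enl_row : ENL := by
  intro X S L E _ _ _ C Ψ io Δ n hn h
  exact ⟨enl_hk hn h.hk, enl_kp hn h.kp, h.md, h.a, h.emb, h.ev, enl_mr hn h.hk h.v0,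
    fun w k => ⟨(h.sph w k).1, enl_ms hn (h.sph w k).2⟩,
    fun l c w a b d => enl_mc hn (h.ty l c w a b d)⟩

end Vale.Agent.P022K.Sh
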