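import Vale.Agent.P022K.F0.TrcA
import Vale.Agent.P022K.F0.Fuj
import Vale.Agent.P011.Arith.Hasse4

/-!
# P022K, block F0, row TRC: adelic input (units split; the norm theorem) and real matrices
-/

set_option autoImplicit false

open UpperHalfPlane NumberField IsDedekindDomain
open scoped MatrixGroups

noncomputable section

namespace Vale.Agent.P022K.Sh.Tr

open Vale.Agent.P022K.F0.Fuj

theorem ball_mem {K Γ : Type} [Ring K] [LinearOrderedCommGroupWithZero Γ] [Valued K Γ] {c : K}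
    (h : (Valued.v c : Γ) ≠ 0) : {w : K | (Valued.v w : Γ) < Valued.v c} ∈ nhds (0 : K) := by
  have := (Valued.isOpen_ball K (Valued.v.restrict c)).mem_nhds (x := 0) (by
    rw [Set.mem_ofPred_eq, Valuation.restrict_lt_iff, map_zero]
    exact zero_lt_iff.2 h)
  simpa only [Valuation.restrict_lt_iff] using this

section adelic

variable {F : Type} [Field F] [NumberField F]

theorem spl_AF : Spl (AF F) := by
  classical
  intro p q h
  obtain ⟨h0, h1⟩ := FiniteAdeleRing.isUnit_iff.1 h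
  let e : AF F := ⟨fun v => if Valued.v (q v) ≤ Valued.v (p v) then 1 else 0,
    Filter.Eventually.of_forall fun v => by
      dsimp only
      split_ifs
      · exact one_mem _
      · exact zero_mem _⟩
  have he : ∀ v, e v = if Valued.v (q v) ≤ Valued.v (p v) then 1 else 0 := fun _ => rfl
  have key : ∀ v, (e * p + (1 - e) * q) v =
      if Valued.v (q v) ≤ Valued.v (p v) then p v else q v := fun v => by
    change e v * p v + (1 - e v) * q v = _
    rw [he]
    split_ifs <;> simp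
  have le : ∀ v, Valued.v ((p + q) v) ≤ Valued.v ((e * p + (1 - e) * q) v) := fun v => by
    rw [key]
    refine (Valued.v.map_add (p v) (q v)).trans ?_
    split_ifs with c
    · exact max_le le_rfl c
    · exact max_le (le_of_not_ge c) le_rfl
  refine ⟨e, FiniteAdeleRing.ext _ fun v => ?_, FiniteAdeleRing.isUnit_iff.2 ⟨fun v c => ?_, ?_⟩⟩
  · change e v * e v = e v
    rw [he]
    split_ifs <;> simp
  · have := le v
    rw [c, map_zero, le_zero_iff, map_eq_zero] at this
    exact h0 v this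
  · filter_upwards [h1, (e * p + (1 - e) * q).2] with v c1 c2
    exact le_antisymm c2 (c1 ▸ le v)

open Vale.Agent.P011.Arith in
/-- the norm theorem of Hasse, adelic form -/
theorem hasse {n c : F} (hn : n ≠ 0)
    (hf : ∃ x y : AF F, algebraMap F _ c = x ^ 2 + algebraMap F _ n * y ^ 2)
    (hr : ∀ t : F →+* ℝ, 0 < t c) (hc : c ≠ 0) : ∃ x y : F, c = x ^ 2 + n * y ^ 2 := by
  obtain ⟨x, y, h⟩ := hf
  have key : Units.mk0 c hc ∈ NF (Units.mk0 (-n) (neg_ne_zero.2 hn)) := by
    refine hasse_norm _ _ ?_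
    rintro (v | t)
    · have e : algebraMap F (Fw v) c = x v ^ 2 + algebraMap F (Fw v) n * y v ^ 2 :=
        congrArg (ev v) h |>.trans (by rw [map_add, map_mul, map_pow, map_pow]; rfl)
      have c0 : algebraMap F (Fw v) c ≠ 0 := (map_ne_zero _).2 hc
      have f0 : Valued.v (algebraMap F (Fw v) 4) ≠ 0 :=
        (Valuation.ne_zero_iff _).2 ((map_ne_zero _).2 (by norm_num))
      let φ : Fw v × Fw v → Fw v := fun z =>
        (z.1 ^ 2 + algebraMap F (Fw v) n * z.2 ^ 2) / algebraMap F (Fw v) c - 1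
      have hφ : Continuous φ := by fun_prop
      have h1 : {w : Fw v | Valued.v w < Valued.v (algebraMap F (Fw v) 4)} ∈ nhds (φ (x v, y v)) := by
        have : φ (x v, y v) = 0 := by
          simp only [φ]
          rw [← e, div_self c0, sub_self]
        rw [this]
        exact ball_mem f0
      obtain ⟨⟨x', y'⟩, h2⟩ := ((v.denseRange_algebraMap F).prodMap
        (v.denseRange_algebraMap F)).mem_nhds (hφ.continuousAt.preimage_mem_nhds h1)
      have h3 : v.valuation F ((x' ^ 2 + n * y' ^ 2) / c - 1) < v.valuation F 4 := by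
        rw [← HeightOneSpectrum.valuedAdicCompletion_eq_valuation',
          ← HeightOneSpectrum.valuedAdicCompletion_eq_valuation']
        have e1 : φ (algebraMap F _ x', algebraMap F _ y') =
            algebraMap F (Fw v) ((x' ^ 2 + n * y' ^ 2) / c - 1) := by simp [φ]
        have h4 : Valued.v (φ (algebraMap F _ x', algebraMap F _ y')) < _ := h2
        rw [e1] at h4
        exact h4
      have N0 : x' ^ 2 + n * y' ^ 2 ≠ 0 := fun c1 => by
        rw [c1, zero_div, zero_sub, Valuation.map_neg, map_one] at h3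
        exact absurd (val_four_le _) (not_le.2 h3)
      have e2 : Units.mk0 c hc = Units.mk0 _ N0 * (Units.mk0 _ (div_ne_zero N0 hc))⁻¹ := by
        ext
        simp only [Units.val_mk0, Units.val_mul, Units.val_inv_eq_inv_val]
        field_simp
      rw [e2]
      exact Subgroup.mul_mem_sup ⟨x', y', by simp⟩ (inv_mem ⟨1, by simpa using h3⟩)
    · exact Subgroup.mem_sup_right (hr t)
  obtain ⟨x', y', e⟩ := key
  exact ⟨x', y', by simpa using e⟩

end adelic

section real

variable {g : GL (Fin 2) ℝ} {τ : ℍ}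

theorem det_eq (g : GL (Fin 2) ℝ) : g.det.val = g.val.det := Matrix.GeneralLinearGroup.val_det_apply g

/-- real form of the fixed point equation -/
theorem fix_iff (h : 0 < g.val.det) : g • τ = τ ↔ g 0 0 - g 1 1 = 2 * g 1 0 * τ.re ∧
    g 0 1 = -(g 1 0 * (τ.re ^ 2 + τ.im ^ 2)) := by
  rw [gl_smul_eq_self_iff_quadratic h, Complex.ext_iff]
  have := τ.im_pos
  simp only [Complex.add_re, Complex.mul_re, Complex.ofReal_re, Complex.ofReal_im, coe_re, coe_im,
    Complex.mul_im, Complex.sub_re, Complex.sub_im, Complex.neg_re, Complex.neg_im, Complex.add_im,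
    Complex.zero_re, Complex.zero_im]
  constructor
  · rintro ⟨h1, h2⟩
    have h3 : g 0 0 - g 1 1 = 2 * g 1 0 * τ.re := by
      apply mul_left_cancel₀ this.ne'
      linear_combination -h2
    exact ⟨h3, by linear_combination -h1 - τ.re * h3⟩
  · rintro ⟨h1, h2⟩
    exact ⟨by linear_combination -h2 - τ.re * h1, by linear_combination -τ.im * h1⟩

/-- the multiplier at a fixed point -/
def ml (g : GL (Fin 2) ℝ) (τ : ℍ) : ℂ := (g.det.val : ℂ) / denom g τ ^ 2

theorem denom_fix (h : 0 < g.val.det) (hf : g • τ = τ) :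
    denom g τ = (g.val.trace / 2 : ℝ) + (g 1 0 * τ.im : ℝ) * Complex.I ∧
      g.val.det = (g.val.trace / 2) ^ 2 + (g 1 0 * τ.im) ^ 2 := by
  obtain ⟨h1, h2⟩ := (fix_iff h).1 hf
  rw [Matrix.trace_fin_two, Matrix.det_fin_two]
  refine ⟨Complex.ext ?_ ?_, ?_⟩
  · simp [denom]
    linear_combination (-1 / 2 : ℝ) * h1
  · simp [denom]
  · linear_combination (-(g 1 0)) * h2 - (g 0 0 - g 1 1 + 2 * g 1 0 * τ.re) / 4 * h1

theorem ml_fix (h : 0 < g.val.det) (hf : g • τ = τ) :
    ml g τ * ((g.val.trace / 2 : ℝ) + (g 1 0 * τ.im : ℝ) * Complex.I) =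
      (g.val.trace / 2 : ℝ) - (g 1 0 * τ.im : ℝ) * Complex.I := by
  obtain ⟨h1, h2⟩ := denom_fix h hf
  have h0 := denom_ne_zero g τ
  rw [ml, det_eq, h2, ← h1, sq (denom g τ), div_mul_eq_mul_div, mul_div_mul_right _ _ h0,
    div_eq_iff h0, h1]
  push_cast
  linear_combination (g 1 0 * τ.im : ℂ) ^ 2 * Complex.I_mul_I

theorem ml_ne (g : GL (Fin 2) ℝ) (τ : ℍ) : ml g τ ≠ 0 :=
  div_ne_zero (Complex.ofReal_ne_zero.2 g.det.ne_zero) (pow_ne_zero _ (denom_ne_zero g τ))

theorem ml_norm (h : 0 < g.val.det) (hf : g • τ = τ) : ‖ml g τ‖ = 1 := by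
  obtain ⟨h1, h2⟩ := denom_fix h hf
  rw [ml, norm_div, norm_pow, det_eq, Complex.norm_real, Real.norm_of_nonneg h.le, h1,
    Complex.sq_norm, Complex.normSq_add_mul_I, ← h2, div_self h.ne']

theorem ml_tr (h : 0 < g.val.det) (hf : g • τ = τ) :
    ((g.val.trace : ℝ) : ℂ) ^ 2 * ml g τ = (g.val.det : ℝ) * (ml g τ + 1) ^ 2 := by
  obtain ⟨h1, h2⟩ := denom_fix h hf
  have h3 := ml_fix h hf
  have h0 := denom_ne_zero g τ
  rw [h1] at h0
  apply mul_right_cancel₀ (pow_ne_zero 2 h0)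
  rw [mul_assoc _ (_ ^ 2), ← mul_pow, add_mul, h3, mul_assoc, sq (_ + _), ← mul_assoc (ml g τ),
    h3, h2]
  push_cast
  linear_combination (-(g.val.trace : ℂ) ^ 2 * (g 1 0 * τ.im : ℂ) ^ 2) * Complex.I_mul_I

/-- the traceless matrix that fixes `τ` with the eigenvalue `l i` -/
def ax (τ : ℍ) (l : ℝ) : Matrix (Fin 2) (Fin 2) ℝ :=
  (l / τ.im) • !![τ.re, -(τ.re ^ 2 + τ.im ^ 2); 1, -τ.re]

theorem ax_tr (τ : ℍ) (l : ℝ) : (ax τ l).trace = 0 := by simp [ax, Matrix.trace_fin_two]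

theorem ax_det (τ : ℍ) (l : ℝ) : (ax τ l).det = l ^ 2 := by
  have := τ.im_pos.ne'
  simp [ax, Matrix.det_fin_two]
  field_simp
  ring

/-- an element is determined by its fixed point and its multiplier -/
theorem eq_ax (h : 0 < g.val.det) (hf : g • τ = τ) {s l : ℝ} (hl : l ≠ 0)
    (hm : ml g τ * (s + l * Complex.I) = s - l * Complex.I) :
    ∃ c : ℝ, c ≠ 0 ∧ c • g.val = algebraMap ℝ _ s + ax τ l := by
  obtain ⟨h1, h2⟩ := (fix_iff h).1 hf
  have h3 := ml_fix h hf
  have h4 := (denom_fix h hf).2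
  have h5 : g.val.trace / 2 * l = s * (g 1 0 * τ.im) := by
    have : ((g.val.trace / 2 * l : ℝ) : ℂ) = (s * (g 1 0 * τ.im) : ℝ) := by
      apply mul_left_cancel₀ (mul_ne_zero two_ne_zero Complex.I_ne_zero)
      push_cast at h3 ⊢
      linear_combination ((g.val.trace : ℂ) / 2 + g 1 0 * τ.im * Complex.I) * hm -
        (s + l * Complex.I) * h3
    exact_mod_cast this
  have i0 := τ.im_pos.ne'
  have c0 : g 1 0 ≠ 0 := fun c => by
    rw [c, zero_mul, mul_zero, mul_eq_zero] at h5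
    rw [c, h5.resolve_right hl] at h4
    simp [h4] at h
  refine ⟨l / (g 1 0 * τ.im), div_ne_zero hl (mul_ne_zero c0 i0), ?_⟩
  rw [Matrix.trace_fin_two] at h5
  ext i k
  fin_cases i <;> fin_cases k <;> simp [ax, Matrix.algebraMap_matrix_apply] <;> field_simp
  · linear_combination h5 + l / 2 * h1
  · linear_combination h2
  · linear_combination h5 - l / 2 * h1

theorem ex_fix (h : g.val.trace ^ 2 < 4 * g.val.det) : ∃ τ : ℍ, g • τ = τ := by
  have e : g.IsElliptic := by
    rw [Matrix.GeneralLinearGroup.IsElliptic, Matrix.IsElliptic, Matrix.discr_fin_two]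
    linarith
  exact ⟨_, (gl_smul_eq_self_iff_eq_fixedPt (by nlinarith) e).2 rfl⟩

/-- two different axes -/
theorem two_ax {l : ℝ} (hl : l ≠ 0) (h : 0 < g.val.det) (hf : g • τ ≠ τ) :
    (l ^ 2) ^ 2 < ((ax τ l * (g.val * ax τ l * (g⁻¹).val)).trace / 2) ^ 2 := by
  have l2 : 0 < l ^ 2 := by positivity
  have i0 := τ.im_pos
  let u : GL (Fin 2) ℝ := Matrix.GeneralLinearGroup.mkOfDetNeZero (ax τ l) (by rw [ax_det]; exact l2.ne')
  have u1 : u • τ = τ := (fix_iff (by change 0 < (ax τ l).det; rwa [ax_det])).2 (by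
    change ax τ l 0 0 - ax τ l 1 1 = 2 * ax τ l 1 0 * _ ∧ ax τ l 0 1 = -(ax τ l 1 0 * _)
    simp [ax]
    constructor <;> ring)
  have v1 : (g * u * g⁻¹) • g • τ = g • τ := by rw [mul_smul, mul_smul, inv_smul_smul, u1]
  have vd : (g * u * g⁻¹).val.det = l ^ 2 := by
    rw [← det_eq, map_mul, map_mul, map_inv, mul_inv_cancel_comm, det_eq]
    exact ax_det τ l
  have vt : (g * u * g⁻¹).val.trace = 0 := by
    rw [Units.val_mul, Matrix.trace_mul_comm, Units.val_mul, Units.inv_mul_cancel_left]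
    exact ax_tr τ l
  change _ < ((ax τ l * (g * u * g⁻¹).val).trace / 2) ^ 2
  generalize g * u * g⁻¹ = v at v1 vd vt
  by_contra hc
  apply hf
  have e : v.IsElliptic := by
    rw [Matrix.GeneralLinearGroup.IsElliptic, Matrix.IsElliptic, Matrix.discr_fin_two, vd, vt]
    linarith
  rw [(gl_smul_eq_self_iff_eq_fixedPt (vd ▸ l2) e).1 v1, eq_comm,
    ← gl_smul_eq_self_iff_eq_fixedPt (vd ▸ l2) e, fix_iff (vd ▸ l2)]
  rw [Matrix.trace_fin_two] at vt
  rw [Matrix.det_fin_two] at vd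
  have e1 : v.val 1 1 = -v.val 0 0 := by linarith
  have e2 : (ax τ l * v.val).trace / 2 = l / τ.im / 2 * (2 * τ.re * v.val 0 0 -
      (τ.re ^ 2 + τ.im ^ 2) * v.val 1 0 + v.val 0 1) := by
    rw [Matrix.trace_fin_two, Matrix.mul_apply, Matrix.mul_apply, Fin.sum_univ_two,
      Fin.sum_univ_two, e1]
    simp [ax]
    ring
  rw [e2] at hc
  rw [e1] at vd
  change v.val 0 0 - v.val 1 1 = 2 * v.val 1 0 * _ ∧ v.val 0 1 = -(v.val 1 0 * _)
  rw [e1]
  generalize v.val 0 0 = A at *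
  generalize v.val 0 1 = B at *
  generalize v.val 1 0 = E at *
  have e3 : (l / τ.im / 2 * (2 * τ.re * A - (τ.re ^ 2 + τ.im ^ 2) * E + B)) ^ 2 - (l ^ 2) ^ 2 =
      (l / τ.im / 2) ^ 2 * ((B + 2 * τ.re * A - τ.re ^ 2 * E + τ.im ^ 2 * E) ^ 2 +
        4 * τ.im ^ 2 * (A - τ.re * E) ^ 2) := by
    field_simp
    linear_combination (4 * τ.im ^ 2) * vd
  have e4 : 0 < (l / τ.im / 2) ^ 2 := by positivity
  have e5 : (B + 2 * τ.re * A - τ.re ^ 2 * E + τ.im ^ 2 * E) ^ 2 +
      4 * τ.im ^ 2 * (A - τ.re * E) ^ 2 ≤ 0 := by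
    by_contra c
    nlinarith [mul_pos e4 (not_le.1 c)]
  have e6 : A - τ.re * E = 0 := by
    by_contra c
    have : 0 < 4 * τ.im ^ 2 * (A - τ.re * E) ^ 2 := by positivity
    nlinarith [sq_nonneg (B + 2 * τ.re * A - τ.re ^ 2 * E + τ.im ^ 2 * E)]
  rw [e6] at e5
  have e7 : B + 2 * τ.re * A - τ.re ^ 2 * E + τ.im ^ 2 * E = 0 := by nlinarith
  exact ⟨by linear_combination 2 * e6, by linear_combination e7 - 2 * τ.re * e6⟩

theorem smul_scalar {g k : GL (Fin 2) ℝ} {c : ℝ} (h : g.val = c • k.val) (τ : ℍ) :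
    g • τ = k • τ := by
  have c0 : c ≠ 0 := fun e => g.det_ne_zero (by simp [h, e])
  have : g = Matrix.GeneralLinearGroup.scalar (Fin 2) (Units.mk0 c c0) * k := by
    ext i l
    simp [h]
  rw [this, mul_smul, glScalar_smul]

theorem dist_smul_pos (h : 0 < g.det.val) (τ τ' : ℍ) : dist (g • τ) (g • τ') = dist τ τ' := by
  obtain ⟨k, c, e⟩ := exists_SL g h
  have : ∀ z : ℍ, g • z = k • z := fun z => by
    change _ = Matrix.SpecialLinearGroup.mapGL ℝ k • z
    rw [e, mul_smul, glScalar_smul]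
  rw [this, this, dist_smul]

end real

/-- some element moves a given point -/
theorem ex_move {G0 G : Type} [Group G0] [Group G] {T : Tw G0 G} (h : T.Ok) (τ : ℍ) :
    ∃ γ, T.r γ • τ ≠ τ := by
  by_contra hc
  push Not at hc
  obtain ⟨U, hU, -⟩ := h.neat
  obtain ⟨K, hK, h1⟩ := (h.fu U hU 1).cc
  obtain ⟨B, hB⟩ := hK.isBounded.subset_closedBall τ
  refine noncompact_univ ℍ ((isCompact_closedBall τ B).of_isClosed_subset isClosed_univ
    fun z _ => ?_)
  obtain ⟨γ, -, h2⟩ := h1 z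
  have h3 := hB h2
  rw [Metric.mem_closedBall, ← hc γ] at h3
  rw [Metric.mem_closedBall, ← dist_smul_pos (T.r γ).2]
  exact h3

end Vale.Agent.P022K.Sh.Tr
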