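import Vale.Agent.P022K.F0.TrcB
import Vale.Agent.P022K.F0.TrcH
import Vale.Agent.P022K.F0.Apx
import Vale.Agent.P022K.F0.StC

/-!
# P022K, block F0: the rows TRC and CMP
-/

set_option autoImplicit false

open NumberField IsDedekindDomain
open scoped MatrixGroups Quaternion

noncomputable section

namespace Vale.Agent.P022K.Sh

namespace Tr

open Vale.Agent.P022K.F0.Fuj hiding qmap nrd
open Vale.Agent.P022K.F0

variable {F : Type} [Field F] [NumberField F] (X : QD F)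

/-- `a` in `F` -/
abbrev aF : F := algebraMap (𝓞 F) F X.a
/-- `b` in `F` -/
abbrev bF : F := algebraMap (𝓞 F) F X.b

/-- the diagonal embedding -/
def io : F →+* ℝ × AF F := X.t1.prod (algebraMap F (AF F))

/-- the algebra over `ℝ × 𝔸_f` -/
abbrev Q : Type := ℍ[ℝ × AF F,io X (aF X),io X (bF X)]

/-- the real splitting -/
def eR : ℍ[ℝ,X.t1 (aF X),X.t1 (bF X)] →ₐ[ℝ] Matrix (Fin 2) (Fin 2) ℝ :=
  QuaternionAlgebra.Basis.liftHom
    { i := X.s (qi _ _)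
      j := X.s (qj _ _)
      k := X.s (qk _ _)
      i_mul_i := by rw [X.ovr.i_sq, Algebra.algebraMap_eq_smul_one, zero_smul, add_zero]
      j_mul_j := by rw [X.ovr.j_sq, Algebra.algebraMap_eq_smul_one]
      i_mul_j := by rw [← map_mul, qi_qj]
      j_mul_i := by rw [← map_mul, qj_qi, map_neg, zero_smul, zero_sub] }

theorem eR_over : Over (RingHom.id ℝ) (eR X).toRingHom := fun c => (eR X).commutes c

theorem ta_ne : X.t1 (aF X) ≠ 0 := (map_ne_zero _).2 X.a_ne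
theorem tb_ne : X.t1 (bF X) ≠ 0 := (map_ne_zero _).2 X.b_ne

theorem eR_inj : Function.Injective (eR X) := by
  rw [injective_iff_map_eq_zero]
  intro q hq
  have h : (eR X).toRingHom q = 0 := hq
  rw [(eR_over X).apply] at h
  obtain ⟨h0, h1, h2, h3⟩ := (eR_over X).indep (ta_ne X) (tb_ne X) _ _ _ _ h
  ext <;> assumption

theorem eR_onto : Function.Surjective (eR X) :=
  (LinearMap.injective_iff_surjective_of_finrank_eq_finrank (f := (eR X).toLinearMap)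
    (by simp [QuaternionAlgebra.finrank_eq_four, Module.finrank_matrix])).1 (eR_inj X)

/-- the real component -/
def p1 : Q X →+* Matrix (Fin 2) (Fin 2) ℝ :=
  (eR X).toRingHom.comp (Fuj.qmap (RingHom.fst ℝ (AF F)) rfl rfl)

/-- the finite component -/
def p2 : Q X →+* X.DA := Fuj.qmap (RingHom.snd ℝ (AF F)) rfl rfl

theorem p1_jq (d : X.D) : p1 X (jq (io X) d) = X.s d := by
  rw [X.ovr.apply, ← Algebra.algebraMap_eq_smul_one]
  rfl

theorem p2_jq (d : X.D) : p2 X (jq (io X) d) = X.jD d := rfl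

theorem p_ext {q q' : Q X} (h1 : p1 X q = p1 X q') (h2 : p2 X q = p2 X q') : q = q' := by
  have h := eR_inj X h1
  refine QuaternionAlgebra.ext (Prod.ext ?_ ?_) (Prod.ext ?_ ?_) (Prod.ext ?_ ?_) (Prod.ext ?_ ?_)
  exacts [congrArg QuaternionAlgebra.re h, congrArg QuaternionAlgebra.re h2,
    congrArg QuaternionAlgebra.imI h, congrArg QuaternionAlgebra.imI h2,
    congrArg QuaternionAlgebra.imJ h, congrArg QuaternionAlgebra.imJ h2,
    congrArg QuaternionAlgebra.imK h, congrArg QuaternionAlgebra.imK h2]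

theorem p_onto (m : Matrix (Fin 2) (Fin 2) ℝ) (y : X.DA) : ∃ q : Q X, p1 X q = m ∧ p2 X q = y := by
  obtain ⟨p, rfl⟩ := eR_onto X m
  exact ⟨⟨(p.re, y.re), (p.imI, y.imI), (p.imJ, y.imJ), (p.imK, y.imK)⟩, rfl, rfl⟩

theorem p1_tr (q : Q X) : (p1 X q).trace = 2 * q.re.1 :=
  (eR_over X).trace (ta_ne X) (tb_ne X) _

theorem p1_det (q : Q X) : (p1 X q).det = (Fuj.nrd q).1 :=
  ((eR_over X).det (ta_ne X) (tb_ne X) _).trans (nrd_qmap (RingHom.fst ℝ (AF F)) rfl rfl q)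

theorem p2_nrd (q : Q X) : Fuj.nrd (p2 X q) = (Fuj.nrd q).2 :=
  nrd_qmap (RingHom.snd ℝ (AF F)) rfl rfl q

theorem p1_smul (c : ℝ × AF F) (q : Q X) : p1 X (c • q) = c.1 • p1 X q :=
  (congrArg (eR X) (qmap_smul (RingHom.fst ℝ (AF F)) rfl rfl c q)).trans (map_smul (eR X) _ _)

theorem p2_smul (c : ℝ × AF F) (q : Q X) : p2 X (c • q) = c.2 • p2 X q :=
  qmap_smul (RingHom.snd ℝ (AF F)) rfl rfl c q

theorem ex_unit (m : GL (Fin 2) ℝ) (y : X.G) : ∃ q : (Q X)ˣ, p1 X q = m ∧ p2 X q = y := by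
  obtain ⟨q, h1, h2⟩ := p_onto X m y
  obtain ⟨q', h3, h4⟩ := p_onto X (m⁻¹ : GL (Fin 2) ℝ) (y⁻¹ : X.G)
  refine ⟨⟨q, q', p_ext X ?_ ?_, p_ext X ?_ ?_⟩, h1, h2⟩ <;>
    simp only [map_mul, map_one, h1, h2, h3, h4, Units.mul_inv, Units.inv_mul]

theorem map_inv_eq {A B : Type} [Ring A] [Ring B] (f : A →+* B) {q : Aˣ} {m : Bˣ}
    (h : f q = m) : f (↑q⁻¹ : A) = (↑m⁻¹ : B) :=
  left_inv_eq_right_inv (a := f q) (by rw [← map_mul, Units.inv_mul, map_one])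
    (by rw [h, Units.mul_inv])

theorem ex_neg : ∃ d : X.Dˣ, X.t1 (Fuj.nrd (d : X.D)) < 0 := by
  have key : ∀ d : X.D, X.t1 (Fuj.nrd d) < 0 → ∃ d : X.Dˣ, X.t1 (Fuj.nrd (d : X.D)) < 0 :=
    fun d h => ⟨((isUnit_iff_nrd d).2 (IsUnit.mk0 _ fun e => by simp [e] at h)).unit, h⟩
  rcases (ta_ne X).lt_or_gt with ha | ha
  · rcases (tb_ne X).lt_or_gt with hb | hb
    · obtain ⟨q, hq⟩ := eR_onto X !![1, 0; 0, -1]
      have h := (eR_over X).det (ta_ne X) (tb_ne X) q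
      have h' : (eR X).toRingHom q = !![1, 0; 0, -1] := hq
      rw [h', Matrix.det_fin_two] at h
      simp [Fuj.nrd] at h
      nlinarith [sq_nonneg q.re, mul_nonneg (neg_pos.2 ha).le (sq_nonneg q.imI),
        mul_nonneg (neg_pos.2 hb).le (sq_nonneg q.imJ),
        mul_nonneg (mul_pos_of_neg_of_neg ha hb).le (sq_nonneg q.imK)]
    · exact key (qj _ _) (by simpa [Fuj.nrd, qj] using hb)
  · exact key (qi _ _) (by simpa [Fuj.nrd, qi] using ha)

theorem ex_frame : ∃ u0 j0 : X.D, Fr u0 j0 ∧ 0 < X.t1 (Fuj.nrd u0) := by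
  have f : Fr (qi (aF X) (bF X)) (qj _ _) := ⟨rfl, rfl, by simp [qi, qj],
    by simpa [Fuj.nrd, qi] using X.a0, by simpa [Fuj.nrd, qj] using X.b0⟩
  rcases (ta_ne X).lt_or_gt with ha | ha
  · exact ⟨_, _, f, by simpa [Fuj.nrd, qi] using ha⟩
  rcases (tb_ne X).lt_or_gt with hb | hb
  · exact ⟨_, _, f.symm, by simpa [Fuj.nrd, qj] using hb⟩
  exact ⟨qk _ _, qi _ _, ⟨rfl, rfl, by simp [qi, qk], by simpa [Fuj.nrd, qk] using ⟨X.a0, X.b0⟩,
    f.un⟩, by simpa [Fuj.nrd, qk] using mul_pos ha hb⟩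

theorem r_val (γ : X.G0) : (X.tw.r γ : GL (Fin 2) ℝ).val = X.s ((γ : X.Dˣ) : X.D) := rfl

theorem GP_pos (g : GP) : 0 < (g : GL (Fin 2) ℝ).val.det := det_eq g.1 ▸ g.2

theorem nrd_pos {d : X.D} (h : d ≠ 0) {t : F →+* ℝ} (ht : t ≠ X.t1) : 0 < t (Fuj.nrd d) :=
  nrd_ne_zero (X.defi t ht).1 (X.defi t ht).2 d h

/-- a point with complex multiplication -/
theorem ex_pt : ∃ (u0 j0 : X.D) (τ : UpperHalfPlane) (l : ℝ), Fr u0 j0 ∧ l ≠ 0 ∧
    l ^ 2 = X.t1 (Fuj.nrd u0) ∧ ∀ s : F, ∃ γ : X.G0, ((γ : X.Dˣ) : X.D) = sc s + u0 ∧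
      X.tw.r γ • τ = τ ∧ X.tw.mu γ τ * (X.t1 s + l * Complex.I) = X.t1 s - l * Complex.I := by
  obtain ⟨u0, j0, f, n0⟩ := ex_frame X
  have ex : ∀ s : F, ∃ γ : X.G0, ((γ : X.Dˣ) : X.D) = sc s + u0 := fun s => by
    have h : 0 < X.t1 (Fuj.nrd (sc s + u0)) := by
      rw [nrd_sc_add f.u0, map_add, map_pow]
      positivity
    exact ⟨⟨((isUnit_iff_nrd _).2 (IsUnit.mk0 _ fun e => by simp [e] at h)).unit,
      X.mem_G0.2 h⟩, rfl⟩
  have tr : ∀ (s : F) (γ : X.G0), ((γ : X.Dˣ) : X.D) = sc s + u0 →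
      (X.tw.r γ : GL (Fin 2) ℝ).val.trace / 2 = X.t1 s := fun s γ h => by
    rw [r_val, X.ovr.trace X.a_ne X.b_ne, h]
    simp [trd, f.u0, sc_re, map_ofNat]
  obtain ⟨γ0, h0⟩ := ex 0
  have t0 := tr 0 γ0 h0
  rw [map_zero] at t0
  rw [sc, map_zero, zero_add] at h0
  have d0 := GP_pos (X.tw.r γ0)
  obtain ⟨τ, hτ⟩ := ex_fix (g := X.tw.r γ0) (by nlinarith)
  have e := (denom_fix d0 hτ).2
  rw [t0, r_val, X.ovr.det X.a_ne X.b_ne, h0] at e
  have e' : (X.s u0 1 0 * τ.im) ^ 2 = X.t1 (Fuj.nrd u0) := by rw [e]; ring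
  refine ⟨u0, j0, τ, X.s u0 1 0 * τ.im, f, fun c => ?_, e', fun s => ?_⟩
  · rw [← e', c] at n0
    simp at n0
  obtain ⟨γ, h⟩ := ex s
  have v : (X.tw.r γ : GL (Fin 2) ℝ).val = algebraMap ℝ _ (X.t1 s) + X.s u0 := by
    rw [r_val, h, map_add, X.hs]
  have fx : X.tw.r γ • τ = τ := by
    have h1 := (fix_iff d0).1 hτ
    refine (fix_iff (GP_pos _)).2 ?_
    rw [r_val, h0] at h1
    rw [v]
    simpa [Matrix.algebraMap_matrix_apply] using h1
  refine ⟨γ, h, fx, ?_⟩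
  have h2 := ml_fix (GP_pos (X.tw.r γ)) fx
  rw [tr s γ h, v] at h2
  change ml (X.tw.r γ) τ * _ = _
  simpa [Matrix.algebraMap_matrix_apply] using h2

theorem mu_t {γ : X.G0} {τ : UpperHalfPlane} (h : X.tw.r γ • τ = τ) :
    4 * X.tc (((γ : X.Dˣ) : X.D).re ^ 2 / Fuj.nrd ((γ : X.Dˣ) : X.D)) * X.tw.mu γ τ =
      (X.tw.mu γ τ + 1) ^ 2 := by
  have h1 := ml_tr (GP_pos (X.tw.r γ)) h
  have h2 := GP_pos (X.tw.r γ)
  rw [r_val, X.ovr.det X.a_ne X.b_ne] at h1 h2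
  rw [X.ovr.trace X.a_ne X.b_ne] at h1
  have h3 : X.tc (Fuj.nrd ((γ : X.Dˣ) : X.D)) ≠ 0 := Complex.ofReal_ne_zero.2 h2.ne'
  apply mul_left_cancel₀ h3
  refine Eq.trans ?_ h1
  change _ = X.tc _ ^ 2 * X.tw.mu γ τ
  rw [map_div₀, map_pow, trd, map_mul, map_ofNat]
  field_simp
  ring

theorem cmp : X.CMP := by
  refine ⟨fun σ hσ τ γ h => ?_, ?_⟩
  · have h1 := mu_t X h
    have h2 := congrArg σ h1
    rw [map_mul, map_mul, hσ, map_pow, map_add, map_one, map_ofNat] at h2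
    have h3 : ‖X.tw.mu γ τ‖ = 1 := ml_norm (GP_pos _) h
    have h0 : X.tw.mu γ τ ≠ 0 := ml_ne _ _
    have h4 : (σ (X.tw.mu γ τ) - X.tw.mu γ τ) * (σ (X.tw.mu γ τ) * X.tw.mu γ τ - 1) = 0 := by
      linear_combination σ (X.tw.mu γ τ) * h1 - X.tw.mu γ τ * h2
    rcases mul_eq_zero.1 h4 with e | e
    · rw [sub_eq_zero.1 e, h3]
    · simpa [h3] using congrArg norm (sub_eq_zero.1 e)
  · have := X.isTotallyReal
    obtain ⟨u0, j0, τ, l, f, l0, l2, h⟩ := ex_pt X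
    have pos : ∀ t : F →+* ℝ, 0 < t (Fuj.nrd u0) := fun t => by
      by_cases ht : t = X.t1
      · rw [ht, ← l2]
        positivity
      · exact nrd_pos X (fun e => by simpa [e] using f.un) ht
    by_contra hc
    push Not at hc
    have ne : ∀ s : ℕ, (s : F) ^ 2 + Fuj.nrd u0 ≠ 0 := fun s e => by
      have h1 := congrArg X.t1 e
      have h2 := pos X.t1
      rw [map_add, map_pow, map_zero] at h1
      nlinarith [sq_nonneg (X.t1 s)]
    refine Set.infinite_of_injective_forall_mem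
      (f := fun s : ℕ => 4 * ((s : F) ^ 2 / ((s : F) ^ 2 + Fuj.nrd u0))) (fun s r e => ?_)
      (fun s => ?_) (finite_bdd (F := F) 4)
    · have e1 := mul_left_cancel₀ (by norm_num) e
      rw [div_eq_div_iff (ne s) (ne r)] at e1
      have e2 : ((s : F) ^ 2 - r ^ 2) * Fuj.nrd u0 = 0 := by linear_combination e1
      have e3 := sub_eq_zero.1 ((mul_eq_zero.1 e2).resolve_right f.un.ne_zero)
      exact Nat.pow_left_injective two_ne_zero (by exact_mod_cast e3)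
    · obtain ⟨γ, h1, h2, -⟩ := h s
      obtain ⟨n, n0, hn⟩ := hc τ γ h2
      have h3 := mu_t X h2
      rw [h1, nrd_sc_add f.u0] at h3
      simp only [QuaternionAlgebra.re_add, sc_re, f.u0, add_zero] at h3
      refine ⟨?_, fun t => ?_⟩
      · have i1 : IsIntegral ℤ (X.tw.mu γ τ) := IsIntegral.of_pow n0 (hn ▸ isIntegral_one)
        have e : X.tc (4 * ((s : F) ^ 2 / ((s : F) ^ 2 + Fuj.nrd u0))) =
            (X.tw.mu γ τ + 1) ^ 2 * X.tw.mu γ τ ^ (n - 1) := by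
          rw [← h3, mul_assoc, ← pow_succ', Nat.sub_add_cancel n0, hn, mul_one, map_mul, map_ofNat]
        refine (isIntegral_algHom_iff X.tc.toIntAlgHom X.tc.injective).1 ?_
        change IsIntegral ℤ (X.tc _)
        rw [e]
        exact ((i1.add isIntegral_one).pow 2).mul (i1.pow _)
      · have h4 := pos t
        rw [map_mul, map_div₀, map_add, map_pow, map_ofNat, abs_of_nonneg (by positivity)]
        have : t s ^ 2 / (t s ^ 2 + t (Fuj.nrd u0)) ≤ 1 := by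
          rw [div_le_one (by positivity)]
          linarith
        linarith

section

variable {G0' : Type} [Group G0'] (T' : Tw G0' X.G)

/-- the group generated by the image of `G0'` and the scalars -/
def HH : Subgroup (Q X)ˣ where
  carrier := {q | ∃ (γ : G0') (c : ℝˣ) (e : (AF F)ˣ),
    p1 X q = (c : ℝ) • (T'.r γ : GL (Fin 2) ℝ).val ∧ p2 X q = (e : AF F) • (T'.j γ : X.DA)}
  one_mem' := ⟨1, 1, 1, by simp, by simp⟩
  mul_mem' := by
    rintro p q ⟨γ, c, e, h1, h2⟩ ⟨γ', c', e', h3, h4⟩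
    refine ⟨γ * γ', c * c', e * e', ?_, ?_⟩
    · rw [Units.val_mul, map_mul, h1, h3, smul_mul_smul_comm, map_mul]
      rfl
    · rw [Units.val_mul, map_mul, h2, h4, smul_mul_smul_comm, map_mul]
      rfl
  inv_mem' := by
    rintro q ⟨γ, c, e, h1, h2⟩
    refine ⟨γ⁻¹, c⁻¹, e⁻¹, map_inv_eq _ (m := c • (T'.r γ : GL (Fin 2) ℝ)) h1 |>.trans ?_,
      map_inv_eq _ (m := e • T'.j γ) h2 |>.trans ?_⟩
    · rw [map_inv]
      rfl
    · rw [map_inv]
      rfl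

theorem ex_HH (γ : G0') : ∃ q ∈ HH X T', p1 X q = (T'.r γ : GL (Fin 2) ℝ).val ∧
    p2 X q = (T'.j γ : X.DA) := by
  obtain ⟨q, h1, h2⟩ := ex_unit X (T'.r γ) (T'.j γ)
  exact ⟨q, ⟨γ, 1, 1, by simpa using h1, by simpa using h2⟩, h1, h2⟩

theorem Z_unit {z : X.G} (h : z ∈ X.tw.Z) : ∃ e : (AF F)ˣ, (z : X.DA) = sc (e : AF F) := by
  obtain ⟨c, hc⟩ := X.mem_Z.1 h
  have h1 := (isUnit_iff_nrd _).1 z.isUnit
  rw [hc, nrd_algebraMap] at h1
  exact ⟨(isUnit_pow_iff two_ne_zero).1 h1 |>.unit, hc⟩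

variable {X T'}

theorem dat {σ : ℂ ≃+* ℂ} (hσ : ∀ c, σ (X.tc c) = X.tc c) (hs : X.tw.Stb T' σ) {n : F}
    (pos : ∀ t : F →+* ℝ, 0 < t n) : Dat (io X) (RingHom.fst ℝ (AF F)) (HH X T') n := by
  refine ⟨(spl_field ℝ).prod spl_AF, ?_, pos, fun c ⟨x, y, h⟩ hc => hasse
    (fun e => by simpa [e] using pos X.t1) ⟨x.2, y.2, congrArg Prod.snd h⟩ hc
    fun e => by simpa [e] using hc X.t1⟩
  rintro q ⟨γ', c, e, h1, h2⟩ hq
  have a1 := p1_tr X q
  have a2 := p1_det X q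
  rw [h1, Matrix.trace_smul, smul_eq_mul] at a1
  rw [h1, Matrix.det_smul, Fintype.card_fin] at a2
  have c0 : 0 < (c : ℝ) ^ 2 := sq_pos_of_ne_zero c.ne_zero
  obtain ⟨τ', hτ⟩ := ex_fix (g := T'.r γ') (by
    have hq' : (q : Q X).re.1 ^ 2 < (Fuj.nrd (q : Q X)).1 := hq
    refine lt_of_mul_lt_mul_left ?_ c0.le
    rw [← mul_pow, a1, mul_left_comm, a2]
    linarith)
  obtain ⟨τ, x, -, h3⟩ := hs.2 τ'
  obtain ⟨γ, z, hz, h4, h5, h6⟩ := h3 γ' hτ
  obtain ⟨e', he'⟩ := Z_unit X hz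
  have n0 : Fuj.nrd ((γ : X.Dˣ) : X.D) ≠ 0 := X.div _ (Units.ne_zero _)
  refine ⟨((γ : X.Dˣ) : X.D).re ^ 2 / Fuj.nrd ((γ : X.Dˣ) : X.D), Prod.ext ?_ ?_, fun t ht => ?_⟩
  · have b1 := congrArg σ (mu_t X h4)
    rw [map_mul, map_mul, hσ, map_pow, map_add, map_one, map_ofNat, ← h6] at b1
    have b2 := ml_tr (GP_pos (T'.r γ')) hτ
    have b3 : T'.mu γ' τ' = ml (T'.r γ') τ' := rfl
    rw [← b3, ← b1, ← mul_assoc] at b2
    have b4 := mul_right_cancel₀ (b3 ▸ ml_ne _ _) b2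
    have b5 : (T'.r γ' : GL (Fin 2) ℝ).val.trace ^ 2 = (T'.r γ' : GL (Fin 2) ℝ).val.det *
        (4 * X.t1 (((γ : X.Dˣ) : X.D).re ^ 2 / Fuj.nrd ((γ : X.Dˣ) : X.D))) := by
      apply Complex.ofReal_injective
      push_cast
      exact b4
    change (q : Q X).re.1 ^ 2 = X.t1 _ * (Fuj.nrd (q : Q X)).1
    rw [← a2]
    linear_combination (1 / 4 : ℝ) * (c : ℝ) ^ 2 * b5 -
      (1 / 4 : ℝ) * (2 * (q : Q X).re.1 + c * (T'.r γ' : GL (Fin 2) ℝ).val.trace) * a1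
  · change (p2 X q).re ^ 2 = algebraMap F (AF F) _ * (Fuj.nrd (q : Q X)).2
    have b1 : algebraMap F (AF F) (((γ : X.Dˣ) : X.D).re ^ 2 / Fuj.nrd ((γ : X.Dˣ) : X.D)) *
        Fuj.nrd (X.tw.j γ : X.DA) = (X.tw.j γ : X.DA).re ^ 2 := by
      rw [X.coe_j, QD.jD, nrd_map]
      change _ * algebraMap F (AF F) _ = algebraMap F (AF F) _ ^ 2
      rw [← map_mul, div_mul_cancel₀ _ n0, map_pow]
    rw [← p2_nrd, h2, h5, Units.val_mul, Units.val_mul, Units.val_mul, he', mul_sc, nrd_smul,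
      nrd_smul, nrd_conj, QuaternionAlgebra.re_smul, QuaternionAlgebra.re_smul, re_conj,
      smul_eq_mul, smul_eq_mul]
    linear_combination (-(e : AF F) ^ 2 * (e' : AF F) ^ 2) * b1
  · have b1 := nrd_pos X (Units.ne_zero (γ : X.Dˣ)) ht
    have b2 := X.defi t ht
    rw [map_div₀, div_le_one b1]
    simp only [Fuj.nrd, map_add, map_sub, map_mul, map_pow]
    nlinarith [mul_nonneg (neg_pos.2 b2.1).le (sq_nonneg (t ((γ : X.Dˣ) : X.D).imI)),
      mul_nonneg (neg_pos.2 b2.2).le (sq_nonneg (t ((γ : X.Dˣ) : X.D).imJ)),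
      mul_nonneg (mul_pos_of_neg_of_neg b2.1 b2.2).le (sq_nonneg (t ((γ : X.Dˣ) : X.D).imK))]

end

theorem trc : X.TRC := by
  intro G0' _ T' ok' _ σ hσ hs
  obtain ⟨u0, j0, τ, l0, f, l00, l02, h⟩ := ex_pt X
  have pos : ∀ t : F →+* ℝ, 0 < t (Fuj.nrd u0) := fun t => by
    by_cases ht : t = X.t1
    · rw [ht, ← l02]
      positivity
    · exact nrd_pos X (fun e => by simpa [e] using f.un) ht
  obtain ⟨l, l0', l2, hl⟩ : ∃ l : ℝ, l ≠ 0 ∧ l ^ 2 = X.t1 (Fuj.nrd u0) ∧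
      σ (l0 * Complex.I) = l * Complex.I := by
    have e : (l0 * Complex.I : ℂ) ^ 2 = -X.tc (Fuj.nrd u0) := by
      change _ = -((X.t1 _ : ℝ) : ℂ)
      rw [← l02, mul_pow, Complex.I_sq]
      simp
    have e' : σ (l0 * Complex.I) ^ 2 = (l0 * Complex.I : ℂ) ^ 2 := by
      rw [← map_pow, e, map_neg, hσ]
    rcases sq_eq_sq_iff_eq_or_eq_neg.1 e' with c | c
    · exact ⟨l0, l00, l02, c⟩
    · exact ⟨-l0, neg_ne_zero.2 l00, by rw [neg_sq, l02], by rw [c]; simp⟩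
  obtain ⟨τ', x, hx⟩ := hs.1 τ
  obtain ⟨u, u1, u2⟩ := p_onto X (ax τ' l) (x * X.jD u0 * (x⁻¹ : X.G))
  have v0 : u.re = 0 := by
    refine Prod.ext ?_ ?_
    · have := p1_tr X u
      rw [u1, ax_tr] at this
      simpa using this
    · change (p2 X u).re = 0
      rw [u2, re_conj]
      change algebraMap F (AF F) u0.re = 0
      rw [f.u0, map_zero]
  have nv : Fuj.nrd u = io X (Fuj.nrd u0) := by
    refine Prod.ext ?_ ?_
    · rw [← p1_det, u1, ax_det, l2]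
      rfl
    · rw [← p2_nrd, u2, nrd_conj, QD.jD, nrd_map]
      rfl
  have hu : Ax (io X) (HH X T') (Fuj.nrd u0) u := ⟨v0, nv, fun s => by
    obtain ⟨γ, h1, h2, h3⟩ := h s
    obtain ⟨γ', z, hz, h4, h5, h6⟩ := hx γ h2
    obtain ⟨e, he⟩ := Z_unit X hz
    have h7 := congrArg σ h3
    have h8 : σ (X.t1 s) = X.t1 s := hσ s
    rw [map_mul, map_add, map_sub, ← h6, hl, h8] at h7
    obtain ⟨c, c0, hc⟩ := eq_ax (GP_pos (T'.r γ')) h4 l0' h7
    have un : IsUnit (sc (io X s) + u) := by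
      rw [isUnit_iff_nrd, nrd_sc_add v0, nv, ← map_pow, ← map_add]
      refine (IsUnit.mk0 _ fun e => ?_).map _
      have h9 := congrArg X.t1 e
      have h10 := pos X.t1
      rw [map_add, map_pow, map_zero] at h9
      nlinarith [sq_nonneg (X.t1 s)]
    refine ⟨un.unit, ⟨γ', Units.mk0 c c0, e⁻¹, ?_, ?_⟩, rfl⟩
    · rw [IsUnit.unit_spec, Units.val_mk0, hc, map_add, u1, sc, Algebra.algebraMap_eq_smul_one,
        p1_smul, map_one, Algebra.algebraMap_eq_smul_one]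
      rfl
    · rw [IsUnit.unit_spec, h5, Units.val_mul, Units.val_mul, Units.val_mul, he, mul_sc, smul_smul,
        Units.inv_mul, one_smul, X.coe_j, h1, map_add, map_add, u2, X.jD_algebraMap, mul_add,
        add_mul, conj_sc]
      rfl⟩
  obtain ⟨γ1, m1⟩ := ex_move ok' τ'
  obtain ⟨g, hg, g1, -⟩ := ex_HH X T' γ1
  obtain ⟨y, hy⟩ := (dat hσ hs pos).main f rfl
    (fun t ht => nrd_pos X (fun e => by simpa [e] using f.wn) ht) hu hg (by
      have b := two_ax l0' (GP_pos (T'.r γ1)) m1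
      rw [← g1, ← u1, ← map_inv_eq (p1 X) g1, ← map_mul, ← map_mul, ← map_mul, p1_tr, l2,
        mul_div_cancel_left₀ _ two_ne_zero] at b
      exact b)
  obtain ⟨y, y0, hy⟩ : ∃ y : (Q X)ˣ, 0 < (p1 X y).det ∧ ∀ h ∈ HH X T', ∃ (δ : X.Dˣ) (c : ℝ × AF F),
      (h : Q X) * y = c • (y * jq (io X) (δ : X.D)) := by
    have y0 : (p1 X y).det ≠ 0 := 
      Matrix.GeneralLinearGroup.det_ne_zero (Units.map (p1 X).toMonoidHom y)
    rcases y0.lt_or_gt with c | c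
    · obtain ⟨d, hd⟩ := ex_neg X
      refine ⟨y * Units.map (jq (io X)).toMonoidHom d, ?_, fun k hk => ?_⟩
      · change 0 < (p1 X ((y : Q X) * jq (io X) (d : X.D))).det
        rw [map_mul, Matrix.det_mul, p1_jq, X.ovr.det X.a_ne X.b_ne]
        exact mul_pos_of_neg_of_neg c hd
      · obtain ⟨δ, c, e⟩ := hy k hk
        refine ⟨d⁻¹ * δ * d, c, ?_⟩
        change (k : Q X) * ((y : Q X) * jq (io X) (d : X.D)) =
          c • ((y : Q X) * jq (io X) (d : X.D) * _)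
        rw [← mul_assoc, e, smul_mul_assoc, mul_assoc, mul_assoc, ← map_mul, ← map_mul,
          Units.val_mul, Units.val_mul, mul_assoc, Units.mul_inv_cancel_left]
    · exact ⟨y, c, hy⟩
  refine ⟨Units.map (p2 X).toMonoidHom y, ⟨Units.map (p1 X).toMonoidHom y,
    y0.trans_eq (det_eq (Units.map (p1 X).toMonoidHom y)).symm⟩, fun γ' => ?_⟩
  obtain ⟨k, hk, k1, k2⟩ := ex_HH X T' γ'
  obtain ⟨δ, c, e⟩ := hy k hk
  have e1 := congrArg (p1 X) e
  have e2 := congrArg (p2 X) e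
  rw [map_mul, p1_smul, map_mul, p1_jq, k1] at e1
  rw [map_mul, p2_smul, map_mul, p2_jq, k2] at e2
  have d0 : δ ∈ X.G0 := by
    have e3 := congrArg Matrix.det e1
    rw [Matrix.det_smul, Matrix.det_mul, Matrix.det_mul, Fintype.card_fin,
      X.ovr.det X.a_ne X.b_ne] at e3
    have e4 := mul_pos (GP_pos (T'.r γ')) y0
    rw [e3] at e4
    exact X.mem_G0.2 (pos_of_mul_pos_right (pos_of_mul_pos_right e4 (sq_nonneg _)) y0.le)
  set x' : X.G := Units.map (p2 X).toMonoidHom y with hx'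
  have e5 : (T'.j γ' : X.DA) =
      ((x' * X.tw.j ⟨δ, d0⟩ * x'⁻¹ : X.G) : X.DA) * sc c.2 := by
    rw [mul_sc, Units.val_mul, Units.val_mul, ← smul_mul_assoc, Units.eq_mul_inv_iff_mul_eq]
    exact e2
  refine ⟨⟨δ, d0⟩, (x' * X.tw.j ⟨δ, d0⟩ * x'⁻¹)⁻¹ * T'.j γ', X.mem_Z.2 ⟨c.2, ?_⟩,
    (mul_inv_cancel_left _ _).symm, fun z => ?_⟩
  · rw [Units.val_mul, e5, Units.inv_mul_cancel_left]
  · rw [← mul_smul, ← mul_smul]
    exact smul_scalar e1 z

end Tr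

/-- **CMP** -/
theorem cmp : AllQ fun X => X.CMP := fun _ _ _ X => Tr.cmp X

/-- **TRC** -/
theorem trc : AllQ fun X => X.TRC := fun _ _ _ X => Tr.trc X

end Vale.Agent.P022K.Sh
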