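import Vale.Agent.P022K.F0.FujQ

/-!
# P022K, block F0, row TRC: frames in quaternion algebras

Orthogonal frames of pure quaternions, Cramer's rule, and the theorem of Skolem and Noether over
rings in which units split along idempotents (fields, adeles, products).
-/

set_option autoImplicit false

open scoped Quaternion
open QuaternionAlgebra

noncomputable section

namespace Vale.Agent.P022K.Sh.Tr

open Vale.Agent.P022K.F0.Fuj

section alg

variable {R : Type} [CommRing R] {a b : R}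

/-- scalars -/
abbrev sc (c : R) : ℍ[R,a,b] := algebraMap R ℍ[R,a,b] c

theorem sc_re (c : R) : (sc c : ℍ[R,a,b]).re = c := rfl

theorem sc_mul (c : R) (q : ℍ[R,a,b]) : sc c * q = c • q := (Algebra.smul_def c q).symm

theorem mul_sc (c : R) (q : ℍ[R,a,b]) : q * sc c = c • q := by
  rw [← Algebra.commutes, sc_mul]

theorem re_comm (p q : ℍ[R,a,b]) : (p * q).re = (q * p).re := by
  simp only [re_mul]
  ring

theorem re_conj (g : ℍ[R,a,b]ˣ) (q : ℍ[R,a,b]) :
    ((g : ℍ[R,a,b]) * q * (↑g⁻¹ : ℍ[R,a,b])).re = q.re := by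
  rw [re_comm, ← mul_assoc, Units.inv_mul, one_mul]

theorem conj_mul (g : ℍ[R,a,b]ˣ) (p q : ℍ[R,a,b]) :
    (g : ℍ[R,a,b]) * p * (↑g⁻¹ : ℍ[R,a,b]) * ((g : ℍ[R,a,b]) * q * (↑g⁻¹ : ℍ[R,a,b])) =
      (g : ℍ[R,a,b]) * (p * q) * (↑g⁻¹ : ℍ[R,a,b]) := by
  simp only [mul_assoc, Units.inv_mul_cancel_left]

theorem conj_sc (g : ℍ[R,a,b]ˣ) (c : R) :
    (g : ℍ[R,a,b]) * sc c * (↑g⁻¹ : ℍ[R,a,b]) = sc c := by
  rw [mul_sc, smul_mul_assoc, Units.mul_inv, sc, Algebra.algebraMap_eq_smul_one]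

theorem pure_sq {u : ℍ[R,a,b]} (h : u.re = 0) : u * u = sc (-nrd u) := by
  rw [sc, algebraMap_eq]
  ext <;> simp [nrd, h] <;> ring

theorem pure_anti {u w : ℍ[R,a,b]} (h : u.re = 0) (h' : w.re = 0) :
    u * w + w * u = sc (2 * (u * w).re) := by
  rw [sc, algebraMap_eq]
  ext <;> simp [h, h'] <;> ring

theorem nrd_sc_add {u : ℍ[R,a,b]} (h : u.re = 0) (s : R) : nrd (sc s + u) = s ^ 2 + nrd u := by
  simp [sc, algebraMap_eq, nrd, h]
  ring

theorem nrd_sub_re (q : ℍ[R,a,b]) : nrd (q - sc q.re) = nrd q - q.re ^ 2 := by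
  simp [sc, algebraMap_eq, nrd]
  ring

theorem nrd_par (p q : ℍ[R,a,b]) : nrd (p + q) + nrd (p - q) = 2 * (nrd p + nrd q) := by
  simp [nrd]
  ring

theorem nrd_idem {e : R} (he : e * e = e) (p q : ℍ[R,a,b]) :
    nrd (e • p + (1 - e) • q) = e * nrd p + (1 - e) * nrd q := by
  rw [nrd_add, nrd_smul, nrd_smul, QuaternionAlgebra.star_smul, smul_mul_smul_comm, trd_smul]
  linear_combination (nrd p + nrd q - trd (p * star q)) * he

/-- Cramer's rule for pure quaternions -/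
theorem cramer0 {x y v : ℍ[R,a,b]} (hx : x.re = 0) (hy : y.re = 0) (hv : v.re = 0) :
    (nrd x * nrd y - (x * y).re ^ 2) • v =
      (-nrd y * (v * x).re - (x * y).re * (v * y).re) • x +
      (-nrd x * (v * y).re - (x * y).re * (v * x).re) • y -
      (v * (x * y)).re • (x * y - sc (x * y).re) := by
  rw [sc, algebraMap_eq]
  ext <;> simp [nrd, hx, hy, hv] <;> ring

/-- an orthogonal frame -/
structure Fr (u w : ℍ[R,a,b]) : Prop where
  u0 : u.re = 0
  w0 : w.re = 0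
  o : (u * w).re = 0
  un : IsUnit (nrd u)
  wn : IsUnit (nrd w)

theorem Fr.anti {u w : ℍ[R,a,b]} (h : Fr u w) : w * u = -(u * w) := by
  have := pure_anti h.u0 h.w0
  rw [h.o, mul_zero, sc, map_zero] at this
  exact eq_neg_of_add_eq_zero_right this

theorem Fr.symm {u w : ℍ[R,a,b]} (h : Fr u w) : Fr w u :=
  ⟨h.w0, h.u0, by rw [re_comm, h.o], h.wn, h.un⟩

theorem Fr.conj {u w : ℍ[R,a,b]} (h : Fr u w) (g : ℍ[R,a,b]ˣ) :
    Fr ((g : ℍ[R,a,b]) * u * (↑g⁻¹ : ℍ[R,a,b])) ((g : ℍ[R,a,b]) * w * (↑g⁻¹ : ℍ[R,a,b])) :=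
  ⟨by rw [re_conj, h.u0], by rw [re_conj, h.w0], by rw [conj_mul, re_conj, h.o],
    by rw [nrd_conj]; exact h.un, by rw [nrd_conj]; exact h.wn⟩

theorem Fr.cramer {u w v : ℍ[R,a,b]} (h : Fr u w) (hv : v.re = 0) :
    (nrd u * nrd w) • v = (-nrd w * (v * u).re) • u + (-nrd u * (v * w).re) • w +
      (-(v * (u * w)).re) • (u * w) := by
  have := cramer0 h.u0 h.w0 hv
  rw [h.o] at this
  simpa [sc, sub_eq_add_neg, -re_mul] using this

theorem Fr.nrd_comb {u w : ℍ[R,a,b]} (h : Fr u w) (x y : R) :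
    nrd (x • w + y • (u * w)) = nrd w * (x ^ 2 + nrd u * y ^ 2) := by
  have e : x • w + y • (u * w) = (sc x + y • u) * w := by
    rw [add_mul, sc_mul, smul_mul_assoc]
  rw [e, nrd_mul, nrd_sc_add (by simp [h.u0]), nrd_smul]
  ring

theorem Fr.comb {u w : ℍ[R,a,b]} (h : Fr u w) {x y : R}
    (hu : IsUnit (x ^ 2 + nrd u * y ^ 2)) : Fr u (x • w + y • (u * w)) := by
  refine ⟨h.u0, by simp [h.w0, h.o, -re_mul], ?_, h.un, ?_⟩
  · rw [mul_add, mul_smul_comm, mul_smul_comm, ← mul_assoc, pure_sq h.u0, sc_mul]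
    simp [h.w0, h.o, -re_mul]
  · rw [h.nrd_comb]
    exact h.wn.mul hu

theorem two_cancel (h2 : IsUnit (2 : R)) {p q : ℍ[R,a,b]} (h : p + p = q + q) : p = q := by
  rw [← two_smul R p, ← two_smul R q] at h
  exact h2.smul_left_cancel.1 h

/-- an element commuting with a frame is a scalar -/
theorem Fr.central (h2 : IsUnit (2 : R)) {u w q : ℍ[R,a,b]} (h : Fr u w) (hu : q * u = u * q)
    (hw : q * w = w * q) : q = sc q.re := by
  set v := q - sc q.re with hv
  have v0 : v.re = 0 := by simp [hv, sc_re]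
  have key : ∀ x : ℍ[R,a,b], x.re = 0 → q * x = x * q → v * x = sc (v * x).re ∧ v * x = x * v := by
    intro x x0 hx
    have c : v * x = x * v := by rw [hv, sub_mul, mul_sub, hx, sc_mul, mul_sc]
    refine ⟨two_cancel h2 ?_, c⟩
    rw [← map_add, ← two_mul (v * x).re, ← sc, ← pure_anti v0 x0, ← c]
  obtain ⟨e1, c1⟩ := key u h.u0 hu
  obtain ⟨e2, -⟩ := key w h.w0 hw
  have e3 : (v * u).re • w = (v * w).re • u := by
    rw [← sc_mul, ← e1, c1, mul_assoc, ← mul_sc, ← e2]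
  have e4 := congrArg (fun z => (u * z).re) e3
  simp only [mul_smul_comm, re_smul, h.o, pure_sq h.u0, sc_re, smul_eq_mul, mul_zero] at e4
  have e5 : (v * w).re = 0 := by
    have : nrd u * (v * w).re = 0 := by linear_combination e4
    exact h.un.mul_right_eq_zero.1 this
  rw [e5, sc, map_zero] at e2
  exact sub_eq_zero.1 (((isUnit_iff_nrd w).2 h.wn).mul_left_eq_zero.1 e2)

variable (R) in
/-- units split along idempotents -/
def Spl : Prop := ∀ p q : R, IsUnit (p + q) → ∃ e : R, e * e = e ∧ IsUnit (e * p + (1 - e) * q)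

theorem Spl.ex (h : Spl R) {p q c d : R} (hu : IsUnit (p + q)) (hc : IsUnit c) (hd : IsUnit d) :
    ∃ e : R, e * e = e ∧ IsUnit (e * (p * c) + (1 - e) * (q * d)) := by
  obtain ⟨e, he, h1⟩ := h p q hu
  obtain ⟨c', hc'⟩ := hc.exists_right_inv
  obtain ⟨d', hd'⟩ := hd.exists_right_inv
  have h2 : IsUnit (e * c + (1 - e) * d) := by
    refine IsUnit.of_mul_eq_one (e * c' + (1 - e) * d') ?_
    linear_combination e * e * hc' + (1 - e) * (1 - e) * hd' + (2 - c * d' - d * c') * he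
  refine ⟨e, he, ?_⟩
  have e1 : e * (p * c) + (1 - e) * (q * d) = (e * p + (1 - e) * q) * (e * c + (1 - e) * d) := by
    linear_combination (p * d + q * c - p * c - q * d) * he
  rw [e1]
  exact h1.mul h2

theorem spl_field (K : Type) [Field K] : Spl K := by
  intro p q h
  by_cases hp : p = 0
  · exact ⟨0, by simp, by simpa [hp] using h⟩
  · exact ⟨1, by simp, by simpa using hp⟩

theorem Spl.prod {S : Type} [CommRing S] (h : Spl R) (h' : Spl S) : Spl (R × S) := by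
  intro p q hu
  obtain ⟨e, he, h1⟩ := h p.1 q.1 (hu.map (RingHom.fst R S))
  obtain ⟨f, hf, h2⟩ := h' p.2 q.2 (hu.map (RingHom.snd R S))
  exact ⟨(e, f), Prod.ext he hf, Prod.isUnit_iff.2 ⟨h1, h2⟩⟩

theorem unit_par (h2 : IsUnit (2 : R)) {x y : ℍ[R,a,b]} (hn : nrd x = nrd y)
    (hu : IsUnit (nrd y)) : IsUnit (nrd (x + y) + nrd (x - y)) := by
  rw [nrd_par, hn, ← two_mul]
  exact h2.mul (h2.mul hu)

/-- pure quaternions of the same norm are conjugate -/
theorem conj1 (hs : Spl R) (h2 : IsUnit (2 : R)) {x y w : ℍ[R,a,b]} (hx : x.re = 0) (h : Fr y w)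
    (hn : nrd x = nrd y) : ∃ g : ℍ[R,a,b]ˣ, g * x = y * g := by
  obtain ⟨e, he, hu⟩ := hs.ex (unit_par h2 hn h.un) isUnit_one h.wn
  rw [mul_one, mul_comm _ (nrd w), ← nrd_mul, ← nrd_idem he, ← isUnit_iff_nrd] at hu
  refine ⟨hu.unit, ?_⟩
  have e1 : x * x = y * y := by rw [pure_sq hx, pure_sq h.u0, hn]
  have e2 : (x + y) * x = y * (x + y) := by rw [add_mul, mul_add, e1, add_comm]
  have e3 : w * (x - y) * x = y * (w * (x - y)) := by
    have : (x - y) * x = -(y * (x - y)) := by rw [sub_mul, mul_sub, e1, neg_sub]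
    rw [mul_assoc, this, mul_neg, ← mul_assoc, h.anti, neg_mul, neg_neg, mul_assoc]
  rw [IsUnit.unit_spec, add_mul, mul_add, smul_mul_assoc, smul_mul_assoc, mul_smul_comm,
    mul_smul_comm, e2, e3]

theorem conj2 (hs : Spl R) (h2 : IsUnit (2 : R)) {u w w' : ℍ[R,a,b]} (h : Fr u w) (h' : Fr u w')
    (hn : nrd w = nrd w') : ∃ g : ℍ[R,a,b]ˣ, g * u = u * g ∧ g * w = w' * g := by
  obtain ⟨e, he, hu⟩ := hs.ex (unit_par h2 hn h'.wn) h.wn (h.un.mul h.wn)
  rw [← nrd_mul u, ← nrd_mul, ← nrd_mul, ← nrd_idem he, ← isUnit_iff_nrd] at hu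
  refine ⟨hu.unit, ?_, ?_⟩
  · have e1 : (w + w') * w * u = u * ((w + w') * w) := by
      rw [mul_assoc, h.anti, mul_neg, ← mul_assoc, add_mul w, h.anti, h'.anti]
      noncomm_ring
    have e2 : (w - w') * (u * w) * u = u * ((w - w') * (u * w)) := by
      rw [mul_assoc, mul_assoc, h.anti, ← mul_assoc, sub_mul w, h.anti, h'.anti]
      noncomm_ring
    rw [IsUnit.unit_spec, add_mul, mul_add, smul_mul_assoc, smul_mul_assoc, mul_smul_comm,
      mul_smul_comm, e1, e2]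
  · have e0 : w * w = w' * w' := by rw [pure_sq h.w0, pure_sq h'.w0, hn]
    have e1 : (w + w') * w * w = w' * ((w + w') * w) := by
      rw [← mul_assoc, mul_add w', ← e0, add_mul w, add_comm]
    have e2 : (w - w') * (u * w) * w = w' * ((w - w') * (u * w)) := by
      have e3 : w' * (w - w') = -((w - w') * w) := by rw [sub_mul, mul_sub, e0, neg_sub]
      rw [← mul_assoc w', e3, neg_mul, mul_assoc _ w, ← mul_assoc w, h.anti]
      noncomm_ring
    rw [IsUnit.unit_spec, add_mul, mul_add, smul_mul_assoc, smul_mul_assoc, mul_smul_comm,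
      mul_smul_comm, e1, e2]

theorem eq_conj {g : ℍ[R,a,b]ˣ} {x y : ℍ[R,a,b]} (h : g * x = y * g) :
    y = (g : ℍ[R,a,b]) * x * (↑g⁻¹ : ℍ[R,a,b]) := by
  rw [h, Units.mul_inv_cancel_right]

/-- **Skolem and Noether** for frames -/
theorem sn (hs : Spl R) (h2 : IsUnit (2 : R)) {u w u' w' : ℍ[R,a,b]} (h : Fr u w) (h' : Fr u' w')
    (hu : nrd u = nrd u') (hw : nrd w = nrd w') :
    ∃ g : ℍ[R,a,b]ˣ, g * u = u' * g ∧ g * w = w' * g := by
  obtain ⟨g, hg⟩ := conj1 hs h2 h.u0 h' hu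
  have f := h.conj g
  rw [← eq_conj hg] at f
  obtain ⟨k, k1, k2⟩ := conj2 hs h2 f h' (by rw [nrd_conj, hw])
  refine ⟨k * g, ?_, ?_⟩
  · rw [Units.val_mul, mul_assoc, hg, ← mul_assoc, k1, mul_assoc]
  · rw [Units.val_mul, ← mul_assoc, ← k2]
    simp only [mul_assoc, Units.inv_mul, mul_one]

section map

variable {S : Type} [CommRing S] (f : R →+* S) {a' b' : S} (ha : f a = a') (hb : f b = b')

theorem Fr.map {u w : ℍ[R,a,b]} (h : Fr u w) : Fr (qmap f ha hb u) (qmap f ha hb w) :=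
  ⟨by simp [h.u0], by simp [h.w0], by rw [← map_mul, qmap_re, h.o, map_zero],
    by rw [nrd_qmap]; exact h.un.map f, by rw [nrd_qmap]; exact h.wn.map f⟩

theorem qmap_smul (c : R) (q : ℍ[R,a,b]) : qmap f ha hb (c • q) = f c • qmap f ha hb q := by
  ext <;> simp

theorem qmap_inj (hf : Function.Injective f) : Function.Injective (qmap f ha hb) := by
  intro p q h
  ext
  · exact hf (congrArg QuaternionAlgebra.re h)
  · exact hf (congrArg QuaternionAlgebra.imI h)
  · exact hf (congrArg QuaternionAlgebra.imJ h)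
  · exact hf (congrArg QuaternionAlgebra.imK h)

end map

end alg

end Vale.Agent.P022K.Sh.Tr
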