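import Vale.Agent.P022K.F0.TrcA

/-!
# P022K, block F0, row TRC: a group is determined by its elliptic elements (abstract form)
-/

set_option autoImplicit false

open scoped Quaternion
open QuaternionAlgebra

noncomputable section

namespace Vale.Agent.P022K.Sh.Tr

open Vale.Agent.P022K.F0.Fuj

theorem big {n : ℝ} (hn : 0 < n) (C : ℝ) : ∃ S : ℕ, 1 ≤ (S : ℝ) ∧ C < n * S := by
  obtain ⟨S, hS⟩ := exists_nat_gt (max 1 (C / n))
  refine ⟨S, ((le_max_left _ _).trans hS.le), ?_⟩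
  have := (le_max_right _ _).trans_lt hS
  rwa [div_lt_iff₀ hn, mul_comm] at this

/-- approximation at two real places -/
theorem apx {F : Type} [Field F] [CharZero F] {t t' : F →+* ℝ} (h : t' ≠ t) (M : ℝ) {e : ℝ}
    (he : 0 < e) : ∃ s : F, M < t s ^ 2 ∧ t' s ^ 2 < e := by
  obtain ⟨α, hα⟩ : ∃ α, t' α ≠ t α := by
    by_contra hc
    push Not at hc
    exact h (RingHom.ext hc)
  have d0 : 0 < |t α - t' α| := abs_pos.2 (sub_ne_zero.2 hα.symm)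
  obtain ⟨N, N1, hN⟩ := big d0 (|M| + 2)
  have e0 : 0 < min 1 e / N := div_pos (lt_min one_pos he) (by linarith)
  obtain ⟨r, hr⟩ := exists_rat_near (t' α) e0
  have h1 : |(N : ℝ) * (t' α - r)| < min 1 e := by
    rw [abs_mul, abs_of_pos (by linarith : (0 : ℝ) < N), mul_comm]
    exact (lt_div_iff₀ (by linarith)).1 hr
  have h2 := h1.trans_le (min_le_left _ _)
  have h3 := h1.trans_le (min_le_right _ _)
  refine ⟨N * (α - r), ?_, ?_⟩
  · have e1 : t (N * (α - r)) = N * (t α - t' α) + N * (t' α - r) := by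
      simp only [map_mul, map_sub, map_natCast, map_ratCast]
      ring
    have h4 : |M| + 1 < |t (N * (α - r))| := by
      have h5 := abs_sub (t (N * (α - r))) (N * (t' α - r))
      rw [e1, add_sub_cancel_right, ← e1, abs_mul, abs_of_pos (by linarith : (0 : ℝ) < N)] at h5
      linarith
    rw [← sq_abs]
    nlinarith [le_abs_self M, abs_nonneg M]
  · have e1 : t' (N * (α - r)) = N * (t' α - r) := by
      simp only [map_mul, map_sub, map_natCast, map_ratCast]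
    rw [e1, ← sq_abs]
    nlinarith [abs_nonneg ((N : ℝ) * (t' α - r))]

variable {F R : Type} [Field F] [CharZero F] [CommRing R] (ι : F →+* R) (ε : R →+* ℝ) {a b : F}

theorem rat_of_two {δ : R} {m m' : F} (h : m ≠ m') (h1 : (ι m + δ) ^ 2 ∈ ι.range)
    (h2 : (ι m' + δ) ^ 2 ∈ ι.range) : δ ∈ ι.range := by
  obtain ⟨c, hc⟩ := h1
  obtain ⟨c', hc'⟩ := h2
  have h0 : 2 * (m - m') ≠ 0 := mul_ne_zero two_ne_zero (sub_ne_zero.2 h)
  have e : ι ((2 * (m - m'))⁻¹) * (2 * (ι m - ι m')) = 1 := by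
    rw [← map_sub, ← map_ofNat ι 2, ← map_mul, ← map_mul, inv_mul_cancel₀ h0, map_one]
  refine ⟨(2 * (m - m'))⁻¹ * (c - c' - m ^ 2 + m' ^ 2), ?_⟩
  simp only [map_mul, map_add, map_sub, map_pow, hc, hc']
  linear_combination δ * e

/-- the diagonal embedding -/
abbrev jq : ℍ[F,a,b] →+* ℍ[R,ι a,ι b] := qmap ι rfl rfl

/-- the hypotheses on the group `H` -/
structure Dat (H : Subgroup ℍ[R,ι a,ι b]ˣ) (n : F) : Prop where
  spl : Spl R
  ell : ∀ h ∈ H, ε (h : ℍ[R,ι a,ι b]).re ^ 2 < ε (nrd (h : ℍ[R,ι a,ι b])) → ∃ t : F,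
    (h : ℍ[R,ι a,ι b]).re ^ 2 = ι t * nrd (h : ℍ[R,ι a,ι b]) ∧
    ∀ t' : F →+* ℝ, t' ≠ ε.comp ι → t' t ≤ 1
  pos : ∀ t : F →+* ℝ, 0 < t n
  hasse : ∀ c : F, (∃ x y : R, ι c = x ^ 2 + ι n * y ^ 2) → (∀ t : F →+* ℝ, 0 < t c) →
    ∃ x y : F, c = x ^ 2 + n * y ^ 2

/-- an axis -/
structure Ax (H : Subgroup ℍ[R,ι a,ι b]ˣ) (n : F) (v : ℍ[R,ι a,ι b]) : Prop where
  v0 : v.re = 0
  nv : nrd v = ι n
  mem : ∀ s : F, ∃ h ∈ H, (h : ℍ[R,ι a,ι b]) = sc (ι s) + v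

variable {ι ε} {H : Subgroup ℍ[R,ι a,ι b]ˣ} {n : F}

omit [CharZero F] in
theorem Ax.conj {v : ℍ[R,ι a,ι b]} (hv : Ax ι H n v) {g : ℍ[R,ι a,ι b]ˣ} (hg : g ∈ H) :
    Ax ι H n ((g : ℍ[R,ι a,ι b]) * v * (↑g⁻¹ : ℍ[R,ι a,ι b])) := by
  refine ⟨by rw [re_conj, hv.v0], by rw [nrd_conj, hv.nv], fun s => ?_⟩
  obtain ⟨h, hh, e⟩ := hv.mem s
  refine ⟨g * h * g⁻¹, H.mul_mem (H.mul_mem hg hh) (H.inv_mem hg), ?_⟩
  rw [Units.val_mul, Units.val_mul, e, mul_add, add_mul, conj_sc]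

omit [CharZero F] in
theorem Dat.two0 (d : Dat ι ε H n) {v w : ℍ[R,ι a,ι b]} (hv : Ax ι H n v) (hw : Ax ι H n w)
    (s r : F) (h : (ε (ι s) * ε (ι r) + ε (v * w).re) ^ 2 <
      (ε (ι s) ^ 2 + ε (ι n)) * (ε (ι r) ^ 2 + ε (ι n))) :
    ∃ t : F, (ι (s * r) + (v * w).re) ^ 2 = ι (t * ((s ^ 2 + n) * (r ^ 2 + n))) ∧
      ∀ t' : F →+* ℝ, t' ≠ ε.comp ι → t' t ≤ 1 := by
  obtain ⟨g, hg, e⟩ := hv.mem s
  obtain ⟨k, hk, e'⟩ := hw.mem r
  have e1 : ((g * k : ℍ[R,ι a,ι b]ˣ) : ℍ[R,ι a,ι b]).re = ι (s * r) + (v * w).re := by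
    rw [Units.val_mul, e, e', add_mul, mul_add, mul_add, sc_mul, sc_mul, mul_sc]
    simp [hv.v0, hw.v0, sc_re, -re_mul]
  have e2 : nrd ((g * k : ℍ[R,ι a,ι b]ˣ) : ℍ[R,ι a,ι b]) = ι ((s ^ 2 + n) * (r ^ 2 + n)) := by
    rw [Units.val_mul, e, e', nrd_mul, nrd_sc_add hv.v0, nrd_sc_add hw.v0, hv.nv, hw.nv]
    simp
  obtain ⟨t, h1, h2⟩ := d.ell _ (H.mul_mem hg hk) (by rw [e1, e2]; simpa using h)
  exact ⟨t, by rw [← e1, h1, e2, ← map_mul], h2⟩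

/-- two axes -/
theorem Dat.two (d : Dat ι ε H n) {v w : ℍ[R,ι a,ι b]} (hv : Ax ι H n v) (hw : Ax ι H n w) :
    ∃ p : F, ι p = (v * w).re ∧ ∀ t' : F →+* ℝ, t' ≠ ε.comp ι → t' p ^ 2 ≤ t' n ^ 2 := by
  have n0 : 0 < ε (ι n) := d.pos (ε.comp ι)
  set p := ε (v * w).re with hp
  obtain ⟨S, S1, hS⟩ := big n0 (2 * |p| + p ^ 2)
  have a1 := abs_nonneg p
  have a2 := le_abs_self p
  obtain ⟨t, h1, -⟩ := d.two0 hv hw 0 S (by
    simp only [map_zero, map_natCast, ← hp]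
    nlinarith [sq_nonneg p])
  obtain ⟨t', h2, -⟩ := d.two0 hv hw 1 S (by
    simp only [map_one, map_natCast, ← hp]
    nlinarith [sq_nonneg p, mul_le_mul_of_nonneg_left S1 (sq_nonneg p),
      mul_lt_mul_of_pos_right hS (by linarith : (0 : ℝ) < S),
      mul_le_mul_of_nonneg_left a2 (by linarith : (0 : ℝ) ≤ S)])
  have S0 : (0 : F) * S ≠ 1 * S := by
    have : (S : F) ≠ 0 := Nat.cast_ne_zero.2 (by rintro rfl; norm_num at S1)
    simpa using this.symm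
  obtain ⟨q, hq⟩ := rat_of_two ι S0 ⟨_, h1.symm⟩ ⟨_, h2.symm⟩
  refine ⟨q, hq, fun τ hτ => ?_⟩
  by_contra hc
  push Not at hc
  have m0 := d.pos τ
  obtain ⟨s, s1, s2⟩ := apx hτ (p ^ 2 / ε (ι n)) (div_pos (sub_pos.2 hc) m0)
  rw [div_lt_iff₀ n0] at s1
  rw [lt_div_iff₀ m0] at s2
  obtain ⟨k, h3, h4⟩ := d.two0 hv hw 0 s (by
    simp only [map_zero, ← hp]
    have : (ε.comp ι) s = ε (ι s) := rfl
    rw [this] at s1
    nlinarith)
  have : Nontrivial R := ε.domain_nontrivial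
  rw [← hq, ← map_add, ← map_pow] at h3
  have h5 := congrArg τ (ι.injective h3)
  have h6 := h4 τ hτ
  simp only [zero_mul, zero_add, map_pow, map_mul, map_add, ne_eq, OfNat.ofNat_ne_zero,
    not_false_eq_true, zero_pow] at h5
  have h7 : 0 < τ n * (τ s ^ 2 + τ n) := mul_pos m0 (by positivity)
  nlinarith

/-- three axes -/
theorem Dat.three (d : Dat ι ε H n) {v u w : ℍ[R,ι a,ι b]} (hv : Ax ι H n v) (hu : Ax ι H n u)
    (hw : Ax ι H n w) (h0 : (u * w).re ≠ 0) : (v * (u * w)).re ∈ ι.range := by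
  have n0 : 0 < ε (ι n) := d.pos (ε.comp ι)
  obtain ⟨p, hp, -⟩ := d.two hu hw
  obtain ⟨q, hq, -⟩ := d.two hv hu
  set δ := (v * (u * w)).re with hδ
  obtain ⟨S, S1, hS⟩ := big n0 ((|ε (ι p)| + |ε (ι q)| + |ε δ|) ^ 2)
  have key : ∀ s : F, s = S ∨ s = -S → (ι (s * p + S * q) + δ) ^ 2 ∈ ι.range := by
    intro s hs
    obtain ⟨g, hg, e⟩ := hv.mem s
    obtain ⟨k, hk, e'⟩ := hu.mem 0
    obtain ⟨l, hl, e''⟩ := hw.mem S
    rw [map_zero, sc, map_zero, zero_add] at e'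
    have e1 : ((g * (k * l) : ℍ[R,ι a,ι b]ˣ) : ℍ[R,ι a,ι b]).re = ι (s * p + S * q) + δ := by
      rw [Units.val_mul, Units.val_mul, e, e', e'', mul_add u, add_mul, mul_add, mul_add, sc_mul,
        sc_mul, mul_sc, mul_smul_comm]
      simp [hu.v0, hp, hq, hδ, add_assoc, -re_mul]
    have e2 : nrd ((g * (k * l) : ℍ[R,ι a,ι b]ˣ) : ℍ[R,ι a,ι b]) =
        ι ((s ^ 2 + n) * (n * (S ^ 2 + n))) := by
      rw [Units.val_mul, Units.val_mul, e, e', e'', nrd_mul, nrd_mul, nrd_sc_add hv.v0,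
        nrd_sc_add hw.v0, hv.nv, hw.nv, hu.nv]
      simp
    obtain ⟨t, h1, -⟩ := d.ell _ (H.mul_mem hg (H.mul_mem hk hl)) (by
      rw [e1, e2]
      have s2 : ε (ι s) ^ 2 = (S : ℝ) ^ 2 := by rcases hs with rfl | rfl <;> simp
      have s3 : |ε (ι s)| = S := by rcases hs with rfl | rfl <;> simp
      simp only [map_add, map_mul, map_pow, map_natCast, s2]
      have b1 : |ε (ι s) * ε (ι p) + S * ε (ι q) + ε δ| ≤
          (|ε (ι p)| + |ε (ι q)| + |ε δ|) * S := by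
        refine (abs_add_three _ _ _).trans ?_
        rw [abs_mul, abs_mul, s3, Nat.abs_cast]
        nlinarith [abs_nonneg (ε δ)]
      have b2 := pow_le_pow_left₀ (abs_nonneg _) b1 2
      rw [sq_abs, mul_pow] at b2
      have S2 : (0 : ℝ) < (S : ℝ) ^ 2 := by positivity
      have b3 := mul_lt_mul_of_pos_right hS S2
      have b4 : ε (ι n) * S * S ^ 2 ≤ (S ^ 2 + ε (ι n)) * (ε (ι n) * (S ^ 2 + ε (ι n))) := by
        have b5 : (S : ℝ) ≤ S ^ 2 + ε (ι n) := by nlinarith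
        calc ε (ι n) * S * S ^ 2 = S * (ε (ι n) * S ^ 2) := by ring
          _ ≤ _ := by gcongr; linarith
      linarith)
    exact ⟨_, by rw [← e1, h1, e2, ← map_mul]⟩
  have S0 : (S : F) ≠ 0 := Nat.cast_ne_zero.2 (by rintro rfl; norm_num at S1)
  refine rat_of_two ι (fun h => h0 ?_) (key S (Or.inl rfl)) (key (-S) (Or.inr rfl))
  have : (2 * S : F) * p = 0 := by linear_combination h
  rw [← hp, (mul_eq_zero.1 this).resolve_left (mul_ne_zero two_ne_zero S0), map_zero]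

theorem two_unit (ι : F →+* R) : IsUnit (2 : R) := by
  rw [← map_ofNat ι 2]
  exact (IsUnit.mk0 (2 : F) two_ne_zero).map ι

/-- **the abstract form of TRC** -/
theorem Dat.main (d : Dat ι ε H n) {u0 j0 : ℍ[F,a,b]} (f0 : Fr u0 j0) (hn : nrd u0 = n)
    (hj : ∀ t' : F →+* ℝ, t' ≠ ε.comp ι → 0 < t' (nrd j0)) {u : ℍ[R,ι a,ι b]} (hu : Ax ι H n u)
    {g : ℍ[R,ι a,ι b]ˣ} (hg : g ∈ H)
    (hm : ε (ι n) ^ 2 < ε (u * ((g : ℍ[R,ι a,ι b]) * u * (↑g⁻¹ : ℍ[R,ι a,ι b]))).re ^ 2) :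
    ∃ y : ℍ[R,ι a,ι b]ˣ, ∀ h ∈ H, ∃ (δ : ℍ[F,a,b]ˣ) (c : R),
      (h : ℍ[R,ι a,ι b]) * y = c • (y * jq ι (δ : ℍ[F,a,b])) := by
  have : Nontrivial R := ε.domain_nontrivial
  have h2 := two_unit ι
  have n0 : 0 < ε (ι n) := d.pos (ε.comp ι)
  have hu' := hu.conj hg
  set u' := (g : ℍ[R,ι a,ι b]) * u * (↑g⁻¹ : ℍ[R,ι a,ι b]) with eu'
  obtain ⟨p, hp, hp'⟩ := d.two hu hu'
  have m0 : n ^ 2 - p ^ 2 ≠ 0 := fun h => by
    have := congrArg (ε.comp ι) h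
    simp only [map_sub, map_pow, map_zero, RingHom.comp_apply, hp] at this
    linarith
  have p0 : (u * u').re ≠ 0 := fun h => by
    rw [h, map_zero] at hm
    nlinarith
  have nn : n ≠ 0 := fun h => by simp [h] at n0
  -- the frame `u`, `w`
  set w := u * u' - sc (u * u').re with ew
  have nw : nrd w = ι (n ^ 2 - p ^ 2) := by
    rw [ew, nrd_sub_re, nrd_mul, hu.nv, hu'.nv, ← hp, map_sub, map_pow, map_pow, sq (ι n)]
  have uw : u * w = (-ι n) • u' - ι p • u := by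
    rw [ew, mul_sub, ← mul_assoc, pure_sq hu.v0, sc_mul, mul_sc, hu.nv, hp]
  have f : Fr u w := ⟨hu.v0, by simp [ew, sc_re, -re_mul], by simp [uw, hu.v0, hu'.v0],
    hu.nv ▸ (IsUnit.mk0 n nn).map ι, nw ▸ (IsUnit.mk0 _ m0).map ι⟩
  have f1 : Fr (jq ι u0) (jq ι j0) := f0.map ι rfl rfl
  have n1 : nrd (jq ι u0) = ι n := by rw [nrd_qmap, hn]
  have j0' : nrd j0 ≠ 0 := f0.wn.ne_zero
  -- the norm condition
  obtain ⟨x, y, hxy⟩ : ∃ x y : F, (n ^ 2 - p ^ 2) / nrd j0 = x ^ 2 + n * y ^ 2 := by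
    obtain ⟨k, hk⟩ := conj1 d.spl h2 hu.v0 f1 (by rw [hu.nv, n1])
    have f2 := f.conj k
    rw [← eq_conj hk] at f2
    have e := f1.cramer f2.w0
    rw [f2.symm.o, mul_zero, zero_smul, zero_add] at e
    have e1 := congrArg nrd e
    rw [f1.nrd_comb, nrd_smul, nrd_conj, nw, n1, nrd_qmap] at e1
    have e2 : ι ((n * nrd j0)⁻¹) * (ι n * ι (nrd j0)) = 1 := by
      rw [← map_mul, ← map_mul, inv_mul_cancel₀ (mul_ne_zero nn j0'), map_one]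
    have e3 : ι (nrd j0)⁻¹ * ι (nrd j0) = 1 := by rw [← map_mul, inv_mul_cancel₀ j0', map_one]
    generalize (-ι n * _ : R) = X at e1
    generalize (-_ : R) = Y at e1
    have loc : ι ((n ^ 2 - p ^ 2) / nrd j0) = (ι (n * nrd j0)⁻¹ * X) ^ 2 +
        ι n * (ι (n * nrd j0)⁻¹ * Y) ^ 2 := by
      rw [div_eq_mul_inv, map_mul]
      linear_combination ι (nrd j0)⁻¹ * ι (n * nrd j0)⁻¹ ^ 2 * e1 -
        ι (n ^ 2 - p ^ 2) * ι (nrd j0)⁻¹ * (ι (n * nrd j0)⁻¹ * (ι n * ι (nrd j0)) + 1) * e2 +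
        ι (n * nrd j0)⁻¹ ^ 2 * (X ^ 2 + ι n * Y ^ 2) * e3
    refine d.hasse _ ⟨_, _, loc⟩ fun t => lt_of_le_of_ne ?_
      ((map_ne_zero t).2 (div_ne_zero m0 j0')).symm
    by_cases ht : t = ε.comp ι
    · rw [ht, RingHom.comp_apply, loc, map_add, map_mul ε (ι n), map_pow, map_pow]
      positivity
    · rw [map_div₀, map_sub, map_pow, map_pow]
      exact div_nonneg (sub_nonneg.2 (hp' t ht)) (hj t ht).le
  have f3 : Fr u0 (x • j0 + y • (u0 * j0)) := f0.comb (by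
    rw [hn, ← hxy]
    exact IsUnit.mk0 _ (div_ne_zero m0 j0'))
  have n3 : nrd (x • j0 + y • (u0 * j0)) = n ^ 2 - p ^ 2 := by
    rw [f0.nrd_comb, hn, ← hxy, mul_div_cancel₀ _ j0']
  generalize x • j0 + y • (u0 * j0) = w0 at f3 n3
  have f4 : Fr (jq ι u0) (jq ι w0) := f3.map ι rfl rfl
  obtain ⟨z, z1, z2⟩ := sn d.spl h2 f4 f (by rw [hu.nv, n1]) (by rw [nrd_qmap, n3, nw])
  -- every axis is rational
  have rat : ∀ v, Ax ι H n v → ∃ q : ℍ[F,a,b], z * jq ι q = v * z := by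
    intro v hv
    obtain ⟨c1, h1, -⟩ := d.two hv hu
    obtain ⟨c2, h2, -⟩ := d.two hv hu'
    obtain ⟨c3, h3⟩ := d.three hv hu hu' p0
    have e := f.cramer hv.v0
    have e1 : (v * w).re = ι c3 := by
      rw [ew, mul_sub, mul_sc, re_sub, ← h3, re_smul, hv.v0, smul_zero, sub_zero]
    have e2 : (v * (u * w)).re = ι (-n * c2 - p * c1) := by
      rw [uw, mul_sub, mul_smul_comm, mul_smul_comm, re_sub, re_smul, re_smul, ← h1, ← h2]
      simp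
    rw [e1, e2, ← h1, hu.nv, nw] at e
    refine ⟨(n * (n ^ 2 - p ^ 2))⁻¹ • ((-(n ^ 2 - p ^ 2) * c1) • u0 + (-n * c3) • w0 +
      (-(-n * c2 - p * c1)) • (u0 * w0)), ?_⟩
    have e3 : v = ι (n * (n ^ 2 - p ^ 2))⁻¹ • ((ι n * ι (n ^ 2 - p ^ 2)) • v) := by
      rw [smul_smul, ← map_mul, ← map_mul, inv_mul_cancel₀ (mul_ne_zero nn m0), map_one, one_smul]
    have e4 : z * (jq ι u0 * jq ι w0) = u * w * z := by
      rw [← mul_assoc, z1, mul_assoc, z2, mul_assoc]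
    rw [e3, e]
    simp only [qmap_smul, map_add, map_mul, map_neg, mul_add, add_mul, mul_smul_comm,
      smul_mul_assoc, z1, z2, e4]
  refine ⟨z, fun h hh => ?_⟩
  obtain ⟨q1, r1⟩ := rat _ (hu.conj hh)
  obtain ⟨q2, r2⟩ := rat _ (hu'.conj hh)
  have inv : ∀ {p q : ℍ[R,ι a,ι b]}, z * p = q * z → p = (↑z⁻¹ : ℍ[R,ι a,ι b]) * q * z := by
    intro p q e
    rw [mul_assoc, ← e, Units.inv_mul_cancel_left]
  set k := z⁻¹ * h * z with hk
  have e1 : jq ι q1 = (k : ℍ[R,ι a,ι b]) * jq ι u0 * (↑k⁻¹ : ℍ[R,ι a,ι b]) := by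
    rw [inv r1, inv z1, hk]
    simp only [mul_inv_rev, inv_inv, Units.val_mul, mul_assoc, Units.mul_inv_cancel_left]
  have e2 : jq ι (q1 * q2 - sc p) = (k : ℍ[R,ι a,ι b]) * jq ι w0 * (↑k⁻¹ : ℍ[R,ι a,ι b]) := by
    rw [map_sub, map_mul, qmap_algebraMap, inv r1, inv r2, inv z2, hk, ew, ← hp]
    simp only [mul_inv_rev, inv_inv, Units.val_mul, mul_assoc, Units.mul_inv_cancel_left,
      Units.inv_mul_cancel_left, mul_sub, sub_mul, sc_mul, mul_smul_comm, Units.inv_mul,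
      smul_mul_assoc, one_mul]
    rw [Algebra.algebraMap_eq_smul_one]
  generalize q1 * q2 - sc p = q3 at e2
  have f5 := f4.conj k
  rw [← e1, ← e2] at f5
  have m1 : nrd u0 = nrd q1 := ι.injective (by
    rw [← nrd_qmap ι rfl rfl, ← nrd_qmap ι rfl rfl, e1, nrd_conj])
  have m2 : nrd w0 = nrd q3 := ι.injective (by
    rw [← nrd_qmap ι rfl rfl, ← nrd_qmap ι rfl rfl, e2, nrd_conj])
  have f6 : Fr q1 q3 := ⟨ι.injective (f5.u0.trans (map_zero ι).symm),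
    ι.injective (f5.w0.trans (map_zero ι).symm), ι.injective (by
      rw [map_zero, ← f5.o, ← map_mul, qmap_re]), m1 ▸ f3.un, m2 ▸ f3.wn⟩
  obtain ⟨δ, d1, d2⟩ := sn (spl_field F) (IsUnit.mk0 _ two_ne_zero) f3 f6 m1 m2
  have com : ∀ {s t : ℍ[F,a,b]}, δ * s = t * δ →
      jq ι t = (k : ℍ[R,ι a,ι b]) * jq ι s * (↑k⁻¹ : ℍ[R,ι a,ι b]) →
      jq ι (↑δ⁻¹ : ℍ[F,a,b]) * k * jq ι s = jq ι s * (jq ι (↑δ⁻¹ : ℍ[F,a,b]) * k) := by
    intro s t c1 c2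
    have c3 : s * (↑δ⁻¹ : ℍ[F,a,b]) = (↑δ⁻¹ : ℍ[F,a,b]) * t := by
      rw [eq_conj c1]
      simp only [mul_assoc, Units.inv_mul_cancel_left]
    rw [← mul_assoc, ← map_mul, c3, map_mul, c2]
    simp only [mul_assoc, Units.inv_mul, mul_one]
  have c := f4.central h2 (com d1 e1) (com d2 e2)
  refine ⟨δ, (jq ι (↑δ⁻¹ : ℍ[F,a,b]) * k).re, ?_⟩
  rw [← mul_smul_comm, ← mul_sc, ← c, ← mul_assoc (jq ι _), ← map_mul, Units.mul_inv, map_one,
    one_mul, hk]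
  simp only [Units.val_mul, mul_assoc, Units.mul_inv_cancel_left]

end Vale.Agent.P022K.Sh.Tr
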