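import Vale.Agent.P022K.F0.OrbM

/-!
# P022K, block F0, row TRD: the local part
-/

set_option autoImplicit false

open scoped MatrixGroups WithZero Quaternion
open WithZero

noncomputable section

namespace Vale.Agent.P022K.Sh.Orb

variable {K : Type} [Field K] {v : Valuation K ℤᵐ⁰} {a b : K}

theorem exp_lt {r : ℕ} (r0 : 0 < r) : exp (-(r : ℤ)) < 1 := by
  rw [← exp_zero, exp_lt_exp]; omega

theorem Sm.int {r : ℕ} {x : ℍ[K,a,b]} (hc : Sm v r (x - 1)) : Sm v 0 x := by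
  simpa using (hc.mono (n := 0) (by omega)).add Sm.one

theorem nq_sub (h : QI v a b) {r : ℕ} {x : ℍ[K,a,b]} (hc : Sm v r (x - 1)) :
    v (nq x - 1) ≤ exp (-(r : ℤ)) := by
  have h2 : Sm v r (x * star x - 1) := by
    rw [show x * star x - 1 = (x - 1) * star x + star (x - 1) by
      rw [star_sub, star_one]; noncomm_ring]
    exact (by simpa using hc.mul h.ha h.hb hc.int.star : Sm v r ((x - 1) * star x)).add hc.star
  have := h2.re
  rw [mul_star] at this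
  simpa using this

theorem v_of_sub {r : ℕ} (r0 : 0 < r) {x : K} (h : v (x - 1) ≤ exp (-(r : ℤ))) : v x = 1 := by
  simpa using v.map_one_add_of_lt (h.trans_lt (exp_lt r0))

theorem CgL.sm (h : QI v a b) {n : K} {m : ℕ} (hn : v n ≤ exp (-(m : ℤ)) * v (2 * a))
    {u : ℍ[K,a,b]ˣ} (hu : u ∈ TQ a b) (c : CgL v n u) : Sm v m (u.val - 1) := by
  have p : 0 < v (2 * a) := zero_lt_iff.2 ((Valuation.ne_zero_iff _).2 (mul_ne_zero h.two h.a0))
  obtain ⟨c1, c2⟩ := c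
  have e1 : v (2 * a * (u.val - 1).re) ≤ v n := by
    rw [mul_right_comm, map_mul]
    exact mul_le_of_le_of_le_one c2 h.ha
  have e2 : v (2 * a * (u.val - 1).imI) ≤ v n := by
    refine le_of_pow_le_pow_left₀ two_ne_zero zero_le ?_
    rw [← map_pow, show (2 * a * (u.val - 1).imI) ^ 2 =
      a * ((2 * (u.val - 1).re) ^ 2 - 2 * 2 * nq (u.val - 1)) by simp [nq, hu.1, hu.2]; ring,
      map_mul]
    refine mul_le_of_le_one_of_le h.ha (v.map_sub_le ?_ ?_)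
    · rw [map_pow]
      exact pow_le_pow_left' c2 2
    · rw [map_mul]
      exact mul_le_of_le_one_of_le (v_mul_le v_two v_two) c1
  have k : ∀ z, v (2 * a * z) ≤ v n → v z ≤ exp (-(m : ℤ)) := fun z hz => by
    rw [← mul_le_mul_iff_right₀ p, ← map_mul, mul_comm (v _)]
    exact hz.trans hn
  exact ⟨k _ e1, k _ e2, by simp [hu.1], by simp [hu.2]⟩

variable (v) in
/-- the inverse of the transfer factor -/
def Wf (η : Kˣ →* ℂˣ) (q : ℕ) (t : K) : ℂ := apL η t * (q : ℂ) ^ (-od v t)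

section

variable {η : Kˣ →* ℂˣ} {q : ℕ} (q0 : q ≠ 0) (sq : ∀ x, η x ^ 2 = 1)

include q0

theorem Wf_mul {s t : K} (hs : s ≠ 0) (ht : t ≠ 0) :
    Wf v η q (s * t) = Wf v η q s * Wf v η q t := by
  rw [Wf, Wf, Wf, apL_mul, od_mul hs ht, neg_add, zpow_add₀ (Nat.cast_ne_zero.2 q0)]
  ring

theorem Wf_ne {t : K} (ht : t ≠ 0) : Wf v η q t ≠ 0 :=
  mul_ne_zero (by rw [apL_of η ht]; exact Units.ne_zero _)
    (zpow_ne_zero _ (Nat.cast_ne_zero.2 q0))

include sq in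
theorem Wf_inv {t : K} (ht : t ≠ 0) : Wf v η q t * (apL η t * (q : ℂ) ^ od v t) = 1 := by
  rw [Wf, mul_mul_mul_comm, apL_sq sq ht, ← zpow_add₀ (Nat.cast_ne_zero.2 q0), neg_add_cancel,
    zpow_zero, one_mul]

omit q0 in
theorem Wf_unit {t : K} (ht : v t = 1) : Wf v η q t = apL η t := by
  rw [Wf, od_one ht, neg_zero, zpow_zero, mul_one]

include sq in
/-- **deep test functions**, local form -/
theorem deep (h : QI v a b) {ϖ : Kˣ} (hϖ : v ϖ = exp (-1)) (hq : Cnt v q) {r : ℕ} (r0 : 0 < r)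
    (lev : ∀ x : K, v (x - 1) ≤ exp (-(r : ℤ)) → apL η x = 1) (ηb : apL η b = 1) (M : ℕ) :
    ∃ (m : ℕ) (f φ : ℍ[K,a,b]ˣ → ℂ) (T1 : Subgroup ℍ[K,a,b]ˣ) (W : ℂ) (κ : ℍ[K,a,b]ˣ → ℕ) (x : K),
      M ≤ m ∧ W ≠ 0 ∧ f 1 = 0 ∧ v x < 1 ∧
      (∀ n : K, v n ≤ exp (-(m : ℤ)) * v (2 * a) → TrL h q n η (UQ h m) f φ T1) ∧
      (∀ γ (e : ℂ), (∀ c : Kˣ, Sm v r ((c : K) • γ.val - 1) → e = Wf v η q c) →
        φ γ * e = κ γ * W) ∧
      ∀ γ : ℍ[K,a,b]ˣ, (Sm v m (γ.val - ⟨1, x, 0, 0⟩) ∨ Sm v m (γ.val - ⟨1, -x, 0, 0⟩)) →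
        0 < κ γ := by
  classical
  obtain ⟨x, hx⟩ : ∃ x : K, v x = exp (-(r : ℤ)) :=
    ⟨ϖ ^ r, by rw [map_pow, hϖ, ← exp_nsmul]; simp⟩
  have x0 : x ≠ 0 := fun e => exp_ne_zero (by rw [← hx, e, map_zero])
  have s0 : Sm v r ((⟨1, x, 0, 0⟩ : ℍ[K,a,b]) - 1) := ⟨by simp, by simp [hx], by simp, by simp⟩
  have n0 := v_of_sub r0 (nq_sub h s0)
  obtain ⟨γ0, e0⟩ : ∃ γ0 : ℍ[K,a,b]ˣ, γ0.val = ⟨1, x, 0, 0⟩ :=
    ⟨mkU _ fun e => zero_ne_one (by rw [← n0, e, map_zero]), rfl⟩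
  have hu : Un v γ0 := un_of (e0 ▸ s0.int) (e0 ▸ n0)
  obtain ⟨m0, -, hm⟩ := orb_deep h hϖ hq (γ0 := γ0) ⟨by rw [e0], by rw [e0]⟩ hu
    (by rw [e0]; exact one_ne_zero) (by rw [e0]; exact x0) r0
  obtain ⟨m, m1, m2, m3⟩ : ∃ m, m0 ≤ m ∧ M ≤ m ∧ 2 * r ≤ m := ⟨m0 + M + 2 * r, by omega⟩
  obtain ⟨h1, h2⟩ := hm m m1
  have ηU : ∀ g ∈ UQ h r, apL η (nq g.val) = 1 := fun g ⟨c, hc⟩ => by
    have := lev _ (nq_sub h hc)
    rwa [nq_smul, pow_two, apL_mul, apL_mul, apL_sq sq c.ne_zero, one_mul] at this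
  let P : ℍ[K,a,b]ˣ → Prop := fun g => γ0⁻¹ * g ∈ UQ h m
  have hP : ∀ g, P g ↔ ∃ c : Kˣ, Sm v m ((c : K) • g.val - ⟨1, x, 0, 0⟩) := fun g =>
    e0 ▸ hu.mem_iff h g
  have P1 : ∀ {g : ℍ[K,a,b]} {c : K}, Sm v m (c • g - ⟨1, x, 0, 0⟩) → Sm v r (c • g - 1) :=
    fun hc => by simpa using (hc.mono (n := r) (by omega)).add s0
  have PW : ∀ {g : ℍ[K,a,b]} {c : Kˣ}, Sm v m ((c : K) • g - ⟨1, x, 0, 0⟩) →
      Wf v η q g.imI * Wf v η q c = Wf v η q x := fun {g c} hc => by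
    have e1 : v (c * g.imI / x - 1) ≤ exp (-(r : ℤ)) := by
      rw [div_sub_one x0, map_div₀, hx, div_le_iff₀ exp_pos, ← exp_add]
      exact le_trans hc.i (exp_le_exp.2 (by omega))
    have e2 := v_of_sub r0 e1
    have e3 : c * g.imI / x ≠ 0 := fun e => zero_ne_one (by rw [← e2, e, map_zero])
    have e4 := Wf_mul (v := v) (η := η) q0 e3 x0
    rwa [div_mul_cancel₀ _ x0, Wf_unit e2, lev _ e1, one_mul, Wf_mul q0 c.ne_zero
      (right_ne_zero_of_mul (div_ne_zero_iff.1 e3).1), mul_comm] at e4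
  have Pl : ∀ u ∈ UQ h m, ∀ g, P (u * g) ↔ P g := fun u hu' g => by
    have := (UQ h m).mul_mem_cancel_left (hu.conj h hu') (y := γ0⁻¹ * g)
    simpa only [P, mul_assoc, mul_inv_cancel_left] using this
  obtain ⟨k0, k1, h3⟩ := h2 (etaQ a b η) ηU (fun g => if P g then 1 else 0)
    (fun g hg => if_pos hg) fun g hg => if_neg hg
  let ψ : ℍ[K,a,b]ˣ → ℂ := fun g => if P g then Wf v η q g.val.imI else 0
  have ψu : ∀ u : ℍ[K,a,b]ˣ, Sm v m (u.val - 1) → ∀ g, ψ (u * g) = ψ g := fun u hu' g => by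
    simp only [ψ, Pl u ⟨1, by simpa using hu'⟩]
    split_ifs with p
    · obtain ⟨c, hc⟩ := (hP g).1 p
      refine mul_right_cancel₀ (Wf_ne (v := v) (η := η) q0 c.ne_zero) ((PW ?_).trans (PW hc).symm)
      have := (hu'.mul h.ha h.hb (P1 hc).int).add (hc.mono (n := m + 0) (by omega))
      rwa [add_zero, sub_mul, one_mul, sub_add_sub_cancel, mul_smul_comm] at this
    · rfl
  have ψc : ∀ c : Kˣ, v c = 1 → ∀ g, ψ (cs c * g) * apL η c = ψ g := fun c hc g => by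
    simp only [ψ, Pl _ (cs_mem h c)]
    split_ifs with p
    · by_cases t0 : g.val.imI = 0
      · simp [t0, Wf, apL_zero]
      · rw [cs_mul_val, show ((c : K) • g.val).imI = c * g.val.imI from rfl,
          Wf_mul q0 c.ne_zero t0, Wf_unit hc, mul_right_comm, apL_sq sq c.ne_zero, one_mul]
    · exact zero_mul _
  have ψe : ∀ (g : ℍ[K,a,b]ˣ) (e : ℂ), (∀ c : Kˣ, Sm v r ((c : K) • g.val - 1) → e = Wf v η q c) →
      ψ g * e = (if P g then 1 else 0 : ℕ) * Wf v η q x := fun g e he => by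
    simp only [ψ]
    split_ifs with p
    · obtain ⟨c, hc⟩ := (hP g).1 p
      rw [he c (P1 hc), PW hc, Nat.cast_one, one_mul]
    · simp
  refine ⟨m, fun g => if P g then 1 else 0, fun g => k0 * (ψ g + ψ (star g)), TQ a b ⊓ UQ h r,
    Wf v η q x, fun g => k0 * ((if P g then 1 else 0) + if P (star g) then 1 else 0), x, m2,
    Wf_ne q0 x0, if_neg fun p => h1 1 p (by simpa using p), hx ▸ exp_lt r0, fun n hn =>
    ⟨⟨m, by omega, le_rfl⟩, bd_UQ h (by omega), fun u hu => ηU u (UQ_mono h (by omega) hu),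
      fun u hu g => by simp only [Pl u hu], fun g u hu => ?_, (bd_UQ h r0).mono fun g hg => ?_,
      inf_le_left, inf_le_inf_left _ (UQ_mono h (by omega)), (bd_UQ h r0).mono fun g hg => hg.2,
      fun g hg => ?_, fun γ hγ _ t0 χ hχ => ?_, fun γ hγ u hu _ c => ?_, fun γ _ c hc _ => ?_⟩,
    fun γ e he => ?_, fun γ hγ => Nat.mul_pos k1 ?_⟩
  · simp only [P, ← mul_assoc, (UQ h m).mul_mem_cancel_right hu]
  · obtain ⟨c, hc⟩ := (hP g).1 (by simpa using hg)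
    exact ⟨c, P1 hc⟩
  · obtain ⟨c, hc⟩ := (hP g).1 (by simpa using hg)
    refine ⟨c, ?_⟩
    rw [UnL, cs_mul_val]
    exact ⟨v_of_sub r0 (nq_sub h (P1 hc)), v_mul_le v_two (P1 hc).int.re⟩
  · convert h3 γ hγ χ hχ using 1
    have e1 : etaQ a b η (jQ a h.b0) = apL η (-1) := by
      rw [← mul_one (apL η (-1)), ← ηb, ← apL_mul]
      exact congrArg (apL η) (by simp [jQ_val, nq])
    have e2 : Wf v η q (star γ).val.imI = apL η (-1) * Wf v η q γ.val.imI := by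
      rw [← Wf_unit (v := v) (q := q) (by simp), ← Wf_mul q0 (by simp) t0]
      simp
    have e3 := Wf_inv (v := v) q0 sq t0
    rw [bar_eq h.b0 hγ, e1, mul_assoc, add_mul]
    simp only [ψ, e2]
    split_ifs <;> simp [mul_assoc, e3]
  · have s := c.sm h hn hu
    rw [ψu u s, star_mul, TQ_comm (star γ) (bar_eq h.b0 hγ ▸ (jQ_tor h.b0 γ).1 hγ) (star u)
      (bar_eq h.b0 hu ▸ (jQ_tor h.b0 u).1 hu), ψu (star u) (by simpa using s.star)]
  · have e1 : star (cs c * γ) = cs c * star γ := by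
      ext1
      rw [cs_mul_val, Units.coe_star, cs_mul_val, Units.coe_star]
      ext <;> simp
    rw [e1, mul_assoc, add_mul, ψc c hc, ψc c hc]
  · beta_reduce
    rw [mul_assoc, add_mul, ψe γ e he, ψe (star γ) e fun c hc => he c (by simpa using hc.star)]
    push_cast
    ring
  · rcases hγ with s | s
    · rw [if_pos ((hP γ).2 ⟨1, by simpa using s⟩)]
      omega
    · rw [if_pos ((hP (star γ)).2 ⟨1, ?_⟩)]
      · omega
      · have := s.star
        exact ⟨by simpa using this.re, by simpa using this.i, by simpa using this.j,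
          by simpa using this.k⟩

end

end Vale.Agent.P022K.Sh.Orb
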