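import Mathlib
import Vale.Agent.P025.R2.H816.J03

/-!
# P022K, block F0, row UNIF: projective structures on function fields (definitions and rows)

`Ω` is an ambient field over `ℂ`, `K ≤ L` are subfields, `R s` is the Schwarzian invariant of `s`.
A realisation `E` attaches to `f : Ω` a function `E f : ℂ → ℂ`; only germs in punctured
neighbourhoods matter.
-/

set_option autoImplicit false

open Filter Topology Metric Polynomial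
open scoped MatrixGroups

noncomputable section

namespace Vale.Agent.P022K.Sh.Un

open Vale.Agent.P019P

/-- the Schwarzian derivative -/
def Sf (F : ℂ → ℂ) : ℂ → ℂ := fun z =>
  deriv (deriv (deriv F)) z / deriv F z - 3 / 2 * (deriv (deriv F) z / deriv F z) ^ 2

/-- the denominator of a Moebius map -/
def den (M : GL (Fin 2) ℂ) (z : ℂ) : ℂ := M 1 0 * z + M 1 1

/-- the Moebius map -/
def mob (M : GL (Fin 2) ℂ) (z : ℂ) : ℂ := (M 0 0 * z + M 0 1) / den M z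

/-- the upper half plane -/
def Hs : Set ℂ := {z | 0 < z.im}

/-- the germ of `F0` at `z` extends to `W` -/
def Ext (W : Set ℂ) (z : ℂ) (F0 : ℂ → ℂ) : Prop := ∃ F, MeromorphicOn F W ∧ F =ᶠ[𝓝[≠] z] F0

section

variable {Ω : Type} [Field Ω] [Algebra ℂ Ω] (σ : ℂ ≃+* ℂ) (R : Ω → Ω)

/-- a local realisation of `K` at `z` -/
structure LR (K : IntermediateField ℂ Ω) (z : ℂ) (E : Ω → ℂ → ℂ) : Prop where
  mero : ∀ f ∈ K, MeromorphicAt (E f) z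
  add : ∀ f ∈ K, ∀ g ∈ K, E (f + g) =ᶠ[𝓝[≠] z] E f + E g
  mul : ∀ f ∈ K, ∀ g ∈ K, E (f * g) =ᶠ[𝓝[≠] z] E f * E g
  cst : ∀ c, E (algebraMap ℂ Ω c) =ᶠ[𝓝[≠] z] fun _ => σ c
  mem : ∀ s ∈ K, R s ∈ K
  sw : ∀ s ∈ K, Sf (E s) =ᶠ[𝓝[≠] z] E (R s) * deriv (E s) ^ 2

/-- a realisation of `K` on `W` -/
def Rl (K : IntermediateField ℂ Ω) (W : Set ℂ) (E : Ω → ℂ → ℂ) : Prop := ∀ z ∈ W, LR σ R K z E

/-- the point `z` lies over the place `y`, without ramification -/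
def Pl (K : IntermediateField ℂ Ω) [CFF ℂ K] (z : ℂ) (E : Ω → ℂ → ℂ) (y : Plk ℂ K) : Prop :=
  ∀ f : K, f ≠ 0 → meromorphicOrderAt (E f) z = ((ord y f : ℤ) : WithTop ℤ)

/-- the realisation on `D` is maximal -/
def Mx (L : IntermediateField ℂ Ω) (D : Set ℂ) (E : Ω → ℂ → ℂ) : Prop :=
  ∀ W, IsOpen W → IsPreconnected W → ∀ M, ∀ w ∈ W, den M w ≠ 0 → mob M w ∈ D →
    (∀ f ∈ L, Ext W w (E f ∘ mob M)) → ∀ w' ∈ W, den M w' ≠ 0 ∧ mob M w' ∈ D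

/-- `a (d s) ^ k` is a regular differential -/
def Fo (K : IntermediateField ℂ Ω) (k : ℕ) (a s : Ω) : Prop :=
  ∀ z E, LR σ R K z E → 0 ≤ meromorphicOrderAt (E a * deriv (E s) ^ k) z

/-- charts at all places; normality -/
structure Lv0 (K L : IntermediateField ℂ Ω) [CFF ℂ K] : Prop where
  le : K ≤ L
  mem : ∀ s ∈ K, R s ∈ K
  ch : ∀ y : Plk ℂ K, ∃ E, LR σ R L 0 E ∧ Pl K 0 E y
  nm : ∀ f ∈ L, ∃ (P : K[X]) (s : Multiset Ω), (∀ a ∈ s, a ∈ L) ∧ f ∈ s ∧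
    P.map (algebraMap K Ω) = (s.map fun a => X - C a).prod

/-- a level of the tower: functions are quotients of regular differentials -/
structure Lv (K L : IntermediateField ℂ Ω) [CFF ℂ K] : Prop extends Lv0 σ R K L where
  rat : ∃ s ∈ K, (∀ c, s ≠ algebraMap ℂ Ω c) ∧ ∀ f ∈ K, ∃ k, 0 < k ∧ ∃ a ∈ K, ∃ b ∈ K, b ≠ 0 ∧
    f * b = a ∧ Fo σ R K k a s ∧ Fo σ R K k b s

/-- the rotation by `l` normalises the realisation -/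
def Rot (L : IntermediateField ℂ Ω) (E : Ω → ℂ → ℂ) (l : ℂ) : Prop :=
  ∀ f ∈ L, ∃ f' ∈ L, E f' =ᶠ[𝓝[≠] 0] fun z => E f (l * z)

end

/-- a row about all fields -/
def AF (P : ∀ {Ω : Type} [Field Ω] [Algebra ℂ Ω], (ℂ ≃+* ℂ) → (Ω → Ω) → Prop) : Prop :=
  ∀ (Ω : Type) [Field Ω] [Algebra ℂ Ω] (σ : ℂ ≃+* ℂ) (R : Ω → Ω), P σ R

/-- a row about all levels -/
def AL (P : ∀ {Ω : Type} [Field Ω] [Algebra ℂ Ω], (ℂ ≃+* ℂ) → (Ω → Ω) →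
    ∀ (K _ : IntermediateField ℂ Ω) [CFF ℂ K], Prop) : Prop :=
  ∀ (Ω : Type) [Field Ω] [Algebra ℂ Ω] (σ : ℂ ≃+* ℂ) (R : Ω → Ω) (K L : IntermediateField ℂ Ω)
    [CFF ℂ K], Lv0 σ R K L → P σ R K L

/-! ## rows without fields -/

/-- **MAJ**: majorants -/
def MAJ : Prop := ∀ (ι : Type) [Fintype ι] (V : ι → PowerSeries ℂ) (P : ι → MvPolynomial ι ℂ),
  (∀ i n, ‖PowerSeries.coeff (n + 1) (V i)‖ ≤
    ‖PowerSeries.coeff n (MvPolynomial.aeval V (P i))‖) →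
  ∃ C : ℝ, ∀ i n, ‖PowerSeries.coeff n (V i)‖ ≤ C ^ (n + 1)

/-- **CH0**: convergence of formal solutions -/
def CH0 : Prop := ∀ T a ρ : PowerSeries ℂ, T.order = 1 →
  (∃ P : ℂ[X][X], P ≠ 0 ∧ P.eval₂ (aeval T : ℂ[X] →ₐ[ℂ] PowerSeries ℂ) a = 0) →
  (∃ P : ℂ[X][X], P ≠ 0 ∧ P.eval₂ (aeval T : ℂ[X] →ₐ[ℂ] PowerSeries ℂ) ρ = 0) →
  2 * PowerSeries.derivative ℂ T * (PowerSeries.derivative ℂ)^[3] T -
    3 * (PowerSeries.derivative ℂ)^[2] T ^ 2 = 2 * ρ * PowerSeries.derivative ℂ T ^ 4 →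
  ∃ C : ℝ, ∀ n, ‖PowerSeries.coeff n a‖ ≤ C ^ (n + 1)

/-- **EXT**: extension over a circle, with a radius that depends on the discs only -/
def EXT : Prop := ∀ (z : ℂ) (r : ℝ) (ε : ℂ → ℝ), 0 < r → (∀ ζ ∈ sphere z r, 0 < ε ζ) →
  ∃ r', r < r' ∧ ∀ F, MeromorphicOn F (ball z r) →
    (∀ ζ ∈ sphere z r, ∃ w ∈ ball ζ (ε ζ) ∩ ball z r, Ext (ball ζ (ε ζ)) w F) →
    Ext (ball z r') z F

/-- **SUP**: increasing unions of discs -/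
def SUP : Prop := ∀ (z : ℂ) (F : ℂ → ℂ),
  (∀ r, 0 < r → (∀ ρ, 0 < ρ → ρ < r → Ext (ball z ρ) z F) → Ext (ball z r) z F) ∧
  ((∀ ρ, 0 < ρ → Ext (ball z ρ) z F) → Ext Set.univ z F)

/-- **AUT**: automorphisms of the upper half plane -/
def AUT : Prop := ∀ M : GL (Fin 2) ℂ, (∀ z ∈ Hs, den M z ≠ 0 ∧ mob M z ∈ Hs) →
  (∀ z ∈ Hs, den M⁻¹ z ≠ 0 ∧ mob M⁻¹ z ∈ Hs) →
  ∃ h : GL (Fin 2) ℝ, 0 < h.det.val ∧ ∀ τ : UpperHalfPlane, ((h • τ : UpperHalfPlane) : ℂ) = mob M τ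

/-! ## rows about fields -/

/-- **LRM**: Moebius invariance -/
def LRM : Prop := AF fun σ R => ∀ K M z E, den M z ≠ 0 → LR σ R K (mob M z) E →
  LR σ R K z fun f => E f ∘ mob M

/-- **MOB**: two realisations with the same valuation ring differ by a Moebius map -/
def MOB : Prop := AF fun σ R => ∀ K z₁ E₁ z₂ E₂, LR σ R K z₁ E₁ → LR σ R K z₂ E₂ →
  (∀ f ∈ K, 0 ≤ meromorphicOrderAt (E₁ f) z₁ ↔ 0 ≤ meromorphicOrderAt (E₂ f) z₂) →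
  (∃ p ∈ K, meromorphicOrderAt (E₂ p) z₂ = 1) →
  ∃ M, den M z₁ ≠ 0 ∧ mob M z₁ = z₂ ∧ ∀ f ∈ K, E₁ f =ᶠ[𝓝[≠] z₁] E₂ f ∘ mob M

/-- **SIG**: conjugation of the coefficients -/
def SIG : Prop := AF fun σ R => ∀ L E, LR (RingEquiv.refl ℂ) R L 0 E →
  (∃ t ∈ L, meromorphicOrderAt (E t) 0 = 1 ∧
    ∀ f ∈ L, ∃ P : ℂ[X][X], P ≠ 0 ∧ P.eval₂ (aeval t).toRingHom f = 0) →
  ∃ E', LR σ R L 0 E' ∧ (∀ f ∈ L, meromorphicOrderAt (E' f) 0 = meromorphicOrderAt (E f) 0) ∧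
    (∀ a ∈ L, ∀ s ∈ L, ∀ k : ℕ, meromorphicOrderAt (E' a * deriv (E' s) ^ k) 0 =
      meromorphicOrderAt (E a * deriv (E s) ^ k) 0) ∧
    ∀ l : ℂ, l ≠ 0 → ∀ f ∈ L, ∀ f' ∈ L, (E f' =ᶠ[𝓝[≠] 0] fun z => E f (l * z)) →
      E' f' =ᶠ[𝓝[≠] 0] fun z => E' f (σ l * z)

/-- **NAT**: the natural boundary -/
def NAT : Prop := AF fun σ R => ∀ L E (r : ℝ) (l : ℂ), 0 < r → Rl σ R L (ball 0 r) E → ‖l‖ = 1 →
  (∀ n : ℕ, 0 < n → l ^ n ≠ 1) → Rot L E l →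
  (¬ ∃ r', r < r' ∧ ∀ f ∈ L, Ext (ball 0 r') 0 (E f)) → Mx L (ball 0 r) E

/-- **TRP**: transport from the disc to the upper half plane -/
def TRP : Prop := AF fun σ R => ∀ L E (r : ℝ), 0 < r → Rl σ R L (ball 0 r) E →
  Mx L (ball 0 r) E → ∃ E', Rl σ R L Hs E' ∧ Mx L Hs E'

/-! ## rows about levels -/

/-- **PLC**: the place of a local realisation -/
def PLC : Prop := AL fun σ R K _ _ => ∀ z E, LR σ R K z E → ∃ y, Pl K z E y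

/-- **FOC**: regularity of differentials is checked in charts -/
def FOC : Prop := AL fun σ R K _ _ => ∀ (k : ℕ), ∀ a ∈ K, ∀ s ∈ K,
  (∀ y, ∃ E, LR σ R K 0 E ∧ Pl K 0 E y ∧ 0 ≤ meromorphicOrderAt (E a * deriv (E s) ^ k) 0) →
  Fo σ R K k a s

/-- **ROOT**: two realisations that agree on `K` have the same image -/
def ROOT : Prop := AL fun σ R K L _ => ∀ z E₁ E₂, LR σ R L z E₁ → LR σ R L z E₂ →
  (∀ f ∈ K, E₁ f =ᶠ[𝓝[≠] z] E₂ f) → ∀ f ∈ L, ∃ f' ∈ L, E₁ f =ᶠ[𝓝[≠] z] E₂ f'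

/-- **UNR**: the tower is unramified over discs -/
def UNR : Prop := AL fun σ R K L _ => ∀ z E (r : ℝ), 0 < r → LR σ R L z E →
  (∀ f ∈ K, Ext (ball z r) z (E f)) → ∀ f ∈ L, Ext (ball z r) z (E f)

/-- **BALL**: a local realisation lives on a disc -/
def BALL : Prop := AL fun σ R _ L _ => ∀ z E, LR σ R L z E →
  ∃ r : ℝ, 0 < r ∧ ∀ f ∈ L, Ext (ball z r) z (E f)

/-- **KEY**: points over the same place -/
def KEY : Prop := AL fun σ R K L _ => ∀ D E W E₁, IsOpen D → Rl σ R L D E → Mx L D E →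
  IsOpen W → IsPreconnected W → Rl σ R L W E₁ → ∀ w ∈ W, ∀ z ∈ D, ∀ y, Pl K w E₁ y → Pl K z E y →
  ∃ M, mob M w = z ∧ ∀ w' ∈ W, den M w' ≠ 0 ∧ mob M w' ∈ D ∧
    ∀ f ∈ K, E₁ f =ᶠ[𝓝[≠] w'] E f ∘ mob M

/-- **CPT**: compactness of the conjugate curve -/
def CPT : Prop := AL fun σ R K _ _ => ∀ (E : Plk ℂ K → _ → ℂ → ℂ) (ε : Plk ℂ K → ℝ),
  (∀ y, 0 < ε y ∧ Rl σ R K (ball 0 (ε y)) (E y) ∧ Pl K 0 (E y) y) →
  ∃ S : Finset (Plk ℂ K), ∀ y', ∃ y ∈ S, ∃ ζ ∈ ball 0 (ε y), Pl K ζ (E y) y'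

/-- **GLOB**: a maximal realisation is cocompact -/
def GLOB : Prop := AL fun σ R K L _ => ∀ D E, IsOpen D → Rl σ R L D E → Mx L D E →
  ∃ C ⊆ D, IsCompact C ∧ ∀ z ∈ D, ∀ y, Pl K z E y → ∃ z' ∈ C, Pl K z' E y

/-- **INJ**: local injectivity -/
def INJ : Prop := AL fun σ R K _ _ => ∀ D E, IsOpen D → Rl σ R K D E → ∀ z ∈ D,
  ∃ V ∈ 𝓝 z, ∀ z₁ ∈ V, ∀ z₂ ∈ V, ∀ y, Pl K z₁ E y → Pl K z₂ E y → z₁ = z₂

/-- **MXU**: a realisation on the plane is maximal -/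
def MXU : Prop := AL fun σ R K L _ => Lv σ R K L → ∀ E, Rl σ R L Set.univ E → Mx L Set.univ E

/-- **INF**: there is no realisation on the plane -/
def INF : Prop := AL fun σ R K L _ => Lv σ R K L → ∀ E, ¬ Rl σ R L Set.univ E

/-- **UNI**: uniformisation -/
def UNI : Prop := AL fun σ R K L _ => Lv σ R K L → ∀ E (l : ℂ), LR σ R L 0 E → ‖l‖ = 1 →
  (∀ n : ℕ, 0 < n → l ^ n ≠ 1) → Rot L E l → ∃ E', Rl σ R L Hs E' ∧ Mx L Hs E'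

end Vale.Agent.P022K.Sh.Un
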