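import Vale.Agent.P022K.F0.Maj
import Mathlib.Algebra.Polynomial.Taylor
import Mathlib.Algebra.Polynomial.Inductions
import Mathlib.RingTheory.PowerSeries.Inverse
import Mathlib.RingTheory.PowerSeries.Order
import Mathlib.RingTheory.Adjoin.Basic

/-!
# P022K, block F0: formal solutions of an algebraic Schwarzian equation converge
-/

set_option autoImplicit false

open Polynomial
open scoped PowerSeries

noncomputable section

namespace Vale.Agent.P022K.Sh.Un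

/-- geometric growth of the coefficients -/
def Cv (a : ℂ⟦X⟧) : Prop := ∃ c : ℝ, 0 < c ∧ ∀ n, ‖PowerSeries.coeff n a‖ ≤ c ^ (n + 1)

/-- a finitely generated algebra that is stable under the derivative consists of convergent
series -/
theorem cv_of_closed (t : Set ℂ⟦X⟧) (ht : t.Finite) (h : ∀ x ∈ t, d⁄dX ℂ x ∈ Algebra.adjoin ℂ t)
    {a : ℂ⟦X⟧} (ha : a ∈ Algebra.adjoin ℂ t) : Cv a := by
  have st : ∀ x ∈ Algebra.adjoin ℂ t, d⁄dX ℂ x ∈ Algebra.adjoin ℂ t := fun x hx => by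
    induction hx using Algebra.adjoin_induction with
    | mem x hx => exact h x hx
    | algebraMap c => rw [Derivation.map_algebraMap]; exact zero_mem _
    | add x y _ _ hx hy => rw [map_add]; exact add_mem hx hy
    | mul x y hx hy hx' hy' =>
      rw [Derivation.leibniz, smul_eq_mul, smul_eq_mul]
      exact add_mem (mul_mem hx hy') (mul_mem hy hx')
  have := (ht.insert a).to_subtype
  have key : ∀ i : ↥(insert a t), ∃ P : MvPolynomial ↥(insert a t) ℂ,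
      MvPolynomial.aeval (fun j : ↥(insert a t) => (j : ℂ⟦X⟧)) P = d⁄dX ℂ i := fun i => by
    have h1 : d⁄dX ℂ i ∈ Algebra.adjoin ℂ (Set.range fun j : ↥(insert a t) => (j : ℂ⟦X⟧)) := by
      rw [Subtype.range_coe]
      refine Algebra.adjoin_mono (Set.subset_insert a t) (st _ ?_)
      rcases i.2 with e | e
      · rw [e]; exact ha
      · exact Algebra.subset_adjoin e
    rwa [Algebra.adjoin_range_eq_range_aeval] at h1
  choose P hP using key
  obtain ⟨c, c0, hc⟩ := maj_le (fun j : ↥(insert a t) => (j : ℂ⟦X⟧)) P fun i n => by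
    rw [hP, PowerSeries.coeff_derivative, norm_mul]
    refine le_mul_of_one_le_right (norm_nonneg _) ?_
    rw [← Nat.cast_succ, Complex.norm_natCast]
    exact_mod_cast n.succ_pos
  exact ⟨c, c0, fun n => hc ⟨a, Set.mem_insert _ _⟩ n⟩

variable {T : ℂ⟦X⟧}

theorem exists_X_eq (h0 : PowerSeries.constantCoeff T = 0) (h1 : PowerSeries.coeff 1 T ≠ 0) :
    ∃ u, PowerSeries.X = T * u := by
  obtain ⟨w, rfl⟩ := PowerSeries.X_dvd_iff.2 h0
  rw [PowerSeries.coeff_succ_X_mul, PowerSeries.coeff_zero_eq_constantCoeff] at h1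
  exact ⟨w⁻¹, by rw [mul_assoc, PowerSeries.mul_inv_cancel w h1, mul_one]⟩

theorem exists_appr (h0 : PowerSeries.constantCoeff T = 0) (h1 : PowerSeries.coeff 1 T ≠ 0)
    (a : ℂ⟦X⟧) (n : ℕ) : ∃ (p : ℂ[X]) (g : ℂ⟦X⟧), a = aeval T p + T ^ n * g := by
  obtain ⟨u, hu⟩ := exists_X_eq h0 h1
  induction n with
  | zero => exact ⟨0, a, by simp⟩
  | succ n ih =>
    obtain ⟨p, g, rfl⟩ := ih
    obtain ⟨w, hw⟩ := PowerSeries.X_dvd_iff.2 (show PowerSeries.constantCoeff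
      (g - PowerSeries.C (PowerSeries.constantCoeff g)) = 0 by simp)
    refine ⟨p + X ^ n * C (PowerSeries.constantCoeff g), u * w, ?_⟩
    rw [hu, sub_eq_iff_eq_add] at hw
    rw [map_add, map_mul, map_pow, aeval_X, aeval_C, ← PowerSeries.C_eq_algebraMap]
    linear_combination T ^ n * hw

theorem dvd_of_dvd_aeval (h0 : PowerSeries.constantCoeff T = 0) (hT : T ≠ 0) (n : ℕ) (q : ℂ[X])
    (h : T ^ n ∣ aeval T q) : X ^ n ∣ q := by
  induction n generalizing q with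
  | zero => simp
  | succ n ih =>
    have e := congrArg (aeval T) (divX_mul_X_add q)
    rw [map_add, map_mul, aeval_X, aeval_C, ← PowerSeries.C_eq_algebraMap] at e
    obtain ⟨w, hw⟩ := h
    have c0 : q.coeff 0 = 0 := by
      have := congrArg PowerSeries.constantCoeff (e.trans hw)
      simpa [h0] using this
    rw [c0, map_zero, add_zero, hw, pow_succ, mul_right_comm] at e
    have h2 := ih q.divX ⟨w, mul_right_cancel₀ hT e⟩
    rw [← divX_mul_X_add q, c0, map_zero, add_zero, pow_succ]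
    exact mul_dvd_mul_right h2 _

/-- evaluation of a polynomial in two variables -/
def ev (T a : ℂ⟦X⟧) : ℂ[X][X] →+* ℂ⟦X⟧ := eval₂RingHom (aeval T : ℂ[X] →ₐ[ℂ] ℂ⟦X⟧).toRingHom a

theorem ev_C (a : ℂ⟦X⟧) (q : ℂ[X]) : ev T a (C q) = aeval T q := eval₂_C _ _

theorem ev_X (a : ℂ⟦X⟧) : ev T a X = a := eval₂_X _ _

theorem ev_comp (a : ℂ⟦X⟧) (P Q : ℂ[X][X]) : ev T a (P.comp Q) = ev T (ev T a Q) P :=
  eval₂_comp _

theorem ev_sub_dvd (a b : ℂ⟦X⟧) (P : ℂ[X][X]) : a - b ∣ ev T a P - ev T b P := by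
  have := sub_dvd_eval_sub a b (P.map (aeval T : ℂ[X] →ₐ[ℂ] ℂ⟦X⟧).toRingHom)
  rwa [eval_map, eval_map] at this

theorem aeval_mem {B : Subalgebra ℂ ℂ⟦X⟧} (hT : T ∈ B) (q : ℂ[X]) : aeval T q ∈ B :=
  Algebra.adjoin_le (Set.singleton_subset_iff.2 hT) (aeval_mem_adjoin_singleton ℂ T)

theorem ev_mem {B : Subalgebra ℂ ℂ⟦X⟧} (hT : T ∈ B) {g : ℂ⟦X⟧} (hg : g ∈ B) (P : ℂ[X][X]) :
    ev T g P ∈ B := by
  induction P using Polynomial.induction_on' with
  | add p q hp hq => rw [map_add]; exact add_mem hp hq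
  | monomial n q =>
    rw [← C_mul_X_pow_eq_monomial, map_mul, map_pow, ev_C, ev_X]
    exact mul_mem (aeval_mem hT q) (pow_mem hg n)

theorem d_ev {B : Subalgebra ℂ ℂ⟦X⟧} (hT : T ∈ B) (hT' : d⁄dX ℂ T ∈ B) {g : ℂ⟦X⟧} (hg : g ∈ B)
    (P : ℂ[X][X]) : d⁄dX ℂ (ev T g P) - ev T g (derivative P) * d⁄dX ℂ g ∈ B := by
  induction P using Polynomial.induction_on' with
  | add p q hp hq =>
    convert add_mem hp hq using 1
    simp only [map_add]
    ring
  | monomial n q =>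
    have : d⁄dX ℂ (aeval T q) ∈ B := by
      rw [Derivation.map_aeval, smul_eq_mul]
      exact mul_mem (aeval_mem hT _) hT'
    convert mul_mem (pow_mem hg n) this using 1
    rw [← C_mul_X_pow_eq_monomial, derivative_C_mul, derivative_X_pow]
    simp only [map_mul, map_pow, ev_C, ev_X, Derivation.leibniz, Derivation.leibniz_pow,
      smul_eq_mul, map_natCast, nsmul_eq_mul]
    ring

/-- `a` is algebraic over `ℂ[T]` -/
def Alg (T a : ℂ⟦X⟧) : Prop := ∃ P : ℂ[X][X], P ≠ 0 ∧ ev T a P = 0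

theorem Alg.sep (h0 : PowerSeries.constantCoeff T = 0) (hT : T ≠ 0) {a : ℂ⟦X⟧} (ha : Alg T a) :
    ∃ P : ℂ[X][X], ev T a P = 0 ∧ ev T a (derivative P) ≠ 0 := by
  obtain ⟨P, hP, h⟩ := ha
  induction hn : P.natDegree using Nat.strong_induction_on generalizing P with
  | _ n ih =>
    by_cases hd : ev T a (derivative P) = 0
    · have h1 : P.natDegree ≠ 0 := fun e => by
        rw [eq_C_of_natDegree_eq_zero e, ev_C] at h
        have h2 : ∀ n, X ^ n ∣ P.coeff 0 := fun n => dvd_of_dvd_aeval h0 hT n _ (h ▸ dvd_zero _)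
        refine hP ?_
        rw [eq_C_of_natDegree_eq_zero e, eq_zero_of_dvd_of_natDegree_lt
          (h2 ((P.coeff 0).natDegree + 1)) (by simp), map_zero]
      exact ih _ (hn ▸ natDegree_derivative_lt h1) (derivative P)
        (fun e => h1 (derivative_eq_zero.1 e)) hd rfl
    · exact ⟨P, h, hd⟩

/-- an algebraic series lies in an étale algebra -/
theorem Alg.etale (h0 : PowerSeries.constantCoeff T = 0) (h1 : PowerSeries.coeff 1 T ≠ 0)
    {a : ℂ⟦X⟧} (ha : Alg T a) : ∃ (g v : ℂ⟦X⟧) (G : ℂ[X][X]) (p : ℂ[X]) (m : ℕ),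
      a = aeval T p + T ^ m * g ∧ ev T g G = 0 ∧ ev T g (derivative G) * v = 1 := by
  have hT : T ≠ 0 := fun e => h1 (by rw [e, map_zero])
  obtain ⟨P, hP, hd⟩ := ha.sep h0 hT
  obtain ⟨u, hu⟩ := exists_X_eq h0 h1
  obtain ⟨k, w, w0, hw⟩ : ∃ (k : ℕ) (w : ℂ⟦X⟧), PowerSeries.constantCoeff w ≠ 0 ∧
      ev T a (derivative P) = T ^ k * w := by
    refine ⟨(ev T a (derivative P)).order.toNat, u ^ (ev T a (derivative P)).order.toNat *
      PowerSeries.divXPowOrder (ev T a (derivative P)), ?_, ?_⟩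
    · rw [map_mul, map_pow]
      refine mul_ne_zero (pow_ne_zero _ fun e => ?_)
        (mt PowerSeries.constantCoeff_divXPowOrder_eq_zero_iff.1 hd)
      have := congrArg (PowerSeries.coeff 1) hu
      simp [PowerSeries.coeff_one_mul, h0, e] at this
    · rw [← mul_assoc, ← mul_pow, ← hu, PowerSeries.X_pow_order_mul_divXPowOrder]
  obtain ⟨p, g, e⟩ := exists_appr h0 h1 a (k + 1)
  set F : ℂ[X][X] := (taylor p P).comp (C (X ^ (k + 1)) * X) with hF
  have f1 : ∀ Q : ℂ[X][X], ev T g ((taylor p Q).comp (C (X ^ (k + 1)) * X)) = ev T a Q := by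
    intro Q
    rw [ev_comp, taylor_apply, ev_comp, e]
    simp only [map_add, map_mul, map_pow, ev_C, ev_X, aeval_X, add_comm]
  have f2 : derivative F =
      C (X ^ (k + 1)) * (taylor p (derivative P)).comp (C (X ^ (k + 1)) * X) := by
    rw [hF, derivative_comp, derivative_C_mul, derivative_X, mul_one, taylor_apply, taylor_apply,
      derivative_comp]
    simp
  have f3 : ∀ j, X ^ (2 * k + 1) ∣ F.coeff (j + 1) := fun j => by
    rw [hF, comp_C_mul_X_coeff, ← pow_mul]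
    rcases j with _ | j
    · rw [zero_add, taylor_coeff_one, mul_one, show 2 * k + 1 = k + (k + 1) by ring, pow_add]
      refine mul_dvd_mul_right (dvd_of_dvd_aeval h0 hT k _ ?_) _
      have h2 := ev_sub_dvd (T := T) a (aeval T p) (derivative P)
      have h3 : ev T (aeval T p) (derivative P) = aeval T ((derivative P).eval p) :=
        eval₂_hom (aeval T : ℂ[X] →ₐ[ℂ] ℂ⟦X⟧).toRingHom p
      rw [h3, hw, show a - aeval T p = T ^ k * (T * g) by rw [e]; ring] at h2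
      exact (dvd_sub_right (dvd_mul_right _ _)).1 ((dvd_mul_right _ _).trans h2)
    · exact dvd_mul_of_dvd_right (pow_dvd_pow _ (by nlinarith)) _
  obtain ⟨H, hH⟩ := (C_dvd_iff_dvd_coeff (X ^ (2 * k + 1)) F.divX).2 fun j => by
    rw [coeff_divX]; exact f3 j
  have f4 : X ^ (2 * k + 1) ∣ F.coeff 0 := by
    refine dvd_of_dvd_aeval h0 hT _ _ ⟨-(ev T g H * g), ?_⟩
    have h2 := congrArg (ev T g) (divX_mul_X_add F)
    rw [f1, hP, hH] at h2
    simp only [map_add, map_mul, ev_C, ev_X, map_pow, aeval_X] at h2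
    linear_combination h2
  obtain ⟨G, hG⟩ := (C_dvd_iff_dvd_coeff (X ^ (2 * k + 1)) F).2 fun j => by
    rcases j with _ | j
    · exact f4
    · exact f3 j
  have t0 : T ^ (2 * k + 1) ≠ 0 := pow_ne_zero _ hT
  refine ⟨g, w⁻¹, G, p, k + 1, e, ?_, ?_⟩
  · have h2 := (f1 P).trans hP
    rw [← hF, hG, map_mul, ev_C, map_pow, aeval_X] at h2
    exact (mul_eq_zero.1 h2).resolve_left t0
  · have h2 := congrArg (ev T g) f2
    rw [hG, derivative_C_mul, map_mul, map_mul, f1, hw, ev_C, ev_C, map_pow, map_pow,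
      aeval_X] at h2
    rw [mul_left_cancel₀ t0 (show T ^ (2 * k + 1) * ev T g (derivative G) =
      T ^ (2 * k + 1) * w by rw [h2]; ring), PowerSeries.mul_inv_cancel w w0]

theorem d_inv {B : Subalgebra ℂ ℂ⟦X⟧} {x v : ℂ⟦X⟧} (h : x * v = 1) (hv : v ∈ B) (hx : d⁄dX ℂ x ∈ B) :
    d⁄dX ℂ v ∈ B := by
  have h1 := congrArg (d⁄dX ℂ) h
  rw [Derivation.leibniz, Derivation.map_one_eq_zero, smul_eq_mul, smul_eq_mul] at h1
  rw [show d⁄dX ℂ v = -(v * v * d⁄dX ℂ x) by linear_combination v * h1 - d⁄dX ℂ v * h]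
  exact neg_mem (mul_mem (mul_mem hv hv) hx)

theorem Alg.gen (h0 : PowerSeries.constantCoeff T = 0) (h1 : PowerSeries.coeff 1 T ≠ 0)
    {a : ℂ⟦X⟧} (ha : Alg T a) : ∃ g v : ℂ⟦X⟧, ∀ B : Subalgebra ℂ ℂ⟦X⟧, T ∈ B → d⁄dX ℂ T ∈ B →
      g ∈ B → v ∈ B → a ∈ B ∧ d⁄dX ℂ g ∈ B ∧ d⁄dX ℂ v ∈ B := by
  obtain ⟨g, v, G, p, m, e, hG, hv⟩ := ha.etale h0 h1
  refine ⟨g, v, fun B hT hT' hg hv' => ?_⟩
  have h2 := d_ev hT hT' hg G
  rw [hG, map_zero, zero_sub, neg_mem_iff] at h2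
  have h3 : d⁄dX ℂ g ∈ B := by
    rw [show d⁄dX ℂ g = v * (ev T g (derivative G) * d⁄dX ℂ g) by linear_combination (-d⁄dX ℂ g) * hv]
    exact mul_mem hv' h2
  refine ⟨e ▸ add_mem (aeval_mem hT p) (mul_mem (pow_mem hT m) hg), h3, d_inv hv hv' ?_⟩
  simpa using add_mem (d_ev hT hT' hg (derivative G)) (mul_mem (ev_mem hT hg (derivative (derivative G))) h3)

/-- **CHART0** -/
theorem chart0 (h0 : PowerSeries.constantCoeff T = 0) (h1 : PowerSeries.coeff 1 T ≠ 0)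
    {ρ a : ℂ⟦X⟧} (hρ : Alg T ρ) (ha : Alg T a)
    (hS : 2 * d⁄dX ℂ T * d⁄dX ℂ (d⁄dX ℂ (d⁄dX ℂ T)) - 3 * d⁄dX ℂ (d⁄dX ℂ T) ^ 2 = 2 * ρ * d⁄dX ℂ T ^ 4) : Cv a := by
  obtain ⟨g, v, hg⟩ := ha.gen h0 h1
  obtain ⟨g', v', hg'⟩ := hρ.gen h0 h1
  have w0 : PowerSeries.constantCoeff (d⁄dX ℂ T) ≠ 0 := by
    rw [← PowerSeries.coeff_zero_eq_constantCoeff_apply, PowerSeries.coeff_derivative]
    simpa using h1
  have hu := PowerSeries.mul_inv_cancel _ w0
  set t : Set ℂ⟦X⟧ := {T, d⁄dX ℂ T, d⁄dX ℂ (d⁄dX ℂ T), (d⁄dX ℂ T)⁻¹, g, v, g', v'} with ht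
  have m : ∀ x ∈ t, x ∈ Algebra.adjoin ℂ t := fun x hx => Algebra.subset_adjoin hx
  have m1 := m T (by simp [ht])
  have m2 := m (d⁄dX ℂ T) (by simp [ht])
  have m3 := m (d⁄dX ℂ (d⁄dX ℂ T)) (by simp [ht])
  have m4 := m (d⁄dX ℂ T)⁻¹ (by simp [ht])
  obtain ⟨a1, a2, a3⟩ := hg _ m1 m2 (m g (by simp [ht])) (m v (by simp [ht]))
  obtain ⟨b1, b2, b3⟩ := hg' _ m1 m2 (m g' (by simp [ht])) (m v' (by simp [ht]))
  refine cv_of_closed t (Set.toFinite _) (fun x hx => ?_) a1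
  simp only [ht, Set.mem_insert_iff, Set.mem_singleton_iff] at hx
  rcases hx with rfl | rfl | rfl | rfl | rfl | rfl | rfl | rfl
  · exact m2
  · exact m3
  · have h2 : algebraMap ℂ ℂ⟦X⟧ 2⁻¹ * 2 = 1 := by
      rw [← map_ofNat (algebraMap ℂ ℂ⟦X⟧) 2, ← map_mul, inv_mul_cancel₀ two_ne_zero, map_one]
    rw [show d⁄dX ℂ (d⁄dX ℂ (d⁄dX ℂ T)) = algebraMap ℂ ℂ⟦X⟧ 2⁻¹ * (d⁄dX ℂ T)⁻¹ *
      (3 * d⁄dX ℂ (d⁄dX ℂ T) ^ 2 + 2 * ρ * d⁄dX ℂ T ^ 4) by
        linear_combination algebraMap ℂ ℂ⟦X⟧ 2⁻¹ * (d⁄dX ℂ T)⁻¹ * hS -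
          d⁄dX ℂ (d⁄dX ℂ (d⁄dX ℂ T)) * (d⁄dX ℂ T * (d⁄dX ℂ T)⁻¹) * h2 - d⁄dX ℂ (d⁄dX ℂ (d⁄dX ℂ T)) * hu]
    exact mul_mem (mul_mem (algebraMap_mem _ _) m4) (add_mem
      (mul_mem (ofNat_mem _ 3) (pow_mem m3 2)) (mul_mem (mul_mem (ofNat_mem _ 2) b1) (pow_mem m2 4)))
  · exact d_inv hu m4 m3
  · exact a2
  · exact a3
  · exact b2
  · exact b3

end Vale.Agent.P022K.Sh.Un
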