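import Vale.Agent.P027M.K.Loc
import Mathlib.Analysis.Calculus.InverseFunctionTheorem.Deriv
import Mathlib.Analysis.Calculus.FDeriv.Analytic
import Mathlib.Analysis.Complex.Basic

/-!
# P022K, block F0: functions with simple zeros; the set of places is compact for analytic charts
-/

set_option autoImplicit false
set_option linter.unusedSectionVars false

open Filter Topology Polynomial IntermediateField

noncomputable section

namespace Vale.Agent.P022K.Sh.Un

open Vale.Agent.P019P P025H492 P027M.K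

section alg

variable {k K : Type*} [Field k] [Field K] [Algebra k K] [CFF k K]

theorem val_inv {P : Plk k K} {z : K} {c : k} (h : Val P z c) (hc : c ≠ 0) : Val P z⁻¹ c⁻¹ := by
  obtain ⟨h0, h1⟩ := h.unit hc
  obtain ⟨d, hd⟩ := exists_val (P := P) (z := z⁻¹) (mem_Mge.2 (Or.inr (by rw [ord_inv]; omega)))
  have h2 := h.mul hd
  rw [mul_inv_cancel₀ h0] at h2
  rwa [← eq_inv_of_mul_eq_one_right (h2.unique (Val.one P))]

theorem val_inv_zero {P : Plk k K} {z : K} (h : z ∉ Mge P 0) : Val P z⁻¹ 0 := by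
  rw [mem_Mge, not_or] at h
  exact Val.zero_iff.2 (mem_Mge.2 (Or.inr (by rw [ord_inv]; omega)))

theorem val_iff_ord {P : Plk k K} {x : K} (hx : ∀ a : k, x ≠ algebraMap k K a) (c : k) :
    Val P x c ↔ 0 < ord P (x - algebraMap k K c) := by
  have : x - algebraMap k K c ≠ 0 := sub_ne_zero.2 (hx c)
  unfold Val
  rw [mem_Mge]
  constructor
  · rintro (h | h)
    · exact absurd h this
    · omega
  · intro h
    exact Or.inr h

theorem val_aeval {P : Plk k K} {x : K} {c : k} (h : Val P x c) (p : k[X]) :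
    Val P (aeval x p) (p.eval c) := by
  induction p using Polynomial.induction_on' with
  | add p q hp hq =>
    rw [map_add, eval_add]
    exact hp.add hq
  | monomial n a =>
    rw [aeval_monomial, eval_monomial]
    exact (Val.const P a).mul (h.pow n)

theorem mem_iff_Mge (P : Plk k K) (x : K) : x ∈ P.1 ↔ x ∈ Mge P 0 := mem_iff_ord P x

variable (k K) in
theorem infinite_plk : Infinite (Plk k K) := by
  obtain ⟨y⟩ := nonempty_Plk (k := k) (F := K)
  obtain ⟨x, -, hx⟩ := exists_unif y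
  have hn : ∀ a : k, x ≠ algebraMap k K a := nc_of_ord (P := y) (by omega)
  choose P hP using fun c : k => exists_zero (nc_sub hn c)
  have := CFF.ac (k := k) (F := K)
  refine Infinite.of_injective P fun c d h => ?_
  exact ((val_iff_ord hn c).2 (hP c)).unique (h ▸ (val_iff_ord hn d).2 (hP d))

/-- a function with simple zeros only, one of them at `y` -/
theorem exists_simple (y : Plk k K) : ∃ s : K, ord y s = 1 ∧ ∀ P : Plk k K, ord P s ≤ 1 := by
  classical
  have := infinite_plk k K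
  obtain ⟨T, hT, hc⟩ := (Set.infinite_of_finite_compl (s := {P | P ≠ y})
    (by simp)).exists_subset_card_eq ((dg (can k K)).toNat + 1)
  let D : Plk k K →₀ ℤ := Finsupp.onFinset T (fun P => if P ∈ T then 1 else 0)
    (fun P h => by by_contra h'; exact h (if_neg h'))
  have hD : ∀ P, D P = if P ∈ T then 1 else 0 := fun P => rfl
  have hy : y ∉ T := fun h => hT h rfl
  have d1 : dg D = T.card := by
    rw [dg_eq_sum (S := T) fun P h => by rw [hD, if_neg h],
      Finset.sum_congr rfl fun P h => by rw [hD, if_pos h]]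
    simp
  have r1 := RR_large (D := D) (by rw [d1, hc]; omega)
  have r2 := RR_large (D := D + Finsupp.single y 1) (by rw [map_add, dg_sgl, d1, hc]; omega)
  have h4 : ¬ LL k (D + Finsupp.single y 1) ≤ LL k D := fun h => by
    have h5 := l_step_of_eq h
    rw [map_add, dg_sgl] at r2
    omega
  rw [SetLike.not_le_iff_exists] at h4
  obtain ⟨z, hz, hz'⟩ := h4
  have hz0 : z ≠ 0 := by
    rintro rfl
    exact hz' (zero_mem _)
  have h5 := (mem_LL.1 hz).resolve_left hz0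
  have h6 : ∀ P, P ≠ y → -D P ≤ ord P z := fun P hP => by
    have := h5 P
    rwa [Finsupp.add_apply, Finsupp.single_eq_of_ne hP, add_zero] at this
  have h7 := h5 y
  rw [Finsupp.add_apply, Finsupp.single_eq_same, hD, if_neg hy] at h7
  have h8 : ord y z = -1 := by
    by_contra h9
    refine hz' (mem_LL.2 (Or.inr fun P => ?_))
    by_cases hP : P = y
    · rw [hP, hD, if_neg hy]
      omega
    · exact h6 P hP
  refine ⟨z⁻¹, by rw [ord_inv, h8, neg_neg], fun P => ?_⟩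
  rw [ord_inv]
  by_cases hP : P = y
  · rw [hP]
    omega
  · have := h6 P hP
    rw [hD] at this
    split_ifs at this <;> omega

theorem fib_card_le {x : K} (hx : ∀ a : k, x ≠ algebraMap k K a) (c : k) :
    (fib_finite hx c).toFinset.card ≤ Module.finrank k⟮x⟯ K := by
  have h := fib_sum hx c
  have h1 := Finset.card_nsmul_le_sum (fib_finite hx c).toFinset
    (fun P => ord P (x - algebraMap k K c)) 1 fun P hP => by
      rw [Set.Finite.mem_toFinset, Set.mem_ofPred_eq] at hP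
      omega
  rw [h, nsmul_one] at h1
  exact_mod_cast h1

/-- the zeros of such a function -/
theorem exists_simple' (y : Plk k K) : ∃ (s : K) (Z : Finset (Plk k K)),
    (∀ a : k, s ≠ algebraMap k K a) ∧ y ∈ Z ∧ (∀ P ∈ Z, ord P s = 1) ∧
      Z.card = Module.finrank k⟮s⟯ K := by
  obtain ⟨s, h1, h2⟩ := exists_simple y
  have hn : ∀ a : k, s ≠ algebraMap k K a := nc_of_ord (P := y) (by omega)
  have hm : ∀ P, P ∈ (fib_finite hn 0).toFinset ↔ 0 < ord P s := fun P => by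
    rw [Set.Finite.mem_toFinset, Set.mem_ofPred_eq, map_zero, sub_zero]
  have ho : ∀ P ∈ (fib_finite hn 0).toFinset, ord P s = 1 := fun P hP => by
    have := (hm P).1 hP
    have := h2 P
    omega
  refine ⟨s, (fib_finite hn 0).toFinset, hn, (hm y).2 (by omega), ho, ?_⟩
  have h := fib_sum hn 0
  rw [Finset.sum_congr rfl fun P hP => by rw [map_zero, sub_zero, ho P hP]] at h
  simpa using h

theorem exists_vals (Z : Finset (Plk k K)) (c : Plk k K → k) :
    ∃ g : K, ∀ P ∈ Z, Val P g (c P) :=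
  weak_appr Z (fun P => algebraMap k K (c P)) 1

/-- the semi-local ring of the zeros of `s` is generated by the dual functions over the local
ring of the line -/
theorem exists_comb {s : K} {Z : Finset (Plk k K)} (hn : ∀ a : k, s ≠ algebraMap k K a)
    (ho : ∀ P ∈ Z, ord P s = 1) (hc : Z.card = Module.finrank k⟮s⟯ K) :
    ∃ b : Z → K, (∀ z, ∀ P ∈ Z, b z ∈ Mge P 0) ∧ ∀ f : K, (∀ P ∈ Z, f ∈ Mge P 0) →
      ∃ (q : k[X]) (p : Z → k[X]), q.coeff 0 ≠ 0 ∧ aeval s q * f = ∑ z, aeval s (p z) * b z := by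
  classical
  choose b hb using fun z : Z => exists_vals Z fun P => if P = z.1 then (1 : k) else 0
  refine ⟨b, fun z P hP => (hb z P hP).mem, fun f hf => ?_⟩
  obtain ⟨hT, hfd⟩ := finite_of_notMem hn
  have hdep : ¬ LinearIndependent k⟮s⟯ fun o : Option Z => o.elim f b := fun h => by
    have := h.fintype_card_le_finrank
    rw [Fintype.card_option, Fintype.card_coe] at this
    omega
  obtain ⟨φ, ⟨i, hi⟩, h0⟩ := exists_rel hT hdep
  rw [Fintype.sum_option] at h0
  simp only [Option.elim] at h0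
  refine ⟨φ none, fun z => -φ (some z), fun h => ?_, ?_⟩
  · cases i with
    | none => exact hi h
    | some z =>
      have hs : Val z.1 s 0 := Val.zero_iff.2 (mem_Mge.2 (Or.inr (ho z.1 z.2).ge))
      obtain ⟨c, hcf⟩ := exists_val (hf z.1 z.2)
      have h1 := ((val_aeval hs (φ none)).mul hcf).add (Val.sum Finset.univ fun w _ =>
        (val_aeval hs (φ (some w))).mul (hb w z.1 z.2))
      rw [h0] at h1
      have h2 := h1.unique (Val.zero_iff.2 (zero_mem _))
      simp only [← coeff_zero_eq_eval_zero, h, zero_mul, zero_add, mul_ite, mul_one, mul_zero,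
        ← Subtype.ext_iff, Finset.sum_ite_eq, Finset.mem_univ, if_true] at h2
      exact hi h2
  · simp only [map_neg, neg_mul, Finset.sum_neg_distrib]
    exact eq_neg_of_add_eq_zero_left h0

end alg

section cpt

variable {K : Type*} [Field K] [Algebra ℂ K] [CFF ℂ K] (σ : ℂ ≃+* ℂ)

/-- an analytic chart at the place `y`, for the structure twisted by `σ` -/
structure Ch (y : Plk ℂ K) (p : ℂ → Plk ℂ K) : Prop where
  zero : p 0 = y
  an : ∀ f ∈ Mge y 0, ∃ F : ℂ → ℂ, AnalyticAt ℂ F 0 ∧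
    (∀ᶠ ζ in 𝓝 0, Val (p ζ) f (σ.symm (F ζ))) ∧ (ord y f = 1 → deriv F 0 ≠ 0)

/-- bounded along a filter of places -/
def Bd (l : Filter (Plk ℂ K)) (f : K) : Prop :=
  ∃ C : ℝ, ∀ᶠ P in l, ∃ c, Val P f c ∧ ‖σ c‖ ≤ C

/-- the limit of the values along a filter of places -/
def Lm (l : Filter (Plk ℂ K)) (f : K) (a : ℂ) : Prop :=
  ∀ ε : ℝ, 0 < ε → ∀ᶠ P in l, ∃ c, Val P f c ∧ ‖σ c - a‖ < ε

variable {σ}

theorem Bd.cst (l : Filter (Plk ℂ K)) (c : ℂ) : Bd σ l (algebraMap ℂ K c) :=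
  ⟨‖σ c‖, Eventually.of_forall fun P => ⟨c, Val.const P c, le_rfl⟩⟩

theorem lm_zero (U : Ultrafilter (Plk ℂ K)) {f : K} (h : ¬ Bd σ U f) : Lm σ U f⁻¹ 0 := by
  intro ε hε
  have h1 : ¬ ∀ᶠ P in (U : Filter (Plk ℂ K)), ∃ c, Val P f c ∧ ‖σ c‖ ≤ ε⁻¹ := fun h' => h ⟨_, h'⟩
  filter_upwards [Ultrafilter.eventually_not.2 h1] with P hP
  by_cases hf : f ∈ Mge P 0
  · obtain ⟨c, hc⟩ := exists_val hf
    have h2 : ε⁻¹ < ‖σ c‖ := lt_of_not_ge fun h3 => hP ⟨c, hc, h3⟩
    have h3 : 0 < ‖σ c‖ := (inv_pos.2 hε).trans h2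
    refine ⟨c⁻¹, val_inv hc fun h0 => ?_, ?_⟩
    · rw [h0, map_zero, norm_zero] at h3
      exact lt_irrefl _ h3
    · rw [sub_zero, map_inv₀, norm_inv]
      exact inv_lt_of_inv_lt₀ hε h2
  · exact ⟨0, val_inv_zero hf, by simpa using hε⟩

variable (σ) in
/-- the functions which are bounded along an ultrafilter -/
def bdRing (U : Ultrafilter (Plk ℂ K)) : ValuationSubring K where
  carrier := {f | Bd σ U f}
  mul_mem' := by
    rintro f g ⟨C, hf⟩ ⟨C', hg⟩
    refine ⟨C * C', ?_⟩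
    filter_upwards [hf, hg] with P ⟨c, h1, h2⟩ ⟨d, h3, h4⟩
    refine ⟨c * d, h1.mul h3, ?_⟩
    rw [map_mul, norm_mul]
    exact mul_le_mul h2 h4 (norm_nonneg _) ((norm_nonneg _).trans h2)
  one_mem' := by simpa using Bd.cst (σ := σ) (U : Filter (Plk ℂ K)) 1
  add_mem' := by
    rintro f g ⟨C, hf⟩ ⟨C', hg⟩
    refine ⟨C + C', ?_⟩
    filter_upwards [hf, hg] with P ⟨c, h1, h2⟩ ⟨d, h3, h4⟩
    refine ⟨c + d, h1.add h3, ?_⟩
    rw [map_add]
    exact (norm_add_le _ _).trans (add_le_add h2 h4)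
  zero_mem' := by simpa using Bd.cst (σ := σ) (U : Filter (Plk ℂ K)) 0
  neg_mem' := by
    rintro f ⟨C, hf⟩
    refine ⟨C, ?_⟩
    filter_upwards [hf] with P ⟨c, h1, h2⟩
    exact ⟨-c, h1.neg, by rwa [map_neg, norm_neg]⟩
  mem_or_inv_mem' := fun f => by
    by_cases h : Bd σ U f
    · exact Or.inl h
    · refine Or.inr ⟨1, ?_⟩
      filter_upwards [lm_zero U h 1 one_pos] with P ⟨c, h1, h2⟩
      exact ⟨c, h1, by rw [sub_zero] at h2; exact h2.le⟩

theorem bdRing_ne_top (U : Ultrafilter (Plk ℂ K)) : bdRing σ U ≠ ⊤ := by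
  intro h
  have hb : ∀ f : K, Bd σ U f := fun f => by
    have : f ∈ bdRing σ U := h ▸ ValuationSubring.mem_top f
    exact this
  obtain ⟨y⟩ := nonempty_Plk (k := ℂ) (F := K)
  obtain ⟨x, -, hx⟩ := exists_unif y
  have hn : ∀ a : ℂ, x ≠ algebraMap ℂ K a := nc_of_ord (P := y) (by omega)
  obtain ⟨C, hC⟩ := hb x
  classical
  let v : Plk ℂ K → ℂ := fun P => if h : ∃ c, Val P x c then σ h.choose else 0
  have hv : ∀ P c, Val P x c → v P = σ c := fun P c hc => by
    have h1 : ∃ c, Val P x c := ⟨c, hc⟩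
    simp only [v, dif_pos h1, h1.choose_spec.unique hc]
  obtain ⟨a, -, ha⟩ := (isCompact_closedBall (0 : ℂ) C).ultrafilter_le_nhds (U.map v) (by
    rw [le_principal_iff, Ultrafilter.mem_coe, Ultrafilter.mem_map]
    filter_upwards [hC] with P ⟨c, h1, h2⟩
    simpa [hv P c h1] using h2)
  obtain ⟨C', hC'⟩ := hb (x - algebraMap ℂ K (σ.symm a))⁻¹
  have h2 : ∀ᶠ P in (U : Filter (Plk ℂ K)), ‖v P - a‖ < (|C'| + 1)⁻¹ := by
    have := ha (Metric.ball_mem_nhds a (ε := (|C'| + 1)⁻¹) (by positivity))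
    rw [Ultrafilter.mem_coe, Ultrafilter.mem_map] at this
    filter_upwards [this] with P hP
    simpa [dist_eq_norm] using hP
  obtain ⟨P, ⟨c, h3, -⟩, ⟨d, h4, h5⟩, h6⟩ := (hC.and (hC'.and h2)).exists
  have h7 := (h3.sub (Val.const P (σ.symm a))).mul h4
  rw [mul_inv_cancel₀ (sub_ne_zero.2 (hn _))] at h7
  have h8 := congrArg (fun t => ‖σ t‖) (h7.unique (Val.one P))
  simp only [map_mul, map_sub, RingEquiv.apply_symm_apply, map_one, norm_mul, norm_one] at h8
  rw [hv P c h3] at h6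
  have h9 : ‖σ d‖ ≤ |C'| + 1 := by linarith [le_abs_self C']
  have h10 := mul_lt_mul h6 h9
  have h11 : 0 < ‖σ d‖ := by
    refine lt_of_le_of_ne (norm_nonneg _) fun h0 => ?_
    rw [← h0, mul_zero] at h8
    exact zero_ne_one h8
  have h12 := h10 h11 (by positivity)
  rw [h8, inv_mul_cancel₀ (by positivity)] at h12
  exact lt_irrefl _ h12

/-- an ultrafilter of places has a limit place -/
theorem exists_lim (U : Ultrafilter (Plk ℂ K)) :
    ∃ y : Plk ℂ K, ∀ f c, Val y f c → Lm σ U f (σ c) := by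
  refine ⟨⟨bdRing σ U, fun a => Bd.cst _ a, bdRing_ne_top U⟩, fun f c h ε hε => ?_⟩
  set y : Plk ℂ K := ⟨bdRing σ U, fun a => Bd.cst _ a, bdRing_ne_top U⟩
  by_cases h0 : f - algebraMap ℂ K c = 0
  · refine Eventually.of_forall fun P => ⟨c, ?_, by simpa using hε⟩
    rw [sub_eq_zero.1 h0]
    exact Val.const P c
  have h1 : ¬ Bd σ U (f - algebraMap ℂ K c)⁻¹ := fun hb => by
    have h2 : (f - algebraMap ℂ K c)⁻¹ ∈ y.1 := hb
    rw [mem_iff_ord, ord_inv] at h2
    have h3 := (mem_Mge.1 h).resolve_left h0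
    rcases h2 with h2 | h2
    · exact inv_ne_zero h0 h2
    · omega
  have h2 := lm_zero U h1 ε hε
  rw [inv_inv] at h2
  filter_upwards [h2] with P ⟨d, h3, h4⟩
  refine ⟨d + c, ?_, by simpa using h4⟩
  simpa using h3.add (Val.const P c)

/-- **CPT**: every ultrafilter of places converges in one of the charts -/
theorem cpt {p : Plk ℂ K → ℂ → Plk ℂ K} (hp : ∀ y, Ch σ y (p y)) (U : Ultrafilter (Plk ℂ K)) :
    ∃ y, (U : Filter (Plk ℂ K)) ≤ map (p y) (𝓝 0) := by
  classical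
  obtain ⟨y, hy⟩ := exists_lim (σ := σ) U
  obtain ⟨s, Z, hn, yZ, ho, hc⟩ := exists_simple' y
  obtain ⟨n, hinj⟩ := Set.countable_iff_exists_injOn.1 Z.countable_toSet
  obtain ⟨g, hg⟩ := exists_vals (k := ℂ) Z fun P => (n P : ℂ)
  have hs : ∀ z ∈ Z, Val z s 0 := fun z hz => Val.zero_iff.2 (mem_Mge.2 (Or.inr (ho z hz).ge))
  refine ⟨y, fun A hA => ?_⟩
  rw [mem_map] at hA
  have key : ∀ z ∈ Z, ∀ᶠ a in 𝓝 (0 : ℂ), ∃ ζ, ζ ∈ p y ⁻¹' A ∧ Val (p z ζ) s (σ.symm a) ∧
      ∃ c, Val (p z ζ) g c ∧ ‖σ c - n z‖ < 1 / 2 := fun z hz => by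
    obtain ⟨S, s1, s2, s3⟩ := (hp z).an s (hs z hz).mem
    obtain ⟨G, g1, g2, -⟩ := (hp z).an g (hg z hz).mem
    have s0 : S 0 = 0 := by
      have := s2.self_of_nhds
      rw [(hp z).zero] at this
      simpa using this.unique (hs z hz)
    have g0 : G 0 = n z := by
      have := g2.self_of_nhds
      rw [(hp z).zero] at this
      have h1 := congrArg σ (this.unique (hg z hz))
      simpa using h1
    have h1 := s1.hasStrictDerivAt.map_nhds_eq (s3 (ho z hz))
    rw [s0] at h1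
    rw [← h1, eventually_map]
    have g3 := g1.continuousAt (Metric.ball_mem_nhds (G 0) (ε := 1 / 2) (by norm_num))
    filter_upwards [hA, s2, g2, mem_map.1 g3] with ζ a1 a2 a3 a4
    exact ⟨ζ, a1, a2, _, a3, by simpa [dist_eq_norm, g0] using a4⟩
  obtain ⟨ε, hε, hb⟩ := Metric.eventually_nhds_iff.1 ((eventually_all_finset Z).2 key)
  filter_upwards [hy s 0 (hs y yZ) ε hε, hy g _ (hg y yZ) (1 / 2) (by norm_num)] with P
    ⟨c, c1, c2⟩ ⟨d, d1, d2⟩
  rw [map_zero] at c2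
  rw [map_natCast] at d2
  have h1 := hb (y := σ c) (by rwa [dist_eq_norm])
  rw [RingEquiv.symm_apply_apply] at h1
  choose! ζ z1 z2 e z3 z4 using h1
  have near : ∀ (a : ℂ) (i j : ℕ), ‖a - i‖ < 1 / 2 → ‖a - j‖ < 1 / 2 → i = j := by
    intro a i j hi hj
    have h2 : ‖(i : ℂ) - j‖ < 1 := by
      have := norm_sub_le (a - j) (a - i)
      rw [show a - j - (a - i) = (i : ℂ) - j by ring] at this
      linarith
    have h3 : ((i : ℂ) - j) = ((i : ℤ) - j : ℤ) := by push_cast; rfl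
    rw [h3, Complex.norm_intCast, ← Int.cast_abs, ← Int.cast_one, Int.cast_lt] at h2
    have := Int.abs_lt_one_iff.1 h2
    omega
  have hsur := Finset.surj_on_of_inj_on_of_card_le (s := Z) (t := (fib_finite hn c).toFinset)
    (fun z _ => p z (ζ z))
    (fun z hz => by
      rw [Set.Finite.mem_toFinset, Set.mem_ofPred_eq]
      exact (val_iff_ord hn c).1 (z2 z hz))
    (fun z w hz hw h => by
      refine hinj hz hw (near (σ (e z)) _ _ (z4 z hz) ?_)
      rw [(z3 z hz).unique (h ▸ z3 w hw)]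
      exact z4 w hw)
    (hc ▸ fib_card_le hn c)
  obtain ⟨z, hz, rfl⟩ := hsur P (by
    rw [Set.Finite.mem_toFinset, Set.mem_ofPred_eq]
    exact (val_iff_ord hn c).1 c1)
  have h2 : z = y := hinj hz yZ (near (σ d) _ _ (by
    rw [d1.unique (z3 z hz)]
    exact z4 z hz) d2)
  subst h2
  exact z1 z hz

/-- finitely many charts cover all places -/
theorem cpt_fin {p : Plk ℂ K → ℂ → Plk ℂ K} (hp : ∀ y, Ch σ y (p y)) {W : Plk ℂ K → Set ℂ}
    (hW : ∀ y, W y ∈ 𝓝 (0 : ℂ)) :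
    ∃ T : Set (Plk ℂ K), T.Finite ∧ ∀ P, ∃ y ∈ T, ∃ ζ ∈ W y, p y ζ = P := by
  by_contra hcon
  push Not at hcon
  have hne : NeBot (⨅ y, 𝓟 (p y '' W y)ᶜ) := by
    refine ⟨fun h => ?_⟩
    have h1 : (∅ : Set (Plk ℂ K)) ∈ ⨅ y, 𝓟 (p y '' W y)ᶜ := h ▸ mem_bot
    obtain ⟨I, hI, V, hV, -, h2, -⟩ := mem_iInf'.1 h1
    obtain ⟨P, hP⟩ := hcon I hI
    have h3 : P ∈ ⋂ i ∈ I, V i := Set.mem_iInter₂.2 fun i hi =>
      mem_principal.1 (hV i) fun ⟨ζ, h4, h5⟩ => hP i hi ζ h4 h5
    rw [← h2] at h3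
    exact h3
  obtain ⟨y, hy⟩ := cpt hp (Ultrafilter.of (⨅ y, 𝓟 (p y '' W y)ᶜ))
  have h1 := hy (image_mem_map (hW y))
  have h2 := (Ultrafilter.of_le (⨅ y, 𝓟 (p y '' W y)ᶜ)).trans (iInf_le _ y)
  exact (Ultrafilter.compl_mem_iff_notMem.1 (le_principal_iff.1 h2)) h1

end cpt

end Vale.Agent.P022K.Sh.Un
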