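import Vale.Agent.P022K.F0.UnI
import Vale.Agent.P022K.F0.UnCh
import Vale.Agent.P022K.F0.UnCpt

/-!
# P022K, block F0, row UNIF: the rows CH0, PLC, CPT, INJ, BALL, FOC
-/

set_option autoImplicit false

open Filter Topology Metric Polynomial IntermediateField
open scoped MatrixGroups

noncomputable section

namespace Vale.Agent.P022K.Sh.Un

open Vale.Agent.P019P P025H492 P027M.K

theorem ch0 : CH0 := by
  intro T a ρ hT ha hρ hS
  have h1 := PowerSeries.order_eq_nat.1 (show T.order = (1 : ℕ) from hT)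
  obtain ⟨c, -, hc⟩ := chart0 (by simpa using h1.2 0 one_pos) h1.1 hρ ha hS
  exact ⟨c, hc⟩

section

variable {Ω : Type} [Field Ω] [Algebra ℂ Ω] {σ : ℂ ≃+* ℂ} {R : Ω → Ω}
  {K L : IntermediateField ℂ Ω} {z : ℂ} {E : Ω → ℂ → ℂ}

/-- the homomorphism to the field of germs -/
def LR.e (h : LR σ R K z E) : K →+* Mz z where
  toFun f := gm z (E f)
  map_one' := by
    have := h.cst 1
    rw [map_one, map_one] at this
    exact (rp_one.congr this.symm).gm_eq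
  map_zero' := by
    have := h.cst 0
    rw [map_zero, map_zero] at this
    exact (rp_zero.congr this.symm).gm_eq
  map_add' f g := (((rp_gm (h.mero _ f.2)).add (rp_gm (h.mero _ g.2))).congr
    (h.add _ f.2 _ g.2).symm).gm_eq
  map_mul' f g := (((rp_gm (h.mero _ f.2)).mul (rp_gm (h.mero _ g.2))).congr
    (h.mul _ f.2 _ g.2).symm).gm_eq

theorem LR.rpe (h : LR σ R K z E) (f : K) : Rp (h.e f) (E f) := rp_gm (h.mero _ f.2)

theorem LR.e_cst (h : LR σ R K z E) (c : ℂ) :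
    h.e (algebraMap ℂ K c) = algebraMap ℂ (Mz z) (σ c) :=
  ((Un.rp_cst (σ c)).congr (h.cst c).symm).gm_eq

theorem LR.od_e (h : LR σ R K z E) (f : K) : Un.od (h.e f) = meromorphicOrderAt (E f) z :=
  (h.rpe f).od

theorem LR.res (h : LR σ R L z E) (le : K ≤ L) (mem : ∀ s ∈ K, R s ∈ K) : LR σ R K z E :=
  ⟨fun f hf => h.mero f (le hf), fun f hf g hg => h.add f (le hf) g (le hg),
    fun f hf g hg => h.mul f (le hf) g (le hg), h.cst, mem, fun s hs => h.sw s (le hs)⟩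

variable [CFF ℂ K]

theorem Pl.mem_iff {y : Plk ℂ K} (h : LR σ R K z E) (hy : Pl K z E y) (f : K) (n : ℤ) :
    f ∈ Mge y n ↔ (n : WithTop ℤ) ≤ od (h.e f) := by
  rcases eq_or_ne f 0 with rfl | hf
  · simp [od_zero]
  · rw [h.od_e, hy f hf, mem_Mge, WithTop.coe_le_coe]
    simp [hf]

theorem Pl.val_iff {y : Plk ℂ K} (h : LR σ R K z E) (hy : Pl K z E y) (f : K) (c : ℂ) :
    Val y f c ↔ Vl (h.e f) (σ c) := by
  rw [Val, hy.mem_iff h, Vl, map_sub, h.e_cst]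
  generalize od (h.e f - algebraMap ℂ (Mz z) (σ c)) = t
  induction t with
  | top => simp
  | coe t => norm_cast

theorem Pl.unique {y y' : Plk ℂ K} (hy : Pl K z E y) (hy' : Pl K z E y') : y = y' := by
  refine Plk.eq_of_le fun f hf => ?_
  rw [mem_iff_ord] at hf ⊢
  rcases eq_or_ne f 0 with h0 | h0
  · exact Or.inl h0
  · have := (hy f h0).symm.trans (hy' f h0)
    rw [WithTop.coe_inj] at this
    rwa [← this]

/-- the value at the place of a nearby point -/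
theorem Pl.val_of {y : Plk ℂ K} (h : LR σ R K z E) (hy : Pl K z E y) {f : K} {F : ℂ → ℂ}
    (hF : AnalyticAt ℂ F z) (e : E f =ᶠ[𝓝[≠] z] F) : Val y f (σ.symm (F z)) := by
  rw [hy.val_iff h, RingEquiv.apply_symm_apply]
  exact ((h.rpe f).congr e).vl hF

theorem near_eq {F G : ℂ → ℂ} (e : F =ᶠ[𝓝[≠] z] G) : ∀ᶠ w in 𝓝 z, F =ᶠ[𝓝[≠] w] G := by
  have h1 : ∀ᶠ w in 𝓝[≠] z, F =ᶠ[𝓝[≠] w] G := by
    filter_upwards [eventually_eventually_nhdsWithin.2 e, self_mem_nhdsWithin] with w hw hz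
    rw [nhdsWithin_eq_nhds.2 (isOpen_compl_singleton.mem_nhds hz)] at hw
    exact hw.filter_mono nhdsWithin_le_nhds
  rw [← nhdsNE_sup_pure, eventually_sup, eventually_pure]
  exact ⟨h1, e⟩

/-- an analytic representative, with the values at the nearby places -/
theorem Pl.exists_an {y : Plk ℂ K} (h : LR σ R K z E) (hy : Pl K z E y) {f : K}
    (hf : f ∈ Mge y 0) : ∃ F, AnalyticAt ℂ F z ∧ (ord y f = 1 → deriv F z ≠ 0) ∧
      ∀ᶠ w in 𝓝 z, ∀ y', LR σ R K w E → Pl K w E y' → Val y' f (σ.symm (F w)) := by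
  obtain ⟨F, hF, e⟩ := mem_Oz_iff.1 (mem_Oz.2 ((hy.mem_iff h f 0).1 hf))
  refine ⟨F, hF, fun h1 => ?_, ?_⟩
  · have f0 : f ≠ 0 := fun h0 => by
      rw [h0, ord_zero] at h1
      exact zero_ne_one h1
    obtain ⟨G, hG, e', -, hd⟩ := od_eq_one.1 (show od (h.e f) = 1 by rw [h.od_e, hy f f0, h1]; rfl)
    rwa [(e.unique_an e' hF hG).deriv_eq]
  · filter_upwards [near_eq ((h.rpe f).unique e), hF.eventually_analyticAt] with w e1 a1 y' h' hy'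
    exact hy'.val_of h' a1 e1

/-- the valuation ring of a local realisation is a place -/
theorem LR.exists_plk (h : LR σ R K z E) : ∃ y : Plk ℂ K, ∀ f, f ∈ y.1 ↔ h.e f ∈ Oz z := by
  refine ⟨⟨(Oz z).comap h.e, fun c => ?_, fun ht => ?_⟩, fun f => Iff.rfl⟩
  · rw [ValuationSubring.mem_comap, h.e_cst]
    exact cst_mem _
  · have all : ∀ f : K, h.e f ∈ Oz z := fun f =>
      ValuationSubring.mem_comap.1 (ht ▸ ValuationSubring.mem_top f)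
    obtain ⟨y⟩ := nonempty_Plk (k := ℂ) (F := K)
    obtain ⟨x, -, hx⟩ := exists_unif y
    have hn : ∀ a : ℂ, x ≠ algebraMap ℂ K a := nc_of_ord (P := y) (by omega)
    obtain ⟨c, hc⟩ := mem_Oz_iff_vl.1 (all x)
    have h0 : x - algebraMap ℂ K (σ.symm c) ≠ 0 := sub_ne_zero.2 (hn _)
    have h1 := mem_Oz.1 (all (x - algebraMap ℂ K (σ.symm c))⁻¹)
    obtain ⟨n, hn'⟩ := exists_od ((map_ne_zero h.e).2 h0)
    rw [map_inv₀, od_inv, hn'] at h1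
    rw [map_sub, h.e_cst, RingEquiv.apply_symm_apply] at hn'
    rw [Vl, hn'] at hc
    rw [← WithTop.LinearOrderedAddCommGroup.coe_neg] at h1
    norm_cast at h1 hc
    omega

end

/-- two realisations with the same valuation ring, the second one unramified -/
theorem mob_of_plk (mob' : MOB) {Ω : Type} [Field Ω] [Algebra ℂ Ω] {σ : ℂ ≃+* ℂ} {R : Ω → Ω}
    {K : IntermediateField ℂ Ω} [CFF ℂ K] {z₁ z₂ : ℂ} {E₁ E₂ : Ω → ℂ → ℂ} (h₁ : LR σ R K z₁ E₁)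
    (h₂ : LR σ R K z₂ E₂) {y : Plk ℂ K} (p₁ : ∀ f, f ∈ y.1 ↔ h₁.e f ∈ Oz z₁) (p₂ : Pl K z₂ E₂ y) :
    ∃ M, den M z₁ ≠ 0 ∧ mob M z₁ = z₂ ∧ ∀ f ∈ K, E₁ f =ᶠ[𝓝[≠] z₁] E₂ f ∘ mob M := by
  obtain ⟨π, π0, π1⟩ := exists_unif y
  refine mob' Ω σ R K z₁ E₁ z₂ E₂ h₁ h₂ (fun f hf => ?_) ⟨π, π.2, by rw [p₂ π π0, π1]; rfl⟩
  rw [← h₁.od_e ⟨f, hf⟩, ← h₂.od_e ⟨f, hf⟩, ← mem_Oz, ← p₁, mem_iff_Mge, p₂.mem_iff h₂]
  rfl

theorem plc (mob' : MOB) : PLC := by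
  intro Ω _ _ σ R K L _ lv z E h
  obtain ⟨y, hy⟩ := h.exists_plk
  obtain ⟨E', h', p'⟩ := lv.ch y
  obtain ⟨M, m1, m2, m3⟩ := mob_of_plk mob' h (h'.res lv.le lv.mem) hy p'
  refine ⟨y, fun f hf => ?_⟩
  have lo := lo_mob m1
  rw [meromorphicOrderAt_congr (m3 f f.2), meromorphicOrderAt_comp_of_deriv_ne_zero lo.an lo.dv,
    m2, p' f hf]

theorem cpt_row (plc : PLC) : CPT := by
  intro Ω _ _ σ R K L _ lv E ε h
  classical
  have pl : ∀ y ζ, ∃ y', ζ ∈ ball 0 (ε y) → Pl K ζ (E y) y' := fun y ζ => by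
    by_cases hζ : ζ ∈ ball 0 (ε y)
    · obtain ⟨y', hy'⟩ := plc Ω σ R K L lv ζ (E y) ((h y).2.1 ζ hζ)
      exact ⟨y', fun _ => hy'⟩
    · exact ⟨y, fun h' => absurd h' hζ⟩
  choose p hp using pl
  have ch : ∀ y, Ch σ y (p y) := fun y => by
    have h0 := mem_ball_self (x := (0 : ℂ)) (h y).1
    refine ⟨(hp y 0 h0).unique (h y).2.2, fun f hf => ?_⟩
    obtain ⟨F, f1, f2, f3⟩ := (h y).2.2.exists_an ((h y).2.1 0 h0) hf
    refine ⟨F, f1, ?_, f2⟩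
    filter_upwards [f3, ball_mem_nhds 0 (h y).1] with ζ a1 a2
    exact a1 _ ((h y).2.1 ζ a2) (hp y ζ a2)
  obtain ⟨T, hT, hc⟩ := cpt_fin ch fun y => ball_mem_nhds 0 (h y).1
  refine ⟨hT.toFinset, fun y' => ?_⟩
  obtain ⟨y, hy, ζ, hζ, rfl⟩ := hc y'
  exact ⟨y, hT.mem_toFinset.2 hy, ζ, hζ, hp y ζ hζ⟩

theorem inj (plc : PLC) : INJ := by
  intro Ω _ _ σ R K L _ lv D E hD h z hz
  obtain ⟨y, hy⟩ := plc Ω σ R K L lv z E (h z hz)
  obtain ⟨π, -, π1⟩ := exists_unif y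
  obtain ⟨F, f1, f2, f3⟩ := hy.exists_an (h z hz) (f := π) (mem_Mge.2 (Or.inr (by omega)))
  obtain ⟨k, -, -, e⟩ := Lo.exists_inv ⟨f1, f2 π1, rfl⟩
  refine ⟨_, (f3.and e).and (hD.mem_nhds hz), fun z₁ a z₂ b y' p₁ p₂ => ?_⟩
  have h1 := σ.symm.injective ((a.1.1 y' (h z₁ a.2) p₁).unique (b.1.1 y' (h z₂ b.2) p₂))
  have h2 : k (F z₁) = z₁ := a.1.2
  have h3 : k (F z₂) = z₂ := b.1.2
  rw [← h2, h1, h3]

theorem foc (mob' : MOB) : FOC := by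
  intro Ω _ _ σ R K L _ lv k a ha s hs h z E hE
  obtain ⟨y, hy⟩ := hE.exists_plk
  obtain ⟨E', h', p', o'⟩ := h y
  obtain ⟨M, m1, m2, m3⟩ := mob_of_plk mob' hE h' hy p'
  have lo : Lo (mob M) z 0 := m2 ▸ lo_mob m1
  have e : ∀ f : K, hE.e f = lo.cmp (h'.e f) := fun f =>
    ((hE.rpe f).eq_iff ((h'.rpe f).cmp lo)).2 (m3 f f.2)
  rw [← ((h'.rpe ⟨a, ha⟩).mul ((h'.rpe ⟨s, hs⟩).D.pow k)).od] at o'
  rw [← ((hE.rpe ⟨a, ha⟩).mul ((hE.rpe ⟨s, hs⟩).D.pow k)).od, e, e, lo.D_cmp, mul_pow, ← mul_assoc,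
    ← map_pow, ← map_mul, od_mul, lo.od_cmp, od_pow (Mz.D z _), lo.od_D, mul_zero, add_zero]
  exact o'

theorem Ext.mono {W W' : Set ℂ} {z : ℂ} {F : ℂ → ℂ} (h : Ext W z F) (s : W' ⊆ W) : Ext W' z F := by
  obtain ⟨G, h1, h2⟩ := h
  exact ⟨G, h1.mono_set s, h2⟩

theorem Ext.congr {W : Set ℂ} {z : ℂ} {F G : ℂ → ℂ} (h : Ext W z F) (e : F =ᶠ[𝓝[≠] z] G) :
    Ext W z G := by
  obtain ⟨H, h1, h2⟩ := h
  exact ⟨H, h1, h2.trans e⟩

theorem ext_small {z : ℂ} {F : ℂ → ℂ} (h : MeromorphicAt F z) :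
    ∀ᶠ r in 𝓝[>] (0 : ℝ), Ext (ball z r) z F := by
  have h1 : ∀ᶠ w in 𝓝 z, MeromorphicAt F w := by
    rw [← nhdsNE_sup_pure, eventually_sup, eventually_pure]
    exact ⟨h.eventually_analyticAt.mono fun _ a => a.meromorphicAt, h⟩
  obtain ⟨ε, h2, h3⟩ := Metric.eventually_nhds_iff_ball.1 h1
  filter_upwards [Ioo_mem_nhdsGT h2] with r hr
  exact ⟨F, fun w hw => h3 w (ball_subset_ball hr.2.le hw), EventuallyEq.rfl⟩

/-- the elements whose germs extend to `W` -/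
def LR.extF {Ω : Type} [Field Ω] [Algebra ℂ Ω] {σ : ℂ ≃+* ℂ} {R : Ω → Ω}
    {K : IntermediateField ℂ Ω} {z : ℂ} {E : Ω → ℂ → ℂ} (h : LR σ R K z E) (W : Set ℂ) :
    IntermediateField ℂ K where
  carrier := {f | Ext W z (E f)}
  mul_mem' := by
    rintro f g ⟨F, f1, f2⟩ ⟨G, g1, g2⟩
    exact ⟨F * G, f1.mul g1, (f2.mul g2).trans (h.mul _ f.2 _ g.2).symm⟩
  add_mem' := by
    rintro f g ⟨F, f1, f2⟩ ⟨G, g1, g2⟩
    exact ⟨F + G, f1.add g1, (f2.add g2).trans (h.add _ f.2 _ g.2).symm⟩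
  algebraMap_mem' c := ⟨fun _ => σ c, fun w _ => MeromorphicAt.const _ w, (h.cst c).symm⟩
  inv_mem' := by
    rintro f ⟨F, f1, f2⟩
    refine ⟨F⁻¹, f1.inv, f2.inv.trans ((h.rpe f).inv.unique ?_)⟩
    rw [← map_inv₀]
    exact h.rpe _

theorem LR.ball_cff {Ω : Type} [Field Ω] [Algebra ℂ Ω] {σ : ℂ ≃+* ℂ} {R : Ω → Ω}
    {K : IntermediateField ℂ Ω} [CFF ℂ K] {z : ℂ} {E : Ω → ℂ → ℂ} (h : LR σ R K z E) :
    ∃ r : ℝ, 0 < r ∧ ∀ f ∈ K, Ext (ball z r) z (E f) := by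
  obtain ⟨x, -, hx⟩ := CFF.ex (k := ℂ) (F := K)
  let b := Module.finBasis ℂ⟮x⟯ K
  obtain ⟨r, ⟨r1, r2⟩, r0⟩ := (((ext_small (h.mero _ x.2)).and (eventually_all.2 fun i =>
    ext_small (h.mero _ (b i).2))).and self_mem_nhdsWithin).exists
  refine ⟨r, r0, fun f hf => ?_⟩
  have le : ℂ⟮x⟯ ≤ h.extF (ball z r) := adjoin_simple_le_iff.2 r1
  have : (⟨f, hf⟩ : K) ∈ h.extF (ball z r) := by
    rw [← b.sum_repr ⟨f, hf⟩]
    exact sum_mem fun i _ => mul_mem (le (b.repr ⟨f, hf⟩ i).2) (r2 i)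
  exact this

theorem ball_row (unr : UNR) : BALL := by
  intro Ω _ _ σ R K L _ lv z E h
  obtain ⟨r, r0, hr⟩ := (h.res lv.le lv.mem).ball_cff
  exact ⟨r, r0, unr Ω σ R K L lv z E r r0 h hr⟩

theorem plc_row : PLC := plc mob_row

theorem inj_row : INJ := inj plc_row

theorem foc_row : FOC := foc mob_row

end Vale.Agent.P022K.Sh.Un
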