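import Vale.Agent.P022K.F0.EndD
import Vale.Agent.P022K.F0.Cf.Der
import Vale.Agent.P022K.F0.UnA

/-!
# P022K, block F0, row UNIF: the rows about towers and the glue
-/

set_option autoImplicit false

open UpperHalfPlane Filter Topology Polynomial
open scoped MatrixGroups

noncomputable section

namespace Vale.Agent.P022K.Sh

open Vale.Agent.P022 Vale.Agent.P022.H218.L3 Vale.Agent.P019P Un
open Vale.Agent.P022K.F0.Cf (DM)

/-- the Schwarzian invariant -/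
def Rs (s : Mer) : Mer := (DM (DM (DM s)) / DM s - 3 / 2 * (DM (DM s) / DM s) ^ 2) / DM s ^ 2

variable {G0 G : Type} [Group G0] [Group G] (T : Tw G0 G)

namespace Tw

/-- the function field of the component of `1` of the tower -/
def LU : IntermediateField ℂ Mer := ⨆ U : T.Lev, T.K1 U

variable {T} in
theorem KU_anti {U U' : Subgroup G} (h : U' ≤ U) : T.K1 U ≤ T.K1 U' := fun _ hf =>
  T.mem_KF.2 fun γ hγ => T.mem_KF.1 hf γ (T.mem_Gam.2 (h (T.mem_Gam.1 hγ)))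

variable {T} in
theorem KU_le {U : Subgroup G} (h : U ∈ T.Lev) : T.K1 U ≤ T.LU :=
  le_iSup (fun U : T.Lev => T.K1 U) ⟨U, h⟩

variable {T} in
theorem mem_LU (hk : T.Ok) {f : Mer} : f ∈ T.LU ↔ ∃ U ∈ T.Lev, f ∈ T.K1 U := by
  refine ⟨fun h => ?_, fun ⟨U, hU, h⟩ => KU_le hU h⟩
  obtain ⟨U0, h0, -⟩ := hk.neat
  have : Nonempty T.Lev := ⟨⟨U0, h0⟩⟩
  have d : Directed (· ≤ ·) fun U : T.Lev => T.K1 U := fun U U' =>
    ⟨⟨U.1 ⊓ U'.1, hk.inf _ U.2 _ U'.2⟩, KU_anti inf_le_left, KU_anti inf_le_right⟩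
  have e := IntermediateField.coe_iSup_of_directed d
  have h' : f ∈ ((⨆ U : T.Lev, T.K1 U : IntermediateField ℂ Mer) : Set Mer) := h
  rw [e] at h'
  obtain ⟨U, hU⟩ := Set.mem_iUnion.1 h'
  exact ⟨U.1, U.2, hU⟩

variable {T} in
theorem act_KU {U : Subgroup G} {f : Mer} (hf : f ∈ T.K1 U) (γ : G0) :
    T.act γ f ∈ T.K1 (cj (T.j γ) U) := T.mem_KF.2 fun δ hδ => by
  have h : γ⁻¹ * δ * γ ∈ T.Gam U 1 := by
    have := mem_cj.1 (T.mem_Gam.1 hδ)
    rw [T.mem_Gam]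
    simpa using this
  have e := congrArg (T.act γ) (T.mem_KF.1 hf _ h)
  rw [← AlgEquiv.mul_apply, ← map_mul] at e
  rw [← AlgEquiv.mul_apply, ← map_mul, ← e]
  congr 2
  group

variable {T} in
theorem act_LU (hk : T.Ok) {f : Mer} (hf : f ∈ T.LU) (γ : G0) : T.act γ f ∈ T.LU := by
  obtain ⟨U, hU, h⟩ := (mem_LU hk).1 hf
  exact KU_le (hk.conj U hU _) (act_KU h γ)

/-- **NRM**: the tower is normal over every level -/
def NRM : Prop := ∀ U ∈ T.Lev, ∀ f ∈ T.LU, ∃ (P : (T.K1 U)[X]) (s : Multiset Mer),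
  (∀ a ∈ s, ∃ γ ∈ T.Gam U 1, a = T.act γ f) ∧ f ∈ s ∧
    P.map (algebraMap (T.K1 U) Mer) = (s.map fun a => X - C a).prod

/-- **LV**: neat levels have conjugate charts -/
def LV : Prop := ∀ σ, ∀ U ∈ T.Lev, T.Neat U → ∀ [CFF ℂ (T.K1 U)] (pt : ℍ → Plk ℂ (T.K1 U)),
  T.Pts (T.Gam U 1) pt → Lv σ Rs (T.K1 U) T.LU

/-- **ROT**: the conjugate chart at a point, normalised by the stabiliser -/
def ROT : Prop := ∀ σ τ, ∃ E, LR σ Rs T.LU 0 E ∧
  ∀ γ, T.r γ • τ = τ → Rot T.LU E (σ (T.mu γ τ))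

/-- **ENA**: from the maximal realisation to the function field -/
def ENA : Prop := ∀ σ E, Rl σ Rs T.LU Hs E → Mx T.LU Hs E → ∃ ι, T.Unf σ ι

end Tw

/-- the row UNIF from the rows -/
theorem unif_of (cf : All fun T => T.CF) (uni : UNI) (lv : All fun T => T.LV)
    (rot : All fun T => T.ROT) (ena : All fun T => T.ENA) (en : All fun T => T.END) :
    All fun T => T.UNIF := by
  intro G0 G _ _ T hk σ τ h1 ⟨γ, h2, h3⟩
  obtain ⟨U, hU, hn⟩ := hk.neat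
  obtain ⟨_, pt, hp⟩ := cf G0 G T hk _ (hk.fu U hU 1)
  have hl := lv G0 G T hk σ U hU hn pt hp
  obtain ⟨E, hE, hr⟩ := rot G0 G T hk σ τ
  obtain ⟨E', a, b⟩ := uni Mer σ Rs _ _ hl.toLv0 hl E _ hE (h1 γ h2) (fun n hn' e => h3 n hn' <|
    σ.injective (by rw [map_pow, e, map_one])) (hr γ h2)
  obtain ⟨e, he⟩ := ena G0 G T hk σ E' a b
  exact en G0 G T hk σ e he ⟨τ, γ, h2, h3⟩

end Vale.Agent.P022K.Sh
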