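import Vale.Agent.P022K.F0.UnMob

/-!
# P022K, block F0, row UNIF: Moebius maps as matrices; spreading of local realisations
-/

set_option autoImplicit false

open Filter Topology Metric
open scoped MatrixGroups

noncomputable section

namespace Vale.Agent.P022K.Sh.Un

open Vale.Agent.P019P

section mob

variable {M N : GL (Fin 2) ℂ} {z : ℂ}

theorem mob_an (h : den M z ≠ 0) : AnalyticAt ℂ (mob M) z := (lo_mob h).an

theorem mob_der (h : den M z ≠ 0) :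
    HasDerivAt (mob M) ((M 0 0 * M 1 1 - M 0 1 * M 1 0) / den M z ^ 2) z := mb_hasDerivAt h

theorem ev_mob (h : den M z ≠ 0) {F G : ℂ → ℂ} (e : F =ᶠ[𝓝[≠] mob M z] G) :
    F ∘ mob M =ᶠ[𝓝[≠] z] G ∘ mob M := (lo_mob h).tendsto.eventually e

theorem mero_mob (h : den M z ≠ 0) {F : ℂ → ℂ} (hF : MeromorphicAt F (mob M z)) :
    MeromorphicAt (F ∘ mob M) z := (lo_mob h).mero hF

theorem ord_mob (h : den M z ≠ 0) {F : ℂ → ℂ} (hF : MeromorphicAt F (mob M z)) :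
    meromorphicOrderAt (F ∘ mob M) z = meromorphicOrderAt F (mob M z) := by
  rw [← ((rp_gm hF).cmp (lo_mob h)).od, (lo_mob h).od_cmp, (rp_gm hF).od]

theorem comp_mob_mul (h : den N z ≠ 0) (F : ℂ → ℂ) :
    F ∘ mob (M * N) =ᶠ[𝓝[≠] z] (F ∘ mob M) ∘ mob N := by
  filter_upwards [mem_nhdsWithin_of_mem_nhds (den_ev h)] with w hw
  rw [Function.comp_apply, mob_mul _ _ hw]
  rfl

/-- move a Moebius map to the other side -/
theorem ev_mob_inv (h : den M z ≠ 0) {F G : ℂ → ℂ} (e : F =ᶠ[𝓝[≠] z] G ∘ mob M) :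
    F ∘ mob M⁻¹ =ᶠ[𝓝[≠] mob M z] G := by
  have e' : F =ᶠ[𝓝[≠] mob M⁻¹ (mob M z)] G ∘ mob M := by rwa [mob_inv_mob h]
  refine (ev_mob (den_inv h) e').trans ((comp_mob_mul (den_inv h) G).symm.trans ?_)
  rw [mul_inv_cancel]
  exact Eventually.of_forall fun w => congrArg G (mob_one w)

theorem deriv_mob (h : den M z ≠ 0) {F : ℂ → ℂ} (hF : MeromorphicAt F (mob M z)) :
    deriv (F ∘ mob M) =ᶠ[𝓝[≠] z] fun w => deriv F (mob M w) *
      ((M 0 0 * M 1 1 - M 0 1 * M 1 0) / den M w ^ 2) := by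
  filter_upwards [mem_nhdsWithin_of_mem_nhds (den_ev h),
    (lo_mob h).tendsto.eventually (rp_gm hF).ev] with w h1 h2
  exact (h2.hasDerivAt.comp w (mob_der h1)).deriv

end mob

theorem sf_congr {z : ℂ} {F G : ℂ → ℂ} (e : F =ᶠ[𝓝[≠] z] G) : Sf F =ᶠ[𝓝[≠] z] Sf G := by
  filter_upwards [e.nhdsNE_deriv, e.nhdsNE_deriv.nhdsNE_deriv,
    e.nhdsNE_deriv.nhdsNE_deriv.nhdsNE_deriv] with w h1 h2 h3
  simp only [Sf, h1, h2, h3]

theorem sf_mero {z : ℂ} {F : ℂ → ℂ} (h : MeromorphicAt F z) : MeromorphicAt (Sf F) z :=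
  (h.deriv.deriv.deriv.div h.deriv).sub
    ((MeromorphicAt.const (3 / 2 : ℂ) z).mul ((h.deriv.deriv.div h.deriv).pow 2))

section

variable {Ω : Type} [Field Ω] [Algebra ℂ Ω] {σ : ℂ ≃+* ℂ} {R : Ω → Ω}
  {K L : IntermediateField ℂ Ω} {z : ℂ} {E E' : Ω → ℂ → ℂ} {W : Set ℂ}

theorem Rl.sub (h : Rl σ R L W E) (le : K ≤ L) (m : ∀ s ∈ K, R s ∈ K) : Rl σ R K W E :=
  fun z hz => (h z hz).mono le m

theorem Rl.on (h : Rl σ R L W E) {f : Ω} (hf : f ∈ L) : MeromorphicOn (E f) W :=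
  fun z hz => (h z hz).mero f hf

theorem LR.cgr (h : LR σ R K z E) (e : ∀ f ∈ K, E' f =ᶠ[𝓝[≠] z] E f) : LR σ R K z E' where
  mero f hf := (h.mero f hf).congr (e f hf).symm
  add f hf g hg := (e _ (add_mem hf hg)).trans
    ((h.add f hf g hg).trans ((e f hf).symm.add (e g hg).symm))
  mul f hf g hg := (e _ (mul_mem hf hg)).trans
    ((h.mul f hf g hg).trans ((e f hf).symm.mul (e g hg).symm))
  cst c := (e _ (K.algebraMap_mem c)).trans (h.cst c)
  mem := h.mem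
  sw s hs := (sf_congr (e s hs)).trans ((h.sw s hs).trans ((e _ (h.mem s hs)).symm.mul
    ((e s hs).symm.nhdsNE_deriv.pow_const 2)))

/-- the identities of a realisation spread over a connected set -/
theorem LR.spread (h : LR σ R K z E) (hW : IsPreconnected W) (hz : z ∈ W)
    (m : ∀ f ∈ K, MeromorphicOn (E f) W) : Rl σ R K W E := fun w hw =>
  { mero := fun f hf => m f hf w hw
    add := fun f hf g hg => mero_ident hW (m _ (add_mem hf hg)) ((m f hf).add (m g hg)) hz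
      (h.add f hf g hg) w hw
    mul := fun f hf g hg => mero_ident hW (m _ (mul_mem hf hg)) ((m f hf).mul (m g hg)) hz
      (h.mul f hf g hg) w hw
    cst := fun c => mero_ident hW (m _ (K.algebraMap_mem c)) (fun y _ => .const _ y) hz
      (h.cst c) w hw
    mem := h.mem
    sw := fun s hs => mero_ident hW (fun y hy => sf_mero (m s hs y hy))
      (fun y hy => (m _ (h.mem s hs) y hy).mul ((m s hs y hy).deriv.pow 2)) hz (h.sw s hs) w hw }

theorem LR.ex_rl (h : LR σ R K z E) (hW : IsPreconnected W) (hz : z ∈ W)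
    (x : ∀ f ∈ K, Ext W z (E f)) : ∃ E', Rl σ R K W E' ∧ ∀ f ∈ K, E' f =ᶠ[𝓝[≠] z] E f := by
  choose! E' h1 h2 using x
  exact ⟨E', (h.cgr h2).spread hW hz h1, h2⟩

theorem LR.one' (h : LR σ R K z E) : E 1 =ᶠ[𝓝[≠] z] fun _ => 1 := by simpa using h.cst 1

theorem LR.zero' (h : LR σ R K z E) : E 0 =ᶠ[𝓝[≠] z] fun _ => 0 := by simpa using h.cst 0

theorem LR.ne' (h : LR σ R K z E) {f : Ω} (hf : f ∈ K) (h0 : f ≠ 0) :
    ∀ᶠ w in 𝓝[≠] z, E f w ≠ 0 := by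
  have := h.mul f hf _ (inv_mem hf)
  rw [mul_inv_cancel₀ h0] at this
  filter_upwards [this, h.one'] with w h1 h2 e
  rw [h2, Pi.mul_apply, e, zero_mul] at h1
  exact one_ne_zero h1

theorem LR.inv' (h : LR σ R K z E) {f : Ω} (hf : f ∈ K) : E f⁻¹ =ᶠ[𝓝[≠] z] (E f)⁻¹ := by
  rcases eq_or_ne f 0 with rfl | h0
  · rw [inv_zero]
    filter_upwards [h.zero'] with w hw
    simp [hw]
  have := h.mul f hf _ (inv_mem hf)
  rw [mul_inv_cancel₀ h0] at this
  filter_upwards [this, h.one'] with w h1 h2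
  rw [h2] at h1
  exact eq_inv_of_mul_eq_one_right h1.symm

theorem LR.sub_cst (h : LR σ R K z E) {f : Ω} (hf : f ∈ K) (c : ℂ) :
    E (f - algebraMap ℂ Ω c) =ᶠ[𝓝[≠] z] fun w => E f w - σ c := by
  rw [sub_eq_add_neg, ← map_neg]
  filter_upwards [h.add f hf _ (K.algebraMap_mem (-c)), h.cst (-c)] with w h1 h2
  rw [h1, Pi.add_apply, h2, map_neg, sub_eq_add_neg]

/-- only constants have constant realisations -/
theorem LR.of_cst (h : LR σ R K z E) {f : Ω} (hf : f ∈ K) {c : ℂ}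
    (e : E f =ᶠ[𝓝[≠] z] fun _ => c) : f = algebraMap ℂ Ω (σ.symm c) := by
  by_contra n
  obtain ⟨w, h1, h2, h3⟩ := ((h.ne' (sub_mem hf (K.algebraMap_mem _)) (sub_ne_zero.2 n)).and
    ((h.sub_cst hf (σ.symm c)).and e)).exists
  exact h1 (h2.trans (by simp [h3]))

theorem LR.deriv_ne (h : LR σ R K z E) {s : Ω} (hs : s ∈ K) (n : ∀ c, s ≠ algebraMap ℂ Ω c) :
    ∀ᶠ w in 𝓝[≠] z, deriv (E s) w ≠ 0 := by
  have r := rp_gm (h.mero s hs)
  refine r.D.ne_zero_iff.1 fun e => ?_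
  obtain ⟨c, hc⟩ := D_eq_zero.1 e
  exact n _ (h.of_cst hs ((r.eq_iff (Un.rp_cst c)).1 hc))

theorem Pl.cgr [CFF ℂ K] {y : Plk ℂ K} (h : Pl K z E y) (e : ∀ f ∈ K, E' f =ᶠ[𝓝[≠] z] E f) :
    Pl K z E' y := fun f hf => (meromorphicOrderAt_congr (e f f.2)).trans (h f hf)

theorem Pl.uniq [CFF ℂ K] {y y' : Plk ℂ K} (h : Pl K z E y) (h' : Pl K z E y') : y = y' := by
  refine Subtype.ext (ValuationSubring.ext _ _ fun f => ?_)
  rw [mem_iff_ord, mem_iff_ord]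
  refine or_congr_right' fun h0 => ?_
  rw [WithTop.coe_injective ((h f h0).symm.trans (h' f h0))]

theorem Pl.mob_iff [CFF ℂ K] {y : Plk ℂ K} {M : GL (Fin 2) ℂ} (d : den M z ≠ 0)
    (m : ∀ f ∈ K, MeromorphicAt (E f) (mob M z)) :
    Pl K z (fun f => E f ∘ mob M) y ↔ Pl K (mob M z) E y :=
  forall_congr' fun f => by rw [ord_mob d (m f f.2)]

end

end Vale.Agent.P022K.Sh.Un
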