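import Vale.Agent.P022K.F0.UnD
import Vale.Agent.P022K.F0.UnI
import Vale.Agent.P022K.F0.Cf.Rows

/-!
# P022K, block F0, row UNIF: germs of the elements of `Mer`
-/

set_option autoImplicit false

open UpperHalfPlane Filter Topology
open scoped MatrixGroups

noncomputable section

namespace Vale.Agent.P022K.Sh.Gz

open Vale.Agent.P022 Vale.Agent.P022.H218.L3 Un
open Vale.Agent.P022K.F0
open Vale.Agent.P022K.F0.Cf (jm DM dH ac acH dr mv Reg)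

theorem ev_ne {p : ℂ → Prop} {τ : ℍ} :
    (∀ᶠ z in 𝓝[≠] (τ : ℂ), p z) ↔ ∀ᶠ σ : ℍ in 𝓝[≠] τ, p σ := by
  rw [eventually_nhdsWithin_iff, eventually_nhdsWithin_iff, Cf.ev_coe]
  simp only [Set.mem_compl_iff, Set.mem_singleton_iff, UpperHalfPlane.ext_iff]

theorem Hs_open : IsOpen Hs := isOpen_upperHalfPlaneSet

theorem Hs_conn : IsPreconnected Hs := (convex_halfSpace_im_gt 0).isPreconnected

theorem mem_Hs (τ : ℍ) : (τ : ℂ) ∈ Hs := τ.im_pos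

/-- the function on `ℂ` -/
abbrev fc (f : Hol) : ℂ → ℂ := f.1 ∘ ofComplex

theorem fc_on (f : Hol) : MeromorphicOn (fc f) Hs := fun z hz => (Cf.an f ⟨z, hz⟩).meromorphicAt

/-- the germ of a holomorphic function -/
def gH (τ : ℍ) : Hol →+* Mz τ where
  toFun f := gm τ (fc f)
  map_one' := rp_one.gm_eq
  map_zero' := rp_zero.gm_eq
  map_add' f g := ((rp_gm (Cf.an f τ).meromorphicAt).add (rp_gm (Cf.an g τ).meromorphicAt)).gm_eq
  map_mul' f g := ((rp_gm (Cf.an f τ).meromorphicAt).mul (rp_gm (Cf.an g τ).meromorphicAt)).gm_eq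

theorem rp_gH (τ : ℍ) (f : Hol) : Rp (gH τ f) (fc f) := rp_gm (Cf.an f τ).meromorphicAt

theorem od_gH {τ : ℍ} {u : Hol} (h : u.1 τ ≠ 0) : od (gH τ u) = 0 := by
  rw [(rp_gH τ u).od, (Cf.an u τ).meromorphicOrderAt_eq,
    analyticOrderAt_eq_zero.2 (.inr (by simpa using h))]
  rfl

theorem gH_tz (τ : ℍ) : gH τ (Cf.tz τ) = tz (τ : ℂ) :=
  ((rp_gH τ _).eq_iff rp_tz).2 (ev_ne.2 (Eventually.of_forall fun σ => by simp [Cf.tz_val]))

theorem gH_ne {τ : ℍ} {u : Hol} (h : u.1 τ ≠ 0) : gH τ u ≠ 0 := fun e => by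
  simpa [e, od_zero] using od_gH h

theorem gH_inj (τ : ℍ) : Function.Injective (gH τ) := by
  rw [injective_iff_map_eq_zero]
  intro f hf
  by_contra h0
  obtain ⟨m, u, hu, e⟩ := Cf.ex_fac τ h0
  rw [e, map_mul, map_pow, gH_tz] at hf
  exact mul_ne_zero (pow_ne_zero _ tz_ne) (gH_ne hu) hf

/-- the germ at `τ` of an element of `Mer` -/
def gz (τ : ℍ) : Mer →+* Mz τ := IsFractionRing.lift (gH_inj τ)

theorem gz_jm (τ : ℍ) (f : Hol) : gz τ (jm f) = gH τ f := IsFractionRing.lift_algebraMap _ f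

theorem rp_jm (τ : ℍ) (f : Hol) : Rp (gz τ (jm f)) (fc f) := gz_jm τ f ▸ rp_gH τ f

theorem gz_cst (τ : ℍ) (c : ℂ) : gz τ (algebraMap ℂ Mer c) = algebraMap ℂ _ c := by
  rw [← Cf.jm_const]
  exact (rp_jm τ _).eq (rp_cst c)

theorem od_gz (τ : ℍ) {y : Mer} (hy : y ≠ 0) : od (gz τ y) = (Cf.od τ y : ℤ) := by
  obtain ⟨g, h, g0, h0, e⟩ := Cf.isOd τ hy
  have := congrArg (fun x => od (gz τ x)) e
  simp only [map_mul, map_zpow₀, gz_jm, od_mul, od_gH g0, od_gH h0, gH_tz, od_zpow, od_tz] at this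
  simpa using this

theorem reg_gz {τ : ℍ} {y : Mer} : Reg τ y ↔ gz τ y ∈ Oz (τ : ℂ) := by
  rw [Cf.reg_iff, mem_Oz]
  rcases eq_or_ne y 0 with rfl | h
  · simp [od_zero]
  · rw [od_gz τ h]
    simp [h]

theorem mval_gz {τ : ℍ} {y : Mer} {c : ℂ} : MVal τ y c ↔ Vl (gz τ y) c := by
  have key : ∀ c, MVal τ y c → Vl (gz τ y) c := fun c h => by
    obtain ⟨h1, rfl⟩ := mval_iff.1 h
    rw [Vl, ← gz_cst, ← map_sub]
    rcases eq_or_ne (y - algebraMap ℂ Mer (Cf.ev τ y)) 0 with e | e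
    · simp [e, od_zero]
    · rw [od_gz τ e]
      exact_mod_cast h1.sub_ev e
  refine ⟨key c, fun h => ?_⟩
  have r := reg_gz.2 (mem_Oz_iff_vl.2 ⟨c, h⟩)
  exact mval_iff.2 ⟨r, (key _ (mval_iff.2 ⟨r, rfl⟩)).unique h⟩

theorem mord_gz {τ : ℍ} {y : Mer} {n : ℤ} : MOrd τ y n ↔ od (gz τ y) = n := by
  rw [mord_iff]
  rcases eq_or_ne y 0 with rfl | h
  · simp [od_zero]
  · rw [od_gz τ h]
    simp [h]

theorem gz_D (τ : ℍ) (y : Mer) : gz τ (DM y) = Mz.D τ (gz τ y) := by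
  have hj : ∀ f : Hol, gz τ (DM (jm f)) = Mz.D τ (gz τ (jm f)) := fun f => by
    rw [Cf.DM_jm]
    exact ((rp_jm τ _).eq_iff (rp_jm τ f).D).2
      (ev_ne.2 (Eventually.of_forall fun σ => by simp [dH]))
  obtain ⟨g, h, h0, e⟩ := Cf.ex_frac y
  have h1 := congrArg (fun x => gz τ (DM x)) e
  have h2 := congrArg (fun x => Mz.D τ (gz τ x)) e
  simp only [map_add, map_mul, hj, Derivation.leibniz, smul_eq_mul] at h1 h2
  refine mul_left_cancel₀ ((map_ne_zero (gz τ)).2 (Cf.jm_ne h0)) ?_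
  linear_combination h1 - h2

theorem rp_iff {τ : ℍ} {y : Mer} {g h : Hol} (h0 : h ≠ 0) (e : y * jm h = jm g) {F : ℂ → ℂ} :
    Rp (gz τ y) F ↔ ∀ᶠ σ : ℍ in 𝓝[≠] τ, F σ = g.1 σ / h.1 σ := by
  have r : Rp (gz τ y) (fc g / fc h) := by
    rw [eq_div_of_mul_eq (Cf.jm_ne h0) e, map_div₀]
    exact (rp_jm τ g).div (rp_jm τ h)
  have k : F =ᶠ[𝓝[≠] (τ : ℂ)] fc g / fc h ↔ ∀ᶠ σ : ℍ in 𝓝[≠] τ, F σ = g.1 σ / h.1 σ := by
    rw [EventuallyEq, ev_ne]
    simp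
  exact ⟨fun a => k.1 (a.unique r), fun a => r.congr (k.2 a).symm⟩

/-- `F` represents `y` -/
def Rep (y : Mer) (F : ℂ → ℂ) : Prop := ∀ τ : ℍ, Rp (gz τ y) F

theorem ex_rep (y : Mer) : ∃ F, Rep y F := by
  obtain ⟨g, h, h0, e⟩ := Cf.ex_frac y
  exact ⟨fc g / fc h, fun τ => (rp_iff h0 e).2 (Eventually.of_forall fun σ => by simp)⟩

theorem Rep.on {y : Mer} {F : ℂ → ℂ} (h : Rep y F) : MeromorphicOn F Hs :=
  fun z hz => (h ⟨z, hz⟩).mero

theorem rep_of {y : Mer} {F : ℂ → ℂ} (hF : MeromorphicOn F Hs) {τ : ℍ} (h : Rp (gz τ y) F) :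
    Rep y F := fun σ => by
  obtain ⟨F', h'⟩ := ex_rep y
  exact (h' σ).congr (mero_ident Hs_conn h'.on hF (mem_Hs τ) ((h' τ).unique h) _ (mem_Hs σ))

theorem tendsto_smul (g : GP) (τ : ℍ) : Tendsto (fun σ : ℍ => g • σ) (𝓝[≠] τ) (𝓝[≠] (g • τ)) := by
  refine tendsto_nhdsWithin_iff.2 ⟨(Cf.cont_sm g).continuousAt.mono_left nhdsWithin_le_nhds, ?_⟩
  filter_upwards [self_mem_nhdsWithin] with σ hσ e
  exact hσ (MulAction.injective g e)

theorem Rep.act {y : Mer} {F F' : ℂ → ℂ} (h : Rep y F) (g : GP)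
    (e : ∀ σ : ℍ, F' σ = F (g⁻¹ • σ : ℍ)) : Rep (actM g y) F' := fun τ => by
  obtain ⟨u, v, v0, e1⟩ := Cf.ex_frac y
  have e2 : actM g y * jm (actH g v) = jm (actH g u) := by
    rw [jm, ← actM_algebraMap, ← map_mul, e1, actM_algebraMap]
  refine (rp_iff ((map_ne_zero_iff _ (actH g).injective).2 v0) e2).2 ?_
  filter_upwards [(tendsto_smul g⁻¹ τ).eventually ((rp_iff v0 e1).1 (h _))] with σ hσ
  rw [e, hσ, actH_apply, actH_apply]

/-- a meromorphic function without poles is holomorphic -/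
theorem ex_hol {F : ℂ → ℂ} (hF : MeromorphicOn F Hs) (h : ∀ z ∈ Hs, 0 ≤ meromorphicOrderAt F z) :
    ∃ f : Hol, Rep (jm f) F := by
  have e : ∀ z ∈ Hs, toMeromorphicNFOn F Hs =ᶠ[𝓝[≠] z] F :=
    fun z hz => hF.toMeromorphicNFOn_eq_self_on_nhdsNE hz
  have an : ∀ z ∈ Hs, AnalyticAt ℂ (toMeromorphicNFOn F Hs) z := fun z hz =>
    (meromorphicNFOn_toMeromorphicNFOn F Hs hz).meromorphicOrderAt_nonneg_iff_analyticAt.1
      (meromorphicOrderAt_congr (e z hz) ▸ h z hz)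
  refine ⟨⟨fun τ => toMeromorphicNFOn F Hs τ, Cf.hol_of_loc fun τ =>
    ⟨_, (an τ (mem_Hs τ)).differentiableAt, Eventually.of_forall fun _ => rfl⟩⟩, fun τ => ?_⟩
  refine (rp_jm τ _).congr (EventuallyEq.trans ?_ (e τ (mem_Hs τ)))
  exact ev_ne.2 (Eventually.of_forall fun σ => by simp)

theorem Sw_mv (g : GP) : Sw DM (jm (mv g)) = 0 := by
  refine (gz I).injective ?_
  rw [map_zero, ← Sw_map DM (Mz.D (I : ℍ)) (gz I) (fun x => (gz_D I x).symm),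
    ← Sw_mb (z := (I : ℍ)) (g.1 0 0) (g.1 0 1) (g.1 1 0) (g.1 1 1)]
  congr 1
  refine ((rp_jm I _).congr (ev_ne.2 (Eventually.of_forall fun σ => ?_))).gm_eq.symm
  simp only [Function.comp_apply, ofComplex_apply]
  exact coe_smul_of_det_pos g.2 σ

/-- the Schwarzian invariant is invariant -/
theorem Rs_act (g : GP) (s : Mer) : Rs (actM g s) = actM g (Rs s) := by
  have d0 : DM (jm (mv g⁻¹)) ≠ 0 := by
    rw [Cf.DM_jm]
    exact Cf.jdr_ne g⁻¹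
  have c : ∀ x, DM ((actM g).toRingEquiv.toRingHom x) =
      (actM g).toRingEquiv.toRingHom (DM x) * DM (jm (mv g⁻¹)) := fun x => by
    rw [Cf.DM_jm]
    exact Cf.DM_ac g x
  have c' : DM (actM g s) = actM g (DM s) * DM (jm (mv g⁻¹)) := c s
  rcases eq_or_ne (DM s) 0 with h | h
  · rw [Rs, Rs, c', h]
    simp
  have : CharZero Mer := charZero_of_injective_algebraMap (algebraMap ℂ Mer).injective
  have e : Sw DM (actM g s) = actM g (Sw DM s) * _ ^ 2 + _ := Sw_chain DM DM _ d0 c h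
  change Sw DM (actM g s) / _ = actM g (Sw DM s / _)
  rw [e, Sw_mv, add_zero, c', mul_pow, mul_div_mul_right _ _ (pow_ne_zero 2 d0), map_div₀, map_pow]

end Vale.Agent.P022K.Sh.Gz
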