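import Vale.Agent.P022K.F0.UnB

/-!
# P022K, block F0, row UNIF: the rows SIG and GLOB
-/

set_option autoImplicit false

open Filter Topology Metric Polynomial
open scoped MatrixGroups LaurentSeries PowerSeries

noncomputable section

namespace Vale.Agent.P022K.Sh.Un

open Vale.Agent.P019P P027M.K

theorem tay_rot (F : ℂ → ℂ) (l : ℂ) :
    tay 0 (fun w => F (l * w)) = PowerSeries.rescale l (tay 0 F) := by
  have h : ∀ n, iteratedDeriv n (fun w => F (l * w)) =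
      fun w => l ^ n * iteratedDeriv n F (l * w) := fun n => by
    induction n with
    | zero => simp
    | succ n ih =>
      funext w
      rw [iteratedDeriv_succ, ih, deriv_const_mul_field,
        deriv_comp_mul_left l (iteratedDeriv n F) w, iteratedDeriv_succ, smul_eq_mul]
      ring
  ext n
  simp only [tay, PowerSeries.coeff_mk, PowerSeries.coeff_rescale, h, mul_zero]
  ring

theorem lo_rot {l : ℂ} (h : l ≠ 0) : Lo (fun w => l * w) 0 0 :=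
  ⟨by fun_prop, by simpa using h, mul_zero l⟩

/-- `y` is obtained from `x` by conjugating the coefficients -/
def Cg (σ : ℂ →+* ℂ) (x y : Mz 0) : Prop := ser 0 y = mapL σ (ser 0 x)

variable {τ : ℂ →+* ℂ} {x y x' y' : Mz 0}

theorem Cg.od (h : Cg τ x y) : od y = od x := by
  rw [← ser_order, ← ser_order, h, mapL_orderTop]

theorem Cg.mul (h : Cg τ x y) (h' : Cg τ x' y') : Cg τ (x * x') (y * y') := by
  rw [Cg, map_mul, map_mul, map_mul, h, h']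

theorem Cg.pow (h : Cg τ x y) (n : ℕ) : Cg τ (x ^ n) (y ^ n) := by
  rw [Cg, map_pow, map_pow, map_pow, h]

theorem Cg.inv (h : Cg τ x y) : Cg τ x⁻¹ y⁻¹ := by
  rw [Cg, map_inv₀, map_inv₀, map_inv₀, h]

theorem Cg.D (h : Cg τ x y) : Cg τ (Mz.D 0 x) (Mz.D 0 y) := by
  rw [Cg, ser_DL, ser_DL, mapL_DL, h]

theorem Cg.Sw (h : Cg τ x y) : Cg τ (Sw (Mz.D 0) x) (Sw (Mz.D 0) y) := by
  rw [Cg, ← Sw_map (Mz.D 0) DL (ser 0) (fun x => (ser_DL x).symm),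
    ← Sw_map (Mz.D 0) DL (ser 0) (fun x => (ser_DL x).symm),
    ← Sw_map DL DL (mapL τ) (fun x => (mapL_DL τ x).symm), h]

theorem Cg.unique (h : Cg τ x y) (h' : Cg τ x y') : y = y' := ser_inj (h.trans h'.symm)

theorem Cg.rot (h : Cg τ x y) {l : ℂ} (h1 : l ≠ 0) (h2 : τ l ≠ 0) :
    Cg τ ((lo_rot h1).cmp x) ((lo_rot h2).cmp y) := by
  have key : ∀ {x y : Mz 0}, Cg τ x y → x ∈ Oz 0 →
      Cg τ ((lo_rot h1).cmp x) ((lo_rot h2).cmp y) := fun {x y} h hx => by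
    obtain ⟨F, f1, f2⟩ := mem_Oz_iff.1 hx
    obtain ⟨G, g1, g2⟩ := mem_Oz_iff.1 (show y ∈ Oz 0 by rwa [mem_Oz, h.od])
    have a : ∀ (l : ℂ) {F : ℂ → ℂ}, AnalyticAt ℂ F 0 → AnalyticAt ℂ (F ∘ fun w => l * w) 0 :=
      fun l F hF => AnalyticAt.comp_of_eq hF (by fun_prop) (mul_zero l)
    rw [Cg, g2.ser g1, f2.ser f1, mapL_coe] at h
    rw [Cg, (g2.cmp _).ser (a _ g1), (f2.cmp _).ser (a _ f1), mapL_coe, Function.comp_def,
      Function.comp_def, tay_rot, tay_rot, HahnSeries.ofPowerSeries_injective h,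
      PowerSeries.rescale_map]
  rcases (Oz 0).mem_or_inv_mem x with hx | hx
  · exact key h hx
  · have := (key h.inv hx).inv
    rwa [map_inv₀, map_inv₀, inv_inv, inv_inv] at this

theorem Cv.exists_ser {a : ℂ⟦X⟧} (h : Cv a) : ∃ y : Mz 0, ser 0 y = (a : ℂ⸨X⸩) := by
  obtain ⟨c, c0, hc⟩ := h
  exact ⟨_, ser_of_has (ball_of_le c0 hc).hasFPowerSeriesAt⟩

/-- the field level form of `chart0` -/
theorem exists_cg {L : Type*} [Field L] [Algebra ℂ L] (e : L →+* Mz 0)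
    (hc : ∀ c, e (algebraMap ℂ L c) = algebraMap ℂ _ c) {t r : L} (ht : od (e t) = 1)
    (hS : Sw (Mz.D 0) (e t) = e r * Mz.D 0 (e t) ^ 2)
    (alg : ∀ f : L, ∃ P : ℂ[X][X], P ≠ 0 ∧ P.eval₂ (aeval t).toRingHom f = 0) (τ : ℂ →+* ℂ)
    (f : L) : ∃ y, Cg τ (e f) y := by
  let φ : L →+* ℂ⸨X⸩ := (mapL τ).comp ((ser 0).comp e)
  let ι : ℂ⟦X⟧ →+* ℂ⸨X⸩ := HahnSeries.ofPowerSeries ℤ ℂ
  have inj : Function.Injective ι := HahnSeries.ofPowerSeries_injective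
  have ps : ∀ f : L, e f ∈ Oz 0 → ∃ a : ℂ⟦X⟧, φ f = ι a := fun f hf =>
    ⟨PowerSeries.map τ (serO 0 ⟨_, hf⟩), by rw [← mapL_coe, ← ser_coe]; rfl⟩
  obtain ⟨F, f1, f2, f3, f4⟩ := od_eq_one.1 ht
  obtain ⟨T, hT, t0, t1⟩ : ∃ T : ℂ⟦X⟧, φ t = ι T ∧ PowerSeries.constantCoeff T = 0 ∧
      PowerSeries.coeff 1 T ≠ 0 := by
    refine ⟨PowerSeries.map τ (tay 0 F), by rw [← mapL_coe, ← f2.ser f1]; rfl, ?_, ?_⟩
    · rw [← PowerSeries.coeff_zero_eq_constantCoeff_apply, PowerSeries.coeff_map,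
        PowerSeries.coeff_zero_eq_constantCoeff_apply, tay_zero, f3, map_zero]
    · simpa [tay] using f4
  have al : ∀ (f : L) (a : ℂ⟦X⟧), φ f = ι a → Alg T a := fun f a ha => by
    obtain ⟨P, p0, hP⟩ := alg f
    refine ⟨P.map (mapRingHom τ), (Polynomial.map_ne_zero_iff
      (Polynomial.map_injective τ τ.injective)).2 p0, inj ?_⟩
    have h1 := congrArg φ hP
    rw [hom_eval₂, map_zero, ha] at h1
    rw [ev, coe_eval₂RingHom, eval₂_map, hom_eval₂, map_zero, ← h1]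
    congr 1
    refine Polynomial.ringHom_ext (fun c => ?_) ?_
    · simpa [φ, ι, hc, ser_cst] using (mapL_C τ c).symm
    · simpa using hT.symm
  have d0 : od (Mz.D 0 (e t)) = 0 := od_D (n := 1) one_ne_zero ht
  have d1 : Mz.D 0 (e t) ≠ 0 := fun h => by simp [h, od_zero] at d0
  have di : (Mz.D 0 (e t))⁻¹ ∈ Oz 0 := by rw [mem_Oz, od_inv, d0, neg_zero]
  have m1 : Mz.D 0 (e t) ∈ Oz 0 := mem_Oz.2 d0.ge
  have hr : e r ∈ Oz 0 := by
    have : e r = (Mz.D 0 (Mz.D 0 (Mz.D 0 (e t))) * (Mz.D 0 (e t))⁻¹ - algebraMap ℂ _ (3 / 2) *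
        (Mz.D 0 (Mz.D 0 (e t)) * (Mz.D 0 (e t))⁻¹) ^ 2) * (Mz.D 0 (e t))⁻¹ ^ 2 := by
      rw [inv_pow, eq_mul_inv_iff_mul_eq₀ (pow_ne_zero 2 d1), ← hS, Sw, map_div₀, map_ofNat,
        map_ofNat, div_eq_mul_inv, div_eq_mul_inv (Mz.D 0 _)]
    rw [this]
    exact mul_mem (sub_mem (mul_mem (D_mem (D_mem m1)) di)
      (mul_mem (cst_mem _) (pow_mem (mul_mem (D_mem m1) di) 2))) (pow_mem di 2)
  obtain ⟨ρ, hρ⟩ := ps r hr
  have sw : 2 * d⁄dX ℂ T * d⁄dX ℂ (d⁄dX ℂ (d⁄dX ℂ T)) - 3 * d⁄dX ℂ (d⁄dX ℂ T) ^ 2 =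
      2 * ρ * d⁄dX ℂ T ^ 4 := by
    have h1 : 2 * Mz.D 0 (e t) * Mz.D 0 (Mz.D 0 (Mz.D 0 (e t))) - 3 * Mz.D 0 (Mz.D 0 (e t)) ^ 2 =
        2 * e r * Mz.D 0 (e t) ^ 4 := by
      rw [Sw] at hS
      field_simp at hS
      linear_combination hS
    have h2 := congrArg (fun x => mapL τ (ser 0 x)) h1
    simp only [map_sub, map_mul, map_pow, map_ofNat, ser_DL, mapL_DL] at h2
    rw [show mapL τ (ser 0 (e t)) = ι T from hT, show mapL τ (ser 0 (e r)) = ι ρ from hρ] at h2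
    refine inj ?_
    simp only [map_sub, map_mul, map_pow, map_ofNat]
    simp only [ι, DL_coe] at h2 ⊢
    exact h2
  have key : ∀ f : L, e f ∈ Oz 0 → ∃ y, Cg τ (e f) y := fun f hf => by
    obtain ⟨a, ha⟩ := ps f hf
    obtain ⟨y, hy⟩ := (chart0 t0 t1 (al r ρ hρ) (al f a ha) sw).exists_ser
    exact ⟨y, hy.trans ha.symm⟩
  rcases (Oz 0).mem_or_inv_mem (e f) with h | h
  · exact key f h
  · obtain ⟨y, hy⟩ := key f⁻¹ (by rwa [map_inv₀])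
    exact ⟨y⁻¹, by simpa using hy.inv⟩

theorem LR.sw_e {Ω : Type} [Field Ω] [Algebra ℂ Ω] {σ : ℂ ≃+* ℂ} {R : Ω → Ω}
    {K : IntermediateField ℂ Ω} {z : ℂ} {E : Ω → ℂ → ℂ} (h : LR σ R K z E) (s : K) :
    Sw (Mz.D z) (h.e s) = h.e ⟨R s, h.mem s s.2⟩ * Mz.D z (h.e s) ^ 2 :=
  ((h.rpe s).Sw.eq_iff ((h.rpe ⟨R s, h.mem s s.2⟩).mul ((h.rpe s).D.pow 2))).2 (h.sw s s.2)

theorem sig_row : SIG := by
  intro Ω _ _ σ R L E h ⟨t, tL, t1, alg⟩
  classical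
  have ex := exists_cg h.e h.e_cst (t := ⟨t, tL⟩) ((h.od_e _).trans t1) (h.sw_e _) (fun f => by
    obtain ⟨P, p0, hP⟩ := alg f f.2
    refine ⟨P, p0, (algebraMap L Ω).injective ?_⟩
    rw [hom_eval₂, map_zero, ← hP]
    congr 1
    exact Polynomial.ringHom_ext (fun c => by simp) (by simp)) σ.toRingHom
  choose y hy using ex
  let E' : Ω → ℂ → ℂ := fun f => if hf : f ∈ L then (y ⟨f, hf⟩).out else 0
  have rp : ∀ f (hf : f ∈ L), Rp (y ⟨f, hf⟩) (E' f) := fun f hf => by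
    simp only [E', dif_pos hf]
    exact rp_out _
  refine ⟨E', ⟨fun f hf => (rp f hf).mero, fun f hf g hg => ?_, fun f hf g hg => ?_, fun c => ?_,
    h.mem, fun s hs => ?_⟩, fun f hf => ?_, fun a ha s hs k => ?_, fun l l0 f hf f' hf' e => ?_⟩
  · refine ((rp _ (add_mem hf hg)).eq_iff ((rp f hf).add (rp g hg))).1 (ser_inj ?_)
    rw [map_add, hy, hy, hy, ← map_add, ← map_add, ← map_add]
    rfl
  · refine ((rp _ (mul_mem hf hg)).eq_iff ((rp f hf).mul (rp g hg))).1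
      ((hy _).unique ?_)
    have := (hy ⟨f, hf⟩).mul (hy ⟨g, hg⟩)
    rwa [← map_mul] at this
  · refine ((rp _ (L.algebraMap_mem c)).eq_iff (rp_cst (σ c))).1 (ser_inj ?_)
    rw [hy, show (⟨_, L.algebraMap_mem c⟩ : L) = algebraMap ℂ L c from rfl, h.e_cst, ser_cst,
      ser_cst, mapL_C]
    rfl
  · refine ((rp s hs).Sw.eq_iff ((rp _ (h.mem s hs)).mul ((rp s hs).D.pow 2))).1
      ((hy _).Sw.unique ?_)
    rw [h.sw_e]
    exact (hy _).mul ((hy _).D.pow 2)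
  · rw [← (rp f hf).od, (hy _).od, h.od_e]
  · rw [← ((rp a ha).mul ((rp s hs).D.pow k)).od, ((hy _).mul ((hy _).D.pow k)).od,
      ((h.rpe _).mul ((h.rpe _).D.pow k)).od]
  · have l1 : σ.toRingHom l ≠ 0 := (_root_.map_ne_zero _).2 l0
    refine ((rp f' hf').eq_iff ((rp f hf).cmp (lo_rot l1))).1 ((hy _).unique ?_)
    rw [((h.rpe ⟨f', hf'⟩).eq_iff ((h.rpe ⟨f, hf⟩).cmp (lo_rot l0))).2 e]
    exact (hy _).rot l0 l1

theorem glob_row (ball' : BALL) (key : KEY) : GLOB := by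
  intro Ω _ _ σ R K L _ lv D E hD hE hM
  have ch : ∀ y : Plk ℂ K, ∃ (ε : ℝ) (E' : Ω → ℂ → ℂ), 0 < ε ∧ Rl σ R L (ball 0 (2 * ε)) E' ∧
      Pl K 0 E' y := fun y => by
    obtain ⟨E₁, h1, h2⟩ := lv.ch y
    obtain ⟨r, r0, hr⟩ := ball' Ω σ R K L lv 0 E₁ h1
    obtain ⟨E', h3, h4⟩ := h1.ex_rl (convex_ball 0 r).isPreconnected (mem_ball_self r0) hr
    exact ⟨r / 2, E', by positivity, by rwa [mul_div_cancel₀ _ two_ne_zero],
      h2.cgr fun f hf => h4 f (lv.le hf)⟩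
  choose ε E' e0 hR hP using ch
  have sub : ∀ y, closedBall (0 : ℂ) (ε y) ⊆ ball 0 (2 * ε y) := fun y =>
    closedBall_subset_ball (by linarith [e0 y])
  obtain ⟨S, hS⟩ := cpt_row plc_row Ω σ R K L lv E' ε fun y =>
    ⟨e0 y, fun w hw => (hR y w (sub y (ball_subset_closedBall hw))).mono lv.le lv.mem, hP y⟩
  have loc : ∀ y, ∃ C ⊆ D, IsCompact C ∧ ∀ ζ ∈ ball 0 (ε y), ∀ z ∈ D, ∀ y', Pl K ζ (E' y) y' →
      Pl K z E y' → ∃ z' ∈ C, Pl K z' E y' := fun y => by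
    by_cases ex : ∃ w ∈ ball 0 (2 * ε y), ∃ z ∈ D, ∃ y', Pl K w (E' y) y' ∧ Pl K z E y'
    · obtain ⟨w, hw, z, hz, y', p1, p2⟩ := ex
      obtain ⟨M, -, hM'⟩ := key Ω σ R K L lv D E _ (E' y) hD hE hM isOpen_ball
        (convex_ball 0 _).isPreconnected (hR y) w hw z hz y' p1 p2
      refine ⟨mob M '' closedBall 0 (ε y), ?_, (isCompact_closedBall 0 _).image_of_continuousOn
        fun v hv => (mob_an (hM' v (sub y hv)).1).continuousAt.continuousWithinAt, ?_⟩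
      · rintro _ ⟨v, hv, rfl⟩
        exact (hM' v (sub y hv)).2.1
      · intro ζ hζ _ _ y'' p3 _
        obtain ⟨a1, a2, a3⟩ := hM' ζ (sub y (ball_subset_closedBall hζ))
        exact ⟨_, ⟨ζ, ball_subset_closedBall hζ, rfl⟩, (Pl.mob_iff a1 fun f hf =>
          (hE _ a2).mero f (lv.le hf)).1 (p3.cgr fun f hf => (a3 f hf).symm)⟩
    · exact ⟨∅, Set.empty_subset _, isCompact_empty, fun ζ hζ z hz y' p1 p2 =>
        absurd ⟨ζ, sub y (ball_subset_closedBall hζ), z, hz, y', p1, p2⟩ ex⟩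
  choose C c1 c2 c3 using loc
  refine ⟨⋃ y ∈ S, C y, Set.iUnion₂_subset fun y _ => c1 y, S.isCompact_biUnion fun y _ => c2 y,
    fun z hz y' p => ?_⟩
  obtain ⟨y, hy, ζ, hζ, p'⟩ := hS y'
  obtain ⟨z', h1, h2⟩ := c3 y ζ hζ z hz y' p' p
  exact ⟨z', Set.mem_biUnion hy h1, h2⟩

end Vale.Agent.P022K.Sh.Un
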