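import Vale.Agent.P022K.F0.UnD
import Vale.Agent.P022K.F0.UnI
import Vale.Agent.P022K.F0.Cf.Rows

/-!
# P022K, block F0, row UNIF: the tautological realisation of `Mer`
-/

set_option autoImplicit false

open UpperHalfPlane Filter Topology
open scoped MatrixGroups

noncomputable section

namespace Vale.Agent.P022K.Sh

open Vale.Agent.P022 Vale.Agent.P022.H218.L3 Vale.Agent.P019P Un
open Vale.Agent.P022K.F0

/-- an element of `Mer` as a function -/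
def tE (f : Mer) : ℂ → ℂ := fun z => Cf.ev (ofComplex z) f

theorem tE_coe (f : Mer) (τ : ℍ) : tE f τ = Cf.ev τ f := by rw [tE, ofComplex_apply]

theorem ev_H {τ : ℍ} {p : ℂ → Prop} (h : ∀ᶠ σ : ℍ in 𝓝 τ, σ ≠ τ → p σ) :
    ∀ᶠ z in 𝓝[≠] (τ : ℂ), p z := by
  rw [eventually_nhdsWithin_iff, Cf.ev_coe]
  filter_upwards [h] with σ h1 h2
  exact h1 fun e => h2 (congrArg _ e)

theorem hol_ev {h : Hol} (h0 : h ≠ 0) (τ : ℍ) : ∀ᶠ σ : ℍ in 𝓝 τ, σ ≠ τ → h.1 σ ≠ 0 := by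
  obtain ⟨m, u, hu, rfl⟩ := Cf.ex_fac τ h0
  filter_upwards [(Cf.cont u).continuousAt.eventually_ne hu] with σ h1 h2
  exact mul_ne_zero (pow_ne_zero _ (Cf.tz_ne h2)) h1

theorem reg_ev (f : Mer) (τ : ℍ) : ∀ᶠ σ : ℍ in 𝓝 τ, σ ≠ τ → Cf.Reg σ f := by
  obtain ⟨g, h, h0, e⟩ := Cf.ex_frac f
  filter_upwards [hol_ev h0 τ] with σ h1 h2
  exact ⟨g, h, h1 h2, e⟩

theorem tE_jm (f : Hol) : tE (Cf.jm f) = f.1 ∘ ofComplex := funext fun _ => Cf.ev_jm _ _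

theorem tE_mero (f : Mer) (τ : ℍ) : MeromorphicAt (tE f) τ := by
  obtain ⟨g, h, h0, e⟩ := Cf.ex_frac f
  refine ((Cf.an g τ).meromorphicAt.div (Cf.an h τ).meromorphicAt).congr (ev_H ?_)
  filter_upwards [hol_ev h0 τ] with σ h1 h2
  rw [tE_coe, Cf.ev_eq (h1 h2) e]
  simp

theorem tE_add (f g : Mer) (τ : ℍ) : tE (f + g) =ᶠ[𝓝[≠] (τ : ℂ)] tE f + tE g := ev_H <| by
  filter_upwards [reg_ev f τ, reg_ev g τ] with σ h1 h2 h
  simp only [Pi.add_apply, tE_coe, Cf.ev_add (h1 h) (h2 h)]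

theorem tE_mul (f g : Mer) (τ : ℍ) : tE (f * g) =ᶠ[𝓝[≠] (τ : ℂ)] tE f * tE g := ev_H <| by
  filter_upwards [reg_ev f τ, reg_ev g τ] with σ h1 h2 h
  simp only [Pi.mul_apply, tE_coe, Cf.ev_mul (h1 h) (h2 h)]

theorem tE_cst (c : ℂ) : tE (algebraMap ℂ Mer c) = fun _ => c := funext fun _ => Cf.ev_const _ _

/-- the germ at `τ` -/
def tH (τ : ℍ) : Mer →+* Mz τ where
  toFun f := gm τ (tE f)
  map_one' := by
    rw [← map_one (algebraMap ℂ Mer), tE_cst]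
    exact Rp.gm_eq rp_one
  map_zero' := by
    rw [← map_zero (algebraMap ℂ Mer), tE_cst]
    exact Rp.gm_eq rp_zero
  map_add' f g := (((rp_gm (tE_mero f τ)).add (rp_gm (tE_mero g τ))).congr
    (tE_add f g τ).symm).gm_eq
  map_mul' f g := (((rp_gm (tE_mero f τ)).mul (rp_gm (tE_mero g τ))).congr
    (tE_mul f g τ).symm).gm_eq

theorem rp_tH (τ : ℍ) (f : Mer) : Rp (tH τ f) (tE f) := rp_gm (tE_mero f τ)

theorem tE_inj {τ : ℍ} {f g : Mer} (e : tE f =ᶠ[𝓝[≠] (τ : ℂ)] tE g) : f = g :=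
  (tH τ).injective (((rp_tH τ f).eq_iff (rp_tH τ g)).2 e)

theorem tH_cst (τ : ℍ) (c : ℂ) : tH τ (algebraMap ℂ Mer c) = algebraMap ℂ _ c :=
  (rp_tH τ _).eq (tE_cst c ▸ Un.rp_cst c)

theorem tH_D (τ : ℍ) (f : Mer) : tH τ (Cf.DM f) = Mz.D τ (tH τ f) := by
  have k : ∀ a : Hol, tH τ (Cf.DM (Cf.jm a)) = Mz.D τ (tH τ (Cf.jm a)) := fun a => by
    refine ((rp_tH τ _).eq_iff (rp_tH τ _).D).2 (ev_H (Eventually.of_forall fun σ _ => ?_))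
    rw [Cf.DM_jm, tE_jm, tE_jm, (Cf.hasD a σ).deriv, Function.comp_apply, ofComplex_apply]
  obtain ⟨g, h, h0, e⟩ := Cf.ex_frac f
  have h1 := congrArg (fun y => tH τ (Cf.DM y)) e
  have h2 := congrArg (fun y => Mz.D τ (tH τ y)) e
  simp only [map_add, map_mul, Derivation.leibniz, smul_eq_mul, k] at h1 h2
  refine mul_left_cancel₀ ((map_ne_zero (tH τ)).2 (Cf.jm_ne h0)) ?_
  linear_combination h1 - h2

theorem tE_D (f : Mer) (τ : ℍ) : tE (Cf.DM f) =ᶠ[𝓝[≠] (τ : ℂ)] deriv (tE f) :=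
  ((rp_tH τ _).eq_iff (rp_tH τ f).D).1 (tH_D τ f)

theorem od_tH_unit {τ : ℍ} {u : Hol} (h : u.1 τ ≠ 0) : od (tH τ (Cf.jm u)) = 0 := by
  rw [(rp_tH τ _).od, tE_jm, (Cf.an u τ).meromorphicOrderAt_eq,
    (Cf.an u τ).analyticOrderAt_eq_zero.2 (by simpa using h)]
  rfl

theorem od_tH (τ : ℍ) {f : Mer} (h0 : f ≠ 0) : od (tH τ f) = (Cf.od τ f : ℤ) := by
  obtain ⟨g, h, g0, h0', e⟩ := Cf.isOd τ h0
  have t : tH τ (Cf.jm (Cf.tz τ)) = tz τ := by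
    refine ((rp_tH τ _).eq_iff rp_tz).2 (ev_H (Eventually.of_forall fun σ _ => ?_))
    rw [tE_jm, Function.comp_apply, ofComplex_apply]
    rfl
  have := congrArg (fun y => od (tH τ y)) e
  simp only [map_mul, map_zpow₀, od_mul, od_zpow, od_tH_unit g0, od_tH_unit h0', t, od_tz,
    add_zero, mul_one] at this
  exact this

theorem ord_tE (τ : ℍ) {f : Mer} (h0 : f ≠ 0) :
    meromorphicOrderAt (tE f) τ = (Cf.od τ f : ℤ) := (rp_tH τ f).od.symm.trans (od_tH τ h0)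

theorem reg_iff_tE {τ : ℍ} {f : Mer} : Cf.Reg τ f ↔ 0 ≤ meromorphicOrderAt (tE f) τ := by
  rcases eq_or_ne f 0 with rfl | h0
  · rw [← (rp_tH τ _).od, map_zero, od_zero]
    exact ⟨fun _ => le_top, fun _ => Cf.reg_iff.2 (.inl rfl)⟩
  · rw [ord_tE τ h0, Cf.reg_iff, or_iff_right h0]
    exact_mod_cast Iff.rfl

theorem Rs_eq (s : Mer) : Rs s = Sw Cf.DM s / Cf.DM s ^ 2 := rfl

theorem tE_lr (τ : ℍ) : LR (RingEquiv.refl ℂ) Rs ⊤ τ tE :=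
  LR.of_hom ((tH τ).comp (⊤ : IntermediateField ℂ Mer).val.toRingHom) (tH_cst τ)
    (fun _ _ => trivial) (fun s => by
      show Sw _ (tH τ s) = tH τ (Rs s) * Mz.D τ (tH τ s) ^ 2
      rw [Rs_eq, map_div₀, map_pow, tH_D, ← Sw_map Cf.DM (Mz.D τ) (tH τ) (fun x => (tH_D τ x).symm)]
      rcases eq_or_ne (Mz.D τ (tH τ s)) 0 with h | h
      · simp [Sw, h]
      · rw [div_mul_cancel₀ _ (pow_ne_zero _ h)])
    fun f => rp_tH τ f

/-- a real matrix as a complex matrix -/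
def mC (h : GP) : GL (Fin 2) ℂ :=
  Matrix.GeneralLinearGroup.map Complex.ofRealHom (h : GL (Fin 2) ℝ)

theorem den_mC (h : GP) (τ : ℍ) : den (mC h) τ = denom (h : GL (Fin 2) ℝ) τ := rfl

theorem mob_mC (h : GP) (τ : ℍ) : ((h • τ : ℍ) : ℂ) = mob (mC h) τ :=
  coe_smul_of_det_pos h.2 τ

theorem tE_act {h : GP} {M : GL (Fin 2) ℂ} (hM : ∀ τ : ℍ, ((h • τ : ℍ) : ℂ) = mob M τ) (f : Mer)
    (τ : ℍ) : tE (actM h⁻¹ f) =ᶠ[𝓝[≠] (τ : ℂ)] tE f ∘ mob M :=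
  ev_H (Eventually.of_forall fun σ _ => by
    rw [Function.comp_apply, ← hM, tE_coe, tE_coe, ← Cf.ev_ac σ _ h, actM_eq, Cf.ac_ac_inv])

theorem Rs_cst (c : ℂ) : Rs (algebraMap ℂ Mer c) = 0 := by simp [Rs]

theorem Rs_act (h : GP) (s : Mer) : Rs (actM h s) = actM h (Rs s) := by
  obtain ⟨h, rfl⟩ : ∃ k : GP, h = k⁻¹ := ⟨h⁻¹, (inv_inv h).symm⟩
  by_cases hs : ∃ c, s = algebraMap ℂ Mer c
  · obtain ⟨c, rfl⟩ := hs
    rw [AlgEquiv.commutes, Rs_cst, map_zero]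
  have d : den (mC h) I ≠ 0 := den_mC h I ▸ denom_ne_zero _ _
  have h1 := lrm_row Mer _ Rs ⊤ (mC h) I tE d (mob_mC h I ▸ tE_lr (h • I))
  have h2 := tE_lr I
  have e := tE_act (mob_mC h) s I
  refine tE_inj (τ := I) (.trans ?_ (tE_act (mob_mC h) (Rs s) I).symm)
  filter_upwards [h1.sw s trivial, h2.sw (actM h⁻¹ s) trivial, sf_congr e, e.nhdsNE_deriv,
    h1.deriv_ne (s := s) trivial fun c e => hs ⟨c, e⟩] with z a b c d n
  rw [c, a, Pi.mul_apply, Pi.mul_apply, Pi.pow_apply, Pi.pow_apply, d] at b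
  exact (mul_right_cancel₀ (pow_ne_zero _ n) b).symm

namespace Tw

variable {G0 G : Type} [Group G0] [Group G] {T : Tw G0 G}

theorem Rs_KF {Γ : Subgroup G0} {s : Mer} (h : s ∈ T.KF Γ) : Rs s ∈ T.KF Γ :=
  T.mem_KF.2 fun γ hγ => (Rs_act _ s).symm.trans (congrArg Rs (T.mem_KF.1 h γ hγ))

theorem Rs_LU (hk : T.Ok) {s : Mer} (h : s ∈ T.LU) : Rs s ∈ T.LU := by
  obtain ⟨U, hU, h⟩ := (mem_LU hk).1 h
  exact KU_le hU (Rs_KF h)

theorem lr_act (hk : T.Ok) {σ : ℂ ≃+* ℂ} {z : ℂ} {E : Mer → ℂ → ℂ} (h : LR σ Rs T.LU z E)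
    (γ : G0) : LR σ Rs T.LU z fun f => E (T.act γ f) where
  mero _ hf := h.mero _ (act_LU hk hf γ)
  add f hf g hg := map_add (T.act γ) f g ▸ h.add _ (act_LU hk hf γ) _ (act_LU hk hg γ)
  mul f hf g hg := map_mul (T.act γ) f g ▸ h.mul _ (act_LU hk hf γ) _ (act_LU hk hg γ)
  cst c := ((T.act γ).commutes c).symm ▸ h.cst c
  mem := h.mem
  sw s hs := (show Rs (T.act γ s) = T.act γ (Rs s) from Rs_act _ s) ▸ h.sw _ (act_LU hk hs γ)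

end Tw

end Vale.Agent.P022K.Sh
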