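import Vale.Agent.P022K.F0.UnI
import Vale.Agent.P022K.F0.Nat

/-!
# P022K, block F0, row UNIF: the row UNI
-/

set_option autoImplicit false

open Filter Topology Metric
open scoped MatrixGroups

noncomputable section

namespace Vale.Agent.P022K.Sh.Un

open Vale.Agent.P019P

theorem uni_row (bl : BALL) (inf : INF) (trp : TRP) : UNI := by
  classical
  intro Ω _ _ σ R K L _ l0 lv E l hE h1 h2 hr
  obtain ⟨r, r0, hb⟩ := bl Ω σ R K L l0 0 E hE
  choose F hF using fun i : L => hb i i.2
  have ex : ∀ W, IsPreconnected W → 0 ∈ W → ∀ F : L → ℂ → ℂ,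
      (∀ i, MeromorphicNFOn (F i) W ∧ F i =ᶠ[𝓝[≠] 0] E i) →
      Rl σ R L W fun f => if h : f ∈ L then F ⟨f, h⟩ else 0 := fun W a b F h =>
    (hE.cgr fun f hf => by rw [dif_pos hf]; exact (h _).2).spread a b fun f hf => by
      rw [dif_pos hf]
      exact (h _).1.meromorphicOn
  have n0 : l ≠ 0 := norm_ne_zero_iff.1 (h1 ▸ one_ne_zero)
  rcases rad (f := fun i : L => E i) (l := l⁻¹) (by rw [norm_inv, h1, inv_one])
    (fun n hn e => h2 n hn (by rwa [inv_pow, inv_eq_one] at e)) (fun i => by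
      obtain ⟨j, hj, e⟩ := hr i i.2
      have t := mul_tendsto (inv_ne_zero n0) 0
      rw [mul_zero] at t
      refine ⟨⟨j, hj⟩, ?_⟩
      filter_upwards [t.eventually e] with y hy
      rw [hy, mul_inv_cancel_left₀ n0]) ⟨r, r0, F, hF⟩ with ⟨F, h⟩ | ⟨r, r0, F, h, nx⟩
  · exact (inf Ω σ R K L l0 lv _ (ex _ isPreconnected_univ trivial F h)).elim
  refine trp Ω σ R L _ r r0 (ex _ (convex_ball 0 r).isPreconnected (mem_ball_self r0) F h) ?_
  intro W o c M w hw d m x w' hw'
  choose G hG using fun i : L => x i i.2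
  have := mob_in (fun i => (h i).1.meromorphicOn) nx o c (fun i => (hG i).1) (det_ne M) hw d m
    (fun i => by
      have := (hG i).2.symm
      beta_reduce at this
      rwa [dif_pos i.2] at this) w' hw'
  exact ⟨this.1, this.2.1⟩

end Vale.Agent.P022K.Sh.Un
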