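import Vale.Agent.P022K.F0.Cov
import Vale.Agent.P022K.F0.Cf.Rows

/-!
# P022K, block F0: the Weil pairing of one curve `Γ \ ℍ`; sums over `G0`-sets
-/

set_option autoImplicit false

open UpperHalfPlane MulAction
open scoped MatrixGroups Pointwise

noncomputable section

namespace Vale.Agent.P022K.Sh

open Vale.Agent.P022 Vale.Agent.P022.H218.L3 Vale.Agent.P019P P025H816 P027M.K
  Vale.Agent.P022K.F0.Cf

variable {G0 G : Type} [Group G0] [Group G]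

/-- `f ≠ 0` and all orders of `f` are divisible by `n` -/
def Dv (n : ℕ) (f : Mer) : Prop := f ≠ 0 ∧ ∀ τ, (n : ℤ) ∣ od τ f

section

variable {n : ℕ} {f g : Mer}

theorem Dv.mul (h : Dv n f) (h' : Dv n g) : Dv n (f * g) :=
  ⟨mul_ne_zero h.1 h'.1, fun τ => od_mul τ h.1 h'.1 ▸ dvd_add (h.2 τ) (h'.2 τ)⟩

theorem dv_one' (n : ℕ) : Dv n 1 := ⟨one_ne_zero, fun τ => od_one τ ▸ dvd_zero _⟩

theorem dv_pow (n : ℕ) (h : f ≠ 0) : Dv n (f ^ n) :=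
  ⟨pow_ne_zero _ h, fun τ => od_pow τ f n ▸ Dvd.intro _ rfl⟩

theorem Dv.prod {I : Type} {s : Finset I} {f : I → Mer} (h : ∀ i ∈ s, Dv n (f i)) :
    Dv n (∏ i ∈ s, f i) := Finset.prod_induction f (Dv n) (fun _ _ => Dv.mul) (dv_one' n) h

theorem Dv.actM (h : Dv n f) (s : GP) : Dv n (actM s f) :=
  ⟨(map_ne_zero _).2 h.1, fun τ => by
    have := od_ac (s⁻¹ • τ) f s
    rw [smul_inv_smul, ← actM_eq] at this
    exact this ▸ h.2 _⟩

theorem Dv.mord (h : Dv n f) (τ : ℍ) (k : ℤ) (o : MOrd τ f k) : (n : ℤ) ∣ k :=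
  (mord_iff.1 o).2 ▸ h.2 τ

end

theorem e_adj' {K L : Type} [Field K] [Field L] [Algebra ℂ K] [Algebra ℂ L] [CFF ℂ K] [CFF ℂ L]
    (i : Algebra K L) (t : ∀ c, algebraMap ℂ L c = algebraMap K L (algebraMap ℂ K c))
    (fd : IsScalarTower ℂ K L → FiniteDimensional K L) {n : ℕ} (hn : n ≠ 0) {u w : Kˣ} {u' v : Lˣ}
    (hu : u ∈ divU ℂ K n) (hv : v ∈ divU ℂ L n) (e1 : (u' : L) = algebraMap K L u)
    (e2 : FiniteDimensional K L → (w : K) = Algebra.norm K (v : L)) :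
    e ℂ n u' v = e ℂ n u w := by
  have := IsScalarTower.of_algebraMap_eq t
  have := fd this
  rw [show u' = jU L u from Units.ext e1, show w = nU K v from Units.ext (e2 this), e_adj hn hu hv]

namespace Tw

variable {T : Tw G0 G} {Γ Γ' : Subgroup G0} {n : ℕ} {f f' g g' : Mer}

variable (T) in
/-- cocompact without elliptic elements -/
def Gd (Γ : Subgroup G0) : Prop := T.Fu Γ ∧ T.Fr Γ

theorem Gd.cff (h : T.Gd Γ) : CFF ℂ (T.KF Γ) := (T.cf Γ h.1).1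

variable (T) in
/-- functions of `Γ` whose orders are divisible by `n` -/
def Kd (n : ℕ) (Γ : Subgroup G0) (f : Mer) : Prop := f ∈ T.KF Γ ∧ Dv n f

theorem Kd.mul (h : T.Kd n Γ f) (h' : T.Kd n Γ g) : T.Kd n Γ (f * g) :=
  ⟨mul_mem h.1 h'.1, h.2.mul h'.2⟩

theorem kd_one : T.Kd n Γ 1 := ⟨one_mem _, dv_one' n⟩

theorem Kd.prod {I : Type} {s : Finset I} {f : I → Mer} (h : ∀ i ∈ s, T.Kd n Γ (f i)) :
    T.Kd n Γ (∏ i ∈ s, f i) := ⟨prod_mem fun i hi => (h i hi).1, Dv.prod fun i hi => (h i hi).2⟩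

theorem Gd.div (h : T.Gd Γ) [CFF ℂ (T.KF Γ)] (u : (T.KF Γ)ˣ) :
    u ∈ divU ℂ (T.KF Γ) n ↔ Dv n (u : T.KF Γ) := by
  obtain ⟨_, pt, P⟩ := T.cf Γ h.1
  have o := fun τ => mord_iff.1 (P.ord h.2 τ u u.ne_zero)
  refine ⟨fun d => ⟨(o I).1, fun τ => (o τ).2 ▸ d _⟩, fun d Q => ?_⟩
  obtain ⟨τ, rfl⟩ := P.onto Q
  exact (o τ).2 ▸ d.2 τ

theorem Kd.ex (k : T.Kd n Γ f) (h : T.Gd Γ) [CFF ℂ (T.KF Γ)] :
    ∃ u ∈ divU ℂ (T.KF Γ) n, ((u : T.KF Γ) : Mer) = f :=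
  ⟨Units.mk0 ⟨f, k.1⟩ fun e => k.2.1 (congrArg Subtype.val e), (h.div _).2 k.2, rfl⟩

theorem Gd.kd (h : T.Gd Γ) [CFF ℂ (T.KF Γ)] {u : (T.KF Γ)ˣ} (hu : u ∈ divU ℂ (T.KF Γ) n) :
    T.Kd n Γ (u : T.KF Γ) := ⟨u.1.2, (h.div u).1 hu⟩

variable (T) in
/-- a function as a unit of the function field -/
def uK (Γ : Subgroup G0) (f : Mer) : (T.KF Γ)ˣ :=
  Function.invFun (fun u : (T.KF Γ)ˣ => ((u : T.KF Γ) : Mer)) f

theorem uK_val (u : (T.KF Γ)ˣ) : T.uK Γ (u : T.KF Γ) = u :=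
  Function.leftInverse_invFun (f := fun u : (T.KF Γ)ˣ => ((u : T.KF Γ) : Mer))
    (fun _ _ e => Units.ext (Subtype.ext e)) u

open Classical in
variable (T) in
/-- the Weil pairing of the curve of `Γ` -/
def eG (n : ℕ) (Γ : Subgroup G0) (f g : Mer) : Additive ℂˣ :=
  if _h : CFF ℂ (T.KF Γ) then e ℂ n (T.uK Γ f) (T.uK Γ g) else 0

theorem eG_eq [c : CFF ℂ (T.KF Γ)] (u v : (T.KF Γ)ˣ) :
    T.eG n Γ (u : T.KF Γ) (v : T.KF Γ) = e ℂ n u v := by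
  rw [eG, dif_pos c, uK_val, uK_val]

theorem eG_skew (f g : Mer) : T.eG n Γ g f = -T.eG n Γ f g := by
  unfold eG
  split_ifs
  · exact e_skew _ _ _
  · exact neg_zero.symm

section

variable (h : T.Gd Γ) (hn : 0 < n)

include h

theorem Gd.e_self (k : T.Kd n Γ f) : T.eG n Γ f f = 0 := by
  have := h.cff
  obtain ⟨u, hu, rfl⟩ := k.ex h
  rw [eG_eq, P027M.K.e_self hu]

include hn

theorem Gd.e_mul (k : T.Kd n Γ f) (k' : T.Kd n Γ f') (l : T.Kd n Γ g) :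
    T.eG n Γ (f * f') g = T.eG n Γ f g + T.eG n Γ f' g := by
  have := h.cff
  obtain ⟨u, hu, rfl⟩ := k.ex h
  obtain ⟨u', hu', rfl⟩ := k'.ex h
  obtain ⟨v, -, rfl⟩ := l.ex h
  rw [eG_eq, eG_eq, ← e_mul_left hn.ne' v hu hu', ← eG_eq]
  rfl

theorem Gd.e_one (l : T.Kd n Γ g) : T.eG n Γ 1 g = 0 := by
  have := h.e_mul hn kd_one kd_one l
  rw [mul_one] at this
  exact left_eq_add.1 this

theorem Gd.e_prod {I : Type} (s : Finset I) {f : I → Mer} (k : ∀ i ∈ s, T.Kd n Γ (f i))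
    (l : T.Kd n Γ g) : T.eG n Γ (∏ i ∈ s, f i) g = ∑ i ∈ s, T.eG n Γ (f i) g := by
  classical
  induction s using Finset.induction_on with
  | empty => rw [Finset.prod_empty, Finset.sum_empty, h.e_one hn l]
  | insert i s hi ih =>
    have k' := fun j hj => k j (Finset.mem_insert_of_mem hj)
    rw [Finset.prod_insert hi, Finset.sum_insert hi,
      h.e_mul hn (k i (Finset.mem_insert_self _ _)) (Kd.prod k') l, ih k']

theorem Gd.e_pow (k : f ∈ T.KF Γ) (f0 : f ≠ 0) (l : T.Kd n Γ g) : T.eG n Γ (f ^ n) g = 0 := by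
  have := h.cff
  obtain ⟨u, hu, e⟩ := Kd.ex ⟨pow_mem k n, dv_pow n f0⟩ h
  obtain ⟨v, hv, rfl⟩ := l.ex h
  rw [← e, eG_eq, e_powU_left hn.ne' (mem_powU'.2 ⟨⟨f, k⟩, Subtype.ext e.symm⟩) hv]

theorem Gd.e_nsmul (k : T.Kd n Γ f) (l : T.Kd n Γ g) : n • T.eG n Γ f g = 0 := by
  have := h.cff
  obtain ⟨u, hu, rfl⟩ := k.ex h
  obtain ⟨v, hv, rfl⟩ := l.ex h
  rw [eG_eq, nsmul_e hn.ne' hu hv]

theorem Gd.e_nondeg (k : T.Kd n Γ f) (l : ∀ g, T.Kd n Γ g → T.eG n Γ f g = 0) :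
    ∃ y ∈ T.KF Γ, y ^ n = f := by
  have := h.cff
  obtain ⟨u, hu, rfl⟩ := k.ex h
  obtain ⟨y, hy⟩ := mem_powU'.1 (nondeg (k := ℂ) (by exact_mod_cast hn.ne') hu fun v hv => by
    rw [← eG_eq, l _ (h.kd hv)])
  exact ⟨y, y.2, congrArg Subtype.val hy⟩

theorem Gd.fin : ∃ (I : Type) (_ : Finite I) (κ : Mer → I), ∀ f f', T.Kd n Γ f → T.Kd n Γ f' →
    κ f = κ f' → ∃ y ∈ T.KF Γ, f' = f * y ^ n := by
  have := h.cff
  classical
  refine ⟨HK ℂ (T.KF Γ) n, finite_HK (by exact_mod_cast hn.ne'), fun f =>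
    if d : T.uK Γ f ∈ divU ℂ (T.KF Γ) n then QuotientGroup.mk ⟨_, d⟩ else 1, fun f f' k k' e => ?_⟩
  obtain ⟨u, hu, rfl⟩ := k.ex h
  obtain ⟨v, hv, rfl⟩ := k'.ex h
  simp only [uK_val, dif_pos hu, dif_pos hv] at e
  obtain ⟨y, hy⟩ := mem_powU.1 (Subgroup.mem_subgroupOf.1 (QuotientGroup.eq.1 e))
  refine ⟨(y : T.KF Γ), y.1.2, ?_⟩
  have : v = u * y ^ n := by
    rw [hy]
    exact (mul_inv_cancel_left u v).symm
  rw [this]
  simp

theorem Gd.e_semi (h' : T.Gd Γ') {σ : ℂ ≃+* ℂ} (s : T.KF Γ ≃+* T.KF Γ')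
    (hs : ∀ c, s (algebraMap ℂ _ c) = algebraMap ℂ _ (σ c)) (k : T.Kd n Γ f) (l : T.Kd n Γ g) :
    T.eG n Γ' (s ⟨f, k.1⟩) (s ⟨g, l.1⟩) = aU σ (T.eG n Γ f g) := by
  have := h.cff
  have := h'.cff
  obtain ⟨u, hu, rfl⟩ := k.ex h
  obtain ⟨v, hv, rfl⟩ := l.ex h
  rw [eG_eq, ← P027M.K.e_semi hs hn.ne' hu hv, ← eG_eq]
  rfl

theorem Gd.e_act (h' : T.Gd Γ') (δ : G0) (c : ∀ γ, γ ∈ Γ' ↔ δ⁻¹ * γ * δ ∈ Γ) (k : T.Kd n Γ f)
    (l : T.Kd n Γ g) : T.eG n Γ' (T.act δ f) (T.act δ g) = T.eG n Γ f g :=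
  h.e_semi hn h' (σ := RingEquiv.refl ℂ) (T.actK δ c).toRingEquiv (T.actK δ c).commutes k l

theorem Gd.e_adj (h' : T.Gd Γ') (le : Γ' ≤ Γ) {I : Type} {s : Finset I} {r : I → G0}
    (R : Rep (Γ : Set G0) Γ' s r) (k : T.Kd n Γ f) (l : T.Kd n Γ' g) :
    ∏ i ∈ s, T.act (r i) g ∈ T.KF Γ ∧
      T.eG n Γ' g f = T.eG n Γ (∏ i ∈ s, T.act (r i) g) f := by
  have := h.cff
  have := h'.cff
  have m : ∏ i ∈ s, T.act (r i) g ∈ T.KF Γ := T.mem_KF.2 fun γ hγ => by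
    rw [map_prod, ← R.prod_mul (f := fun y => T.act y g)
      (fun x u hu => by simp only [act_mul, T.mem_KF.1 l.1 u hu]) hγ]
    simp only [act_mul]
  obtain ⟨w, -, ew⟩ := Kd.ex ⟨m, Dv.prod fun i _ => l.2.actM _⟩ h
  obtain ⟨u', -, eu⟩ := Kd.ex ⟨KF_anti le k.1, k.2⟩ h'
  obtain ⟨u, hu, rfl⟩ := k.ex h
  obtain ⟨v, hv, rfl⟩ := l.ex h'
  refine ⟨m, ?_⟩
  rw [eG_skew, eG_skew u, ← ew, eG_eq, ← eu, eG_eq]
  refine congrArg _ (e_adj' (T.alg le) (fun _ => rfl) (fun t => ?_) hn.ne' hu hv (Subtype.ext eu)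
    fun fd => Subtype.ext (ew.trans ?_))
  · exact @Cv.fd _ _ _ _ T Γ Γ' _ s r _ _ _ _ (T.alg le) _ _ _ t _ (cv_alg le) R
  · exact ((@Cv.norm _ _ _ _ T Γ Γ' _ s r _ _ _ _ (T.alg le) _ (cv_alg le) T.cf h'.1 h.2 R
      fd).1 v).symm

end

theorem Fu.rep (h : T.Fu Γ) (h0 : T.Z0 ≤ Γ') (h1 : Γ' ≤ Γ) {I : Type} {s : Finset I} {r : I → G0}
    (R : Rep (Γ : Set G0) Γ' s r) : T.Fu Γ' := by
  refine ⟨h0, fun K hK => (h.pd K hK).imp fun S hS γ hγ => hS γ (h1 hγ), ?_⟩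
  obtain ⟨K, hK, e⟩ := h.cc
  refine ⟨⋃ i ∈ s, (fun τ => (T.r (r i)⁻¹ : GL (Fin 2) ℝ) • τ) '' K,
    s.isCompact_biUnion fun i _ => hK.image (continuous_const_smul _), fun τ => ?_⟩
  obtain ⟨γ, hγ, m⟩ := e τ
  obtain ⟨i, hi, m'⟩ := R.sur γ hγ
  exact ⟨_, m', Set.mem_biUnion hi ⟨_, m, by rw [map_mul, mul_smul]; rfl⟩⟩

/-! ## sums over `G0`-sets -/

section

variable {X P : Type} [MulAction G0 X] [MulAction G0 P]

variable (T) in
/-- equivariant families of functions whose orders are divisible by `n` -/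
def Ev (n : ℕ) (φ : X → Mer) : Prop := (∀ γ x, φ (γ • x) = T.act γ (φ x)) ∧ ∀ x, Dv n (φ x)

variable {φ φ' ψ : X → Mer}

theorem Ev.kd (h : T.Ev n φ) (x : X) : T.Kd n (stabilizer G0 x) (φ x) :=
  ⟨T.mem_KF.2 fun γ hγ => by rw [← h.1, mem_stabilizer_iff.1 hγ], h.2 x⟩

variable (T) in
/-- the pairing on the component of `x` -/
def eF (n : ℕ) (φ ψ : X → Mer) (x : X) : Additive ℂˣ := T.eG n (stabilizer G0 x) (φ x) (ψ x)

variable (T) in
/-- the sum of the pairings of all components -/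
def eX (n : ℕ) (φ ψ : X → Mer) : Additive ℂˣ :=
  ∑ᶠ c : orbitRel.Quotient G0 X, T.eF n φ ψ c.out

theorem eX_skew (φ ψ : X → Mer) : T.eX n ψ φ = -T.eX n φ ψ := by
  rw [eX, eX, ← finsum_neg_distrib]
  exact finsum_congr fun c => eG_skew _ _

theorem eF_orb (gd : ∀ x : X, T.Gd (stabilizer G0 x)) (hn : 0 < n) (h : T.Ev n φ) (h' : T.Ev n ψ)
    {x y : X} (e : orb G0 x = orb G0 y) : T.eF n φ ψ x = T.eF n φ ψ y := by
  obtain ⟨γ, rfl⟩ := orb_eq.1 e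
  rw [eF, h.1, h'.1]
  exact (gd y).e_act hn (gd _) γ (mem_stab_smul γ y) (h.kd y) (h'.kd y)

variable {π : P → X} (hπ : ∀ (γ : G0) p, π (γ • p) = γ • π p) (fi : ∀ x, (π ⁻¹' {x}).Finite)

include hπ

theorem stab_le (p : P) : stabilizer G0 p ≤ stabilizer G0 (π p) := fun γ hγ => by
  rw [mem_stabilizer_iff, ← hπ, mem_stabilizer_iff.1 hγ]

open Classical in
theorem ex_rep_fib (p : P) : ∃ r : P → G0, Rep (stabilizer G0 (π p) : Set G0) (stabilizer G0 p)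
    ((fi (π p)).toFinset.filter fun q => orb G0 q = orb G0 p) r ∧
      ∀ q, orb G0 q = orb G0 p → r q • p = q := by
  have : ∀ q, ∃ γ : G0, orb G0 q = orb G0 p → γ • p = q := fun q => by
    by_cases e : orb G0 q = orb G0 p
    · exact (orb_eq.1 e).imp fun _ h _ => h
    · exact ⟨1, fun h => (e h).elim⟩
  choose r hr using this
  refine ⟨r, ⟨fun y hy u hu => mul_mem hy (stab_le hπ p hu), fun q hq => ?_,
    fun q hq q' hq' e => ?_, fun y hy => ⟨y • p, ?_, ?_⟩⟩, hr⟩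
  · rw [Finset.mem_filter, Set.Finite.mem_toFinset] at hq
    exact mem_stabilizer_iff.2 (by rw [← hπ, hr q hq.2]; exact hq.1)
  · rw [mem_stabilizer_iff, mul_smul, inv_smul_eq_iff, hr q (Finset.mem_filter.1 hq).2,
      hr q' (Finset.mem_filter.1 hq').2] at e
    exact e.symm
  · rw [Finset.mem_filter, Set.Finite.mem_toFinset]
    exact ⟨(hπ _ _).trans hy, orb_smul _ _⟩
  · rw [mem_stabilizer_iff, mul_smul, inv_smul_eq_iff, hr _ (orb_smul _ _)]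

include fi in
theorem fin_orb [Finite (orbitRel.Quotient G0 X)] : Finite (orbitRel.Quotient G0 P) := by
  have := fun x => (fi x).to_subtype
  refine Finite.of_surjective (fun p : Σ c : orbitRel.Quotient G0 X, π ⁻¹' {c.out} =>
    orb G0 p.2.1) fun q => ⟨⟨orb G0 (π q.out), (dl G0 (π q.out))⁻¹ • q.out, ?_⟩, ?_⟩
  · exact (hπ _ _).trans (inv_smul_eq_iff.2 (dl_smul _).symm)
  · exact (orb_smul _ _).trans (orb_out q)

/-- **adjointness** of pull back and push forward -/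
theorem eX_adj [Finite (orbitRel.Quotient G0 X)] (gd : ∀ x : X, T.Gd (stabilizer G0 x))
    (z0 : ∀ p : P, T.Z0 ≤ stabilizer G0 p) (hn : 0 < n) {φ : P → Mer} (h : T.Ev n φ)
    (h' : T.Ev n ψ) : T.eX n φ (ψ ∘ π) = T.eX n (fun x => ∏ p ∈ (fi x).toFinset, φ p) ψ := by
  classical
  have := fin_orb hπ fi
  have := Fintype.ofFinite (orbitRel.Quotient G0 X)
  have := Fintype.ofFinite (orbitRel.Quotient G0 P)
  have gp : ∀ p : P, T.Gd (stabilizer G0 p) := fun p => by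
    obtain ⟨r, R, -⟩ := ex_rep_fib hπ fi p
    exact ⟨(gd _).1.rep (z0 p) (stab_le hπ p) R, (gd _).2.mono (stab_le hπ p)⟩
  have h1 : T.Ev n (ψ ∘ π) := ⟨fun γ p => (congrArg ψ (hπ γ p)).trans (h'.1 _ _), fun p => h'.2 _⟩
  have key : ∀ (x : X) (q : orbitRel.Quotient G0 P),
      T.Kd n (stabilizer G0 x) (∏ p ∈ (fi x).toFinset with orb G0 p = q, φ p) ∧
      T.eG n (stabilizer G0 x) (∏ p ∈ (fi x).toFinset with orb G0 p = q, φ p) (ψ x) =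
        if orb G0 (π q.out) = orb G0 x then T.eF n φ (ψ ∘ π) q.out else 0 := fun x q => by
    split_ifs with e
    · obtain ⟨γ, hγ⟩ := orb_eq.1 e.symm
      rw [← hπ] at hγ
      have e1 : orb G0 (γ • q.out) = q := (orb_smul _ _).trans (orb_out q)
      rw [eF_orb gp hn h h1 ((orb_out q).trans e1.symm), ← hγ]
      generalize γ • q.out = p at e1
      subst e1
      obtain ⟨r, R, hr⟩ := ex_rep_fib hπ fi p
      have := (gd _).e_adj hn (gp p) (stab_le hπ p) R (h'.kd _) (h.kd p)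
      rw [Finset.prod_congr rfl fun q hq => (h.1 _ _).symm.trans
        (congrArg φ (hr q (Finset.mem_filter.1 hq).2))] at this
      exact ⟨⟨this.1, Dv.prod fun i _ => h.2 i⟩, this.2.symm⟩
    · rw [Finset.filter_eq_empty_iff.2, Finset.prod_empty]
      · exact ⟨kd_one, (gd x).e_one hn (h'.kd x)⟩
      · rintro p hp rfl
        rw [Set.Finite.mem_toFinset] at hp
        exact e (by rw [← show π p = x from hp, ← dl_smul (G0 := G0) p, hπ, orb_smul, orb_smul,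
          orb_out])
  rw [eX, eX, finsum_eq_sum_of_fintype, finsum_eq_sum_of_fintype]
  simp only [eF]
  rw [Finset.sum_congr rfl fun (c : orbitRel.Quotient G0 X) _ => (congrArg (T.eG n _ · _)
    (Finset.prod_fiberwise _ (orb G0) φ).symm).trans (((gd c.out).e_prod hn _
      (fun q _ => (key c.out q).1) (h'.kd _)).trans (Finset.sum_congr rfl fun q _ => (key _ q).2)),
    Finset.sum_comm]
  simp only [orb_out, Finset.sum_ite_eq, Finset.mem_univ, if_true, eF]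

end

end Tw

end Vale.Agent.P022K.Sh
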